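/-
Row 133 / S0266, module E0: invariance of `IE` and of the good event under orthogonal conjugation.
-/
import Claimed.Agent.R133.Gv

set_option autoImplicit false

namespace Claimed.Agent.R133

open MeasureTheory ProbabilityTheory
open scoped BigOperators NNReal ENNReal Matrix

variable {n : ℕ}

theorem measurable_IE_integrand (J : Mat n) :
    Measurable (fun ξ : Vec n => eexp ((n : ℝ) / 2 * ray J ξ)) :=
  measurable_eexp.comp (measurable_const.mul
    (measurable_ray.comp (measurable_const.prodMk measurable_id)))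

theorem IE_cj {O : Mat n} (hO : IsOrth O) (J : Mat n) : IE (cj O J) = IE J := by
  unfold IE
  rw [← lintegral_gv_orth O hO _ (measurable_IE_integrand (cj O J))]
  simp only [ray_cj hO]

theorem isProbabilityMeasure_gv (n : ℕ) : IsProbabilityMeasure (gv n) := by
  unfold gv; infer_instance

theorem abs_IE_exponent_le (J : Mat n) (ξ : Vec n) :
    |(n : ℝ) / 2 * ray J ξ| ≤ (n : ℝ) / 2 * Real.sqrt (frob2 J) := by
  rw [abs_mul, abs_of_nonneg (by positivity : (0 : ℝ) ≤ (n : ℝ) / 2)]
  exact mul_le_mul_of_nonneg_left (abs_ray_le J ξ) (by positivity)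

theorem IE_ne_zero (J : Mat n) : IE J ≠ 0 := by
  have := isProbabilityMeasure_gv n
  have h : eexp (-((n : ℝ) / 2 * Real.sqrt (frob2 J))) ≤ IE J := by
    calc eexp (-((n : ℝ) / 2 * Real.sqrt (frob2 J)))
        = ∫⁻ _ξ, eexp (-((n : ℝ) / 2 * Real.sqrt (frob2 J))) ∂(gv n) := by
          rw [lintegral_const, measure_univ, mul_one]
      _ ≤ IE J := lintegral_mono fun ξ =>
          eexp_le_eexp.2 (neg_le_of_abs_le (abs_IE_exponent_le J ξ))
  intro h0
  rw [h0] at h
  exact eexp_ne_zero _ (le_antisymm h bot_le)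

/-- the integrand is bounded by `exp((n/2) |J|_F)` -/
theorem IE_ne_top (J : Mat n) : IE J ≠ ∞ := by
  have := isProbabilityMeasure_gv n
  have h : IE J ≤ eexp ((n : ℝ) / 2 * Real.sqrt (frob2 J)) := by
    calc IE J ≤ ∫⁻ _ξ, eexp ((n : ℝ) / 2 * Real.sqrt (frob2 J)) ∂(gv n) :=
          lintegral_mono fun ξ => eexp_le_eexp.2 (le_of_abs_le (abs_IE_exponent_le J ξ))
      _ = eexp ((n : ℝ) / 2 * Real.sqrt (frob2 J)) := by
          rw [lintegral_const, measure_univ, mul_one]
  exact ne_top_of_le_ne_top (eexp_ne_top _) h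

theorem mem_G3set_cj {O : Mat n} (hO : IsOrth O) (K C : ℝ) (J : Mat n) (ξ : Vec n) :
    O *ᵥ ξ ∈ G3set K C (cj O J) ↔ ξ ∈ G3set K C J := by
  have e : ∀ θ : ℝ, cj O J + spike θ (O *ᵥ ξ) = cj O (J + spike θ ξ) := by
    intro θ
    rw [cj_add, cj_spike]
  unfold G3set
  simp only [Set.mem_ofPred_eq, e, below_cj hO]

theorem gv_G3set_cj {O : Mat n} (hO : IsOrth O) (K C : ℝ) (J : Mat n) :
    gv n (G3set K C (cj O J)) = gv n (G3set K C J) := by
  have hmeas : Measurable (fun ξ : Vec n => ((cj O J, ξ) : Mat n × Vec n)) :=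
    measurable_const.prodMk measurable_id
  have hm0 : MeasurableSet ((fun ξ : Vec n => ((cj O J, ξ) : Mat n × Vec n)) ⁻¹'
      {p : Mat n × Vec n | p.2 ∈ G3set K C p.1}) := hmeas (measurableSet_G3 K C)
  have hm : MeasurableSet (G3set K C (cj O J)) := hm0
  conv_lhs => rw [← gv_map_orth O hO]
  rw [Measure.map_apply (continuous_mulVec O).measurable hm]
  congr 1
  ext ξ
  exact mem_G3set_cj hO K C J ξ

theorem good_cj {O : Mat n} (hO : IsOrth O) (K C : ℝ) (J : Mat n) :
    Good n K C (cj O J) ↔ Good n K C J := by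
  have key : ∀ {P : Mat n}, IsOrth P → ∀ M : Mat n, Good n K C M → Good n K C (cj P M) := by
    intro P hP M h
    refine ⟨?_, (below_cj hP M _).2 h.below, ?_, (threeTop_cj hP M _).2 h.three, ?_, ?_⟩
    · rw [transpose_cj, h.symm]
    · rw [frob2_cj hP]; exact h.frob
    · rw [gv_G3set_cj hP]; exact h.g3
    · have e : gam K n • (1 : Mat n) - cj P M = cj P (gam K n • (1 : Mat n) - M) := by
        rw [cj_sub, cj_smul_one hP]
      rw [e, det_cj hP]; exact h.det
  refine ⟨fun h => ?_, key hO J⟩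
  have := key hO.transpose (cj O J) h
  rwa [cj_transpose_cj hO] at this

end Claimed.Agent.R133
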