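/-
Row 133 / S0266, module E1: averaging identities (M1), (M2) of the blueprint, section 2.
-/
import Claimed.Agent.R133.Goe
import Claimed.Agent.R133.Inv

set_option autoImplicit false

namespace Claimed.Agent.R133

open MeasureTheory ProbabilityTheory
open scoped BigOperators NNReal ENNReal Matrix

variable {n : ℕ}

/-- (M1) FIRST MOMENT IDENTITY.  `F` invariant under `(J,v) ↦ (O J Oᵀ, O v)` and `0`-homogeneous in `v`.
Then `E_J F(J,x)` does not depend on `x ≠ 0`, hence equals the average over a Gaussian `ξ`.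
[fixed `O` with `O x ∥ ξ` (`exists_orth`), `lintegral_goe_cj`, Tonelli, `gv_ae_ne_zero`] -/
theorem goe_vec_avg (F : Mat n → Vec n → ℝ≥0∞) (hF : Measurable (Function.uncurry F))
    (hinv : ∀ O : Mat n, IsOrth O → ∀ J v, F (cj O J) (O *ᵥ v) = F J v)
    (hhom : ∀ c : ℝ, 0 < c → ∀ J v, F J (c • v) = F J v) (x : Vec n) (hx : x ≠ 0) :
    ∫⁻ J, F J x ∂(goe n) = ∫⁻ J, ∫⁻ ξ, F J ξ ∂(gv n) ∂(goe n) := by
  have hn : 0 < n := by
    rcases Nat.eq_zero_or_pos n with h | h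
    · subst h; exact absurd (Subsingleton.elim x 0) hx
    · exact h
  have key : ∀ ξ : Vec n, ξ ≠ 0 → ∫⁻ J, F J ξ ∂(goe n) = ∫⁻ J, F J x ∂(goe n) := by
    intro ξ hξ
    have hpx := nrm2_pos hx
    have hpξ := nrm2_pos hξ
    obtain ⟨c, hcdef⟩ : ∃ c : ℝ, c = Real.sqrt (nrm2 x / nrm2 ξ) := ⟨_, rfl⟩
    have hc : 0 < c := by rw [hcdef]; exact Real.sqrt_pos.2 (div_pos hpx hpξ)
    obtain ⟨O, hO, hOx⟩ := exists_orth x (c • ξ) (by
      rw [nrm2_smul, hcdef, Real.sq_sqrt (div_pos hpx hpξ).le, div_mul_cancel₀ _ hpξ.ne'])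
    have hm : Measurable (fun J => F J ξ) :=
      hF.comp (measurable_id.prodMk measurable_const)
    calc ∫⁻ J, F J ξ ∂(goe n) = ∫⁻ J, F (cj O J) ξ ∂(goe n) :=
          (lintegral_goe_cj O hO _ hm).symm
      _ = ∫⁻ J, F J x ∂(goe n) := by
          refine lintegral_congr fun J => ?_
          rw [← hhom c hc, ← hOx, hinv O hO]
  rw [lintegral_lintegral_swap hF.aemeasurable]
  have h2 : ∀ᵐ ξ ∂(gv n), ∫⁻ J, F J ξ ∂(goe n) = ∫⁻ J, F J x ∂(goe n) :=
    (gv_ae_ne_zero hn).mono fun ξ h => key ξ h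
  rw [lintegral_congr_ae h2, lintegral_const, measure_univ, mul_one]

/-- normalised overlap of two vectors -/
noncomputable def ovl (u v : Vec n) : ℝ := (u ⬝ᵥ v) / Real.sqrt (nrm2 u * nrm2 v)

theorem avg_eb_dot_eb {i j : Fin n} (hij : i ≠ j) : eb i ⬝ᵥ eb j = 0 := by
  unfold eb
  rw [single_dotProduct, one_mul, Pi.single_eq_of_ne hij]

/-- two orthogonal vectors can be rotated to multiples of `e_i`, `e_j`. -/
theorem avg_orth_pair (s d : Vec n) (hsd : s ⬝ᵥ d = 0) (i j : Fin n) (hij : i ≠ j) :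
    ∃ O : Mat n, IsOrth O ∧ O *ᵥ s = Real.sqrt (nrm2 s) • eb i ∧
      O *ᵥ d = Real.sqrt (nrm2 d) • eb j := by
  have hnorm : ∀ (y : Vec n) (k : Fin n), nrm2 y = nrm2 (Real.sqrt (nrm2 y) • eb k) := by
    intro y k
    rw [nrm2_smul, Real.sq_sqrt (nrm2_nonneg y), nrm2_eb, mul_one]
  by_cases hs : s = 0
  · obtain ⟨O, hO, hOd⟩ := exists_orth d _ (hnorm d j)
    refine ⟨O, hO, ?_, hOd⟩
    rw [hs, Matrix.mulVec_zero]
    have : nrm2 (0 : Vec n) = 0 := nrm2_eq_zero.2 rfl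
    rw [this, Real.sqrt_zero, zero_smul]
  · obtain ⟨O1, hO1, hO1s⟩ := exists_orth s _ (hnorm s i)
    have hspos : 0 < Real.sqrt (nrm2 s) := Real.sqrt_pos.2 (nrm2_pos hs)
    have h1 : eb i ⬝ᵥ (O1 *ᵥ d) = 0 := by
      have h2 := dot_mulVec_orth hO1 s d
      rw [hO1s, hsd, smul_dotProduct, smul_eq_mul] at h2
      exact (mul_eq_zero.1 h2).resolve_left hspos.ne'
    have hn1 : nrm2 (O1 *ᵥ d) = nrm2 (Real.sqrt (nrm2 d) • eb j) := by
      rw [nrm2_mulVec hO1]; exact hnorm d j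
    obtain ⟨O2, hO2, hO2d, hfix⟩ := exists_orth_fix (O1 *ᵥ d) _ hn1
    have h3 : O2 *ᵥ eb i = eb i := by
      apply hfix
      rw [sub_dotProduct, dotProduct_comm, h1, smul_dotProduct, avg_eb_dot_eb hij.symm, smul_zero,
        sub_zero]
    refine ⟨O2 * O1, hO2.mul hO1, ?_, ?_⟩
    · rw [← Matrix.mulVec_mulVec, hO1s, Matrix.mulVec_smul, h3]
    · rw [← Matrix.mulVec_mulVec, hO2d]

/-- (M2) PAIRS.  `ray J u + ray J v = (1+R) ray J a + (1-R) ray J b` with `a ∥ û+v̂`, `b ∥ û-v̂`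
orthonormal (`qf_parallelogram`; if `R = ±1` complete by `exists_unit_orthogonal`), rotate `a,b` to
`e_i, e_j` (`exists_orth_pair`). -/
theorem goe_pair (w : Mat n → ℝ≥0∞) (hw : Measurable w)
    (hinv : ∀ O : Mat n, IsOrth O → ∀ J, w (cj O J) = w J) (i j : Fin n) (hij : i ≠ j)
    (u v : Vec n) (hu : u ≠ 0) (hv : v ≠ 0) :
    ∫⁻ J, w J * eexp ((n : ℝ) / 2 * (ray J u + ray J v)) ∂(goe n) =
      ∫⁻ J, w J * eexp ((n : ℝ) / 2 * ((1 + ovl u v) * J i i + (1 - ovl u v) * J j j)) ∂(goe n) := by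
  have hpu := nrm2_pos hu
  have hpv := nrm2_pos hv
  obtain ⟨a, ha⟩ : ∃ a : ℝ, a = (Real.sqrt (nrm2 u))⁻¹ := ⟨_, rfl⟩
  obtain ⟨b, hb⟩ : ∃ b : ℝ, b = (Real.sqrt (nrm2 v))⁻¹ := ⟨_, rfl⟩
  have ha2 : a ^ 2 * nrm2 u = 1 := by
    rw [ha, inv_pow, Real.sq_sqrt hpu.le, inv_mul_cancel₀ hpu.ne']
  have hb2 : b ^ 2 * nrm2 v = 1 := by
    rw [hb, inv_pow, Real.sq_sqrt hpv.le, inv_mul_cancel₀ hpv.ne']
  have hR : ovl u v = a * b * (u ⬝ᵥ v) := by
    unfold ovl
    rw [Real.sqrt_mul hpu.le, ha, hb, div_eq_mul_inv, mul_inv, mul_comm]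
  have hdot : (a • u) ⬝ᵥ (b • v) = ovl u v := by
    rw [smul_dotProduct, dotProduct_smul, smul_eq_mul, smul_eq_mul, hR]; ring
  have hnu : (a • u) ⬝ᵥ (a • u) = 1 := by
    have := nrm2_smul a u
    unfold nrm2 at this ha2
    rw [this, ha2]
  have hnv : (b • v) ⬝ᵥ (b • v) = 1 := by
    have := nrm2_smul b v
    unfold nrm2 at this hb2
    rw [this, hb2]
  have hs : nrm2 (a • u + b • v) = 2 + 2 * ovl u v := by
    unfold nrm2
    rw [add_dotProduct, dotProduct_add, dotProduct_add, hnu, hnv, hdot, dotProduct_comm, hdot]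
    ring
  have hd : nrm2 (a • u - b • v) = 2 - 2 * ovl u v := by
    unfold nrm2
    rw [sub_dotProduct, dotProduct_sub, dotProduct_sub, hnu, hnv, hdot, dotProduct_comm (b • v),
      hdot]
    ring
  have hsd : (a • u + b • v) ⬝ᵥ (a • u - b • v) = 0 := by
    rw [add_dotProduct, dotProduct_sub, dotProduct_sub, hnu, hnv, hdot, dotProduct_comm (b • v),
      hdot]
    ring
  obtain ⟨O, hO, hOs, hOd⟩ := avg_orth_pair _ _ hsd i j hij
  have hray : ∀ J : Mat n, ray J u + ray J v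
      = (1 + ovl u v) * cj O J i i + (1 - ovl u v) * cj O J j j := by
    intro J
    have e1 : ray J u = qf J (a • u) := by
      rw [qf_smul_vec]
      unfold ray
      rw [div_eq_iff hpu.ne', mul_right_comm, ha2, one_mul]
    have e2 : ray J v = qf J (b • v) := by
      rw [qf_smul_vec]
      unfold ray
      rw [div_eq_iff hpv.ne', mul_right_comm, hb2, one_mul]
    rw [e1, e2, qf_parallelogram, ← qf_cj hO J (a • u + b • v), ← qf_cj hO J (a • u - b • v), hOs,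
      hOd, qf_smul_vec, qf_smul_vec, qf_eb, qf_eb, Real.sq_sqrt (nrm2_nonneg _),
      Real.sq_sqrt (nrm2_nonneg _), hs, hd]
    ring
  have hg : Measurable (fun J : Mat n =>
      w J * eexp ((n : ℝ) / 2 * ((1 + ovl u v) * J i i + (1 - ovl u v) * J j j))) := by
    refine hw.mul (measurable_eexp.comp ?_)
    exact (((measurable_entry i i).const_mul _).add ((measurable_entry j j).const_mul _)).const_mul _
  rw [← lintegral_goe_cj O hO _ hg]
  refine lintegral_congr fun J => ?_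
  rw [hinv O hO, hray]

/-- mgf of the overlap of a uniform direction with a fixed direction -/
noncomputable def Mn (i : Fin n) (s : ℝ) : ℝ≥0∞ :=
  ∫⁻ ξ, eexp (s * (ξ i / Real.sqrt (nrm2 ξ))) ∂(gv n)

/-- for fixed `ξ' ≠ 0` rotate `ξ'` to `e_i` -/
theorem lintegral_ovl (i : Fin n) (s : ℝ) (v : Vec n) (hv : v ≠ 0) :
    ∫⁻ ξ, eexp (s * ovl ξ v) ∂(gv n) = Mn i s := by
  have hpv := nrm2_pos hv
  have hsv : 0 < Real.sqrt (nrm2 v) := Real.sqrt_pos.2 hpv
  obtain ⟨O, hO, hOv⟩ := exists_orth v (Real.sqrt (nrm2 v) • eb i) (by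
    rw [nrm2_smul, Real.sq_sqrt hpv.le, nrm2_eb, mul_one])
  have hG : Measurable (fun ξ : Vec n => eexp (s * (ξ i / Real.sqrt (nrm2 ξ)))) := by
    refine measurable_eexp.comp (((measurable_pi_apply i).div ?_).const_mul _)
    exact (continuous_nrm2.measurable).sqrt
  unfold Mn
  rw [← lintegral_gv_orth O hO _ hG]
  refine lintegral_congr fun ξ => ?_
  congr 2
  unfold ovl
  rw [nrm2_mulVec hO, ← dot_mulVec_orth hO ξ v, hOv, dotProduct_smul, smul_eq_mul,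
    Real.sqrt_mul (nrm2_nonneg ξ)]
  have : (O *ᵥ ξ) ⬝ᵥ eb i = (O *ᵥ ξ) i := by
    unfold eb
    rw [dotProduct_single, mul_one]
  rw [this, mul_comm (Real.sqrt (nrm2 v)), mul_div_mul_right _ _ hsv.ne']

end Claimed.Agent.R133
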