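/-
Row 133, statement S0266 (critical SK model, no mixing before n^{2/3}).
Basic definitions shared by all files of `Claimed/Agent/R133/`.
Blueprint: `git show origin/helper563:docs/R133_S0266.md`.
-/
import Mathlib
import Claimed.Prelude.Def_0228

set_option autoImplicit false

namespace Claimed.Agent.R133

open Claims.C0228.CriticalSK MeasureTheory ProbabilityTheory Filter
open scoped BigOperators Topology NNReal ENNReal Matrix

noncomputable section

/-- vectors of `ℝ^n` -/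
abbrev Vec (n : ℕ) := Fin n → ℝ

/-- real `n × n` matrices -/
abbrev Mat (n : ℕ) := Matrix (Fin n) (Fin n) ℝ

instance instMeasurableSpaceMat (n : ℕ) : MeasurableSpace (Mat n) :=
  inferInstanceAs (MeasurableSpace (Fin n → Fin n → ℝ))

instance instBorelSpaceMat (n : ℕ) : BorelSpace (Mat n) :=
  inferInstanceAs (BorelSpace (Fin n → Fin n → ℝ))

/-- `exp` with values in `ℝ≥0∞` -/
def eexp (x : ℝ) : ℝ≥0∞ := ENNReal.ofReal (Real.exp x)

/-- `n ^ a` for a real exponent -/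
def npow (n : ℕ) (a : ℝ) : ℝ := (n : ℝ) ^ a

/-- squared euclidean norm -/
def nrm2 {n : ℕ} (v : Vec n) : ℝ := v ⬝ᵥ v

/-- quadratic form `vᵀ M v` -/
def qf {n : ℕ} (M : Mat n) (v : Vec n) : ℝ := v ⬝ᵥ (M *ᵥ v)

/-- Rayleigh quotient (junk value `0` at `v = 0`) -/
def ray {n : ℕ} (M : Mat n) (v : Vec n) : ℝ := qf M v / nrm2 v

/-- squared Frobenius norm -/
def frob2 {n : ℕ} (M : Mat n) : ℝ := ∑ i, ∑ j, M i j ^ 2

/-- orthogonal matrices -/
def IsOrth {n : ℕ} (O : Mat n) : Prop := O * Oᵀ = 1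

/-- conjugation `O J Oᵀ` -/
def cj {n : ℕ} (O J : Mat n) : Mat n := O * J * Oᵀ

/-- basis vector -/
def eb {n : ℕ} (i : Fin n) : Vec n := Pi.single i 1

/-- rank one matrix `θ ξ ξᵀ` -/
def spike {n : ℕ} (θ : ℝ) (ξ : Vec n) : Mat n := θ • Matrix.vecMulVec ξ ξ

/-- `λ_max(M) < z` in quadratic form language: `z - M` is positive definite -/
def Below {n : ℕ} (M : Mat n) (z : ℝ) : Prop :=
  ∀ v : Vec n, v ≠ 0 → qf M v < z * nrm2 v

/-- at least three eigenvalues above `c`, in quadratic form language -/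
def ThreeTop {n : ℕ} (M : Mat n) (c : ℝ) : Prop :=
  ∃ V : Fin 3 → Vec n, (∀ a b, V a ⬝ᵥ V b = if a = b then 1 else 0) ∧
    ∀ α : Fin 3 → ℝ, α ≠ 0 → c * (α ⬝ᵥ α) < qf M (∑ a, α a • V a)

/-- the `±1` vector of a spin configuration -/
def sv {n : ℕ} (x : Spin n) : Vec n := fun i => spinValue (x i)

/-- parameters of a symmetric matrix: strict upper triangle and diagonal -/
abbrev Par (n : ℕ) := Disorder n × Vec n

/-- the symmetric matrix with strict upper triangle `p.1` and diagonal `p.2` -/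
def toMat {n : ℕ} (p : Par n) : Mat n := fun i j =>
  if h : i < j then p.1 ⟨(i, j), h⟩ else if h' : j < i then p.1 ⟨(j, i), h'⟩ else p.2 i

/-- independent centred Gaussians: variance `v` off the diagonal, `2 v` on the diagonal -/
def parLaw (v : ℝ≥0) (n : ℕ) : Measure (Par n) :=
  (Measure.pi fun _ : Edge n => gaussianReal 0 v).prod
    (Measure.pi fun _ : Fin n => gaussianReal 0 (2 * v))

/-- GOE of size `n` with off-diagonal variance `v` -/
def goeV (v : ℝ≥0) (n : ℕ) : Measure (Mat n) := (parLaw v n).map toMat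

/-- GOE of size `n`, off-diagonal variance `1/n` -/
def goe (n : ℕ) : Measure (Mat n) := goeV (n : ℝ≥0)⁻¹ n

/-- standard Gaussian vector -/
def gv (n : ℕ) : Measure (Vec n) := Measure.pi fun _ : Fin n => gaussianReal 0 1

/-- off-diagonal entries of the Jacobi matrix: `b_i = sqrt (∑_{j > i} W_{ij}^2)` -/
def triB {n : ℕ} (p : Par n) (i : Fin n) : ℝ :=
  Real.sqrt (∑ e : Edge n, if e.val.1 = i then p.1 e ^ 2 else 0)

/-- the Jacobi (tridiagonal) matrix attached to the parameters -/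
def tri {n : ℕ} (p : Par n) : Mat n := fun i j =>
  if i = j then p.2 i
  else if i.val + 1 = j.val then triB p i
  else if j.val + 1 = i.val then triB p j
  else 0

/-- partition function of the cube, `∑_x exp (xᵀ J x / 2)` -/
def ZE {n : ℕ} (J : Mat n) : ℝ≥0∞ := ∑ x : Spin n, eexp (qf J (sv x) / 2)

/-- spherical integral `E_ξ exp ((n/2) ξᵀ J ξ / |ξ|²)` -/
def IE {n : ℕ} (J : Mat n) : ℝ≥0∞ := ∫⁻ ξ, eexp ((n : ℝ) / 2 * ray J ξ) ∂(gv n)

/-- Gibbs mass of a set of configurations -/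
def gibbsMass {n : ℕ} (W : Disorder n) (S : Set (Spin n)) : ℝ :=
  by classical exact ∑ x : Spin n, if x ∈ S then gibbs W x else 0

/-- resolvent -/
def Rs {n : ℕ} (z : ℝ) (J : Mat n) : Mat n := (z • (1 : Mat n) - J)⁻¹

/-- the cone `{v : |R v|² ≤ ε n^{-1/3} |R|_F² |v|²}`, `R = (z - J)⁻¹` -/
def Ev {n : ℕ} (z ε : ℝ) (J : Mat n) : Set (Vec n) :=
  {v | nrm2 (Rs z J *ᵥ v) ≤ ε * npow n (-(1 / 3)) * frob2 (Rs z J) * nrm2 v}

/-- `2 + K n^{-2/3}` -/
def gam (K : ℝ) (n : ℕ) : ℝ := 2 + K * npow n (-(2 / 3))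

/-- `1 / (1 - C n^{-1/3})` -/
def th (C : ℝ) (n : ℕ) : ℝ := 1 / (1 - C * npow n (-(1 / 3)))

/-- the event of (G3) -/
def G3set {n : ℕ} (K C : ℝ) (J : Mat n) : Set (Vec n) :=
  {ξ | Below (J + spike (th 1 n / n) ξ) (gam (K / 2) n) ∧
        ¬ Below (J + spike (th C n / n) ξ) (gam K n)}

/-- the good event -/
structure Good (n : ℕ) (K C : ℝ) (J : Mat n) : Prop where
  symm : Jᵀ = J
  below : Below J (gam (K / 2) n)
  frob : frob2 J ≤ (n : ℝ) ^ 2
  three : ThreeTop J (gam (-K) n)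
  g3 : ENNReal.ofReal (23 / 24) ≤ gv n (G3set K C J)
  det : (gam K n • (1 : Mat n) - J).det ≤
    Real.exp ((n : ℝ) / 2 + K * npow n (1 / 3) + npow n (1 / 10))

end

end Claimed.Agent.R133
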