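/-
Row 133 / S0266, section 4 (foundations).  Centred Gaussian measures through their characteristic
function: a tiny toolkit, closed under `map` (continuous linear), `prod`, `pi`, with extensionality.
-/
import Claimed.Agent.R133.Basic

set_option autoImplicit false

namespace Claimed.Agent.R133

open MeasureTheory ProbabilityTheory
open scoped BigOperators NNReal ENNReal

/-- `μ` is the centred Gaussian measure with variance form `q` :
`∫ exp (i L x) dμ = exp (- q L / 2)`. -/
def CGauss {E : Type*} [NormedAddCommGroup E] [NormedSpace ℝ E] [MeasurableSpace E]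
    (μ : Measure E) (q : StrongDual ℝ E → ℝ) : Prop :=
  IsProbabilityMeasure μ ∧ ∀ L : StrongDual ℝ E, charFunDual μ L = Complex.exp (-(q L : ℂ) / 2)

theorem CGauss.ext {E : Type*} [NormedAddCommGroup E] [NormedSpace ℝ E] [MeasurableSpace E]
    [BorelSpace E] [SecondCountableTopology E] [CompleteSpace E]
    {μ ν : Measure E} {q q' : StrongDual ℝ E → ℝ} (hμ : CGauss μ q) (hν : CGauss ν q')
    (h : ∀ L, q L = q' L) : μ = ν := by
  have := hμ.1
  have := hν.1
  apply Measure.ext_of_charFunDual
  funext L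
  rw [hμ.2 L, hν.2 L, h L]

theorem cgauss_real (v : ℝ≥0) :
    CGauss (gaussianReal 0 v) (fun L : StrongDual ℝ ℝ => (v : ℝ) * (L 1) ^ 2) := by
  refine ⟨inferInstance, fun L => ?_⟩
  have hL : ∀ x : ℝ, L x = x * L 1 := fun x => by
    have := L.map_smul x 1
    simpa [smul_eq_mul] using this
  have h1 : charFunDual (gaussianReal 0 v) L = charFun (gaussianReal 0 v) (L 1) := by
    rw [charFunDual_apply, charFun_apply_real]
    congr 1
    funext x
    rw [hL x]
    push_cast
    ring_nf
  rw [h1, charFun_gaussianReal]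
  congr 1
  push_cast
  ring

theorem CGauss.map {E F : Type*} [NormedAddCommGroup E] [NormedSpace ℝ E] [MeasurableSpace E]
    [OpensMeasurableSpace E] [NormedAddCommGroup F] [NormedSpace ℝ F] [MeasurableSpace F]
    [BorelSpace F] {μ : Measure E} {q : StrongDual ℝ E → ℝ} (hμ : CGauss μ q) (A : E →L[ℝ] F) :
    CGauss (μ.map A) (fun L => q (L.comp A)) := by
  have := hμ.1
  refine ⟨Measure.isProbabilityMeasure_map A.continuous.measurable.aemeasurable, fun L => ?_⟩
  rw [charFunDual_map, hμ.2]

theorem CGauss.prod {E F : Type*} [NormedAddCommGroup E] [NormedSpace ℝ E] [MeasurableSpace E]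
    [NormedAddCommGroup F] [NormedSpace ℝ F] [MeasurableSpace F]
    {μ : Measure E} {ν : Measure F} {q : StrongDual ℝ E → ℝ} {q' : StrongDual ℝ F → ℝ}
    (hμ : CGauss μ q) (hν : CGauss ν q') :
    CGauss (μ.prod ν) (fun L => q (L.comp (.inl ℝ E F)) + q' (L.comp (.inr ℝ E F))) := by
  have := hμ.1
  have := hν.1
  refine ⟨inferInstance, fun L => ?_⟩
  rw [charFunDual_prod, hμ.2, hν.2, ← Complex.exp_add]
  congr 1
  push_cast
  ring

theorem CGauss.pi {ι : Type*} [Fintype ι] [DecidableEq ι] {E : ι → Type*}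
    [∀ i, NormedAddCommGroup (E i)] [∀ i, NormedSpace ℝ (E i)] [∀ i, MeasurableSpace (E i)]
    {μ : (i : ι) → Measure (E i)} {q : (i : ι) → StrongDual ℝ (E i) → ℝ}
    (h : ∀ i, CGauss (μ i) (q i)) :
    CGauss (Measure.pi μ) (fun L => ∑ i, q i (L.comp (.single ℝ E i))) := by
  have := fun i => (h i).1
  refine ⟨inferInstance, fun L => ?_⟩
  rw [charFunDual_pi]
  simp_rw [(h _).2]
  rw [← Complex.exp_sum]
  congr 1
  push_cast
  rw [← Finset.sum_neg_distrib, Finset.sum_div]

end Claimed.Agent.R133
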