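/-
Row 133 / S0266, section 4 (foundations).  The GOE: basic facts and characteristic function.
-/
import Claimed.Agent.R133.GoeGauss

set_option autoImplicit false

namespace Claimed.Agent.R133

open Claims.C0228.CriticalSK MeasureTheory ProbabilityTheory
open scoped BigOperators NNReal ENNReal Matrix

noncomputable section

/-- first basis vector, total in `n` (the zero vector of `Fin 0 → ℝ` if `n = 0`) -/
def e0 (n : ℕ) : Vec n := fun i => if i.val = 0 then 1 else 0

/-- bordered matrix `[[d, wᵀ], [w, M]]` -/
def border {m : ℕ} (d : ℝ) (w : Vec m) (M : Mat m) : Mat (m + 1) :=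
  Matrix.of (Fin.cons (Fin.cons d w) (fun i => Fin.cons (w i) (M i)))

/-- coefficients of a linear functional on matrices -/
def tc {n : ℕ} (L : StrongDual ℝ (Fin n → Fin n → ℝ)) : Mat n :=
  fun i j => L (Pi.single i (Pi.single j 1))

theorem tc_apply {n : ℕ} (L : StrongDual ℝ (Fin n → Fin n → ℝ)) (M : Fin n → Fin n → ℝ) :
    L M = ∑ i, ∑ j, tc L i j * M i j := by
  have hM : M = ∑ i, ∑ j, M i j • (Pi.single i (Pi.single j 1) : Fin n → Fin n → ℝ) := by
    funext a b
    simp only [Finset.sum_apply, Pi.smul_apply, smul_eq_mul]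
    rw [Finset.sum_eq_single a]
    · rw [Finset.sum_eq_single b]
      · simp
      · intro j _ hj
        simp [hj.symm]
      · simp
    · intro i _ hi
      apply Finset.sum_eq_zero
      intro j _
      simp [hi.symm]
    · simp
  conv_lhs => rw [hM]
  simp only [map_sum, map_smul, smul_eq_mul, tc, mul_comm]

theorem measurable_toMat {n : ℕ} : Measurable (toMat (n := n)) := by
  refine measurable_pi_iff.2 fun i => measurable_pi_iff.2 fun j => ?_
  unfold toMat
  split_ifs <;> fun_prop

theorem toMat_transpose {n : ℕ} (p : Par n) : (toMat p)ᵀ = toMat p := by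
  ext i j
  rw [Matrix.transpose_apply]
  rcases lt_trichotomy i j with h | h | h
  · simp [toMat, h, not_lt.mpr h.le]
  · subst h; rfl
  · simp [toMat, h, not_lt.mpr h.le]

instance instProbParLaw (v : ℝ≥0) (n : ℕ) : IsProbabilityMeasure (parLaw v n) := by
  unfold parLaw; infer_instance

instance instProbGoeV (v : ℝ≥0) (n : ℕ) : IsProbabilityMeasure (goeV v n) :=
  Measure.isProbabilityMeasure_map measurable_toMat.aemeasurable

instance instProbGoe (n : ℕ) : IsProbabilityMeasure (goe n) := by
  unfold goe; infer_instance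

instance instProbGv (n : ℕ) : IsProbabilityMeasure (gv n) := by
  unfold gv; infer_instance

/-- almost every GOE matrix is symmetric -/
theorem goeV_symm (v : ℝ≥0) (n : ℕ) : ∀ᵐ J ∂(goeV v n), Jᵀ = J := by
  unfold goeV
  rw [ae_map_iff measurable_toMat.aemeasurable]
  · exact Filter.Eventually.of_forall toMat_transpose
  · exact (isClosed_eq (Continuous.matrix_transpose continuous_id) continuous_id).measurableSet

/-- sum over ordered pairs `i < j` as a sum over edges -/
theorem sum_lt_eq_sum_edge {n : ℕ} (g : Fin n → Fin n → ℝ) :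
    ∑ i, ∑ j, (if i < j then g i j else 0) = ∑ e : Edge n, g e.val.1 e.val.2 := by
  rw [← Fintype.sum_prod_type' (f := fun i j => if i < j then g i j else 0),
    ← Finset.sum_filter]
  exact Finset.sum_subtype (Finset.univ.filter fun p : Fin n × Fin n => p.1 < p.2)
    (by simp) (fun p => g p.1 p.2)

/-- a double sum split into the strict upper triangle, its mirror image and the diagonal -/
theorem sum_sum_eq_edge_add_diag {n : ℕ} (f : Fin n → Fin n → ℝ) :
    ∑ i, ∑ j, f i j
      = ∑ e : Edge n, (f e.val.1 e.val.2 + f e.val.2 e.val.1) + ∑ i, f i i := by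
  have h0 : ∀ i j : Fin n, f i j = (if i < j then f i j else 0) + (if j < i then f i j else 0)
      + (if i = j then f i j else 0) := by
    intro i j
    rcases lt_trichotomy i j with h | h | h
    · simp [h, not_lt.mpr h.le, h.ne]
    · subst h; simp
    · simp [h, not_lt.mpr h.le, h.ne']
  have h1 : ∑ i, ∑ j, (if j < i then f i j else 0) = ∑ e : Edge n, f e.val.2 e.val.1 := by
    rw [Finset.sum_comm]
    exact sum_lt_eq_sum_edge (fun i j => f j i)
  have h2 : ∑ i, ∑ j, (if i = j then f i j else 0) = ∑ i, f i i := by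
    simp
  calc ∑ i, ∑ j, f i j
      = ∑ i, ∑ j, ((if i < j then f i j else 0) + (if j < i then f i j else 0)
          + (if i = j then f i j else 0)) :=
        Finset.sum_congr rfl fun i _ => Finset.sum_congr rfl fun j _ => h0 i j
    _ = _ := by
        simp only [Finset.sum_add_distrib]
        rw [sum_lt_eq_sum_edge f, h1, h2]

/-- `toMat` as a linear map -/
def toMatLin (n : ℕ) : Par n →ₗ[ℝ] (Fin n → Fin n → ℝ) where
  toFun := toMat
  map_add' p q := by
    funext i j
    show toMat (p + q) i j = toMat p i j + toMat q i j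
    simp only [toMat]
    split_ifs <;> rfl
  map_smul' c p := by
    funext i j
    show toMat (c • p) i j = c * toMat p i j
    simp only [toMat]
    split_ifs <;> rfl

/-- `toMat` as a continuous linear map -/
def toMatL (n : ℕ) : Par n →L[ℝ] (Fin n → Fin n → ℝ) :=
  LinearMap.toContinuousLinearMap (toMatLin n)

theorem toMatL_apply {n : ℕ} (p : Par n) : toMatL n p = toMat p := rfl

/-- a linear functional evaluated on `toMat p` -/
theorem dual_toMat {n : ℕ} (L : StrongDual ℝ (Fin n → Fin n → ℝ)) (p : Par n) :
    L (toMat p) = ∑ e : Edge n, (tc L e.val.1 e.val.2 + tc L e.val.2 e.val.1) * p.1 e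
      + ∑ i, tc L i i * p.2 i := by
  refine (tc_apply L (toMat p)).trans ?_
  rw [sum_sum_eq_edge_add_diag]
  congr 1
  · refine Finset.sum_congr rfl fun e _ => ?_
    have he : e.val.1 < e.val.2 := e.property
    have h1 : toMat p e.val.1 e.val.2 = p.1 e := by
      simp [toMat, he]
    have h2 : toMat p e.val.2 e.val.1 = p.1 e := by
      simp [toMat, he, not_lt.mpr he.le]
    rw [h1, h2]; ring
  · refine Finset.sum_congr rfl fun i _ => ?_
    simp [toMat]

theorem frob2_tc_symm {n : ℕ} (t : Mat n) :
    frob2 (t + tᵀ) = ∑ e : Edge n, 2 * (t e.val.1 e.val.2 + t e.val.2 e.val.1) ^ 2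
      + ∑ i, 4 * t i i ^ 2 := by
  unfold frob2
  rw [sum_sum_eq_edge_add_diag]
  congr 1
  · refine Finset.sum_congr rfl fun e _ => ?_
    simp only [Matrix.add_apply, Matrix.transpose_apply]
    ring
  · refine Finset.sum_congr rfl fun i _ => ?_
    simp only [Matrix.add_apply, Matrix.transpose_apply]
    ring

/-- characteristic function of the GOE: variance form `(v/2) ‖t + tᵀ‖_F²`. -/
theorem cgauss_goeV (v : ℝ≥0) (n : ℕ) :
    CGauss (E := Fin n → Fin n → ℝ) (goeV v n)
      (fun L => (v : ℝ) / 2 * frob2 (tc L + (tc L)ᵀ)) := by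
  have h := ((CGauss.pi fun _ : Edge n => cgauss_real v).prod
    (CGauss.pi fun _ : Fin n => cgauss_real (2 * v))).map (toMatL n)
  refine ⟨instProbGoeV v n, fun L => ?_⟩
  have h2 := h.2 L
  refine Eq.trans h2 ?_
  congr 3
  beta_reduce
  congr 1
  rw [frob2_tc_symm]
  have e1 : ∀ e : Edge n, (((L.comp (toMatL n)).comp
      (ContinuousLinearMap.inl ℝ (Disorder n) (Vec n))).comp
      (ContinuousLinearMap.single ℝ (fun _ : Edge n => ℝ) e)) 1
        = tc L e.val.1 e.val.2 + tc L e.val.2 e.val.1 := by
    intro e
    simp only [ContinuousLinearMap.comp_apply, ContinuousLinearMap.inl_apply,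
      ContinuousLinearMap.single_apply, toMatL_apply]
    rw [dual_toMat]
    simp [Pi.single_apply]
  have e2 : ∀ i : Fin n, (((L.comp (toMatL n)).comp
      (ContinuousLinearMap.inr ℝ (Disorder n) (Vec n))).comp
      (ContinuousLinearMap.single ℝ (fun _ : Fin n => ℝ) i)) 1 = tc L i i := by
    intro i
    simp only [ContinuousLinearMap.comp_apply, ContinuousLinearMap.inr_apply,
      ContinuousLinearMap.single_apply, toMatL_apply]
    rw [dual_toMat]
    simp [Pi.single_apply]
  simp only [e1, e2]
  rw [mul_add, Finset.mul_sum, Finset.mul_sum]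
  congr 1
  · refine Finset.sum_congr rfl fun e _ => ?_
    ring
  · refine Finset.sum_congr rfl fun i _ => ?_
    push_cast
    ring

end

end Claimed.Agent.R133
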