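/-
Row 133 / S0266, section 4 (foundations).  Orthogonal invariance of the GOE.
-/
import Claimed.Agent.R133.GoeDef

set_option autoImplicit false

namespace Claimed.Agent.R133

open Claims.C0228.CriticalSK MeasureTheory ProbabilityTheory
open scoped BigOperators NNReal ENNReal Matrix

noncomputable section

theorem IsOrth.transpose_mul {n : ℕ} {O : Mat n} (hO : IsOrth O) : Oᵀ * O = 1 :=
  mul_eq_one_comm.mp hO

theorem IsOrth.transpose {n : ℕ} {O : Mat n} (hO : IsOrth O) : IsOrth Oᵀ := by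
  unfold IsOrth
  rw [Matrix.transpose_transpose]
  exact hO.transpose_mul

theorem frob2_eq_trace {n : ℕ} (M : Mat n) : frob2 M = Matrix.trace (M * Mᵀ) := by
  unfold frob2
  simp only [Matrix.trace, Matrix.diag_apply, Matrix.mul_apply, Matrix.transpose_apply, sq]

theorem frob2_cj {n : ℕ} {O : Mat n} (hO : IsOrth O) (M : Mat n) : frob2 (cj O M) = frob2 M := by
  rw [frob2_eq_trace, frob2_eq_trace]
  unfold cj
  have h1 : O * M * Oᵀ * (O * M * Oᵀ)ᵀ = O * (M * Mᵀ * Oᵀ) := by
    rw [Matrix.transpose_mul, Matrix.transpose_mul, Matrix.transpose_transpose]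
    calc O * M * Oᵀ * (O * (Mᵀ * Oᵀ)) = O * M * (Oᵀ * O) * (Mᵀ * Oᵀ) := by
          simp only [Matrix.mul_assoc]
      _ = O * (M * Mᵀ * Oᵀ) := by
          rw [hO.transpose_mul, Matrix.mul_one]; simp only [Matrix.mul_assoc]
  rw [h1, Matrix.trace_mul_comm, Matrix.mul_assoc, hO.transpose_mul, Matrix.mul_one]

theorem continuous_cj {n : ℕ} (O : Mat n) : Continuous (cj O) := by
  unfold cj
  exact (continuous_const.matrix_mul continuous_id).matrix_mul continuous_const

theorem measurable_cj {n : ℕ} (O : Mat n) : Measurable (cj O) :=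
  (continuous_cj O).measurable

theorem tc_apply_trace {n : ℕ} (L : StrongDual ℝ (Fin n → Fin n → ℝ)) (M : Fin n → Fin n → ℝ) :
    L M = Matrix.trace ((tc L)ᵀ * Matrix.of M) := by
  rw [tc_apply]
  simp only [Matrix.trace, Matrix.diag_apply, Matrix.mul_apply, Matrix.transpose_apply,
    Matrix.of_apply]
  exact Finset.sum_comm

theorem tc_eq_of_trace {n : ℕ} (L : StrongDual ℝ (Fin n → Fin n → ℝ)) (S : Mat n)
    (h : ∀ M : Fin n → Fin n → ℝ, L M = Matrix.trace (Sᵀ * Matrix.of M)) : tc L = S := by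
  funext i j
  have h1 : tc L i j = Matrix.trace (Sᵀ * Matrix.of (Pi.single i (Pi.single j 1))) := h _
  rw [h1]
  simp only [Matrix.trace, Matrix.diag_apply, Matrix.mul_apply, Matrix.transpose_apply,
    Matrix.of_apply]
  rw [Finset.sum_eq_single j, Finset.sum_eq_single i]
  · simp
  · intro a _ ha
    rw [Pi.single_eq_of_ne ha]
    simp
  · simp
  · intro b _ hb
    refine Finset.sum_eq_zero (fun a _ => ?_)
    by_cases ha : a = i
    · subst ha
      simp [hb]
    · rw [Pi.single_eq_of_ne ha]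
      simp
  · simp

/-- conjugation as a continuous linear map -/
def cjL {n : ℕ} (O : Mat n) : (Fin n → Fin n → ℝ) →L[ℝ] (Fin n → Fin n → ℝ) :=
  LinearMap.toContinuousLinearMap
    { toFun := fun M => Matrix.of.symm (cj O (Matrix.of M))
      map_add' := fun M N => by
        have : cj O (Matrix.of M + Matrix.of N) = cj O (Matrix.of M) + cj O (Matrix.of N) := by
          simp only [cj, Matrix.mul_add, Matrix.add_mul]
        exact congrArg Matrix.of.symm this
      map_smul' := fun c M => by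
        have : cj O (c • Matrix.of M) = c • cj O (Matrix.of M) := by
          simp only [cj, Matrix.mul_smul, Matrix.smul_mul]
        exact congrArg Matrix.of.symm this }

theorem cjL_apply {n : ℕ} (O : Mat n) (M : Fin n → Fin n → ℝ) :
    cjL O M = Matrix.of.symm (cj O (Matrix.of M)) := rfl

theorem tc_comp_cjL {n : ℕ} (O : Mat n) (L : StrongDual ℝ (Fin n → Fin n → ℝ)) :
    tc (L.comp (cjL O)) = cj Oᵀ (tc L) := by
  apply tc_eq_of_trace
  intro M
  rw [ContinuousLinearMap.comp_apply, cjL_apply, tc_apply_trace, Equiv.apply_symm_apply]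
  unfold cj
  rw [Matrix.transpose_transpose, Matrix.transpose_mul, Matrix.transpose_mul,
    Matrix.transpose_transpose]
  rw [← Matrix.mul_assoc, Matrix.trace_mul_comm]
  simp only [Matrix.mul_assoc]

theorem frob2_tc_comp_cjL {n : ℕ} {O : Mat n} (hO : IsOrth O) (L : StrongDual ℝ (Fin n → Fin n → ℝ)) :
    frob2 (tc (L.comp (cjL O)) + (tc (L.comp (cjL O)))ᵀ) = frob2 (tc L + (tc L)ᵀ) := by
  rw [tc_comp_cjL]
  have h : cj Oᵀ (tc L) + (cj Oᵀ (tc L))ᵀ = cj Oᵀ (tc L + (tc L)ᵀ) := by
    unfold cj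
    simp only [Matrix.transpose_mul, Matrix.transpose_transpose, Matrix.mul_add, Matrix.add_mul,
      Matrix.mul_assoc]
  rw [h, frob2_cj hO.transpose]

/-- ORTHOGONAL INVARIANCE of the GOE. -/
theorem goeV_conj (v : ℝ≥0) (n : ℕ) {O : Mat n} (hO : IsOrth O) :
    (goeV v n).map (cj O) = goeV v n := by
  have hcg' : @CGauss (Fin n → Fin n → ℝ) _ _ MeasurableSpace.pi (goeV v n)
      (fun L => (v : ℝ) / 2 * frob2 (tc L + (tc L)ᵀ)) := cgauss_goeV v n
  have h1 := hcg'.map (cjL O)
  exact CGauss.ext (E := Fin n → Fin n → ℝ) h1 hcg' (fun L => by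
    show (v : ℝ) / 2 * frob2 (tc (L.comp (cjL O)) + (tc (L.comp (cjL O)))ᵀ) = _
    rw [frob2_tc_comp_cjL hO])

theorem goe_conj (n : ℕ) {O : Mat n} (hO : IsOrth O) : (goe n).map (cj O) = goe n :=
  goeV_conj _ n hO

/-- integral form of the invariance -/
theorem lintegral_goeV_cj (v : ℝ≥0) (n : ℕ) {O : Mat n} (hO : IsOrth O) (Φ : Mat n → ℝ≥0∞)
    (hΦ : Measurable Φ) : ∫⁻ J, Φ (cj O J) ∂(goeV v n) = ∫⁻ J, Φ J ∂(goeV v n) := by
  conv_rhs => rw [← goeV_conj v n hO]
  rw [lintegral_map hΦ (measurable_cj O)]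

end

end Claimed.Agent.R133
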