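/-
Row 133 / S0266, section 4 (foundations).  Existence of orthogonal matrices (Householder).
-/
import Claimed.Agent.R133.Basic

set_option autoImplicit false

namespace Claimed.Agent.R133

open scoped BigOperators Matrix

/-- the Householder matrix `1 - c x xᵀ` -/
noncomputable def hhMat {n : ℕ} (c : ℝ) (x : Vec n) : Mat n := 1 - c • Matrix.vecMulVec x x

theorem hhMat_mulVec {n : ℕ} (c : ℝ) (x y : Vec n) :
    hhMat c x *ᵥ y = y - (c * (x ⬝ᵥ y)) • x := by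
  unfold hhMat
  rw [Matrix.sub_mulVec, Matrix.one_mulVec, Matrix.smul_mulVec, Matrix.vecMulVec_mulVec]
  congr 1
  funext i
  simp only [Pi.smul_apply, MulOpposite.smul_eq_mul_unop, MulOpposite.unop_op, smul_eq_mul]
  ring

theorem hhMat_transpose {n : ℕ} (c : ℝ) (x : Vec n) : (hhMat c x)ᵀ = hhMat c x := by
  unfold hhMat
  rw [Matrix.transpose_sub, Matrix.transpose_one, Matrix.transpose_smul,
    Matrix.transpose_vecMulVec]

theorem hhMat_isOrth {n : ℕ} (c : ℝ) (x : Vec n) (hc : c * (x ⬝ᵥ x) = 2) :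
    IsOrth (hhMat c x) := by
  unfold IsOrth
  rw [hhMat_transpose, Matrix.ext_iff_mulVec]
  intro v
  rw [← Matrix.mulVec_mulVec, hhMat_mulVec, hhMat_mulVec, Matrix.one_mulVec]
  rw [dotProduct_sub, dotProduct_smul, smul_eq_mul]
  funext i
  simp only [Pi.sub_apply, Pi.smul_apply, smul_eq_mul]
  have : c * (x ⬝ᵥ v - c * (x ⬝ᵥ v) * (x ⬝ᵥ x)) = -(c * (x ⬝ᵥ v)) := by
    calc c * (x ⬝ᵥ v - c * (x ⬝ᵥ v) * (x ⬝ᵥ x))
        = c * (x ⬝ᵥ v) - c * (x ⬝ᵥ v) * (c * (x ⬝ᵥ x)) := by ring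
      _ = _ := by rw [hc]; ring
  rw [this]
  ring

/-- Householder, with the extra information that the hyperplane `(u - w)^⊥` is fixed. -/
theorem exists_orth_fix {n : ℕ} (u w : Vec n) (h : nrm2 u = nrm2 w) :
    ∃ O : Mat n, IsOrth O ∧ O *ᵥ u = w ∧ ∀ y : Vec n, (u - w) ⬝ᵥ y = 0 → O *ᵥ y = y := by
  by_cases huw : u = w
  · refine ⟨1, ?_, ?_, ?_⟩
    · unfold IsOrth; simp
    · rw [Matrix.one_mulVec, huw]
    · intro y _; exact Matrix.one_mulVec y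
  · set x : Vec n := u - w with hx
    have hx0 : x ≠ 0 := sub_ne_zero.2 huw
    have hs : x ⬝ᵥ x ≠ 0 := fun h0 => hx0 (dotProduct_self_eq_zero.1 h0)
    have hc : 2 / (x ⬝ᵥ x) * (x ⬝ᵥ x) = 2 := div_mul_cancel₀ _ hs
    refine ⟨hhMat (2 / (x ⬝ᵥ x)) x, hhMat_isOrth _ x hc, ?_, ?_⟩
    · rw [hhMat_mulVec]
      have h1 : x ⬝ᵥ x = 2 * (x ⬝ᵥ u) := by
        unfold nrm2 at h
        rw [hx]
        simp only [sub_dotProduct, dotProduct_sub]
        rw [dotProduct_comm w u]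
        linarith
      have h2 : 2 / (x ⬝ᵥ x) * (x ⬝ᵥ u) = 1 := by
        have : x ⬝ᵥ u = (x ⬝ᵥ x) / 2 := by linarith
        rw [this]
        field_simp
      rw [h2, one_smul, hx]
      abel
    · intro y hy
      rw [hhMat_mulVec, hy, mul_zero, zero_smul, sub_zero]

/-- Householder: two vectors of the same length are mapped to each other by an orthogonal matrix. -/
theorem exists_orth {n : ℕ} (u w : Vec n) (h : nrm2 u = nrm2 w) :
    ∃ O : Mat n, IsOrth O ∧ O *ᵥ u = w := by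
  obtain ⟨O, hO, hu, -⟩ := exists_orth_fix u w h
  exact ⟨O, hO, hu⟩

/-- orthogonal matrices preserve dot products -/
theorem IsOrth.dotProduct_mulVec {n : ℕ} {O : Mat n} (hO : IsOrth O) (a b : Vec n) :
    (O *ᵥ a) ⬝ᵥ (O *ᵥ b) = a ⬝ᵥ b := by
  have hO' : Oᵀ * O = 1 := mul_eq_one_comm.1 hO
  rw [Matrix.dotProduct_mulVec, Matrix.vecMul_mulVec, hO', Matrix.vecMul_one]

/-- two orthonormal pairs are mapped to each other by an orthogonal matrix. -/
theorem exists_orth_pair {n : ℕ} (u u' w w' : Vec n)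
    (hu : nrm2 u = 1) (hu' : nrm2 u' = 1) (huu : u ⬝ᵥ u' = 0)
    (hw : nrm2 w = 1) (hw' : nrm2 w' = 1) (hww : w ⬝ᵥ w' = 0) :
    ∃ O : Mat n, IsOrth O ∧ O *ᵥ u = w ∧ O *ᵥ u' = w' := by
  obtain ⟨O1, hO1, h1u⟩ := exists_orth u w (hu.trans hw.symm)
  have hn : nrm2 (O1 *ᵥ u') = nrm2 w' := by
    unfold nrm2
    rw [hO1.dotProduct_mulVec]
    exact hu'.trans hw'.symm
  obtain ⟨O2, hO2, h2u, h2fix⟩ := exists_orth_fix (O1 *ᵥ u') w' hn
  have hperp : (O1 *ᵥ u' - w') ⬝ᵥ w = 0 := by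
    rw [sub_dotProduct, ← h1u, hO1.dotProduct_mulVec, dotProduct_comm u' u, huu, h1u,
      dotProduct_comm w' w, hww, sub_zero]
  refine ⟨O2 * O1, ?_, ?_, ?_⟩
  · unfold IsOrth at *
    rw [Matrix.transpose_mul]
    calc O2 * O1 * (O1ᵀ * O2ᵀ) = O2 * (O1 * O1ᵀ) * O2ᵀ := by simp only [Matrix.mul_assoc]
      _ = 1 := by rw [hO1, Matrix.mul_one, hO2]
  · rw [← Matrix.mulVec_mulVec, h1u, h2fix w hperp]
  · rw [← Matrix.mulVec_mulVec, h2u]

end Claimed.Agent.R133
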