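/-
Row 133 / S0266.  Elementary facts on `qf`, `Below`, `spike`, `cj`, `ThreeTop`:
algebra, monotonicity, conjugation invariance, openness / measurability.
-/
import Claimed.Agent.R133.GoeInv
import Claimed.Agent.R133.GoeOrth

set_option autoImplicit false

namespace Claimed.Agent.R133

open MeasureTheory ProbabilityTheory
open scoped BigOperators NNReal ENNReal Matrix

noncomputable section

/-! ### algebra -/

theorem qf_add {n : ℕ} (M N : Mat n) (v : Vec n) : qf (M + N) v = qf M v + qf N v := by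
  simp only [qf, Matrix.add_mulVec, dotProduct_add]

theorem qf_spike {n : ℕ} (θ : ℝ) (ξ v : Vec n) : qf (spike θ ξ) v = θ * (ξ ⬝ᵥ v) ^ 2 := by
  simp only [qf, spike, Matrix.smul_mulVec, Matrix.vecMulVec_mulVec, dotProduct_smul, smul_eq_mul,
    op_smul_eq_smul]
  rw [dotProduct_comm v ξ]; ring

theorem nrm2_nonneg {n : ℕ} (v : Vec n) : 0 ≤ nrm2 v := by
  unfold nrm2 dotProduct
  exact Finset.sum_nonneg fun i _ => mul_self_nonneg _

theorem nrm2_pos {n : ℕ} {v : Vec n} (hv : v ≠ 0) : 0 < nrm2 v := by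
  refine lt_of_le_of_ne (nrm2_nonneg v) fun h => hv ?_
  exact dotProduct_self_eq_zero.mp h.symm

theorem nrm2_e0 (n : ℕ) (hn : 0 < n) : nrm2 (e0 n) = 1 := by
  unfold nrm2 dotProduct e0
  rw [Finset.sum_eq_single (⟨0, hn⟩ : Fin n)]
  · simp
  · intro b _ hb
    have : b.val ≠ 0 := fun h => hb (Fin.ext h)
    simp [this]
  · simp

theorem dot_mulVec_orth {n : ℕ} {O : Mat n} (hO : IsOrth O) (u v : Vec n) :
    (O *ᵥ u) ⬝ᵥ (O *ᵥ v) = u ⬝ᵥ v := by
  rw [Matrix.dotProduct_mulVec, ← Matrix.mulVec_transpose, Matrix.mulVec_mulVec,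
    hO.transpose_mul, Matrix.one_mulVec]

theorem nrm2_mulVec {n : ℕ} {O : Mat n} (hO : IsOrth O) (v : Vec n) : nrm2 (O *ᵥ v) = nrm2 v :=
  dot_mulVec_orth hO v v

theorem qf_cj {n : ℕ} {O : Mat n} (hO : IsOrth O) (M : Mat n) (v : Vec n) :
    qf (cj O M) (O *ᵥ v) = qf M v := by
  unfold qf cj
  rw [Matrix.mulVec_mulVec, Matrix.mul_assoc, hO.transpose_mul, Matrix.mul_one,
    ← Matrix.mulVec_mulVec, dot_mulVec_orth hO]

theorem cj_add {n : ℕ} (O M N : Mat n) : cj O (M + N) = cj O M + cj O N := by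
  simp only [cj, Matrix.mul_add, Matrix.add_mul]

theorem cj_spike {n : ℕ} (O : Mat n) (θ : ℝ) (ξ : Vec n) :
    cj O (spike θ ξ) = spike θ (O *ᵥ ξ) := by
  unfold cj spike
  rw [Matrix.mul_smul, Matrix.smul_mul, Matrix.mul_vecMulVec, Matrix.vecMulVec_mul,
    Matrix.vecMul_transpose]

theorem cj_smul_one {n : ℕ} {O : Mat n} (hO : IsOrth O) (z : ℝ) :
    cj O (z • (1 : Mat n)) = z • (1 : Mat n) := by
  unfold cj
  rw [Matrix.mul_smul, Matrix.mul_one, Matrix.smul_mul, hO]

theorem det_cj {n : ℕ} {O : Mat n} (hO : IsOrth O) (M : Mat n) : (cj O M).det = M.det := by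
  unfold cj
  have h1 : O.det * Oᵀ.det = 1 := by rw [← Matrix.det_mul, hO, Matrix.det_one]
  rw [Matrix.det_mul, Matrix.det_mul]
  calc O.det * M.det * Oᵀ.det = M.det * (O.det * Oᵀ.det) := by ring
    _ = M.det := by rw [h1, mul_one]

theorem spike_smul {n : ℕ} (θ c : ℝ) (ξ : Vec n) : spike θ (c • ξ) = spike (θ * c ^ 2) ξ := by
  unfold spike
  ext i j
  simp only [Matrix.smul_apply, Matrix.vecMulVec_apply, Pi.smul_apply, smul_eq_mul]
  ring

/-! ### `Below` -/

theorem below_cj {n : ℕ} {O : Mat n} (hO : IsOrth O) (M : Mat n) (z : ℝ) :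
    Below (cj O M) z ↔ Below M z := by
  constructor
  · intro h v hv
    have hne : O *ᵥ v ≠ 0 := by
      intro h0
      have := nrm2_mulVec hO v
      rw [h0] at this
      have h2 : nrm2 v = 0 := by rw [← this]; simp [nrm2]
      exact (nrm2_pos hv).ne' h2
    have := h (O *ᵥ v) hne
    rwa [qf_cj hO, nrm2_mulVec hO] at this
  · intro h v hv
    have hv' : O *ᵥ (Oᵀ *ᵥ v) = v := by
      rw [Matrix.mulVec_mulVec, hO, Matrix.one_mulVec]
    have hne : Oᵀ *ᵥ v ≠ 0 := by
      intro h0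
      rw [h0, Matrix.mulVec_zero] at hv'
      exact hv hv'.symm
    have := h (Oᵀ *ᵥ v) hne
    rw [← qf_cj hO, ← nrm2_mulVec hO, hv'] at this
    exact this

theorem Below.mono {n : ℕ} {M : Mat n} {z z' : ℝ} (h : Below M z) (hz : z ≤ z') : Below M z' := by
  intro v hv
  exact lt_of_lt_of_le (h v hv) (mul_le_mul_of_nonneg_right hz (nrm2_nonneg v))

theorem Below.spike_mono {n : ℕ} {M : Mat n} {ξ : Vec n} {z θ θ' : ℝ}
    (h : Below (M + spike θ ξ) z) (hθ : θ' ≤ θ) : Below (M + spike θ' ξ) z := by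
  intro v hv
  have := h v hv
  rw [qf_add, qf_spike] at this ⊢
  have h2 : θ' * (ξ ⬝ᵥ v) ^ 2 ≤ θ * (ξ ⬝ᵥ v) ^ 2 :=
    mul_le_mul_of_nonneg_right hθ (sq_nonneg _)
  linarith

/-- `Below M z` is positive definiteness of `z - M` (for symmetric `M`) -/
theorem below_iff_posDef {n : ℕ} {M : Mat n} (hM : Mᵀ = M) (z : ℝ) :
    Below M z ↔ (z • (1 : Mat n) - M).PosDef := by
  have hH : (z • (1 : Mat n) - M).IsHermitian := by
    unfold Matrix.IsHermitian
    rw [Matrix.conjTranspose_eq_transpose_of_trivial, Matrix.transpose_sub, Matrix.transpose_smul,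
      Matrix.transpose_one, hM]
  have key : ∀ v : Vec n, star v ⬝ᵥ ((z • (1 : Mat n) - M) *ᵥ v) = z * nrm2 v - qf M v := by
    intro v
    rw [star_trivial, Matrix.sub_mulVec, Matrix.smul_mulVec, Matrix.one_mulVec, dotProduct_sub,
      dotProduct_smul, smul_eq_mul]
    rfl
  rw [Matrix.posDef_iff_dotProduct_mulVec]
  constructor
  · intro h
    refine ⟨hH, fun v hv => ?_⟩
    rw [key]; exact sub_pos.mpr (h v hv)
  · intro h v hv
    have := h.2 hv
    rw [key] at this
    exact sub_pos.mp this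

theorem bl_qf_smul {n : ℕ} (M : Mat n) (c : ℝ) (v : Vec n) : qf M (c • v) = c ^ 2 * qf M v := by
  simp only [qf, Matrix.mulVec_smul, dotProduct_smul, smul_dotProduct, smul_eq_mul]
  ring

theorem bl_nrm2_smul {n : ℕ} (c : ℝ) (v : Vec n) : nrm2 (c • v) = c ^ 2 * nrm2 v := by
  simp only [nrm2, dotProduct_smul, smul_dotProduct, smul_eq_mul]
  ring

theorem bl_continuous_nrm2 {n : ℕ} : Continuous (nrm2 (n := n)) := by
  unfold nrm2
  exact continuous_id.dotProduct continuous_id

theorem bl_continuous_qf {n : ℕ} : Continuous fun x : Mat n × Vec n => qf x.1 x.2 := by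
  unfold qf
  exact continuous_snd.dotProduct (continuous_fst.matrix_mulVec continuous_snd)

/-- the euclidean unit sphere -/
def blSph (n : ℕ) : Set (Vec n) := {v | nrm2 v = 1}

theorem bl_isCompact_sph (n : ℕ) : IsCompact (blSph n) := by
  refine (isCompact_closedBall (0 : Vec n) 1).of_isClosed_subset
    (isClosed_eq bl_continuous_nrm2 continuous_const) ?_
  intro v hv
  have hv : nrm2 v = 1 := hv
  rw [mem_closedBall_zero_iff, pi_norm_le_iff_of_nonneg zero_le_one]
  intro i
  have h1 : v i * v i ≤ nrm2 v := by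
    unfold nrm2 dotProduct
    exact Finset.single_le_sum (f := fun i => v i * v i) (fun j _ => mul_self_nonneg _)
      (Finset.mem_univ i)
  rw [Real.norm_eq_abs]
  rw [hv] at h1
  exact abs_le_one_iff_mul_self_le_one.2 h1

/-- normalisation -/
theorem bl_normalise {n : ℕ} {v : Vec n} (hv : v ≠ 0) :
    ∃ c : ℝ, ∃ u : Vec n, 0 < c ∧ u ∈ blSph n ∧ v = c • u ∧ c ^ 2 = nrm2 v := by
  have hp := nrm2_pos hv
  have hs : 0 < Real.sqrt (nrm2 v) := Real.sqrt_pos.2 hp
  refine ⟨Real.sqrt (nrm2 v), (Real.sqrt (nrm2 v))⁻¹ • v, hs, ?_, ?_, Real.sq_sqrt hp.le⟩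
  · show nrm2 _ = 1
    rw [bl_nrm2_smul, inv_pow, Real.sq_sqrt hp.le, inv_mul_cancel₀ hp.ne']
  · rw [smul_smul, mul_inv_cancel₀ hs.ne', one_smul]

theorem bl_ne_zero_of_sph {n : ℕ} {v : Vec n} (hv : v ∈ blSph n) : v ≠ 0 := by
  rintro rfl
  have : nrm2 (0 : Vec n) = 1 := hv
  simp [nrm2] at this

theorem bl_below_iff {n : ℕ} (M : Mat n) (z : ℝ) : Below M z ↔ ∀ u ∈ blSph n, qf M u < z := by
  constructor
  · intro h u hu
    have := h u (bl_ne_zero_of_sph hu)
    have hu : nrm2 u = 1 := hu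
    rwa [hu, mul_one] at this
  · intro h v hv
    obtain ⟨c, u, hc, hu, rfl, hcv⟩ := bl_normalise hv
    have h1 := h u hu
    have hu : nrm2 u = 1 := hu
    rw [bl_qf_smul, bl_nrm2_smul, hu, mul_one, mul_comm z]
    exact mul_lt_mul_of_pos_left h1 (by positivity)

/-- quantitative form (compactness of the sphere) -/
theorem Below.exists_gap {n : ℕ} {M : Mat n} {z : ℝ} (h : Below M z) :
    ∃ δ : ℝ, 0 < δ ∧ ∀ v : Vec n, qf M v ≤ (z - δ) * nrm2 v := by
  have hz0 : ∀ δ : ℝ, qf M (0 : Vec n) ≤ (z - δ) * nrm2 (0 : Vec n) := by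
    intro δ
    simp [qf, nrm2]
  by_cases hK : (blSph n).Nonempty
  · have hc : ContinuousOn (fun u : Vec n => z - qf M u) (blSph n) := by
      have : Continuous fun u : Vec n => qf M u :=
        bl_continuous_qf.comp (continuous_const.prodMk continuous_id)
      exact (continuous_const.sub this).continuousOn
    obtain ⟨u0, hu0, hmin⟩ := (bl_isCompact_sph n).exists_isMinOn hK hc
    have hpos : 0 < z - qf M u0 := sub_pos.2 ((bl_below_iff M z).1 h u0 hu0)
    refine ⟨z - qf M u0, hpos, fun v => ?_⟩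
    by_cases hv : v = 0
    · rw [hv]; exact hz0 _
    · obtain ⟨c, u, hc, hu, rfl, hcv⟩ := bl_normalise hv
      have h1 : z - qf M u0 ≤ z - qf M u := hmin hu
      have hu : nrm2 u = 1 := hu
      rw [bl_qf_smul, bl_nrm2_smul, hu, mul_one, mul_comm _ (c ^ 2)]
      exact mul_le_mul_of_nonneg_left (by linarith) (by positivity)
  · refine ⟨1, one_pos, fun v => ?_⟩
    by_cases hv : v = 0
    · rw [hv]; exact hz0 _
    · obtain ⟨c, u, hc, hu, -, -⟩ := bl_normalise hv
      exact absurd ⟨u, hu⟩ hK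

theorem isOpen_below {n : ℕ} (z : ℝ) : IsOpen {M : Mat n | Below M z} := by
  rw [isOpen_iff_eventually]
  intro M hM
  have hM : Below M z := hM
  have h1 : ∀ᶠ M' in nhds M, ∀ u ∈ blSph n, qf M' u < z := by
    refine (bl_isCompact_sph n).eventually_forall_of_forall_eventually fun u hu => ?_
    have h2 : qf M u < z := (bl_below_iff M z).1 hM u hu
    exact (bl_continuous_qf.tendsto (M, u)).eventually (gt_mem_nhds h2)
  filter_upwards [h1] with M' hM'
  exact (bl_below_iff M' z).2 hM'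

theorem measurableSet_below {n : ℕ} (z : ℝ) : MeasurableSet {M : Mat n | Below M z} :=
  (isOpen_below z).measurableSet

/-- joint measurability in the matrix and the spike direction -/
theorem measurableSet_below_spike {n : ℕ} (θ z : ℝ) :
    MeasurableSet {x : Mat n × Vec n | Below (x.1 + spike θ x.2) z} := by
  have hc : Continuous fun x : Mat n × Vec n => x.1 + spike θ x.2 := by
    unfold spike
    exact continuous_fst.add ((continuous_snd.matrix_vecMulVec continuous_snd).const_smul θ)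
  exact ((isOpen_below z).preimage hc).measurableSet

theorem measurableSet_below_spike_left {n : ℕ} (θ z : ℝ) (ξ : Vec n) :
    MeasurableSet {J : Mat n | Below (J + spike θ ξ) z} := by
  have hc : Continuous fun J : Mat n => J + spike θ ξ := continuous_id.add continuous_const
  exact ((isOpen_below z).preimage hc).measurableSet

/-! ### `ThreeTop` -/

theorem bl_threeTop_cj {n : ℕ} {O : Mat n} (hO : IsOrth O) {M : Mat n} {c : ℝ}
    (h : ThreeTop M c) : ThreeTop (cj O M) c := by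
  obtain ⟨V, hV, hq⟩ := h
  refine ⟨fun a => O *ᵥ V a, fun a b => ?_, fun α hα => ?_⟩
  · rw [dot_mulVec_orth hO]; exact hV a b
  · have e : ∑ a, α a • (O *ᵥ V a) = O *ᵥ ∑ a, α a • V a := by
      rw [Matrix.mulVec_sum]
      simp only [Matrix.mulVec_smul]
    rw [e, qf_cj hO]
    exact hq α hα

theorem bl_cj_cj {n : ℕ} {O : Mat n} (hO : IsOrth O) (M : Mat n) : cj Oᵀ (cj O M) = M := by
  have h := hO.transpose_mul
  unfold cj
  rw [Matrix.transpose_transpose]
  calc Oᵀ * (O * M * Oᵀ) * O = (Oᵀ * O) * M * (Oᵀ * O) := by simp only [Matrix.mul_assoc]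
    _ = M := by rw [h, Matrix.one_mul, Matrix.mul_one]

theorem threeTop_cj {n : ℕ} {O : Mat n} (hO : IsOrth O) (M : Mat n) (c : ℝ) :
    ThreeTop (cj O M) c ↔ ThreeTop M c := by
  refine ⟨fun h => ?_, bl_threeTop_cj hO⟩
  have := bl_threeTop_cj hO.transpose h
  rwa [bl_cj_cj hO] at this

/-- quadratic form on a linear combination -/
theorem bl_qf_sum {n : ℕ} (M : Mat n) (V : Fin 3 → Vec n) (α : Fin 3 → ℝ) :
    qf M (∑ a, α a • V a) = ∑ a, ∑ b, α a * α b * (V a ⬝ᵥ (M *ᵥ V b)) := by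
  unfold qf
  rw [Matrix.mulVec_sum, sum_dotProduct]
  refine Finset.sum_congr rfl fun a _ => ?_
  rw [dotProduct_sum]
  refine Finset.sum_congr rfl fun b _ => ?_
  rw [Matrix.mulVec_smul, smul_dotProduct, dotProduct_smul, smul_eq_mul, smul_eq_mul]
  ring

theorem isOpen_threeTop {n : ℕ} (c : ℝ) : IsOpen {M : Mat n | ThreeTop M c} := by
  have key : ∀ V : Fin 3 → Vec n,
      IsOpen {M : Mat n | ∀ α : Fin 3 → ℝ, α ≠ 0 → c * (α ⬝ᵥ α) < qf M (∑ a, α a • V a)} := by
    intro V
    let F : Mat n → Mat 3 := fun M => Matrix.of fun a b => -(V a ⬝ᵥ (M *ᵥ V b))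
    have hF : Continuous F := by
      refine continuous_matrix fun a b => ?_
      exact (continuous_const.dotProduct (continuous_id.matrix_mulVec continuous_const)).neg
    have e : {M : Mat n | ∀ α : Fin 3 → ℝ, α ≠ 0 → c * (α ⬝ᵥ α) < qf M (∑ a, α a • V a)}
        = F ⁻¹' {G : Mat 3 | Below G (-c)} := by
      ext M
      have hq : ∀ α : Fin 3 → ℝ, qf (F M) α = - qf M (∑ a, α a • V a) := by
        intro α
        rw [bl_qf_sum]
        simp only [qf, dotProduct, Matrix.mulVec, F, Matrix.of_apply, Finset.mul_sum,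
          ← Finset.sum_neg_distrib]
        refine Finset.sum_congr rfl fun a _ => Finset.sum_congr rfl fun b _ => ?_
        simp only [Finset.sum_mul, Finset.mul_sum]
        refine Finset.sum_congr rfl fun i _ => Finset.sum_congr rfl fun j _ => ?_
        ring
      simp only [Set.mem_ofPred_eq, Set.mem_preimage, Below, hq, nrm2]
      refine forall_congr' fun α => forall_congr' fun _ => ?_
      constructor <;> intro h <;> linarith
    rw [e]
    exact (isOpen_below (-c)).preimage hF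
  have e : {M : Mat n | ThreeTop M c} = ⋃ V : {V : Fin 3 → Vec n //
      ∀ a b, V a ⬝ᵥ V b = if a = b then 1 else 0},
      {M : Mat n | ∀ α : Fin 3 → ℝ, α ≠ 0 → c * (α ⬝ᵥ α) < qf M (∑ a, α a • V.1 a)} := by
    ext M
    simp only [Set.mem_ofPred_eq, Set.mem_iUnion, ThreeTop, Subtype.exists, exists_prop]
  rw [e]
  exact isOpen_iUnion fun V => key V.1

theorem measurableSet_threeTop {n : ℕ} (c : ℝ) : MeasurableSet {M : Mat n | ThreeTop M c} :=
  (isOpen_threeTop c).measurableSet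

/-- sufficient condition: three vectors with pairwise vanishing `u·u'` and `u·Mu'` and Rayleigh
quotient above `c` -/
theorem threeTop_of_vectors {n : ℕ} (M : Mat n) (c : ℝ) (u : Fin 3 → Vec n)
    (h0 : ∀ a b, a ≠ b → u a ⬝ᵥ u b = 0) (h1 : ∀ a b, a ≠ b → u a ⬝ᵥ (M *ᵥ u b) = 0)
    (h2 : ∀ a, c * nrm2 (u a) < qf M (u a)) : ThreeTop M c := by
  have hne : ∀ a, u a ≠ 0 := by
    intro a h
    have := h2 a
    rw [h] at this
    simp [qf, nrm2] at this
  have hp : ∀ a, 0 < nrm2 (u a) := fun a => nrm2_pos (hne a)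
  have hs : ∀ a, 0 < Real.sqrt (nrm2 (u a)) := fun a => Real.sqrt_pos.2 (hp a)
  refine ⟨fun a => (Real.sqrt (nrm2 (u a)))⁻¹ • u a, fun a b => ?_, fun α hα => ?_⟩
  · rw [smul_dotProduct, dotProduct_smul, smul_eq_mul, smul_eq_mul]
    split_ifs with hab
    · subst hab
      have : u a ⬝ᵥ u a = Real.sqrt (nrm2 (u a)) * Real.sqrt (nrm2 (u a)) :=
        (Real.mul_self_sqrt (hp a).le).symm
      rw [this]
      have := (hs a).ne'
      field_simp
    · rw [h0 a b hab]; simp
  · rw [bl_qf_sum]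
    have e : ∀ a, ∑ b, α a * α b * (((Real.sqrt (nrm2 (u a)))⁻¹ • u a) ⬝ᵥ
        (M *ᵥ ((Real.sqrt (nrm2 (u b)))⁻¹ • u b))) = α a ^ 2 * (qf M (u a) / nrm2 (u a)) := by
      intro a
      rw [Finset.sum_eq_single a]
      · rw [Matrix.mulVec_smul, smul_dotProduct, dotProduct_smul, smul_eq_mul, smul_eq_mul]
        have h3 : nrm2 (u a) = Real.sqrt (nrm2 (u a)) * Real.sqrt (nrm2 (u a)) :=
          (Real.mul_self_sqrt (hp a).le).symm
        have h4 := (hs a).ne'
        have h5 : qf M (u a) / nrm2 (u a)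
            = qf M (u a) / (Real.sqrt (nrm2 (u a)) * Real.sqrt (nrm2 (u a))) := by rw [← h3]
        rw [h5]
        unfold qf
        field_simp
      · intro b _ hb
        rw [Matrix.mulVec_smul, smul_dotProduct, dotProduct_smul, h1 a b (Ne.symm hb)]
        simp
      · intro h; exact absurd (Finset.mem_univ a) h
    simp only [e]
    have e2 : c * (α ⬝ᵥ α) = ∑ a, α a ^ 2 * c := by
      unfold dotProduct
      rw [Finset.mul_sum]
      refine Finset.sum_congr rfl fun a _ => ?_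
      ring
    rw [e2]
    have hlt : ∀ a, c < qf M (u a) / nrm2 (u a) := fun a => (lt_div_iff₀ (hp a)).2 (h2 a)
    obtain ⟨a0, ha0⟩ : ∃ a, α a ≠ 0 := by
      by_contra hcon
      push Not at hcon
      exact hα (funext hcon)
    refine Finset.sum_lt_sum (fun a _ => ?_) ⟨a0, Finset.mem_univ a0, ?_⟩
    · exact mul_le_mul_of_nonneg_left (hlt a).le (sq_nonneg _)
    · exact mul_lt_mul_of_pos_left (hlt a0) (by positivity)

/-! ### (XI): rotating the spike direction to `e0` -/

theorem goeV_below_spike (v : ℝ≥0) (n : ℕ) (θ z : ℝ) (ξ : Vec n) :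
    goeV v n {J | Below (J + spike θ ξ) z}
      = goeV v n {J | Below (J + spike (θ * nrm2 ξ) (e0 n)) z} := by
  rcases Nat.eq_zero_or_pos n with rfl | hn
  · have e : {J : Mat 0 | Below (J + spike θ ξ) z}
        = {J : Mat 0 | Below (J + spike (θ * nrm2 ξ) (e0 0)) z} := by
      ext J
      simp only [Set.mem_ofPred_eq]
      constructor <;> intro _ w hw <;> exact absurd (Subsingleton.elim w 0) hw
    rw [e]
  · have hnn := nrm2_nonneg ξ
    obtain ⟨O, hO, hOξ⟩ := exists_orth ξ (Real.sqrt (nrm2 ξ) • e0 n) (by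
      rw [bl_nrm2_smul, Real.sq_sqrt hnn, nrm2_e0 n hn, mul_one])
    have hS := measurableSet_below_spike_left (θ * nrm2 ξ) z (e0 n)
    conv_rhs => rw [← goeV_conj v n hO]
    rw [Measure.map_apply (measurable_cj O) hS]
    congr 1
    ext J
    simp only [Set.mem_ofPred_eq, Set.mem_preimage]
    have e : cj O J + spike (θ * nrm2 ξ) (e0 n) = cj O (J + spike θ ξ) := by
      rw [cj_add, cj_spike, hOξ, spike_smul, Real.sq_sqrt hnn]
    rw [e, below_cj hO]

end

end Claimed.Agent.R133
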