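/-
Row 133 / S0266, module E2: finite sums over the cube.
-/
import Claimed.Agent.R133.Avg

set_option autoImplicit false

namespace Claimed.Agent.R133

open Claims.C0228.CriticalSK MeasureTheory ProbabilityTheory Filter
open scoped BigOperators NNReal ENNReal Matrix

variable {n : ℕ}

/-- `∑_i τ_i` -/
noncomputable def msum (τ : Spin n) : ℝ := ∑ i, spinValue (τ i)

theorem cube_abs_spinValue (b : Bool) : |spinValue b| = 1 := by
  unfold spinValue
  split_ifs <;> simp

theorem abs_msum_le (τ : Spin n) : |msum τ| ≤ n := by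
  unfold msum
  refine (Finset.abs_sum_le_sum_abs _ _).trans ?_
  simp [cube_abs_spinValue]

/-- sum over the cube of a product = product of the two-term sums -/
theorem cube_sum_prod (f : Fin n → Bool → ℝ) :
    ∑ τ : Spin n, ∏ i, f i (τ i) = ∏ i, (f i true + f i false) := by
  have h := Finset.prod_univ_sum (fun _ : Fin n => (Finset.univ : Finset Bool)) f
  rw [Fintype.piFinset_univ] at h
  rw [← h]
  refine Finset.prod_congr rfl fun i _ => ?_
  simp

/-- `∑_τ exp(D ∑ τ_i) = (2 cosh D)^n` -/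
theorem sum_exp_msum (D : ℝ) : ∑ τ : Spin n, Real.exp (D * msum τ) = (2 * Real.cosh D) ^ n := by
  have h1 : ∀ τ : Spin n, Real.exp (D * msum τ) = ∏ i, Real.exp (D * spinValue (τ i)) := by
    intro τ
    rw [← Real.exp_sum, msum, Finset.mul_sum]
  simp_rw [h1]
  rw [cube_sum_prod (fun _ b => Real.exp (D * spinValue b))]
  simp only [spinValue, if_true, Bool.false_eq_true, if_false, Finset.prod_const,
    Finset.card_univ, Fintype.card_fin]
  congr 1
  rw [Real.cosh_eq]
  ring_nf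

/-- `∑_y exp(D x·y) = (2 cosh D)^n` for every `x` in the cube -/
theorem sum_exp_dot (D : ℝ) (x : Spin n) :
    ∑ y : Spin n, Real.exp (D * (sv x ⬝ᵥ sv y)) = (2 * Real.cosh D) ^ n := by
  have h1 : ∀ y : Spin n, Real.exp (D * (sv x ⬝ᵥ sv y))
      = ∏ i, Real.exp (D * (spinValue (x i) * spinValue (y i))) := by
    intro y
    rw [← Real.exp_sum, dotProduct, Finset.mul_sum]
    rfl
  simp_rw [h1]
  rw [cube_sum_prod (fun i b => Real.exp (D * (spinValue (x i) * spinValue b)))]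
  have h2 : ∀ i, Real.exp (D * (spinValue (x i) * spinValue true))
      + Real.exp (D * (spinValue (x i) * spinValue false)) = 2 * Real.cosh D := by
    intro i
    rw [Real.cosh_eq]
    unfold spinValue
    cases x i <;> simp <;> ring
  simp_rw [h2]
  simp

theorem ovl_sv (hn : 0 < n) (x y : Spin n) : ovl (sv x) (sv y) = (sv x ⬝ᵥ sv y) / n := by
  unfold ovl
  rw [nrm2_sv, nrm2_sv, Real.sqrt_mul_self (Nat.cast_nonneg n)]

theorem sv_ne_zero (hn : 0 < n) (x : Spin n) : sv x ≠ 0 := by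
  intro h
  have h1 := nrm2_sv x
  rw [h] at h1
  have h2 : nrm2 (0 : Vec n) = 0 := by simp [nrm2]
  rw [h2] at h1
  have : (n : ℝ) ≠ 0 := by exact_mod_cast hn.ne'
  exact this h1.symm

/-- `msum τ` is an integer -/
theorem cube_msum_int (τ : Spin n) : ∃ j : ℤ, msum τ = j := by
  refine ⟨∑ i, (if τ i then 1 else -1), ?_⟩
  unfold msum spinValue
  push_cast
  rfl

/-- `2^{-n} ∑_τ exp(n m(τ)²/2) ≤ 2n+1`:  `exp(n m²/2) = exp(n l m - n l²/2)` at `l = m`, which is one of the
`2n+1` grid points `l = j/n`, `|j| ≤ n`;  `2^{-n} ∑_τ exp(l ∑τ_i) = cosh(l)^n ≤ exp(n l²/2)`. -/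
theorem cube_exp_sq (hn : 0 < n) :
    ∑ τ : Spin n, Real.exp (msum τ ^ 2 / (2 * n)) ≤ (2 * n + 1) * 2 ^ n := by
  have hn' : (0 : ℝ) < n := by exact_mod_cast hn
  have h1 : ∀ τ : Spin n, Real.exp (msum τ ^ 2 / (2 * n))
      ≤ ∑ j ∈ Finset.Icc (-(n : ℤ)) n,
        Real.exp (((j : ℝ) / n) * msum τ) * Real.exp (-((j : ℝ) ^ 2 / (2 * n))) := by
    intro τ
    obtain ⟨j, hj⟩ := cube_msum_int τ
    have hab := abs_msum_le τ
    rw [hj] at hab
    have hmem : j ∈ Finset.Icc (-(n : ℤ)) n := by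
      rw [Finset.mem_Icc]
      have h2 := abs_le.1 hab
      constructor
      · have : (-(n : ℤ) : ℝ) ≤ (j : ℝ) := by push_cast; exact h2.1
        exact_mod_cast this
      · have : (j : ℝ) ≤ ((n : ℤ) : ℝ) := by push_cast; exact h2.2
        exact_mod_cast this
    have h3 : Real.exp (msum τ ^ 2 / (2 * n))
        = Real.exp (((j : ℝ) / n) * msum τ) * Real.exp (-((j : ℝ) ^ 2 / (2 * n))) := by
      rw [← Real.exp_add, hj]
      congr 1
      field_simp
      ring
    rw [h3]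
    exact Finset.single_le_sum
      (f := fun j : ℤ => Real.exp (((j : ℝ) / n) * msum τ) * Real.exp (-((j : ℝ) ^ 2 / (2 * n))))
      (fun i _ => by positivity) hmem
  refine (Finset.sum_le_sum fun τ _ => h1 τ).trans ?_
  rw [Finset.sum_comm]
  have h4 : ∀ j : ℤ, ∑ τ : Spin n,
      Real.exp (((j : ℝ) / n) * msum τ) * Real.exp (-((j : ℝ) ^ 2 / (2 * n))) ≤ 2 ^ n := by
    intro j
    rw [← Finset.sum_mul, sum_exp_msum, mul_pow]
    have h5 : Real.cosh ((j : ℝ) / n) ^ n ≤ Real.exp ((j : ℝ) ^ 2 / (2 * n)) := by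
      calc Real.cosh ((j : ℝ) / n) ^ n ≤ Real.exp (((j : ℝ) / n) ^ 2 / 2) ^ n :=
            pow_le_pow_left₀ (Real.cosh_pos _).le (Real.cosh_le_exp_half_sq _) n
        _ = Real.exp ((j : ℝ) ^ 2 / (2 * n)) := by
            rw [← Real.exp_nat_mul]
            congr 1
            field_simp
    calc 2 ^ n * Real.cosh ((j : ℝ) / n) ^ n * Real.exp (-((j : ℝ) ^ 2 / (2 * n)))
        ≤ 2 ^ n * Real.exp ((j : ℝ) ^ 2 / (2 * n)) * Real.exp (-((j : ℝ) ^ 2 / (2 * n))) := by
          gcongr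
      _ = 2 ^ n := by
          rw [mul_assoc, ← Real.exp_add, add_neg_cancel, Real.exp_zero, mul_one]
  refine (Finset.sum_le_sum fun j _ => h4 j).trans ?_
  rw [Finset.sum_const, Int.card_Icc, nsmul_eq_mul]
  have h6 : ((n : ℤ) + 1 - -(n : ℤ)).toNat = 2 * n + 1 := by omega
  rw [h6]
  push_cast
  exact le_rfl

end Claimed.Agent.R133
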