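/-
Row 133 / S0266, module A1: abstract facts on reversible matrices on a finite set.
(No SK model here.)  Blueprint section 0(A).
-/
import Claimed.Agent.R133.Basic

set_option autoImplicit false

namespace Claimed.Agent.R133

open scoped BigOperators Matrix

variable {X : Type*} [Fintype X] [DecidableEq X]

/-- `A` is reversible (detailed balance) with respect to the weights `π` -/
def Rev (π : X → ℝ) (A : Matrix X X ℝ) : Prop := ∀ x y, π x * A x y = π y * A y x

/-- inner product of `L²(π)` -/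
def ipi (π : X → ℝ) (f g : X → ℝ) : ℝ := ∑ x, π x * f x * g x

set_option backward.isDefEq.respectTransparency false in
/-- the exponential series of a real matrix -/
theorem dynAbs_hasSum_exp (A : Matrix X X ℝ) :
    HasSum (fun k : ℕ => ((k.factorial : ℝ)⁻¹) • A ^ k) (NormedSpace.exp A) :=
  open scoped Matrix.Norms.Operator in NormedSpace.exp_series_hasSum_exp' (𝕂 := ℝ) A

/-- the exponential series, entrywise -/
theorem dynAbs_hasSum_exp_entry (A : Matrix X X ℝ) (x y : X) :
    HasSum (fun k : ℕ => ((k.factorial : ℝ)⁻¹) * (A ^ k) x y) ((NormedSpace.exp A) x y) := by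
  have h := dynAbs_hasSum_exp A
  have h1 := (Pi.hasSum.1 h) x
  have h2 := (Pi.hasSum.1 h1) y
  simpa using h2

theorem dynAbs_pow_entries_nonneg (A : Matrix X X ℝ) (hA : ∀ x y, 0 ≤ A x y) (k : ℕ) (x y : X) :
    0 ≤ (A ^ k) x y := by
  induction k generalizing x y with
  | zero =>
    rw [pow_zero, Matrix.one_apply]
    split_ifs <;> norm_num
  | succ k ih =>
    rw [pow_succ, Matrix.mul_apply]
    exact Finset.sum_nonneg fun z _ => mul_nonneg (ih x z) (hA z y)

theorem exp_entries_nonneg (A : Matrix X X ℝ) (hA : ∀ x y, 0 ≤ A x y) (x y : X) :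
    0 ≤ (NormedSpace.exp A) x y :=
  (dynAbs_hasSum_exp_entry A x y).nonneg fun k =>
    mul_nonneg (by positivity) (dynAbs_pow_entries_nonneg A hA k x y)

/-- `exp (A - c) = e^{-c} exp A ≥ 0` entrywise -/
theorem exp_sub_entries_nonneg (A : Matrix X X ℝ) (hA : ∀ x y, 0 ≤ A x y) (c : ℝ) (x y : X) :
    0 ≤ (NormedSpace.exp (A - c • (1 : Matrix X X ℝ))) x y := by
  have hcomm : Commute A (-(c • (1 : Matrix X X ℝ))) := by
    apply Commute.neg_right
    exact (Commute.one_right A).smul_right c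
  have hdiag : -(c • (1 : Matrix X X ℝ)) = Matrix.diagonal (fun _ : X => -c) := by
    ext i j
    by_cases h : i = j <;> simp [h]
  rw [sub_eq_add_neg, Matrix.exp_add_of_commute _ _ hcomm, hdiag, Matrix.exp_diagonal,
    Matrix.mul_diagonal]
  refine mul_nonneg (exp_entries_nonneg A hA x y) ?_
  rw [Pi.coe_exp, ← Real.exp_eq_exp_ℝ]
  exact (Real.exp_pos _).le

theorem dynAbs_pow_row_sum (L : Matrix X X ℝ) (hL : ∀ x, ∑ y, L x y = 0) (k : ℕ) (x : X) :
    ∑ y, (L ^ (k + 1)) x y = 0 := by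
  simp_rw [pow_succ, Matrix.mul_apply]
  rw [Finset.sum_comm]
  simp_rw [← Finset.mul_sum, hL]
  simp

theorem exp_row_sum (L : Matrix X X ℝ) (hL : ∀ x, ∑ y, L x y = 0) (x : X) :
    ∑ y, (NormedSpace.exp L) x y = 1 := by
  have h : HasSum (fun k : ℕ => ∑ y, ((k.factorial : ℝ)⁻¹) * (L ^ k) x y)
      (∑ y, (NormedSpace.exp L) x y) :=
    hasSum_sum fun y _ => dynAbs_hasSum_exp_entry L x y
  have h1 : HasSum (fun k : ℕ => ∑ y, ((k.factorial : ℝ)⁻¹) * (L ^ k) x y) 1 := by
    have := hasSum_single (f := fun k : ℕ => ∑ y, ((k.factorial : ℝ)⁻¹) * (L ^ k) x y) 0 (by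
      intro k hk
      obtain ⟨m, rfl⟩ := Nat.exists_eq_succ_of_ne_zero hk
      rw [← Finset.mul_sum, dynAbs_pow_row_sum L hL m x, mul_zero])
    simpa [Matrix.one_apply] using this
  exact h.unique h1

theorem rev_pow (π : X → ℝ) (P : Matrix X X ℝ) (hP : Rev π P) (k : ℕ) : Rev π (P ^ k) := by
  induction k with
  | zero =>
    intro x y
    rw [pow_zero, Matrix.one_apply, Matrix.one_apply]
    by_cases h : x = y
    · subst h; rfl
    · simp [h, Ne.symm h]
  | succ k ih =>
    intro x y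
    rw [pow_succ, Matrix.mul_apply, ← pow_succ, pow_succ', Matrix.mul_apply, Finset.mul_sum,
      Finset.mul_sum]
    refine Finset.sum_congr rfl fun z _ => ?_
    calc π x * ((P ^ k) x z * P z y) = (π x * (P ^ k) x z) * P z y := by ring
      _ = (π z * (P ^ k) z x) * P z y := by rw [ih x z]
      _ = (π z * P z y) * (P ^ k) z x := by ring
      _ = (π y * P y z) * (P ^ k) z x := by rw [hP z y]
      _ = π y * (P y z * (P ^ k) z x) := by ring

theorem rev_exp (π : X → ℝ) (hπ : ∀ x, 0 < π x) (L : Matrix X X ℝ) (hL : Rev π L) :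
    Rev π (NormedSpace.exp L) := by
  intro x y
  have h1 := (dynAbs_hasSum_exp_entry L x y).mul_left (π x)
  have h2 := (dynAbs_hasSum_exp_entry L y x).mul_left (π y)
  refine h1.unique ?_
  convert h2 using 2 with k
  have := rev_pow π L hL k x y
  calc π x * ((k.factorial : ℝ)⁻¹ * (L ^ k) x y) = (k.factorial : ℝ)⁻¹ * (π x * (L ^ k) x y) := by
        ring
    _ = (k.factorial : ℝ)⁻¹ * (π y * (L ^ k) y x) := by rw [this]
    _ = _ := by ring

/-- Dirichlet form identity for a reversible matrix with row sums one. -/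
theorem dirichlet_identity (π : X → ℝ) (Q : Matrix X X ℝ) (hQ : Rev π Q)
    (hrow : ∀ x, ∑ y, Q x y = 1) (f : X → ℝ) :
    ∑ x, ∑ y, π x * Q x y * (f y - f x) ^ 2 = 2 * ipi π f (f - Q *ᵥ f) := by
  have hA : ∑ x, ∑ y, π x * Q x y * f x ^ 2 = ∑ x, π x * f x ^ 2 := by
    refine Finset.sum_congr rfl fun x _ => ?_
    calc ∑ y, π x * Q x y * f x ^ 2 = π x * f x ^ 2 * ∑ y, Q x y := by
          rw [Finset.mul_sum]
          exact Finset.sum_congr rfl fun y _ => by ring
      _ = _ := by rw [hrow, mul_one]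
  have hB : ∑ x, ∑ y, π x * Q x y * f y ^ 2 = ∑ x, π x * f x ^ 2 := by
    rw [Finset.sum_comm, ← hA]
    refine Finset.sum_congr rfl fun y _ => Finset.sum_congr rfl fun x _ => ?_
    rw [hQ x y]
  have hC : ipi π f (f - Q *ᵥ f) = ∑ x, π x * f x ^ 2 - ∑ x, ∑ y, π x * Q x y * (f x * f y) := by
    unfold ipi
    rw [← Finset.sum_sub_distrib]
    refine Finset.sum_congr rfl fun x _ => ?_
    rw [Pi.sub_apply, Matrix.mulVec, dotProduct, mul_sub, Finset.mul_sum]
    congr 1
    · ring
    · exact Finset.sum_congr rfl fun y _ => by ring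
  have hD : ∑ x, ∑ y, π x * Q x y * (f y - f x) ^ 2
      = ∑ x, ∑ y, π x * Q x y * f y ^ 2 + ∑ x, ∑ y, π x * Q x y * f x ^ 2
        - 2 * ∑ x, ∑ y, π x * Q x y * (f x * f y) := by
    rw [Finset.mul_sum, ← Finset.sum_add_distrib, ← Finset.sum_sub_distrib]
    refine Finset.sum_congr rfl fun x _ => ?_
    rw [Finset.mul_sum, ← Finset.sum_add_distrib, ← Finset.sum_sub_distrib]
    exact Finset.sum_congr rfl fun y _ => by ring
  rw [hD, hA, hB, hC]
  ring

end Claimed.Agent.R133
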