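/-
Row 133 / S0266, module A1 (escape lemma).  Blueprint section 0(A).
-/
import Claimed.Agent.R133.DynAbs

set_option autoImplicit false

namespace Claimed.Agent.R133

open scoped BigOperators Matrix

variable {X : Type*} [Fintype X] [DecidableEq X]

theorem esc_nrm2_nonneg {m : ℕ} (v : Vec m) : 0 ≤ nrm2 v := by
  unfold nrm2 dotProduct
  exact Finset.sum_nonneg fun i _ => mul_self_nonneg (v i)

theorem esc_nrm2_sub {m : ℕ} (a b : Vec m) : nrm2 (a - b) = nrm2 a + nrm2 b - 2 * (b ⬝ᵥ a) := by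
  unfold nrm2
  rw [sub_dotProduct, dotProduct_sub, dotProduct_sub, dotProduct_comm a b]
  ring

/-- a set which is mapped into its complement by a measure preserving involution has mass `≤ 1/2`. -/
theorem esc_half (π : X → ℝ) (hπ : ∀ x, 0 < π x) (hsum : ∑ x, π x = 1) (σ : X → X)
    (hσ : Function.Involutive σ) (hσπ : ∀ x, π (σ x) = π x) (A : Finset X)
    (hA : ∀ y ∈ A, σ y ∉ A) : ∑ y ∈ A, π y ≤ 1 / 2 := by
  have h1 : ∑ z ∈ A.image σ, π z = ∑ y ∈ A, π y := by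
    rw [Finset.sum_image (fun a _ b _ h => hσ.injective h)]
    exact Finset.sum_congr rfl fun y _ => hσπ y
  have h2 : Disjoint A (A.image σ) := by
    rw [Finset.disjoint_left]
    intro y hy hy'
    obtain ⟨z, hz, rfl⟩ := Finset.mem_image.1 hy'
    exact hA z hz hy
  have h3 : ∑ y ∈ A ∪ A.image σ, π y ≤ ∑ y, π y :=
    Finset.sum_le_sum_of_subset_of_nonneg (Finset.subset_univ _) fun y _ _ => (hπ y).le
  rw [Finset.sum_union h2, h1, hsum] at h3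
  linarith

/-- a function of total sum zero: partial sums are bounded by half the `ℓ¹` norm. -/
theorem esc_tv (d : X → ℝ) (hd : ∑ y, d y = 0) (A : Finset X) :
    ∑ y ∈ A, d y ≤ (1 / 2 : ℝ) * ∑ y, |d y| := by
  have h1 : ∑ y ∈ A, d y + ∑ y ∈ Aᶜ, d y = 0 := by rw [Finset.sum_add_sum_compl, hd]
  have h2 : ∑ y ∈ A, |d y| + ∑ y ∈ Aᶜ, |d y| = ∑ y, |d y| := Finset.sum_add_sum_compl _ _
  have h3 : ∑ y ∈ A, d y ≤ ∑ y ∈ A, |d y| := Finset.sum_le_sum fun y _ => le_abs_self _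
  have h4 : -∑ y ∈ Aᶜ, d y ≤ ∑ y ∈ Aᶜ, |d y| := by
    rw [← Finset.sum_neg_distrib]
    exact Finset.sum_le_sum fun y _ => neg_le_abs _
  linarith

theorem esc_point {m : ℕ} (π : X → ℝ) (hπ : ∀ x, 0 < π x) (hsum : ∑ x, π x = 1)
    (Q : Matrix X X ℝ) (hQ0 : ∀ x y, 0 ≤ Q x y) (hrow : ∀ x, ∑ y, Q x y = 1)
    (φ : X → Vec m) (σ : X → X) (hσ : Function.Involutive σ) (hσπ : ∀ x, π (σ x) = π x)
    (hσφ : ∀ x, φ (σ x) = - φ x) (x : X) (hTV : (1 / 2 : ℝ) * ∑ y, |Q x y - π y| ≤ 1 / 4) :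
    nrm2 (φ x) / 4 ≤ ∑ y, Q x y * nrm2 (φ y - φ x) := by
  classical
  set A : Finset X := Finset.univ.filter (fun y => 0 < φ x ⬝ᵥ φ y) with hA
  have h1 : ∑ y ∈ A, π y ≤ 1 / 2 := by
    refine esc_half π hπ hsum σ hσ hσπ A fun y hy hy' => ?_
    rw [hA, Finset.mem_filter] at hy hy'
    have := hy'.2
    rw [hσφ, dotProduct_neg] at this
    linarith [hy.2]
  have h2 : ∑ y ∈ A, (Q x y - π y) ≤ (1 / 2 : ℝ) * ∑ y, |Q x y - π y| :=
    esc_tv (fun y => Q x y - π y) (by rw [Finset.sum_sub_distrib, hrow, hsum, sub_self]) A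
  rw [Finset.sum_sub_distrib] at h2
  have h3 : ∑ y ∈ A, Q x y + ∑ y ∈ Aᶜ, Q x y = 1 := by rw [Finset.sum_add_sum_compl, hrow]
  have h4 : 1 / 4 ≤ ∑ y ∈ Aᶜ, Q x y := by linarith
  have h5 : ∑ y ∈ Aᶜ, Q x y * nrm2 (φ y - φ x) ≤ ∑ y, Q x y * nrm2 (φ y - φ x) :=
    Finset.sum_le_sum_of_subset_of_nonneg (Finset.subset_univ _)
      fun y _ _ => mul_nonneg (hQ0 x y) (esc_nrm2_nonneg _)
  have h6 : ∑ y ∈ Aᶜ, Q x y * nrm2 (φ x) ≤ ∑ y ∈ Aᶜ, Q x y * nrm2 (φ y - φ x) := by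
    refine Finset.sum_le_sum fun y hy => mul_le_mul_of_nonneg_left ?_ (hQ0 x y)
    have hy' : ¬ 0 < φ x ⬝ᵥ φ y := by
      intro h
      rw [Finset.mem_compl, hA, Finset.mem_filter] at hy
      exact hy ⟨Finset.mem_univ _, h⟩
    rw [esc_nrm2_sub]
    have := esc_nrm2_nonneg (φ y)
    linarith
  rw [← Finset.sum_mul] at h6
  have h7 : 1 / 4 * nrm2 (φ x) ≤ (∑ y ∈ Aᶜ, Q x y) * nrm2 (φ x) :=
    mul_le_mul_of_nonneg_right h4 (esc_nrm2_nonneg _)
  linarith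

/-- ESCAPE LEMMA.  `Q` a `π`-reversible stochastic matrix, `φ : X → ℝ^m` odd under a `π`-preserving
involution.  If the row `Q x` is within total variation `1/4` of `π`, then `Q x` gives mass `≥ 1/4` to
`{y : ⟨φ x, φ y⟩ ≤ 0}` (whose complement has `π`-mass `≤ 1/2`), where `|φ y - φ x|² ≥ |φ x|²`. -/
theorem escape_lemma {m : ℕ} (π : X → ℝ) (hπ : ∀ x, 0 < π x) (hsum : ∑ x, π x = 1)
    (Q : Matrix X X ℝ) (hQ0 : ∀ x y, 0 ≤ Q x y) (hrow : ∀ x, ∑ y, Q x y = 1)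
    (φ : X → Vec m) (σ : X → X) (hσ : Function.Involutive σ) (hσπ : ∀ x, π (σ x) = π x)
    (hσφ : ∀ x, φ (σ x) = - φ x) (s : ℝ) (hs : 0 < s) :
    (∑ x, if (1 / 2 : ℝ) * ∑ y, |Q x y - π y| ≤ 1 / 4 then π x else 0) ≤
      (∑ x, if nrm2 (φ x) ≤ s then π x else 0) +
        4 / s * ∑ x, ∑ y, π x * Q x y * nrm2 (φ y - φ x) := by
  rw [Finset.mul_sum, ← Finset.sum_add_distrib]
  refine Finset.sum_le_sum fun x _ => ?_
  have hnn : 0 ≤ 4 / s * ∑ y, π x * Q x y * nrm2 (φ y - φ x) :=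
    mul_nonneg (by positivity) (Finset.sum_nonneg fun y _ =>
      mul_nonneg (mul_nonneg (hπ x).le (hQ0 x y)) (esc_nrm2_nonneg _))
  by_cases hTV : (1 / 2 : ℝ) * ∑ y, |Q x y - π y| ≤ 1 / 4
  · rw [if_pos hTV]
    by_cases hx : nrm2 (φ x) ≤ s
    · rw [if_pos hx]
      linarith
    · rw [if_neg hx, zero_add]
      have h1 := esc_point π hπ hsum Q hQ0 hrow φ σ hσ hσπ hσφ x hTV
      have h2 : ∑ y, π x * Q x y * nrm2 (φ y - φ x) = π x * ∑ y, Q x y * nrm2 (φ y - φ x) := by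
        rw [Finset.mul_sum]
        exact Finset.sum_congr rfl fun y _ => by ring
      rw [h2]
      have h3 : s / 4 ≤ ∑ y, Q x y * nrm2 (φ y - φ x) := by
        have := not_le.1 hx
        linarith
      have h4 : π x * (s / 4) ≤ π x * ∑ y, Q x y * nrm2 (φ y - φ x) :=
        mul_le_mul_of_nonneg_left h3 (hπ x).le
      have h5 : 4 / s * (π x * (s / 4)) = π x := by
        field_simp
      calc π x = 4 / s * (π x * (s / 4)) := h5.symm
        _ ≤ 4 / s * (π x * ∑ y, Q x y * nrm2 (φ y - φ x)) :=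
          mul_le_mul_of_nonneg_left h4 (by positivity)
  · rw [if_neg hTV]
    have : 0 ≤ (if nrm2 (φ x) ≤ s then π x else 0) := by
      split_ifs
      · exact (hπ x).le
      · exact le_rfl
    linarith

end Claimed.Agent.R133
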