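/-
Row 133 / S0266, module A2: the Glauber kernels of the SK model.  Blueprint section 0(A).
-/
import Claimed.Agent.R133.DynAbs

set_option autoImplicit false

namespace Claimed.Agent.R133

open Claims.C0228.CriticalSK
open scoped BigOperators Matrix

theorem sk_partition_pos {n : ℕ} (W : Disorder n) : 0 < partition W := by
  unfold partition
  exact Finset.sum_pos (fun x _ => Real.exp_pos _) Finset.univ_nonempty

theorem gibbs_pos' {n : ℕ} (W : Disorder n) (x : Spin n) : 0 < gibbs W x := by
  unfold gibbs
  exact div_pos (Real.exp_pos _) (sk_partition_pos W)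

theorem sum_gibbs {n : ℕ} (W : Disorder n) : ∑ x : Spin n, gibbs W x = 1 := by
  unfold gibbs
  rw [← Finset.sum_div]
  exact div_self (sk_partition_pos W).ne'

/-- global spin flip -/
def gflip {n : ℕ} (x : Spin n) : Spin n := fun i => !(x i)

theorem gflip_involutive {n : ℕ} : Function.Involutive (gflip (n := n)) := by
  intro x
  funext i
  simp [gflip]

theorem sk_spinValue_not (b : Bool) : spinValue (!b) = - spinValue b := by
  cases b <;> simp [spinValue]

theorem gibbs_gflip {n : ℕ} (W : Disorder n) (x : Spin n) : gibbs W (gflip x) = gibbs W x := by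
  have h : hamiltonian W (gflip x) = hamiltonian W x := by
    unfold hamiltonian
    refine Finset.sum_congr rfl fun e _ => ?_
    simp only [gflip, sk_spinValue_not]
    ring
  unfold gibbs
  rw [h]

theorem sv_gflip {n : ℕ} (x : Spin n) : sv (gflip x) = - sv x := by
  funext i
  simp [sv, gflip, sk_spinValue_not]

/-! ### `sameExcept i` is an equivalence relation -/

theorem sk_same_refl {n : ℕ} (i : Fin n) (x : Spin n) : sameExcept i x x := fun _ _ => rfl

theorem sk_same_symm {n : ℕ} {i : Fin n} {x y : Spin n} (h : sameExcept i x y) :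
    sameExcept i y x := fun j hj => (h j hj).symm

theorem sk_same_trans {n : ℕ} {i : Fin n} {x y z : Spin n} (h : sameExcept i x y)
    (h' : sameExcept i y z) : sameExcept i x z := fun j hj => (h' j hj).trans (h j hj)

theorem sk_same_iff {n : ℕ} {i : Fin n} {x y : Spin n} (h : sameExcept i x y) (z : Spin n) :
    sameExcept i x z ↔ sameExcept i y z :=
  ⟨fun h' => sk_same_trans (sk_same_symm h) h', fun h' => sk_same_trans h h'⟩

/-- the denominator of the site kernel -/
noncomputable def skDen {n : ℕ} (W : Disorder n) (i : Fin n) (x : Spin n) : ℝ :=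
  ∑ z : Spin n, if sameExcept i x z then gibbs W z else 0

theorem skDen_pos {n : ℕ} (W : Disorder n) (i : Fin n) (x : Spin n) : 0 < skDen W i x := by
  unfold skDen
  refine Finset.sum_pos' (fun z _ => ?_) ⟨x, Finset.mem_univ _, ?_⟩
  · split_ifs
    · exact (gibbs_pos' W z).le
    · exact le_rfl
  · rw [if_pos (sk_same_refl i x)]
    exact gibbs_pos' W x

theorem skDen_congr {n : ℕ} (W : Disorder n) {i : Fin n} {x y : Spin n} (h : sameExcept i x y) :
    skDen W i x = skDen W i y := by
  unfold skDen
  refine Finset.sum_congr rfl fun z _ => ?_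
  simp only [sk_same_iff h z]

theorem siteKernel_eq {n : ℕ} (W : Disorder n) (i : Fin n) (x y : Spin n) :
    siteKernel W i x y = if sameExcept i x y then gibbs W y / skDen W i x else 0 := rfl

theorem siteKernel_of_not {n : ℕ} (W : Disorder n) {i : Fin n} {x y : Spin n}
    (h : ¬ sameExcept i x y) : siteKernel W i x y = 0 := by
  rw [siteKernel_eq, if_neg h]

/-- rows of the site kernel are constant on the classes -/
theorem siteKernel_congr {n : ℕ} (W : Disorder n) {i : Fin n} {x y : Spin n}
    (h : sameExcept i x y) (z : Spin n) : siteKernel W i x z = siteKernel W i y z := by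
  rw [siteKernel_eq, siteKernel_eq, skDen_congr W h]
  simp only [sk_same_iff h z]

theorem siteKernel_nonneg {n : ℕ} (W : Disorder n) (i : Fin n) (x y : Spin n) :
    0 ≤ siteKernel W i x y := by
  rw [siteKernel_eq]
  split_ifs
  · exact div_nonneg (gibbs_pos' W y).le (skDen_pos W i x).le
  · exact le_rfl

theorem siteKernel_row_sum {n : ℕ} (W : Disorder n) (i : Fin n) (x : Spin n) :
    ∑ y, siteKernel W i x y = 1 := by
  have h : ∀ y, siteKernel W i x y
      = (if sameExcept i x y then gibbs W y else 0) / skDen W i x := by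
    intro y
    rw [siteKernel_eq]
    split_ifs
    · rfl
    · rw [zero_div]
  simp only [h]
  rw [← Finset.sum_div]
  exact div_self (skDen_pos W i x).ne'

theorem siteKernel_rev {n : ℕ} (W : Disorder n) (i : Fin n) : Rev (gibbs W) (siteKernel W i) := by
  intro x y
  by_cases h : sameExcept i x y
  · rw [siteKernel_eq, siteKernel_eq, if_pos h, if_pos (sk_same_symm h), skDen_congr W h]
    ring
  · have h' : ¬ sameExcept i y x := fun h2 => h (sk_same_symm h2)
    rw [siteKernel_of_not W h, siteKernel_of_not W h']
    ring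

/-- `K_i f` is constant on the classes -/
theorem siteKernel_mulVec_congr {n : ℕ} (W : Disorder n) {i : Fin n} {x y : Spin n}
    (h : sameExcept i x y) (f : Spin n → ℝ) :
    (siteKernel W i *ᵥ f) x = (siteKernel W i *ᵥ f) y := by
  simp only [Matrix.mulVec, dotProduct]
  exact Finset.sum_congr rfl fun z _ => by rw [siteKernel_congr W h z]

/-- `K_i g = g` for functions which are constant on the classes -/
theorem siteKernel_mulVec_of_const {n : ℕ} (W : Disorder n) (i : Fin n) (g : Spin n → ℝ)
    (hg : ∀ x y, sameExcept i x y → g x = g y) (x : Spin n) :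
    (siteKernel W i *ᵥ g) x = g x := by
  simp only [Matrix.mulVec, dotProduct]
  have h : ∀ y, siteKernel W i x y * g y = siteKernel W i x y * g x := by
    intro y
    by_cases hxy : sameExcept i x y
    · rw [hg x y hxy]
    · rw [siteKernel_of_not W hxy, zero_mul, zero_mul]
  simp only [h]
  rw [← Finset.sum_mul, siteKernel_row_sum, one_mul]

/-- `⟨f, K_i f⟩ = ⟨K_i f, K_i f⟩`. -/
theorem siteKernel_ipi_eq {n : ℕ} (W : Disorder n) (i : Fin n) (f : Spin n → ℝ) :
    ipi (gibbs W) f (siteKernel W i *ᵥ f)
      = ipi (gibbs W) (siteKernel W i *ᵥ f) (siteKernel W i *ᵥ f) := by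
  set g := siteKernel W i *ᵥ f with hg
  have hKg : ∀ y, ∑ x, siteKernel W i y x * g x = g y := fun y =>
    siteKernel_mulVec_of_const W i g (fun x y h => siteKernel_mulVec_congr W h f) y
  have hgx : ∀ x, g x = ∑ y, siteKernel W i x y * f y := fun x => rfl
  unfold ipi
  calc ∑ x, gibbs W x * f x * g x
      = ∑ y, gibbs W y * f y * ∑ x, siteKernel W i y x * g x := by
        refine Finset.sum_congr rfl fun y _ => by rw [hKg y]
    _ = ∑ y, ∑ x, gibbs W x * siteKernel W i x y * g x * f y := by
        refine Finset.sum_congr rfl fun y _ => ?_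
        rw [Finset.mul_sum]
        refine Finset.sum_congr rfl fun x _ => ?_
        have := siteKernel_rev W i x y
        calc gibbs W y * f y * (siteKernel W i y x * g x)
            = (gibbs W y * siteKernel W i y x) * g x * f y := by ring
          _ = _ := by rw [← this]
    _ = ∑ x, ∑ y, gibbs W x * siteKernel W i x y * g x * f y := Finset.sum_comm
    _ = ∑ x, gibbs W x * g x * g x := by
        refine Finset.sum_congr rfl fun x _ => ?_
        conv_rhs => rw [hgx x, Finset.mul_sum]
        refine Finset.sum_congr rfl fun y _ => ?_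
        rw [← hgx x]
        ring

/-- `K_i` is a `π`-orthogonal projection, in particular `0 ≤ ⟨f, K_i f⟩_π`. -/
theorem siteKernel_psd {n : ℕ} (W : Disorder n) (i : Fin n) (f : Spin n → ℝ) :
    0 ≤ ipi (gibbs W) f (siteKernel W i *ᵥ f) := by
  rw [siteKernel_ipi_eq]
  unfold ipi
  refine Finset.sum_nonneg fun x _ => ?_
  rw [mul_assoc]
  exact mul_nonneg (gibbs_pos' W x).le (mul_self_nonneg _)

theorem sk_spinValue_sq (b : Bool) : spinValue b * spinValue b = 1 := by
  cases b <;> simp [spinValue]

/-- Dirichlet form of a linear observable `f(x) = ∑_j b_j x_j` for the site `i`: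
`⟨f,(1-K_i)f⟩_π = 2 b_i² ∑_x π(x)π(x^i)/(π(x)+π(x^i)) ≤ b_i²`. -/
theorem siteKernel_dirichlet_le {n : ℕ} (W : Disorder n) (i : Fin n) (b : Vec n) :
    ipi (gibbs W) (fun x => b ⬝ᵥ sv x)
      ((fun x => b ⬝ᵥ sv x) - siteKernel W i *ᵥ (fun x => b ⬝ᵥ sv x)) ≤ b i ^ 2 := by
  set f : Spin n → ℝ := fun x => b ⬝ᵥ sv x with hf
  set s : Spin n → ℝ := fun x => sv x i with hs
  have h1 := dirichlet_identity (gibbs W) (siteKernel W i) (siteKernel_rev W i)
    (siteKernel_row_sum W i) f
  have h2 := dirichlet_identity (gibbs W) (siteKernel W i) (siteKernel_rev W i)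
    (siteKernel_row_sum W i) s
  have h3 : ∑ x, ∑ y, gibbs W x * siteKernel W i x y * (f y - f x) ^ 2
      = b i ^ 2 * ∑ x, ∑ y, gibbs W x * siteKernel W i x y * (s y - s x) ^ 2 := by
    rw [Finset.mul_sum]
    refine Finset.sum_congr rfl fun x _ => ?_
    rw [Finset.mul_sum]
    refine Finset.sum_congr rfl fun y _ => ?_
    by_cases hxy : sameExcept i x y
    · have : f y - f x = b i * (s y - s x) := by
        simp only [hf, hs, dotProduct]
        rw [← Finset.sum_sub_distrib, Finset.sum_eq_single i]
        · ring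
        · intro j _ hj
          simp only [sv]
          rw [hxy j hj]; ring
        · intro h; exact absurd (Finset.mem_univ i) h
      rw [this]; ring
    · rw [siteKernel_of_not W hxy]; ring
  have h4 : ipi (gibbs W) s (s - siteKernel W i *ᵥ s) ≤ 1 := by
    have a1 : ipi (gibbs W) s (s - siteKernel W i *ᵥ s)
        = ipi (gibbs W) s s - ipi (gibbs W) s (siteKernel W i *ᵥ s) := by
      unfold ipi
      rw [← Finset.sum_sub_distrib]
      refine Finset.sum_congr rfl fun x _ => ?_
      simp only [Pi.sub_apply]; ring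
    have a2 : ipi (gibbs W) s s = 1 := by
      unfold ipi
      rw [← sum_gibbs W]
      refine Finset.sum_congr rfl fun x _ => ?_
      simp only [hs, sv]
      rw [mul_assoc, sk_spinValue_sq, mul_one]
    have a3 := siteKernel_psd W i s
    rw [a1, a2]; linarith
  have h5 : 0 ≤ b i ^ 2 := sq_nonneg _
  nlinarith [h1, h2, h3, h4, h5]

end Claimed.Agent.R133
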