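/-
Row 133 / S0266, module A1 (spectral inequalities for reversible matrices).  Blueprint section 0(A).
-/
import Claimed.Agent.R133.DynAbs

set_option autoImplicit false

namespace Claimed.Agent.R133

open scoped BigOperators Matrix

variable {X : Type*} [Fintype X] [DecidableEq X]

/-- A real symmetric matrix is orthogonally diagonalisable (plain matrix form). -/
theorem spec_symm_diag (S : Matrix X X ℝ) (hS : Sᵀ = S) :
    ∃ (lam : X → ℝ) (U : Matrix X X ℝ), U * Uᵀ = 1 ∧ Uᵀ * U = 1 ∧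
      S = U * Matrix.diagonal lam * Uᵀ := by
  have hH : S.IsHermitian := by
    unfold Matrix.IsHermitian
    rw [Matrix.conjTranspose_eq_transpose_of_trivial, hS]
  refine ⟨hH.eigenvalues, (hH.eigenvectorUnitary : Matrix X X ℝ), ?_, ?_, ?_⟩
  · have := Unitary.coe_mul_star_self hH.eigenvectorUnitary
    rwa [Unitary.coe_star, Matrix.star_eq_conjTranspose,
      Matrix.conjTranspose_eq_transpose_of_trivial] at this
  · have := Unitary.coe_star_mul_self hH.eigenvectorUnitary
    rwa [Matrix.star_eq_conjTranspose, Matrix.conjTranspose_eq_transpose_of_trivial] at this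
  · have := hH.spectral_theorem
    rw [Unitary.conjStarAlgAut_apply] at this
    rw [Matrix.star_eq_conjTranspose, Matrix.conjTranspose_eq_transpose_of_trivial] at this
    simpa using this

/-- Diagonalisation of a reversible matrix, adapted to the inner product of `L²(π)`. -/
theorem spec_rev_diag (π : X → ℝ) (hπ : ∀ x, 0 < π x) (L : Matrix X X ℝ) (hL : Rev π L) :
    ∃ (lam : X → ℝ) (V W : Matrix X X ℝ), V * W = 1 ∧ W * V = 1 ∧
      L = V * Matrix.diagonal lam * W ∧
      ∀ (h : X → ℝ) (f : X → ℝ),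
        ipi π f ((V * Matrix.diagonal h * W) *ᵥ f) = ∑ k, h k * ((W *ᵥ f) k) ^ 2 := by
  set d : X → ℝ := fun x => Real.sqrt (π x) with hd
  have hd0 : ∀ x, 0 < d x := fun x => Real.sqrt_pos.mpr (hπ x)
  have hd2 : ∀ x, d x * d x = π x := fun x => Real.mul_self_sqrt (hπ x).le
  set D : Matrix X X ℝ := Matrix.diagonal d with hD
  set E : Matrix X X ℝ := Matrix.diagonal (fun x => (d x)⁻¹) with hE
  have hDE : D * E = 1 := by
    rw [hD, hE, Matrix.diagonal_mul_diagonal, ← Matrix.diagonal_one]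
    congr 1
    funext x
    exact mul_inv_cancel₀ (hd0 x).ne'
  have hED : E * D = 1 := by
    rw [hD, hE, Matrix.diagonal_mul_diagonal, ← Matrix.diagonal_one]
    congr 1
    funext x
    exact inv_mul_cancel₀ (hd0 x).ne'
  have hS : (D * L * E)ᵀ = D * L * E := by
    ext x y
    rw [Matrix.transpose_apply, hD, hE, Matrix.mul_diagonal, Matrix.mul_diagonal,
      Matrix.diagonal_mul, Matrix.diagonal_mul]
    have h1 := hL x y
    rw [← hd2 x, ← hd2 y] at h1
    have hx := (hd0 x).ne'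
    have hy := (hd0 y).ne'
    field_simp
    nlinarith [h1]
  obtain ⟨lam, U, hU1, hU2, hSU⟩ := spec_symm_diag (D * L * E) hS
  refine ⟨lam, E * U, Uᵀ * D, ?_, ?_, ?_, ?_⟩
  · calc E * U * (Uᵀ * D) = E * (U * Uᵀ) * D := by simp only [Matrix.mul_assoc]
      _ = 1 := by rw [hU1, Matrix.mul_one, hED]
  · calc Uᵀ * D * (E * U) = Uᵀ * (D * E) * U := by simp only [Matrix.mul_assoc]
      _ = 1 := by rw [hDE, Matrix.mul_one, hU2]
  · calc L = (E * D) * L * (E * D) := by rw [hED, Matrix.one_mul, Matrix.mul_one]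
      _ = E * (D * L * E) * D := by simp only [Matrix.mul_assoc]
      _ = E * (U * Matrix.diagonal lam * Uᵀ) * D := by rw [← hSU]
      _ = E * U * Matrix.diagonal lam * (Uᵀ * D) := by simp only [Matrix.mul_assoc]
  · intro h f
    have key : ∀ g : X → ℝ, ipi π f g = (D *ᵥ f) ⬝ᵥ (D *ᵥ g) := by
      intro g
      unfold ipi
      rw [hD]
      simp only [dotProduct, Matrix.mulVec_diagonal]
      refine Finset.sum_congr rfl fun x _ => ?_
      rw [← hd2 x]
      ring
    rw [key]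
    have e1 : D *ᵥ ((E * U * Matrix.diagonal h * (Uᵀ * D)) *ᵥ f)
        = U *ᵥ (Matrix.diagonal h *ᵥ ((Uᵀ * D) *ᵥ f)) := by
      rw [Matrix.mulVec_mulVec, Matrix.mulVec_mulVec, Matrix.mulVec_mulVec]
      congr 1
      calc D * (E * U * Matrix.diagonal h * (Uᵀ * D))
          = (D * E) * U * Matrix.diagonal h * (Uᵀ * D) := by simp only [Matrix.mul_assoc]
        _ = U * Matrix.diagonal h * (Uᵀ * D) := by
            rw [hDE, Matrix.one_mul]
    rw [e1, Matrix.dotProduct_mulVec, ← Matrix.mulVec_transpose, Matrix.mulVec_mulVec]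
    simp only [dotProduct, Matrix.mulVec_diagonal]
    refine Finset.sum_congr rfl fun x _ => ?_
    ring

omit [DecidableEq X] in
theorem spec_ipi_sub (π f g₁ g₂ : X → ℝ) : ipi π f (g₁ - g₂) = ipi π f g₁ - ipi π f g₂ := by
  unfold ipi
  rw [← Finset.sum_sub_distrib]
  refine Finset.sum_congr rfl fun x _ => ?_
  simp only [Pi.sub_apply]
  ring

omit [DecidableEq X] in
theorem spec_ipi_add (π f g₁ g₂ : X → ℝ) : ipi π f (g₁ + g₂) = ipi π f g₁ + ipi π f g₂ := by
  unfold ipi
  rw [← Finset.sum_add_distrib]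
  refine Finset.sum_congr rfl fun x _ => ?_
  simp only [Pi.add_apply]
  ring

omit [DecidableEq X] in
theorem spec_ipi_neg (π f g : X → ℝ) : ipi π f (-g) = - ipi π f g := by
  unfold ipi
  rw [← Finset.sum_neg_distrib]
  refine Finset.sum_congr rfl fun x _ => ?_
  simp only [Pi.neg_apply]
  ring

/-- `⟨f,(1-e^{tL})f⟩_π ≤ t ⟨f,-Lf⟩_π`.  Proof: `S = D^{1/2} L D^{-1/2}` is symmetric, diagonalise
(`Matrix.IsHermitian.spectral_theorem`, `Matrix.exp_conj`, `Matrix.exp_diagonal`), `1 - e^x ≤ -x`. -/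
theorem rev_exp_ineq (π : X → ℝ) (hπ : ∀ x, 0 < π x) (L : Matrix X X ℝ) (hL : Rev π L)
    (t : ℝ) (f : X → ℝ) :
    ipi π f (f - (NormedSpace.exp (t • L)) *ᵥ f) ≤ t * ipi π f (-(L *ᵥ f)) := by
  obtain ⟨lam, V, W, hVW, hWV, hLd, hq⟩ := spec_rev_diag π hπ L hL
  have hWinv : V⁻¹ = W := Matrix.inv_eq_right_inv hVW
  have hVu : IsUnit V := ⟨⟨V, W, hVW, hWV⟩, rfl⟩
  have hexp : NormedSpace.exp (t • L)
      = V * Matrix.diagonal (fun k => Real.exp (t * lam k)) * W := by
    have e0 : t • L = V * Matrix.diagonal (fun k => t * lam k) * V⁻¹ := by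
      rw [hWinv, hLd]
      have : Matrix.diagonal (fun k => t * lam k) = t • Matrix.diagonal lam := by
        rw [← Matrix.diagonal_smul]
        rfl
      rw [this, Matrix.mul_smul, Matrix.smul_mul]
    rw [e0, Matrix.exp_conj V _ hVu, Matrix.exp_diagonal, hWinv]
    congr 2
    congr 1
    funext k
    rw [Pi.coe_exp, Real.exp_eq_exp_ℝ]
  have l1 : ipi π f f = ∑ k, (1 : ℝ) * ((W *ᵥ f) k) ^ 2 := by
    have := hq (fun _ => (1 : ℝ)) f
    rwa [Matrix.diagonal_one, Matrix.mul_one, hVW, Matrix.one_mulVec] at this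
  have l2 := hq (fun k => Real.exp (t * lam k)) f
  have l3 := hq lam f
  rw [spec_ipi_sub, spec_ipi_neg, hexp, l1, l2, hLd, l3, ← Finset.sum_sub_distrib, ← Finset.sum_neg_distrib,
    Finset.mul_sum]
  refine Finset.sum_le_sum fun k _ => ?_
  have h0 : 0 ≤ ((W *ᵥ f) k) ^ 2 := sq_nonneg _
  have h1 : t * lam k + 1 ≤ Real.exp (t * lam k) := Real.add_one_le_exp _
  nlinarith [mul_le_mul_of_nonneg_right h1 h0]

/-- `⟨f,(1-P^k)f⟩_π ≤ k ⟨f,(1-P)f⟩_π` if the spectrum of `P` lies in `[-1,1]`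
(`1 - λ^k ≤ k (1-λ)` for `|λ| ≤ 1`). -/
theorem rev_pow_ineq (π : X → ℝ) (hπ : ∀ x, 0 < π x) (P : Matrix X X ℝ) (hP : Rev π P)
    (h1 : ∀ f : X → ℝ, 0 ≤ ipi π f (f - P *ᵥ f)) (h2 : ∀ f : X → ℝ, 0 ≤ ipi π f (f + P *ᵥ f))
    (k : ℕ) (f : X → ℝ) :
    ipi π f (f - (P ^ k) *ᵥ f) ≤ k * ipi π f (f - P *ᵥ f) := by
  obtain ⟨lam, V, W, hVW, hWV, hPd, hq⟩ := spec_rev_diag π hπ P hP
  have l1 : ∀ f : X → ℝ, ipi π f f = ∑ k, (1 : ℝ) * ((W *ᵥ f) k) ^ 2 := by
    intro f
    have := hq (fun _ => (1 : ℝ)) f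
    rwa [Matrix.diagonal_one, Matrix.mul_one, hVW, Matrix.one_mulVec] at this
  have hpow : ∀ m : ℕ, P ^ m = V * Matrix.diagonal (fun j => lam j ^ m) * W := by
    intro m
    induction m with
    | zero => simp [hVW]
    | succ m ih =>
      rw [pow_succ, ih]
      conv_lhs => rw [hPd]
      calc V * Matrix.diagonal (fun j => lam j ^ m) * W * (V * Matrix.diagonal lam * W)
          = V * (Matrix.diagonal (fun j => lam j ^ m) * (W * V) * Matrix.diagonal lam) * W := by
            simp only [Matrix.mul_assoc]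
        _ = V * Matrix.diagonal (fun j => lam j ^ (m + 1)) * W := by
            rw [hWV, Matrix.mul_one, Matrix.diagonal_mul_diagonal]
            simp only [pow_succ]
  -- the eigenvalues lie in `[-1, 1]`
  have hWe : ∀ j : X, W *ᵥ (V *ᵥ Pi.single j 1) = Pi.single j 1 := by
    intro j
    rw [Matrix.mulVec_mulVec, hWV, Matrix.one_mulVec]
  have hle : ∀ j, lam j ≤ 1 := by
    intro j
    have := h1 (V *ᵥ Pi.single j 1)
    have l3 := hq lam (V *ᵥ Pi.single j 1)
    rw [spec_ipi_sub, l1, hPd, l3, hWe, ← Finset.sum_sub_distrib] at this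
    rw [Finset.sum_eq_single j] at this
    · simp at this
      linarith
    · intro b _ hb
      simp [Pi.single_eq_of_ne hb]
    · intro h
      exact absurd (Finset.mem_univ j) h
  have hge : ∀ j, -1 ≤ lam j := by
    intro j
    have := h2 (V *ᵥ Pi.single j 1)
    have l3 := hq lam (V *ᵥ Pi.single j 1)
    rw [spec_ipi_add, l1, hPd, l3, hWe, ← Finset.sum_add_distrib] at this
    rw [Finset.sum_eq_single j] at this
    · simp at this
      linarith
    · intro b _ hb
      simp [Pi.single_eq_of_ne hb]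
    · intro h
      exact absurd (Finset.mem_univ j) h
  have hscal : ∀ (x : ℝ), -1 ≤ x → x ≤ 1 → ∀ m : ℕ, 1 - x ^ m ≤ m * (1 - x) := by
    intro x hx1 hx2 m
    induction m with
    | zero => simp
    | succ m ih =>
      have hxm : x ^ m ≤ 1 := by
        have := pow_le_one₀ (abs_nonneg x) (abs_le.mpr ⟨hx1, hx2⟩) (n := m)
        rw [← abs_pow] at this
        exact (le_abs_self _).trans this
      have hm : (0 : ℝ) ≤ m := Nat.cast_nonneg m
      push_cast
      rw [pow_succ]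
      rcases le_total 0 x with h0 | h0
      · nlinarith
      · nlinarith
  have l2 := hq (fun j => lam j ^ k) f
  have l3 := hq lam f
  rw [spec_ipi_sub, spec_ipi_sub, hpow k, l1, l2]
  conv_rhs => rw [hPd, l3]
  rw [← Finset.sum_sub_distrib, ← Finset.sum_sub_distrib, Finset.mul_sum]
  refine Finset.sum_le_sum fun j _ => ?_
  have h0 : 0 ≤ ((W *ᵥ f) j) ^ 2 := sq_nonneg _
  have := mul_le_mul_of_nonneg_right (hscal (lam j) (hge j) (hle j) k) h0
  nlinarith [this]

end Claimed.Agent.R133
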