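/-
Row 133 / S0266, module A (dynamics, deterministic in the disorder).  Blueprint section 0(A).
-/
import Claimed.Agent.R133.DynSpec
import Claimed.Agent.R133.DynEsc
import Claimed.Agent.R133.DynSK

set_option autoImplicit false
set_option linter.unusedSectionVars false

namespace Claimed.Agent.R133

open Claims.C0228.CriticalSK MeasureTheory ProbabilityTheory Filter
open scoped BigOperators Topology NNReal ENNReal Matrix

/-! ### auxiliary facts on `ipi`, `Rev` -/

section aux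
variable {X : Type*} [Fintype X] [DecidableEq X]

theorem dyn_ipi_sum {ι : Type*} (π : X → ℝ) (f : X → ℝ) (s : Finset ι) (g : ι → X → ℝ) :
    ipi π f (∑ i ∈ s, g i) = ∑ i ∈ s, ipi π f (g i) := by
  simp only [ipi, Finset.sum_apply, Finset.mul_sum]
  rw [Finset.sum_comm]

theorem dyn_ipi_smul (π : X → ℝ) (f g : X → ℝ) (c : ℝ) : ipi π f (c • g) = c * ipi π f g := by
  simp only [ipi, Pi.smul_apply, smul_eq_mul, Finset.mul_sum]
  exact Finset.sum_congr rfl fun x _ => by ring

theorem dyn_ipi_add (π : X → ℝ) (f g h : X → ℝ) : ipi π f (g + h) = ipi π f g + ipi π f h := by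
  simp only [ipi, Pi.add_apply, ← Finset.sum_add_distrib]
  exact Finset.sum_congr rfl fun x _ => by ring

theorem dyn_ipi_self_nonneg (π : X → ℝ) (hπ : ∀ x, 0 < π x) (f : X → ℝ) : 0 ≤ ipi π f f := by
  refine Finset.sum_nonneg fun x _ => ?_
  have := (hπ x).le
  have h2 := mul_self_nonneg (f x)
  calc 0 ≤ π x * (f x * f x) := mul_nonneg this h2
    _ = π x * f x * f x := by ring

theorem dyn_rev_one (π : X → ℝ) : Rev π (1 : Matrix X X ℝ) := by
  intro x y
  by_cases h : x = y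
  · subst h; rfl
  · simp [Matrix.one_apply_ne h, Matrix.one_apply_ne (Ne.symm h)]

theorem dyn_rev_sub (π : X → ℝ) {A B : Matrix X X ℝ} (hA : Rev π A) (hB : Rev π B) :
    Rev π (A - B) := by
  intro x y
  simp only [Matrix.sub_apply, mul_sub, hA x y, hB x y]

theorem dyn_rev_smul (π : X → ℝ) {A : Matrix X X ℝ} (hA : Rev π A) (c : ℝ) : Rev π (c • A) := by
  intro x y
  simp only [Matrix.smul_apply, smul_eq_mul]
  calc π x * (c * A x y) = c * (π x * A x y) := by ring
    _ = c * (π y * A y x) := by rw [hA x y]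
    _ = π y * (c * A y x) := by ring

theorem dyn_rev_sum {ι : Type*} (π : X → ℝ) (s : Finset ι) {A : ι → Matrix X X ℝ}
    (hA : ∀ i ∈ s, Rev π (A i)) : Rev π (∑ i ∈ s, A i) := by
  intro x y
  simp only [Matrix.sum_apply, Finset.mul_sum]
  exact Finset.sum_congr rfl fun i hi => hA i hi x y

theorem dyn_pow_nonneg (P : Matrix X X ℝ) (hP : ∀ x y, 0 ≤ P x y) (k : ℕ) :
    ∀ x y, 0 ≤ (P ^ k) x y := by
  induction k with
  | zero =>
    intro x y
    rw [pow_zero, Matrix.one_apply]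
    split_ifs <;> norm_num
  | succ k ih =>
    intro x y
    rw [pow_succ, Matrix.mul_apply]
    exact Finset.sum_nonneg fun z _ => mul_nonneg (ih x z) (hP z y)

theorem dyn_pow_row_sum (P : Matrix X X ℝ) (hP : ∀ x, ∑ y, P x y = 1) (k : ℕ) :
    ∀ x, ∑ y, (P ^ k) x y = 1 := by
  induction k with
  | zero =>
    intro x
    simp [Matrix.one_apply]
  | succ k ih =>
    intro x
    simp only [pow_succ, Matrix.mul_apply]
    rw [Finset.sum_comm]
    simp only [← Finset.mul_sum, hP, mul_one, ih]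

end aux

/-! ### good mass -/

theorem dyn_sum_ite_le_one {n : ℕ} (W : Disorder n) (p : Spin n → Prop) [DecidablePred p] :
    (∑ x : Spin n, if p x then gibbs W x else 0) ≤ 1 := by
  rw [← sum_gibbs W]
  refine Finset.sum_le_sum fun x _ => ?_
  split_ifs
  · exact le_rfl
  · exact (gibbs_pos' W x).le

theorem contGoodMass_le_one {n : ℕ} (W : Disorder n) (t : ℝ) : continuousGoodMass W t ≤ 1 :=
  dyn_sum_ite_le_one W _

theorem discGoodMass_le_one {n : ℕ} (W : Disorder n) (k : ℕ) : discreteGoodMass W k ≤ 1 :=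
  dyn_sum_ite_le_one W _

theorem dyn_one_sub_sum {n : ℕ} (W : Disorder n) (d : Spin n → ℝ) :
    1 - (∑ x : Spin n, if 1 / 4 < d x then gibbs W x else 0)
      = ∑ x : Spin n, if d x ≤ 1 / 4 then gibbs W x else 0 := by
  rw [sub_eq_iff_eq_add, ← Finset.sum_add_distrib]
  refine (sum_gibbs W).symm.trans (Finset.sum_congr rfl fun x _ => ?_)
  by_cases h : d x ≤ 1 / 4
  · rw [if_pos h, if_neg (not_lt.2 h), add_zero]
  · rw [if_neg h, if_pos (not_le.1 h), zero_add]

/-! ### the core estimate -/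

theorem dyn_core {n : ℕ} (W : Disorder n) (B : Mat n) (s c : ℝ) (hs : 0 < s) (hc : 0 ≤ c)
    (Q : Matrix (Spin n) (Spin n) ℝ) (hQ0 : ∀ x y, 0 ≤ Q x y) (hrow : ∀ x, ∑ y, Q x y = 1)
    (hrev : Rev (gibbs W) Q)
    (hineq : ∀ f : Spin n → ℝ, ipi (gibbs W) f (f - Q *ᵥ f)
      ≤ c * ∑ i, ipi (gibbs W) f (f - siteKernel W i *ᵥ f)) :
    (∑ x : Spin n, if (1 / 2 : ℝ) * ∑ y, |Q x y - gibbs W y| ≤ 1 / 4 then gibbs W x else 0) ≤
      gibbsMass W {x | nrm2 (B *ᵥ sv x) ≤ s} + 8 * c * frob2 B / s := by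
  have hesc := escape_lemma (gibbs W) (gibbs_pos' W) (sum_gibbs W) Q hQ0 hrow
    (fun x => B *ᵥ sv x) gflip gflip_involutive (gibbs_gflip W)
    (fun x => by rw [sv_gflip, Matrix.mulVec_neg]) s hs
  have hmass : (∑ x : Spin n, if nrm2 (B *ᵥ sv x) ≤ s then gibbs W x else 0)
      = gibbsMass W {x | nrm2 (B *ᵥ sv x) ≤ s} := by
    unfold gibbsMass
    refine Finset.sum_congr rfl fun x _ => ?_
    by_cases h : nrm2 (B *ᵥ sv x) ≤ s
    · rw [if_pos h, if_pos (by exact h)]
    · rw [if_neg h, if_neg (by exact h)]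
  rw [hmass] at hesc
  have hk : ∀ k : Fin n, ∑ x, ∑ y, gibbs W x * Q x y *
      ((fun z => B k ⬝ᵥ sv z) y - (fun z => B k ⬝ᵥ sv z) x) ^ 2 ≤ 2 * (c * ∑ i, B k i ^ 2) := by
    intro k
    rw [dirichlet_identity (gibbs W) Q hrev hrow]
    refine mul_le_mul_of_nonneg_left ((hineq _).trans ?_) (by norm_num)
    exact mul_le_mul_of_nonneg_left
      (Finset.sum_le_sum fun i _ => siteKernel_dirichlet_le W i (B k)) hc
  have hsum : ∑ x, ∑ y, gibbs W x * Q x y * nrm2 (B *ᵥ sv y - B *ᵥ sv x)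
      = ∑ k : Fin n, ∑ x, ∑ y, gibbs W x * Q x y *
        ((fun z => B k ⬝ᵥ sv z) y - (fun z => B k ⬝ᵥ sv z) x) ^ 2 := by
    symm
    rw [Finset.sum_comm]
    refine Finset.sum_congr rfl fun x _ => ?_
    rw [Finset.sum_comm]
    refine Finset.sum_congr rfl fun y _ => ?_
    rw [← Finset.mul_sum]
    congr 1
    simp only [nrm2, dotProduct, Pi.sub_apply, Matrix.mulVec, pow_two]
  have hbound : ∑ x, ∑ y, gibbs W x * Q x y * nrm2 (B *ᵥ sv y - B *ᵥ sv x) ≤ 2 * c * frob2 B := by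
    rw [hsum]
    refine (Finset.sum_le_sum fun k _ => hk k).trans (le_of_eq ?_)
    rw [← Finset.mul_sum, ← Finset.mul_sum, frob2]
    ring
  have h4 : 4 / s * ∑ x, ∑ y, gibbs W x * Q x y * nrm2 (B *ᵥ sv y - B *ᵥ sv x)
      ≤ 8 * c * frob2 B / s := by
    calc _ ≤ 4 / s * (2 * c * frob2 B) := mul_le_mul_of_nonneg_left hbound (by positivity)
      _ = 8 * c * frob2 B / s := by ring
  linarith

/-! ### the kernels -/

theorem dyn_generator_eq {n : ℕ} (W : Disorder n) :
    generator W = (∑ i : Fin n, siteKernel W i) - (n : ℝ) • (1 : Matrix (Spin n) (Spin n) ℝ) := by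
  simp [generator, Finset.sum_sub_distrib, Nat.cast_smul_eq_nsmul]

theorem dyn_generator_rev {n : ℕ} (W : Disorder n) : Rev (gibbs W) (generator W) :=
  dyn_rev_sum _ _ fun i _ => dyn_rev_sub _ (siteKernel_rev W i) (dyn_rev_one _)

theorem dyn_generator_row {n : ℕ} (W : Disorder n) (x : Spin n) :
    ∑ y, generator W x y = 0 := by
  simp only [generator, Matrix.sum_apply, Matrix.sub_apply]
  rw [Finset.sum_comm]
  refine Finset.sum_eq_zero fun i _ => ?_
  rw [Finset.sum_sub_distrib, siteKernel_row_sum]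
  simp [Matrix.one_apply]

theorem dyn_neg_generator_mulVec {n : ℕ} (W : Disorder n) (f : Spin n → ℝ) :
    -(generator W *ᵥ f) = ∑ i : Fin n, (f - siteKernel W i *ᵥ f) := by
  simp only [generator, Matrix.sum_mulVec, Matrix.sub_mulVec, Matrix.one_mulVec]
  rw [← Finset.sum_neg_distrib]
  exact Finset.sum_congr rfl fun i _ => by abel

/-- continuous time: started from `x` with `|B x|² > s`, the chain needs time `≳ s / |B|_F²`. -/
theorem dyn_cont {n : ℕ} (W : Disorder n) (B : Mat n) (s t : ℝ) (hs : 0 < s) (ht : 0 ≤ t) :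
    1 - continuousGoodMass W t ≤
      gibbsMass W {x | nrm2 (B *ᵥ sv x) ≤ s} + 8 * t * frob2 B / s := by
  rw [continuousGoodMass, dyn_one_sub_sum]
  refine dyn_core W B s t hs ht (continuousKernel W t) ?_ ?_ ?_ ?_
  · intro x y
    have h1 : t • generator W = t • (∑ i : Fin n, siteKernel W i)
        - (t * n) • (1 : Matrix (Spin n) (Spin n) ℝ) := by
      rw [dyn_generator_eq, smul_sub, smul_smul]
    rw [continuousKernel, h1]
    refine exp_sub_entries_nonneg _ (fun a b => ?_) _ x y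
    rw [Matrix.smul_apply, Matrix.sum_apply, smul_eq_mul]
    exact mul_nonneg ht (Finset.sum_nonneg fun i _ => siteKernel_nonneg W i a b)
  · intro x
    refine exp_row_sum _ (fun a => ?_) x
    simp only [Matrix.smul_apply, smul_eq_mul, ← Finset.mul_sum, dyn_generator_row, mul_zero]
  · exact rev_exp _ (gibbs_pos' W) _ (dyn_rev_smul _ (dyn_generator_rev W) t)
  · intro f
    have h := rev_exp_ineq (gibbs W) (gibbs_pos' W) (generator W) (dyn_generator_rev W) t f
    rw [dyn_neg_generator_mulVec, dyn_ipi_sum] at h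
    exact h

theorem dyn_discrete_sub {n : ℕ} (hn : 0 < n) (W : Disorder n) (f : Spin n → ℝ) :
    f - discreteKernel W *ᵥ f = (n : ℝ)⁻¹ • ∑ i : Fin n, (f - siteKernel W i *ᵥ f) := by
  have hn' : (n : ℝ) ≠ 0 := by exact_mod_cast hn.ne'
  rw [discreteKernel, Matrix.smul_mulVec, Matrix.sum_mulVec, Finset.sum_sub_distrib, smul_sub]
  congr 1
  simp only [Finset.sum_const, Finset.card_univ, Fintype.card_fin]
  rw [← Nat.cast_smul_eq_nsmul ℝ, smul_smul, inv_mul_cancel₀ hn', one_smul]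

/-- discrete time -/
theorem dyn_disc {n : ℕ} (hn : 0 < n) (W : Disorder n) (B : Mat n) (s : ℝ) (k : ℕ) (hs : 0 < s) :
    1 - discreteGoodMass W k ≤
      gibbsMass W {x | nrm2 (B *ᵥ sv x) ≤ s} + 8 * ((k : ℝ) / n) * frob2 B / s := by
  have hn' : (0 : ℝ) < n := by exact_mod_cast hn
  have hP0 : ∀ x y, 0 ≤ discreteKernel W x y := by
    intro x y
    rw [discreteKernel, Matrix.smul_apply, Matrix.sum_apply, smul_eq_mul]
    exact mul_nonneg (by positivity) (Finset.sum_nonneg fun i _ => siteKernel_nonneg W i x y)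
  have hProw : ∀ x, ∑ y, discreteKernel W x y = 1 := by
    intro x
    simp only [discreteKernel, Matrix.smul_apply, Matrix.sum_apply, smul_eq_mul, ← Finset.mul_sum]
    rw [Finset.sum_comm]
    simp only [siteKernel_row_sum, Finset.sum_const, Finset.card_univ, Fintype.card_fin,
      nsmul_eq_mul, mul_one]
    exact inv_mul_cancel₀ hn'.ne'
  have hPrev : Rev (gibbs W) (discreteKernel W) :=
    dyn_rev_smul _ (dyn_rev_sum _ _ fun i _ => siteKernel_rev W i) _
  rw [discreteGoodMass, dyn_one_sub_sum]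
  refine dyn_core W B s ((k : ℝ) / n) hs (by positivity) (discreteKernel W ^ k)
    (dyn_pow_nonneg _ hP0 k) (dyn_pow_row_sum _ hProw k) (rev_pow _ _ hPrev k) ?_
  intro f
  have h1 : ∀ f : Spin n → ℝ, 0 ≤ ipi (gibbs W) f (f - discreteKernel W *ᵥ f) := by
    intro f
    have h := dirichlet_identity (gibbs W) (discreteKernel W) hPrev hProw f
    have h0 : 0 ≤ ∑ x, ∑ y, gibbs W x * discreteKernel W x y * (f y - f x) ^ 2 :=
      Finset.sum_nonneg fun x _ => Finset.sum_nonneg fun y _ =>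
        mul_nonneg (mul_nonneg (gibbs_pos' W x).le (hP0 x y)) (sq_nonneg _)
    linarith
  have h2 : ∀ f : Spin n → ℝ, 0 ≤ ipi (gibbs W) f (f + discreteKernel W *ᵥ f) := by
    intro f
    rw [dyn_ipi_add, discreteKernel, Matrix.smul_mulVec, Matrix.sum_mulVec, dyn_ipi_smul,
      dyn_ipi_sum]
    exact add_nonneg (dyn_ipi_self_nonneg _ (gibbs_pos' W) f)
      (mul_nonneg (by positivity) (Finset.sum_nonneg fun i _ => siteKernel_psd W i f))
  have h := rev_pow_ineq (gibbs W) (gibbs_pos' W) (discreteKernel W) hPrev h1 h2 k f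
  rw [dyn_discrete_sub hn, dyn_ipi_smul, dyn_ipi_sum] at h
  calc _ ≤ (k : ℝ) * ((n : ℝ)⁻¹ * ∑ i, ipi (gibbs W) f (f - siteKernel W i *ᵥ f)) := h
    _ = (k : ℝ) / n * ∑ i, ipi (gibbs W) f (f - siteKernel W i *ᵥ f) := by
      rw [div_eq_mul_inv]; ring

end Claimed.Agent.R133
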