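/-
Row 133 / S0266, module D6: one-dimensional standard Gaussian, explicit estimates.
-/
import Claimed.Agent.R133.LinAlg

set_option autoImplicit false

namespace Claimed.Agent.R133

open MeasureTheory ProbabilityTheory
open scoped BigOperators NNReal ENNReal

/-- integration against a nondegenerate Gaussian in terms of the density -/
theorem gauss1_lintegral (m : ℝ) (v : ℝ≥0) (hv : v ≠ 0) (G : ℝ → ℝ≥0∞) (hG : Measurable G) :
    ∫⁻ t, G t ∂(gaussianReal m v) = ∫⁻ t, gaussianPDF m v t * G t := by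
  rw [gaussianReal_of_var_ne_zero _ hv,
    lintegral_withDensity_eq_lintegral_mul _ (measurable_gaussianPDF _ _) hG]
  rfl

theorem gauss1_measurable_eexp {f : ℝ → ℝ} (hf : Measurable f) :
    Measurable (fun t => eexp (f t)) :=
  ENNReal.measurable_ofReal.comp (Real.measurable_exp.comp hf)

theorem gauss1_eexp_add (x y : ℝ) : eexp (x + y) = eexp x * eexp y := by
  unfold eexp
  rw [Real.exp_add, ENNReal.ofReal_mul (Real.exp_pos x).le]

theorem gauss1_eexp_zero : eexp 0 = 1 := by simp [eexp]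

theorem gauss1_eexp_ne_zero (x : ℝ) : eexp x ≠ 0 := by
  simp [eexp, Real.exp_pos]

theorem gauss1_eexp_ne_top (x : ℝ) : eexp x ≠ ∞ := by simp [eexp]

theorem gauss1_eexp_le {x y : ℝ} (h : x ≤ y) : eexp x ≤ eexp y :=
  ENNReal.ofReal_le_ofReal (Real.exp_le_exp.2 h)

/-- Cameron–Martin in dimension one, general variance -/
theorem gauss_tilt (v : ℝ≥0) (b : ℝ) (F : ℝ → ℝ≥0∞) (hF : Measurable F) :
    ∫⁻ t, F t * eexp (b * t) ∂(gaussianReal 0 v) =
      eexp (v * b ^ 2 / 2) * ∫⁻ t, F (t + v * b) ∂(gaussianReal 0 v) := by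
  by_cases hv : v = 0
  · subst hv
    have h1 : Measurable (fun t => F t * eexp (b * t)) :=
      hF.mul (gauss1_measurable_eexp (by fun_prop))
    have h2 : Measurable (fun t : ℝ => F (t + ((0 : ℝ≥0) : ℝ) * b)) :=
      hF.comp (by fun_prop)
    rw [gaussianReal_zero_var, lintegral_dirac' _ h1, lintegral_dirac' _ h2]
    simp [gauss1_eexp_zero]
  · have hv' : (0 : ℝ) < v := by
      have : (0 : ℝ≥0) < v := pos_iff_ne_zero.2 hv
      exact_mod_cast this
    have h1 : ∫⁻ t, F (t + v * b) ∂(gaussianReal 0 v) = ∫⁻ t, F t ∂(gaussianReal (v * b) v) := by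
      have := gaussianReal_map_add_const (μ := 0) (v := v) (v * b)
      rw [zero_add] at this
      have hm : Measurable (fun x : ℝ => x + v * b) := by fun_prop
      rw [← this, lintegral_map hF hm]
    have hm2 : Measurable (fun t => F t * eexp (b * t)) :=
      hF.mul (gauss1_measurable_eexp (by fun_prop))
    have hm3 : Measurable (fun t => gaussianPDF (v * b) v t * F t) :=
      (measurable_gaussianPDF _ _).mul hF
    rw [h1, gauss1_lintegral _ _ hv _ hF, gauss1_lintegral _ _ hv _ hm2,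
      ← lintegral_const_mul _ hm3]
    refine lintegral_congr fun t => ?_
    have key : gaussianPDF 0 v t * eexp (b * t) = eexp (v * b ^ 2 / 2) * gaussianPDF (v * b) v t := by
      unfold gaussianPDF eexp
      rw [← ENNReal.ofReal_mul (gaussianPDFReal_nonneg _ _ _),
        ← ENNReal.ofReal_mul (Real.exp_pos _).le]
      congr 1
      unfold gaussianPDFReal
      rw [mul_assoc, ← Real.exp_add, mul_left_comm, ← Real.exp_add]
      congr 2
      field_simp
      ring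
    calc gaussianPDF 0 v t * (F t * eexp (b * t))
        = (gaussianPDF 0 v t * eexp (b * t)) * F t := by ring
      _ = eexp (v * b ^ 2 / 2) * (gaussianPDF (v * b) v t * F t) := by rw [key]; ring

/-- one-sided Chernoff bound -/
theorem gauss1_tail_one (v : ℝ≥0) (hv : v ≠ 0) (a : ℝ) (ha : 0 ≤ a) (σ : ℝ) (hσ : σ ^ 2 = 1) :
    gaussianReal 0 v {t : ℝ | a < σ * t} ≤ eexp (-(a ^ 2 / (2 * v))) := by
  have hv' : (0 : ℝ) < v := by
    have : (0 : ℝ≥0) < v := pos_iff_ne_zero.2 hv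
    exact_mod_cast this
  have h1 := gauss_tilt v (σ * a / v) (fun _ => 1) measurable_const
  simp only [one_mul, lintegral_const, measure_univ, mul_one] at h1
  have h2 : eexp (a ^ 2 / v) * gaussianReal 0 v {t : ℝ | eexp (a ^ 2 / v) ≤ eexp (σ * a / v * t)} ≤
      ∫⁻ t, eexp (σ * a / v * t) ∂(gaussianReal 0 v) :=
    mul_meas_ge_le_lintegral (gauss1_measurable_eexp (by fun_prop)) _
  have h3 : {t : ℝ | a < σ * t} ⊆ {t : ℝ | eexp (a ^ 2 / v) ≤ eexp (σ * a / v * t)} := by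
    intro t ht
    refine gauss1_eexp_le ?_
    have ht' : a < σ * t := ht
    have : a ^ 2 / v = a / v * a := by ring
    have h4 : σ * a / v * t = a / v * (σ * t) := by ring
    rw [this, h4]
    exact mul_le_mul_of_nonneg_left ht'.le (div_nonneg ha hv'.le)
  have h5 : eexp (a ^ 2 / v) * gaussianReal 0 v {t : ℝ | a < σ * t} ≤
      eexp (v * (σ * a / v) ^ 2 / 2) :=
    (mul_le_mul_right (measure_mono h3) _).trans (h2.trans h1.le)
  have h6 : (v : ℝ) * (σ * a / v) ^ 2 / 2 = a ^ 2 / v + -(a ^ 2 / (2 * v)) := by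
    have : (σ * a / v) ^ 2 = σ ^ 2 * (a ^ 2 / (v : ℝ) ^ 2) := by ring
    rw [this, hσ]
    field_simp
    ring
  rw [h6, gauss1_eexp_add] at h5
  exact (ENNReal.mul_le_mul_iff_right (gauss1_eexp_ne_zero _) (gauss1_eexp_ne_top _)).1 h5

/-- tail for a general variance -/
theorem gauss_tail_var (v : ℝ≥0) (hv : v ≠ 0) (a : ℝ) (ha : 0 ≤ a) :
    gaussianReal 0 v {t : ℝ | a < |t|} ≤ 2 * eexp (-(a ^ 2 / (2 * v))) := by
  have h1 : {t : ℝ | a < |t|} ⊆ {t : ℝ | a < 1 * t} ∪ {t : ℝ | a < (-1) * t} := by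
    intro t ht
    have ht' : a < |t| := ht
    rcases lt_abs.1 ht' with h | h
    · left; show a < 1 * t; linarith
    · right; show a < (-1) * t; linarith
  calc gaussianReal 0 v {t : ℝ | a < |t|}
      ≤ gaussianReal 0 v ({t : ℝ | a < 1 * t} ∪ {t : ℝ | a < (-1) * t}) := measure_mono h1
    _ ≤ gaussianReal 0 v {t : ℝ | a < 1 * t} + gaussianReal 0 v {t : ℝ | a < (-1) * t} :=
        measure_union_le _ _
    _ ≤ eexp (-(a ^ 2 / (2 * v))) + eexp (-(a ^ 2 / (2 * v))) :=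
        add_le_add (gauss1_tail_one v hv a ha 1 (by norm_num))
          (gauss1_tail_one v hv a ha (-1) (by norm_num))
    _ = 2 * eexp (-(a ^ 2 / (2 * v))) := (two_mul _).symm

theorem gauss_tail (a : ℝ) (ha : 0 ≤ a) :
    gaussianReal 0 1 {t : ℝ | a < |t|} ≤ 2 * eexp (-(a ^ 2 / 2)) := by
  have := gauss_tail_var 1 one_ne_zero a ha
  simpa using this

/-- scaling -/
theorem gauss_map_mul (v : ℝ≥0) :
    (gaussianReal 0 1).map (fun t => Real.sqrt v * t) = gaussianReal 0 v := by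
  rw [gaussianReal_map_const_mul]
  congr 1
  · simp
  · ext
    simp

/-- change of variance in dimension one -/
theorem gauss_change_var (s : ℝ) (hs : s < 1) (F : ℝ → ℝ≥0∞) (hF : Measurable F) :
    ∫⁻ t, F t * eexp (s * t ^ 2 / 2) ∂(gaussianReal 0 1) =
      ENNReal.ofReal (1 / Real.sqrt (1 - s)) * ∫⁻ t, F (t / Real.sqrt (1 - s)) ∂(gaussianReal 0 1) := by
  have hs' : 0 < 1 - s := by linarith
  set c : ℝ := Real.sqrt (1 - s) with hc
  have hc0 : 0 < c := Real.sqrt_pos.2 hs'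
  have hc2 : c ^ 2 = 1 - s := Real.sq_sqrt hs'.le
  set w : ℝ≥0 := 1 / .mk (c ^ 2) (sq_nonneg _) with hw
  have hwr : (w : ℝ) = 1 / c ^ 2 := by
    rw [hw]; simp
  have hw0 : w ≠ 0 := by
    intro h
    have : (w : ℝ) = 0 := by rw [h]; rfl
    rw [hwr] at this
    have h2 : 0 < 1 / c ^ 2 := by positivity
    linarith
  have h1 : ∫⁻ t, F (t / c) ∂(gaussianReal 0 1) = ∫⁻ t, F t ∂(gaussianReal 0 w) := by
    have := gaussianReal_map_div_const (μ := 0) (v := 1) c
    rw [zero_div] at this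
    have hm : Measurable (fun x : ℝ => x / c) := by fun_prop
    rw [hw, ← this, lintegral_map hF hm]
  have hm2 : Measurable (fun t => F t * eexp (s * t ^ 2 / 2)) :=
    hF.mul (gauss1_measurable_eexp (by fun_prop))
  have hm3 : Measurable (fun t => gaussianPDF 0 w t * F t) :=
    (measurable_gaussianPDF _ _).mul hF
  rw [h1, gauss1_lintegral _ _ hw0 _ hF, gauss1_lintegral _ _ one_ne_zero _ hm2,
    ← lintegral_const_mul _ hm3]
  refine lintegral_congr fun t => ?_
  have key : gaussianPDF 0 1 t * eexp (s * t ^ 2 / 2) =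
      ENNReal.ofReal (1 / c) * gaussianPDF 0 w t := by
    unfold gaussianPDF eexp
    rw [← ENNReal.ofReal_mul (gaussianPDFReal_nonneg _ _ _),
      ← ENNReal.ofReal_mul (by positivity)]
    congr 1
    unfold gaussianPDFReal
    rw [mul_assoc, ← Real.exp_add, ← mul_assoc, hwr]
    congr 1
    · have h3 : (2 * Real.pi * (1 / c ^ 2) : ℝ) = (2 * Real.pi) / c ^ 2 := by ring
      rw [h3, Real.sqrt_div (by positivity), Real.sqrt_sq hc0.le]
      simp only [NNReal.coe_one, mul_one]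
      field_simp
    · congr 1
      simp only [NNReal.coe_one, mul_one, sub_zero]
      have : s = 1 - c ^ 2 := by linarith
      rw [this]
      field_simp
      ring
  calc gaussianPDF 0 1 t * (F t * eexp (s * t ^ 2 / 2))
      = (gaussianPDF 0 1 t * eexp (s * t ^ 2 / 2)) * F t := by ring
    _ = ENNReal.ofReal (1 / c) * (gaussianPDF 0 w t * F t) := by rw [key]; ring

/-- `1 ≤ (1 - x) e^{x + x²}` for `|x| ≤ 1/2` -/
theorem gauss1_log_ineq (x : ℝ) (hx : |x| ≤ 1 / 2) : 1 ≤ (1 - x) * Real.exp (x + x ^ 2) := by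
  obtain ⟨h1, h2⟩ := abs_le.1 hx
  have h3 : 0 < 1 - x := by linarith
  rcases le_total x 0 with h0 | h0
  · have h4 : x + x ^ 2 + 1 ≤ Real.exp (x + x ^ 2) := Real.add_one_le_exp _
    have h5 : (1 - x) * (x + x ^ 2 + 1) ≤ (1 - x) * Real.exp (x + x ^ 2) :=
      mul_le_mul_of_nonneg_left h4 h3.le
    have h6 : (1 - x) * (x + x ^ 2 + 1) = 1 - x ^ 3 := by ring
    have h7 : x ^ 3 ≤ 0 := by
      have : x ^ 3 = x * x ^ 2 := by ring
      rw [this]
      exact mul_nonpos_of_nonpos_of_nonneg h0 (sq_nonneg x)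
    linarith
  · have h4 : 1 + (x + x ^ 2) + (x + x ^ 2) ^ 2 / 2 ≤ Real.exp (x + x ^ 2) :=
      Real.quadratic_le_exp_of_nonneg (by positivity)
    have h5 : (1 - x) * (1 + (x + x ^ 2) + (x + x ^ 2) ^ 2 / 2) ≤ (1 - x) * Real.exp (x + x ^ 2) :=
      mul_le_mul_of_nonneg_left h4 h3.le
    have h6 : (1 - x) * (1 + (x + x ^ 2) + (x + x ^ 2) ^ 2 / 2) =
        1 + x ^ 2 / 2 * (1 - x - x ^ 2 - x ^ 3) := by ring
    have h7 : 0 ≤ 1 - x - x ^ 2 - x ^ 3 := by
      have a1 : x ^ 2 ≤ 1 / 4 := by nlinarith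
      have a2 : x ^ 3 ≤ 1 / 8 := by
        have : x ^ 3 = x * x ^ 2 := by ring
        rw [this]
        nlinarith [sq_nonneg x]
      linarith
    have h8 : 0 ≤ x ^ 2 / 2 * (1 - x - x ^ 2 - x ^ 3) := by positivity
    linarith

/-- `E exp(l (g²-1)) = e^{-l} (1-2l)^{-1/2} ≤ exp(2 l²)` for `|l| ≤ 1/4` -/
theorem gauss_sq_mgf (l : ℝ) (hl : |l| ≤ 1 / 4) :
    ∫⁻ t, eexp (l * (t ^ 2 - 1)) ∂(gaussianReal 0 1) ≤ eexp (2 * l ^ 2) := by
  obtain ⟨hl1, hl2⟩ := abs_le.1 hl
  have hs : 2 * l < 1 := by linarith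
  have h1 := gauss_change_var (2 * l) hs (fun _ => eexp (-l)) measurable_const
  simp only [lintegral_const, measure_univ, mul_one] at h1
  have h2 : ∀ t : ℝ, eexp (l * (t ^ 2 - 1)) = eexp (-l) * eexp (2 * l * t ^ 2 / 2) := by
    intro t
    rw [← gauss1_eexp_add]
    congr 1
    ring
  simp only [h2]
  rw [h1]
  unfold eexp
  rw [← ENNReal.ofReal_mul (by positivity)]
  refine ENNReal.ofReal_le_ofReal ?_
  have h3 := gauss1_log_ineq (2 * l) (by rw [abs_mul]; norm_num; linarith)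
  have h4 : 0 < 1 - 2 * l := by linarith
  have h5 : 0 < Real.sqrt (1 - 2 * l) := Real.sqrt_pos.2 h4
  rw [div_mul_eq_mul_div, one_mul, div_le_iff₀ h5]
  -- `e^{-l} ≤ e^{2 l²} √(1-2l)`
  have h6 : Real.exp (2 * l ^ 2) * Real.sqrt (1 - 2 * l) =
      Real.sqrt (Real.exp (2 * l ^ 2) ^ 2 * (1 - 2 * l)) := by
    rw [Real.sqrt_mul (by positivity), Real.sqrt_sq (Real.exp_pos _).le]
  rw [h6]
  refine Real.le_sqrt_of_sq_le ?_
  rw [← Real.exp_nat_mul, ← Real.exp_nat_mul]
  have h7 : Real.exp (2 * l + (2 * l) ^ 2) = Real.exp (((2 : ℕ) : ℝ) * (2 * l ^ 2)) *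
      Real.exp (2 * l) := by
    rw [← Real.exp_add]; congr 1; push_cast; ring
  have h8 : Real.exp (((2 : ℕ) : ℝ) * -l) * Real.exp (2 * l) = 1 := by
    rw [← Real.exp_add]; push_cast
    have : (2 : ℝ) * -l + 2 * l = 0 := by ring
    rw [this, Real.exp_zero]
  rw [h7] at h3
  have h9 : 0 < Real.exp (2 * l) := Real.exp_pos _
  have h10 : Real.exp (((2 : ℕ) : ℝ) * -l) * Real.exp (2 * l) ≤
      (Real.exp (((2 : ℕ) : ℝ) * (2 * l ^ 2)) * (1 - 2 * l)) * Real.exp (2 * l) := by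
    rw [h8]; linarith
  exact le_of_mul_le_mul_right h10 h9

theorem gauss1_two_le_sqrt : (2 : ℝ) ≤ Real.sqrt (2 * Real.pi) := by
  refine Real.le_sqrt_of_sq_le ?_
  have := Real.pi_gt_three
  linarith

/-- density `≤ 1/√(2π) ≤ 1/2` -/
theorem gauss_small_ball (a : ℝ) (ha : 0 ≤ a) :
    gaussianReal 0 1 {t : ℝ | |t| ≤ a} ≤ ENNReal.ofReal a := by
  rw [gaussianReal_apply _ one_ne_zero]
  have h1 : ∀ t : ℝ, gaussianPDF 0 1 t ≤ ENNReal.ofReal (1 / 2) := by
    intro t
    unfold gaussianPDF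
    refine ENNReal.ofReal_le_ofReal ?_
    unfold gaussianPDFReal
    simp only [NNReal.coe_one, mul_one, sub_zero]
    have h2 : Real.exp (-t ^ 2 / 2) ≤ 1 := by
      rw [Real.exp_le_one_iff]
      have := sq_nonneg t
      linarith
    have h3 : (Real.sqrt (2 * Real.pi))⁻¹ ≤ 1 / 2 := by
      rw [one_div]
      exact inv_anti₀ (by norm_num) gauss1_two_le_sqrt
    have h4 : 0 ≤ (Real.sqrt (2 * Real.pi))⁻¹ := by positivity
    calc (Real.sqrt (2 * Real.pi))⁻¹ * Real.exp (-t ^ 2 / 2)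
        ≤ (Real.sqrt (2 * Real.pi))⁻¹ * 1 := mul_le_mul_of_nonneg_left h2 h4
      _ ≤ 1 / 2 := by rw [mul_one]; exact h3
  have h5 : {t : ℝ | |t| ≤ a} = Set.Icc (-a) a := by
    ext t; simp [abs_le]
  calc ∫⁻ x in {t : ℝ | |t| ≤ a}, gaussianPDF 0 1 x
      ≤ ∫⁻ _ in {t : ℝ | |t| ≤ a}, ENNReal.ofReal (1 / 2) := lintegral_mono fun t => h1 t
    _ = ENNReal.ofReal (1 / 2) * volume (Set.Icc (-a) a) := by
        rw [lintegral_const, Measure.restrict_apply_univ, h5]
    _ = ENNReal.ofReal a := by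
        rw [Real.volume_Icc, ← ENNReal.ofReal_mul (by norm_num)]
        congr 1
        ring

/-- `P(T ≤ g² ≤ T+δ) ≥ δ e^{-(T+δ)/2} / √(2π(T+δ))` -/
theorem gauss_sq_interval_lower (T δ : ℝ) (hT : 0 ≤ T) (hδ : 0 < δ) :
    ENNReal.ofReal (δ * Real.exp (-(T + δ) / 2) / Real.sqrt (2 * Real.pi * (T + δ))) ≤
      gaussianReal 0 1 {t : ℝ | T ≤ t ^ 2 ∧ t ^ 2 ≤ T + δ} := by
  rw [gaussianReal_apply _ one_ne_zero]
  set p : ℝ := Real.sqrt T with hp
  set q : ℝ := Real.sqrt (T + δ) with hq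
  have hTδ : 0 < T + δ := by linarith
  have hp0 : 0 ≤ p := Real.sqrt_nonneg _
  have hq0 : 0 < q := Real.sqrt_pos.2 hTδ
  have hp2 : p ^ 2 = T := Real.sq_sqrt hT
  have hq2 : q ^ 2 = T + δ := Real.sq_sqrt hTδ.le
  have hpq : p ≤ q := Real.sqrt_le_sqrt (by linarith)
  set S : Set ℝ := {t : ℝ | T ≤ t ^ 2 ∧ t ^ 2 ≤ T + δ} with hS
  set κ : ℝ := (Real.sqrt (2 * Real.pi))⁻¹ * Real.exp (-(T + δ) / 2) with hκ
  have hκ0 : 0 ≤ κ := by positivity
  have hSm : MeasurableSet S := by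
    have h1 : MeasurableSet {t : ℝ | T ≤ t ^ 2} := measurableSet_le measurable_const (by fun_prop)
    have h2 : MeasurableSet {t : ℝ | t ^ 2 ≤ T + δ} := measurableSet_le (by fun_prop) measurable_const
    exact h1.inter h2
  have h1 : ∀ t ∈ S, ENNReal.ofReal κ ≤ gaussianPDF 0 1 t := by
    intro t ht
    unfold gaussianPDF
    refine ENNReal.ofReal_le_ofReal ?_
    unfold gaussianPDFReal
    simp only [NNReal.coe_one, mul_one, sub_zero]
    refine mul_le_mul_of_nonneg_left (Real.exp_le_exp.2 ?_) (by positivity)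
    have := ht.2
    linarith
  have hA : Set.Ioc p q ⊆ S := by
    intro t ht
    have ht0 : 0 ≤ t := hp0.trans ht.1.le
    constructor
    · rw [← hp2]; exact pow_le_pow_left₀ hp0 ht.1.le 2
    · rw [← hq2]; exact pow_le_pow_left₀ ht0 ht.2 2
  have hB : Set.Ico (-q) (-p) ⊆ S := by
    intro t ht
    have ht0 : 0 ≤ -t := by have := ht.2; linarith
    have e : t ^ 2 = (-t) ^ 2 := by ring
    constructor
    · rw [← hp2, e]; exact pow_le_pow_left₀ hp0 (by have := ht.2; linarith) 2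
    · rw [← hq2, e]; exact pow_le_pow_left₀ ht0 (by have := ht.1; linarith) 2
  have hdisj : Disjoint (Set.Ioc p q) (Set.Ico (-q) (-p)) := by
    rw [Set.disjoint_left]
    intro t ht ht'
    have := ht.1
    have := ht'.2
    linarith
  have hvol : ENNReal.ofReal (2 * (q - p)) ≤ volume S := by
    calc ENNReal.ofReal (2 * (q - p)) = ENNReal.ofReal (q - p) + ENNReal.ofReal (-p - -q) := by
          rw [← ENNReal.ofReal_add (by linarith) (by linarith)]
          congr 1; ring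
      _ = volume (Set.Ioc p q) + volume (Set.Ico (-q) (-p)) := by
          rw [Real.volume_Ioc, Real.volume_Ico]
      _ = volume (Set.Ioc p q ∪ Set.Ico (-q) (-p)) :=
          (measure_union hdisj measurableSet_Ico).symm
      _ ≤ volume S := measure_mono (Set.union_subset hA hB)
  have hlen : δ / q ≤ 2 * (q - p) := by
    rw [div_le_iff₀ hq0]
    have : δ = (q - p) * (q + p) := by nlinarith
    rw [this]
    have h3 : 0 ≤ q - p := by linarith
    nlinarith
  calc ENNReal.ofReal (δ * Real.exp (-(T + δ) / 2) / Real.sqrt (2 * Real.pi * (T + δ)))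
      = ENNReal.ofReal (κ * (δ / q)) := by
        congr 1
        rw [Real.sqrt_mul (by positivity), hκ, ← hq]
        field_simp
    _ ≤ ENNReal.ofReal (κ * (2 * (q - p))) :=
        ENNReal.ofReal_le_ofReal (mul_le_mul_of_nonneg_left hlen hκ0)
    _ = ENNReal.ofReal κ * ENNReal.ofReal (2 * (q - p)) := ENNReal.ofReal_mul hκ0
    _ ≤ ENNReal.ofReal κ * volume S := mul_le_mul_right hvol _
    _ = ∫⁻ _ in S, ENNReal.ofReal κ := by
        rw [lintegral_const, Measure.restrict_apply_univ]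
    _ ≤ ∫⁻ x in S, gaussianPDF 0 1 x := setLIntegral_mono' hSm h1

/-- derivative of `p(t) e^{t²/2}` -/
theorem gauss1_deriv_poly_exp (p p' : ℝ → ℝ) (hp : ∀ t, HasDerivAt p (p' t) t) :
    deriv (fun t => p t * Real.exp (t ^ 2 / 2)) = fun t => (p' t + t * p t) * Real.exp (t ^ 2 / 2) := by
  funext t
  have h1 : HasDerivAt (fun t : ℝ => t ^ 2 / 2) t t := by
    have := ((hasDerivAt_id t).pow 2).div_const 2
    simpa using this
  have h2 : HasDerivAt (fun t : ℝ => Real.exp (t ^ 2 / 2)) (Real.exp (t ^ 2 / 2) * t) t := h1.exp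
  have h3 : HasDerivAt (fun t => p t * Real.exp (t ^ 2 / 2))
      (p' t * Real.exp (t ^ 2 / 2) + p t * (Real.exp (t ^ 2 / 2) * t)) t := (hp t).mul h2
  rw [h3.deriv]
  ring

theorem gauss1_mgf : mgf (fun x => x) (gaussianReal 0 1) = fun t => 1 * Real.exp (t ^ 2 / 2) := by
  rw [mgf_fun_id_gaussianReal]
  funext t
  simp

theorem gauss1_moment (n : ℕ) :
    ∫ t, t ^ n ∂(gaussianReal 0 1) = iteratedDeriv n (fun t => 1 * Real.exp (t ^ 2 / 2)) 0 := by
  rw [← gauss1_mgf, iteratedDeriv_mgf_zero (by simp)]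
  rfl

theorem gauss1_d1 : deriv (fun t : ℝ => 1 * Real.exp (t ^ 2 / 2)) =
    fun t => t * Real.exp (t ^ 2 / 2) := by
  rw [gauss1_deriv_poly_exp (fun _ => 1) (fun _ => 0) (fun t => hasDerivAt_const t 1)]
  funext t; ring

theorem gauss1_d2 : deriv (fun t : ℝ => t * Real.exp (t ^ 2 / 2)) =
    fun t => (1 + t ^ 2) * Real.exp (t ^ 2 / 2) := by
  rw [gauss1_deriv_poly_exp (fun t => t) (fun _ => 1) (fun t => hasDerivAt_id t)]
  funext t; ring

theorem gauss1_d3 : deriv (fun t : ℝ => (1 + t ^ 2) * Real.exp (t ^ 2 / 2)) =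
    fun t => (3 * t + t ^ 3) * Real.exp (t ^ 2 / 2) := by
  rw [gauss1_deriv_poly_exp (fun t => 1 + t ^ 2) (fun t => 2 * t) (fun t => by
    have := ((hasDerivAt_id t).pow 2).const_add 1
    simpa using this)]
  funext t; ring

theorem gauss1_d4 : deriv (fun t : ℝ => (3 * t + t ^ 3) * Real.exp (t ^ 2 / 2)) =
    fun t => (3 + 6 * t ^ 2 + t ^ 4) * Real.exp (t ^ 2 / 2) := by
  rw [gauss1_deriv_poly_exp (fun t => 3 * t + t ^ 3) (fun t => 3 + 3 * t ^ 2) (fun t => by
    have h : HasDerivAt (fun t : ℝ => 3 * t + t ^ 3) (3 * 1 + ((3 : ℕ) : ℝ) * t ^ (3 - 1) * 1) t :=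
      ((hasDerivAt_id t).const_mul 3).add ((hasDerivAt_id t).pow 3)
    simpa using h)]
  funext t; ring

theorem gauss1_lintegral_even (n : ℕ) (hn : Even n) :
    ∫⁻ t, ENNReal.ofReal (t ^ n) ∂(gaussianReal 0 1) =
      ENNReal.ofReal (∫ t, t ^ n ∂(gaussianReal 0 1)) := by
  rw [ofReal_integral_eq_lintegral_ofReal]
  · exact integrable_pow_of_mem_interior_integrableExpSet (X := fun x => x) (by simp) n
  · exact Filter.Eventually.of_forall fun t => hn.pow_nonneg t

theorem gauss_second_moment : ∫⁻ t, ENNReal.ofReal (t ^ 2) ∂(gaussianReal 0 1) = 1 := by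
  rw [gauss1_lintegral_even 2 (by decide), gauss1_moment, iteratedDeriv_succ, iteratedDeriv_one,
    gauss1_d1, gauss1_d2]
  simp

theorem gauss_fourth_moment : ∫⁻ t, ENNReal.ofReal (t ^ 4) ∂(gaussianReal 0 1) = 3 := by
  rw [gauss1_lintegral_even 4 (by decide), gauss1_moment, iteratedDeriv_succ, iteratedDeriv_succ,
    iteratedDeriv_succ, iteratedDeriv_one, gauss1_d1, gauss1_d2, gauss1_d3, gauss1_d4]
  simp

end Claimed.Agent.R133
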