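/-
Row 133 / S0266, module D7: anticoncentration of `c₂ a² + c₃ b²` for a two-dimensional Gaussian.
Blueprint section 3 (3b).
-/
import Claimed.Agent.R133.LinAlg

set_option autoImplicit false

namespace Claimed.Agent.R133

open MeasureTheory ProbabilityTheory
open scoped BigOperators NNReal ENNReal

theorem g2_pdf_le (x : ℝ) : gaussianPDF 0 1 x ≤ ENNReal.ofReal (Real.sqrt (2 * Real.pi))⁻¹ := by
  unfold gaussianPDF gaussianPDFReal
  apply ENNReal.ofReal_le_ofReal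
  have h1 : Real.exp (-(x - 0) ^ 2 / (2 * ((1 : ℝ≥0) : ℝ))) ≤ 1 := by
    apply Real.exp_le_one_iff.2
    have : 0 ≤ (x - 0) ^ 2 := sq_nonneg _
    simp only [NNReal.coe_one, mul_one]
    linarith
  have h2 : 0 ≤ (Real.sqrt (2 * Real.pi))⁻¹ := by positivity
  simp only [NNReal.coe_one, mul_one] at h1 ⊢
  calc (Real.sqrt (2 * Real.pi))⁻¹ * Real.exp (-(x - 0) ^ 2 / 2)
      ≤ (Real.sqrt (2 * Real.pi))⁻¹ * 1 := mul_le_mul_of_nonneg_left h1 h2
    _ = _ := mul_one _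

theorem g2_prod_le {S : Set (ℝ × ℝ)} (hS : MeasurableSet S) :
    ((gaussianReal 0 1).prod (gaussianReal 0 1)) S ≤
      ENNReal.ofReal (1 / (2 * Real.pi)) * volume S := by
  rw [gaussianReal_of_var_ne_zero 0 one_ne_zero,
    prod_withDensity (measurable_gaussianPDF 0 1) (measurable_gaussianPDF 0 1),
    withDensity_apply _ hS, ← Measure.volume_eq_prod]
  calc ∫⁻ p in S, gaussianPDF 0 1 p.1 * gaussianPDF 0 1 p.2
      ≤ ∫⁻ _ in S, ENNReal.ofReal (1 / (2 * Real.pi)) := by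
        apply lintegral_mono
        intro p
        have e : ENNReal.ofReal (1 / (2 * Real.pi)) =
            ENNReal.ofReal (Real.sqrt (2 * Real.pi))⁻¹ * ENNReal.ofReal (Real.sqrt (2 * Real.pi))⁻¹ := by
          rw [← ENNReal.ofReal_mul (by positivity), ← mul_inv,
            Real.mul_self_sqrt (by positivity), one_div]
        simp only
        rw [e]
        exact mul_le_mul' (g2_pdf_le _) (g2_pdf_le _)
    _ = ENNReal.ofReal (1 / (2 * Real.pi)) * volume S := by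
        rw [setLIntegral_const]

theorem g2_vol_closedDisc {t : ℝ} (ht : 0 ≤ t) :
    volume {q : ℝ × ℝ | q.1 ^ 2 + q.2 ^ 2 ≤ t} = ENNReal.ofReal (Real.pi * t) := by
  rw [← Complex.volume_preserving_equiv_real_prod.measure_preimage_equiv]
  have e : Complex.measurableEquivRealProd ⁻¹' {q : ℝ × ℝ | q.1 ^ 2 + q.2 ^ 2 ≤ t}
      = Metric.closedBall (0 : ℂ) (Real.sqrt t) := by
    ext z
    simp only [Set.mem_preimage, Complex.measurableEquivRealProd_apply, Set.mem_ofPred_eq,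
      Metric.mem_closedBall, dist_zero_right]
    rw [Real.le_sqrt (norm_nonneg _), Complex.sq_norm, Complex.normSq_apply]
    · ring_nf
    · exact ht
  rw [e, Complex.volume_closedBall, ← ENNReal.ofReal_pow (Real.sqrt_nonneg _), Real.sq_sqrt ht,
    ← NNReal.coe_real_pi, ← ENNReal.ofReal_coe_nnreal, ← ENNReal.ofReal_mul ht, mul_comm]

theorem g2_vol_disc {t : ℝ} (ht : 0 ≤ t) :
    volume {q : ℝ × ℝ | q.1 ^ 2 + q.2 ^ 2 < t} = ENNReal.ofReal (Real.pi * t) := by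
  rw [← Complex.volume_preserving_equiv_real_prod.measure_preimage_equiv]
  have e : Complex.measurableEquivRealProd ⁻¹' {q : ℝ × ℝ | q.1 ^ 2 + q.2 ^ 2 < t}
      = Metric.ball (0 : ℂ) (Real.sqrt t) := by
    ext z
    simp only [Set.mem_preimage, Complex.measurableEquivRealProd_apply, Set.mem_ofPred_eq,
      Metric.mem_ball, dist_zero_right]
    rw [Real.lt_sqrt (norm_nonneg _), Complex.sq_norm, Complex.normSq_apply]
    ring_nf
  rw [e, Complex.volume_ball, ← ENNReal.ofReal_pow (Real.sqrt_nonneg _), Real.sq_sqrt ht,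
    ← NNReal.coe_real_pi, ← ENNReal.ofReal_coe_nnreal, ← ENNReal.ofReal_mul ht, mul_comm]

theorem g2_vol_annulus (α h : ℝ) (hh : 0 ≤ h) :
    volume {q : ℝ × ℝ | α ≤ q.1 ^ 2 + q.2 ^ 2 ∧ q.1 ^ 2 + q.2 ^ 2 ≤ α + h} ≤
      ENNReal.ofReal (Real.pi * h) := by
  rcases lt_or_ge (α + h) 0 with hneg | hpos
  · have : {q : ℝ × ℝ | α ≤ q.1 ^ 2 + q.2 ^ 2 ∧ q.1 ^ 2 + q.2 ^ 2 ≤ α + h} = ∅ := by
      ext q
      simp only [Set.mem_ofPred_eq, Set.mem_empty_iff_false, iff_false, not_and, not_le]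
      intro _
      have : 0 ≤ q.1 ^ 2 + q.2 ^ 2 := by positivity
      linarith
    rw [this]
    simp
  rcases le_or_gt α 0 with hα | hα
  · calc volume {q : ℝ × ℝ | α ≤ q.1 ^ 2 + q.2 ^ 2 ∧ q.1 ^ 2 + q.2 ^ 2 ≤ α + h}
        ≤ volume {q : ℝ × ℝ | q.1 ^ 2 + q.2 ^ 2 ≤ α + h} := measure_mono fun q hq => hq.2
      _ = ENNReal.ofReal (Real.pi * (α + h)) := g2_vol_closedDisc hpos
      _ ≤ ENNReal.ofReal (Real.pi * h) := by
          apply ENNReal.ofReal_le_ofReal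
          apply mul_le_mul_of_nonneg_left _ Real.pi_pos.le
          linarith
  · have hsub : {q : ℝ × ℝ | q.1 ^ 2 + q.2 ^ 2 < α} ⊆ {q : ℝ × ℝ | q.1 ^ 2 + q.2 ^ 2 ≤ α + h} := by
      intro q hq
      have hq' : q.1 ^ 2 + q.2 ^ 2 < α := hq
      show q.1 ^ 2 + q.2 ^ 2 ≤ α + h
      linarith
    have hmeas : MeasurableSet {q : ℝ × ℝ | q.1 ^ 2 + q.2 ^ 2 < α} :=
      measurableSet_lt (by fun_prop) measurable_const
    have e : {q : ℝ × ℝ | α ≤ q.1 ^ 2 + q.2 ^ 2 ∧ q.1 ^ 2 + q.2 ^ 2 ≤ α + h} =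
        {q : ℝ × ℝ | q.1 ^ 2 + q.2 ^ 2 ≤ α + h} \ {q : ℝ × ℝ | q.1 ^ 2 + q.2 ^ 2 < α} := by
      ext q
      simp only [Set.mem_ofPred_eq, Set.mem_sdiff, not_lt]
      exact and_comm
    rw [e, measure_sdiff hsub hmeas.nullMeasurableSet (by rw [g2_vol_disc hα.le]; simp),
      g2_vol_closedDisc hpos, g2_vol_disc hα.le,
      ← ENNReal.ofReal_sub _ (by positivity)]
    apply ENNReal.ofReal_le_ofReal
    linarith

theorem g2_scale {a b : ℝ} (ha : 0 < a) (hb : 0 < b) {A : Set (ℝ × ℝ)} (hA : MeasurableSet A) :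
    volume ((Prod.map (a * ·) (b * ·)) ⁻¹' A) = ENNReal.ofReal (a⁻¹ * b⁻¹) * volume A := by
  have hm : Measurable (Prod.map (a * ·) (b * ·) : ℝ × ℝ → ℝ × ℝ) :=
    (measurable_const_mul a).prodMap (measurable_const_mul b)
  rw [← Measure.map_apply hm hA, Measure.volume_eq_prod,
    ← Measure.map_prod_map _ _ (measurable_const_mul a) (measurable_const_mul b),
    Real.map_volume_mul_left ha.ne', Real.map_volume_mul_left hb.ne', Measure.prod_smul_left,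
    Measure.prod_smul_right, Measure.smul_apply, Measure.smul_apply, smul_eq_mul, smul_eq_mul,
    abs_of_pos (inv_pos.2 ha), abs_of_pos (inv_pos.2 hb), ← mul_assoc,
    ← ENNReal.ofReal_mul (inv_pos.2 ha).le]

/-- Gaussian density `≤ 1/(2π)`, area of the elliptical annulus `≤ π h / √(c₂ c₃)`.
(Polar coordinates `lintegral_comp_polarCoord_symm`, or the area of the disc + linear change of variables.) -/
theorem gauss2_annulus (c₂ c₃ α h : ℝ) (h2 : 0 < c₂) (h3 : 0 < c₃) (hh : 0 ≤ h) :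
    ((gaussianReal 0 1).prod (gaussianReal 0 1))
      {p : ℝ × ℝ | α ≤ c₂ * p.1 ^ 2 + c₃ * p.2 ^ 2 ∧ c₂ * p.1 ^ 2 + c₃ * p.2 ^ 2 ≤ α + h} ≤
      ENNReal.ofReal (h / (2 * Real.sqrt (c₂ * c₃))) := by
  have hA : MeasurableSet {q : ℝ × ℝ | α ≤ q.1 ^ 2 + q.2 ^ 2 ∧ q.1 ^ 2 + q.2 ^ 2 ≤ α + h} := by
    have m1 : MeasurableSet {q : ℝ × ℝ | α ≤ q.1 ^ 2 + q.2 ^ 2} :=
      measurableSet_le measurable_const (by fun_prop)
    have m2 : MeasurableSet {q : ℝ × ℝ | q.1 ^ 2 + q.2 ^ 2 ≤ α + h} :=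
      measurableSet_le (by fun_prop) measurable_const
    exact m1.inter m2
  have s2 : 0 < Real.sqrt c₂ := Real.sqrt_pos.2 h2
  have s3 : 0 < Real.sqrt c₃ := Real.sqrt_pos.2 h3
  have e : {p : ℝ × ℝ | α ≤ c₂ * p.1 ^ 2 + c₃ * p.2 ^ 2 ∧ c₂ * p.1 ^ 2 + c₃ * p.2 ^ 2 ≤ α + h} =
      (Prod.map (Real.sqrt c₂ * ·) (Real.sqrt c₃ * ·)) ⁻¹'
        {q : ℝ × ℝ | α ≤ q.1 ^ 2 + q.2 ^ 2 ∧ q.1 ^ 2 + q.2 ^ 2 ≤ α + h} := by
    ext p
    simp only [Set.mem_ofPred_eq, Set.mem_preimage, Prod.map_fst, Prod.map_snd, mul_pow,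
      Real.sq_sqrt h2.le, Real.sq_sqrt h3.le]
  have hm : Measurable (Prod.map (Real.sqrt c₂ * ·) (Real.sqrt c₃ * ·) : ℝ × ℝ → ℝ × ℝ) :=
    (measurable_const_mul _).prodMap (measurable_const_mul _)
  rw [e]
  refine (g2_prod_le (hm hA)).trans ?_
  rw [g2_scale s2 s3 hA]
  calc ENNReal.ofReal (1 / (2 * Real.pi)) * (ENNReal.ofReal ((Real.sqrt c₂)⁻¹ * (Real.sqrt c₃)⁻¹) *
        volume {q : ℝ × ℝ | α ≤ q.1 ^ 2 + q.2 ^ 2 ∧ q.1 ^ 2 + q.2 ^ 2 ≤ α + h})
      ≤ ENNReal.ofReal (1 / (2 * Real.pi)) * (ENNReal.ofReal ((Real.sqrt c₂)⁻¹ * (Real.sqrt c₃)⁻¹) *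
        ENNReal.ofReal (Real.pi * h)) := by
        gcongr
        exact g2_vol_annulus α h hh
    _ = ENNReal.ofReal (h / (2 * Real.sqrt (c₂ * c₃))) := by
        rw [← ENNReal.ofReal_mul (by positivity), ← ENNReal.ofReal_mul (by positivity),
          Real.sqrt_mul h2.le]
        congr 1
        have := Real.pi_pos
        field_simp

end Claimed.Agent.R133
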