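import Mathlib

/-!
# Row 133, S0266: shared Gaussian toolkit on `ι → ℝ`

* `gstd ι` : the standard Gaussian product measure on `ι → ℝ`;
* `lintegral_gstd_scale` (K2) : change of variance in `lintegral` form;
* `gstd_polar_indep` (K4) : independence of the direction and of the radius.
-/

set_option autoImplicit false
set_option linter.unusedSectionVars false
open scoped BigOperators ENNReal NNReal
open MeasureTheory ProbabilityTheory Set

namespace Claimed.Agent.R133

/-- the standard Gaussian measure on `ι → ℝ`. -/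
noncomputable def gstd (ι : Type) [Fintype ι] : Measure (ι → ℝ) :=
  Measure.pi (fun _ : ι => gaussianReal 0 1)

/-- density of `N(0,c^2)` with respect to `N(0,1)`. -/
noncomputable def gdens (c x : ℝ) : ℝ≥0∞ :=
  ENNReal.ofReal (c⁻¹ * Real.exp (-((1 / c ^ 2 - 1) * x ^ 2 / 2)))

theorem cite_auto_GaussKit : True := by
  have := @gstd.eq_def
  have := @gstd.eq_1
  have := @gdens.eq_def
  have := @gdens.eq_1
  trivial

instance gstd_isProbabilityMeasure (ι : Type) [Fintype ι] : IsProbabilityMeasure (gstd ι) := by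
  unfold gstd; infer_instance

lemma measurable_gdens (c : ℝ) : Measurable (gdens c) := by
  unfold gdens; fun_prop

/-- (K1) one dimensional change of variance. -/
lemma gaussianReal_map_mul_eq_withDensity {c : ℝ} (hc : 0 < c) :
    (gaussianReal 0 1).map (c * ·) = (gaussianReal 0 1).withDensity (gdens c) := by
  have hv : (NNReal.mk (c ^ 2) (sq_nonneg c) * 1 : ℝ≥0) ≠ 0 := by
    rw [mul_one]
    intro h
    have : (c ^ 2 : ℝ) = 0 := congrArg NNReal.toReal h
    exact (pow_pos hc 2).ne' this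
  rw [gaussianReal_map_const_mul, mul_zero, gaussianReal_of_var_ne_zero _ hv,
    gaussianReal_of_var_ne_zero _ one_ne_zero,
    ← withDensity_mul _ (measurable_gaussianPDF 0 1) (measurable_gdens c)]
  congr 1
  funext x
  simp only [Pi.mul_apply, gaussianPDF, gdens]
  rw [← ENNReal.ofReal_mul (gaussianPDFReal_nonneg _ _ _)]
  congr 1
  simp only [gaussianPDFReal, sub_zero, NNReal.coe_mk, NNReal.coe_one, mul_one]
  have h1 : √(2 * Real.pi * c ^ 2) = √(2 * Real.pi) * c := by
    rw [Real.sqrt_mul (by positivity), Real.sqrt_sq hc.le]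
  rw [h1, mul_inv]
  have h2 : Real.exp (-x ^ 2 / (2 * c ^ 2))
      = Real.exp (-x ^ 2 / 2) * Real.exp (-((1 / c ^ 2 - 1) * x ^ 2 / 2)) := by
    rw [← Real.exp_add]
    congr 1
    field_simp
    ring
  rw [h2]; ring

/-- product of densities. -/
lemma pi_eq_withDensity_of_prob {ι : Type} [Fintype ι] (μ ν : ι → Measure ℝ)
    [∀ i, IsProbabilityMeasure (μ i)] [∀ i, SigmaFinite (ν i)] (f : ι → ℝ → ℝ≥0∞)
    (hf : ∀ i, Measurable (f i)) (hν : ∀ i, ν i = (μ i).withDensity (f i)) :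
    Measure.pi ν = (Measure.pi μ).withDensity (fun x => ∏ i, f i (x i)) := by
  refine Measure.pi_eq fun s hs => ?_
  rw [withDensity_apply _ (MeasurableSet.univ_pi hs), ← lintegral_indicator (MeasurableSet.univ_pi hs)]
  have h1 : ∀ x : ι → ℝ, (Set.pi Set.univ s).indicator (fun x => ∏ i, f i (x i)) x
      = ∏ i, (s i).indicator (f i) (x i) := by
    intro x
    by_cases hx : x ∈ Set.pi Set.univ s
    · rw [Set.indicator_of_mem hx]
      refine Finset.prod_congr rfl fun i _ => ?_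
      rw [Set.indicator_of_mem (hx i (Set.mem_univ i))]
    · rw [Set.indicator_of_notMem hx]
      simp only [Set.mem_pi, Set.mem_univ, true_implies, not_forall] at hx
      obtain ⟨i, hi⟩ := hx
      rw [Finset.prod_eq_zero (Finset.mem_univ i) (Set.indicator_of_notMem hi _)]
  simp only [h1]
  have hm : ∀ i, Measurable ((s i).indicator (f i)) := fun i => (hf i).indicator (hs i)
  have hind : iIndepFun (fun i (x : ι → ℝ) => (s i).indicator (f i) (x i)) (Measure.pi μ) :=
    iIndepFun_pi (X := fun i => (s i).indicator (f i)) fun i => (hm i).aemeasurable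
  rw [lintegral_prod_eq_prod_lintegral_of_indepFun Finset.univ _ hind
    (fun i => (hm i).comp (measurable_pi_apply i))]
  refine Finset.prod_congr rfl fun i _ => ?_
  rw [(measurePreserving_eval μ i).lintegral_comp (hm i), hν i, withDensity_apply _ (hs i),
    lintegral_indicator (hs i)]

/-- (K2) change of variance, `lintegral` form. -/
theorem lintegral_gstd_scale {ι : Type} [Fintype ι] {c : ι → ℝ} (hc : ∀ k, 0 < c k)
    {F : (ι → ℝ) → ℝ≥0∞} (hF : Measurable F) :
    ∫⁻ x, F (fun k => c k * x k) ∂(gstd ι) = ∫⁻ x, (∏ k, gdens (c k) (x k)) * F x ∂(gstd ι) := by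
  have hmap : Measurable (fun (x : ι → ℝ) k => c k * x k) := by fun_prop
  have h1 : (gstd ι).map (fun x k => c k * x k)
      = (gstd ι).withDensity (fun x => ∏ k, gdens (c k) (x k)) := by
    unfold gstd
    rw [Measure.pi_map_pi (fun k => by fun_prop)]
    exact pi_eq_withDensity_of_prob _ _ (fun k => gdens (c k)) (fun k => measurable_gdens (c k))
      (fun k => gaussianReal_map_mul_eq_withDensity (hc k))
  have hd : Measurable (fun x : ι → ℝ => ∏ k, gdens (c k) (x k)) :=
    Finset.measurable_prod _ fun k _ => (measurable_gdens (c k)).comp (measurable_pi_apply k)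
  rw [← lintegral_map hF hmap, h1, lintegral_withDensity_eq_lintegral_mul _ hd hF]
  rfl

/-! ### polar independence -/

/-- squared Euclidean norm on `ι → ℝ`. -/
def qsq {ι : Type} [Fintype ι] (x : ι → ℝ) : ℝ := ∑ k, x k ^ 2

/-- density of `N(0,c^2 I_n)` with respect to `N(0,I_n)` as a function of the squared radius. -/
noncomputable def grad (n : ℕ) (c r : ℝ) : ℝ≥0∞ :=
  ENNReal.ofReal ((c⁻¹) ^ n * Real.exp (-((1 / c ^ 2 - 1) * r / 2)))

/-- the integral of `grad` against the Haar measure `dc/c`. -/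
noncomputable def gtheta (n : ℕ) (r : ℝ) : ℝ≥0∞ :=
  ∫⁻ c in Ioi (0 : ℝ), ENNReal.ofReal c⁻¹ * grad n c r

theorem cite_auto_GaussKit2 : True := by
  have := @qsq.eq_def
  have := @qsq.eq_1
  have := @grad.eq_def
  have := @grad.eq_1
  have := @gtheta.eq_def
  have := @gtheta.eq_1
  trivial

section Polar
variable {ι : Type} [Fintype ι]

lemma measurable_qsq : Measurable (qsq : (ι → ℝ) → ℝ) := by
  unfold qsq; fun_prop

lemma qsq_nonneg (x : ι → ℝ) : 0 ≤ qsq x := Finset.sum_nonneg fun _ _ => sq_nonneg _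

lemma qsq_smul (c : ℝ) (x : ι → ℝ) : qsq (fun k => c * x k) = c ^ 2 * qsq x := by
  unfold qsq
  rw [Finset.mul_sum]
  exact Finset.sum_congr rfl fun k _ => by ring

lemma prod_gdens_const {c : ℝ} (hc : 0 < c) (x : ι → ℝ) :
    ∏ k, gdens c (x k) = grad (Fintype.card ι) c (qsq x) := by
  unfold gdens grad qsq
  rw [← ENNReal.ofReal_prod_of_nonneg (fun k _ => by positivity), Finset.prod_mul_distrib,
    Finset.prod_const, Finset.card_univ, ← Real.exp_sum]
  congr 3
  rw [Finset.sum_neg_distrib, ← Finset.sum_div, ← Finset.mul_sum]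

lemma measurable_grad_uncurry (n : ℕ) : Measurable (fun p : ℝ × ℝ => grad n p.1 p.2) := by
  unfold grad; fun_prop

lemma measurable_gtheta (n : ℕ) : Measurable (gtheta n) := by
  unfold gtheta
  have : Measurable (fun p : ℝ × ℝ => ENNReal.ofReal p.2⁻¹ * grad n p.2 p.1) := by
    have h := (measurable_grad_uncurry n).comp (measurable_swap (α := ℝ) (β := ℝ))
    exact (by fun_prop : Measurable (fun p : ℝ × ℝ => ENNReal.ofReal p.2⁻¹)).mul h
  exact this.lintegral_prod_right'

/-- scaling identity. -/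
lemma lintegral_gstd_dilate {Φ : (ι → ℝ) → ℝ≥0∞} (hΦ : Measurable Φ)
    (hhom : ∀ c : ℝ, 0 < c → ∀ x, Φ (fun k => c * x k) = Φ x)
    {ψ : ℝ → ℝ≥0∞} (hψ : Measurable ψ) {c : ℝ} (hc : 0 < c) :
    ∫⁻ x, Φ x * ψ (c ^ 2 * qsq x) ∂(gstd ι)
      = ∫⁻ x, grad (Fintype.card ι) c (qsq x) * (Φ x * ψ (qsq x)) ∂(gstd ι) := by
  have hF : Measurable (fun x : ι → ℝ => Φ x * ψ (qsq x)) :=
    hΦ.mul (hψ.comp measurable_qsq)
  have h := lintegral_gstd_scale (c := fun _ : ι => c) (fun _ => hc) hF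
  simp only [hhom c hc, qsq_smul, prod_gdens_const hc] at h
  exact h

/-- invariance of `dc/c` under dilations. -/
lemma lintegral_haar_mul {f : ℝ → ℝ≥0∞} (hf : Measurable f) {a : ℝ} (ha : 0 < a) :
    ∫⁻ c in Ioi (0 : ℝ), ENNReal.ofReal c⁻¹ * f (a * c)
      = ∫⁻ c in Ioi (0 : ℝ), ENNReal.ofReal c⁻¹ * f c := by
  set G : ℝ → ℝ≥0∞ := (Ioi (0 : ℝ)).indicator (fun c => ENNReal.ofReal c⁻¹ * f c) with hG
  have hGm : Measurable G :=
    ((by fun_prop : Measurable (fun c : ℝ => ENNReal.ofReal c⁻¹)).mul hf).indicator measurableSet_Ioi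
  have h1 : ∫⁻ c, G (a * c) = ENNReal.ofReal |a⁻¹| * ∫⁻ c, G c := by
    rw [← lintegral_map hGm (by fun_prop : Measurable (fun c : ℝ => a * c)),
      Real.map_volume_mul_left ha.ne', lintegral_smul_measure]
    rfl
  have h2 : ∀ c, G (a * c)
      = ENNReal.ofReal |a⁻¹| * (Ioi (0 : ℝ)).indicator (fun c => ENNReal.ofReal c⁻¹ * f (a * c)) c := by
    intro c
    by_cases hc : 0 < c
    · have hac : a * c ∈ Ioi (0 : ℝ) := mul_pos ha hc
      rw [hG, Set.indicator_of_mem hac, Set.indicator_of_mem (show c ∈ Ioi (0 : ℝ) from hc),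
        mul_inv, ENNReal.ofReal_mul (by positivity), abs_of_pos (by positivity), mul_assoc]
    · have hac : a * c ∉ Ioi (0 : ℝ) := by
        simp only [mem_Ioi, not_lt] at hc ⊢
        exact mul_nonpos_of_nonneg_of_nonpos ha.le hc
      rw [hG, Set.indicator_of_notMem hac, Set.indicator_of_notMem (show c ∉ Ioi (0 : ℝ) from hc),
        mul_zero]
  have hm2 : Measurable ((Ioi (0 : ℝ)).indicator (fun c => ENNReal.ofReal c⁻¹ * f (a * c))) :=
    ((by fun_prop : Measurable (fun c : ℝ => ENNReal.ofReal c⁻¹)).mul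
      (hf.comp (by fun_prop : Measurable (fun c : ℝ => a * c)))).indicator measurableSet_Ioi
  simp only [h2] at h1
  rw [lintegral_const_mul _ hm2] at h1
  have h3 : ENNReal.ofReal |a⁻¹| ≠ 0 := by
    simp only [ne_eq, ENNReal.ofReal_eq_zero, not_le]; positivity
  have h4 := (ENNReal.mul_right_inj h3 ENNReal.ofReal_ne_top).mp h1
  rw [lintegral_indicator measurableSet_Ioi, hG, lintegral_indicator measurableSet_Ioi] at h4
  exact h4

lemma ae_qsq_pos [Nonempty ι] : ∀ᵐ x ∂(gstd ι), 0 < qsq x := by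
  obtain ⟨k0⟩ := ‹Nonempty ι›
  have h0 : gstd ι {x | x k0 = 0} = 0 := by
    have hp := (measurePreserving_eval (fun _ : ι => gaussianReal 0 1) k0).measure_preimage
      (s := {(0 : ℝ)}) (measurableSet_singleton 0).nullMeasurableSet
    have := nullSingletonClass_gaussianReal (μ := 0) (v := 1) one_ne_zero
    rw [measure_singleton] at hp
    exact hp
  have : ∀ᵐ x ∂(gstd ι), x k0 ≠ 0 := by
    rw [ae_iff]; simpa using h0
  filter_upwards [this] with x hx
  unfold qsq
  exact Finset.sum_pos' (fun _ _ => sq_nonneg _) ⟨k0, Finset.mem_univ _, by positivity⟩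

/-- the key identity behind polar independence. -/
lemma polar_pre [Nonempty ι] {Φ : (ι → ℝ) → ℝ≥0∞} (hΦ : Measurable Φ)
    (hhom : ∀ c : ℝ, 0 < c → ∀ x, Φ (fun k => c * x k) = Φ x)
    {ψ : ℝ → ℝ≥0∞} (hψ : Measurable ψ) :
    (∫⁻ x, Φ x ∂(gstd ι)) * (∫⁻ c in Ioi (0 : ℝ), ENNReal.ofReal c⁻¹ * ψ (c ^ 2))
      = ∫⁻ x, Φ x * (ψ (qsq x) * gtheta (Fintype.card ι) (qsq x)) ∂(gstd ι) := by
  set n := Fintype.card ι with hn
  have hq := measurable_qsq (ι := ι)
  -- first form
  have hA1 : ∫⁻ c in Ioi (0 : ℝ), ∫⁻ x, ENNReal.ofReal c⁻¹ * (Φ x * ψ (c ^ 2 * qsq x)) ∂(gstd ι)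
      = (∫⁻ x, Φ x ∂(gstd ι)) * (∫⁻ c in Ioi (0 : ℝ), ENNReal.ofReal c⁻¹ * ψ (c ^ 2)) := by
    rw [lintegral_lintegral_swap]
    · have : ∀ᵐ x ∂(gstd ι), ∫⁻ c in Ioi (0 : ℝ), ENNReal.ofReal c⁻¹ * (Φ x * ψ (c ^ 2 * qsq x))
          = Φ x * (∫⁻ c in Ioi (0 : ℝ), ENNReal.ofReal c⁻¹ * ψ (c ^ 2)) := by
        filter_upwards [ae_qsq_pos (ι := ι)] with x hx
        have e1 : ∀ c : ℝ, ENNReal.ofReal c⁻¹ * (Φ x * ψ (c ^ 2 * qsq x))
            = Φ x * (ENNReal.ofReal c⁻¹ * (fun c : ℝ => ψ (c ^ 2)) (√(qsq x) * c)) := by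
          intro c
          have : (√(qsq x) * c) ^ 2 = c ^ 2 * qsq x := by
            rw [mul_pow, Real.sq_sqrt hx.le]; ring
          simp only [this]; ring
        simp only [e1]
        rw [lintegral_const_mul _ (by
          exact (by fun_prop : Measurable (fun c : ℝ => ENNReal.ofReal c⁻¹)).mul
            (hψ.comp (by fun_prop : Measurable (fun c : ℝ => (√(qsq x) * c) ^ 2)))),
          lintegral_haar_mul (f := fun c : ℝ => ψ (c ^ 2))
            (hψ.comp (by fun_prop : Measurable (fun c : ℝ => c ^ 2))) (Real.sqrt_pos.mpr hx)]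
      rw [lintegral_congr_ae this, lintegral_mul_const _ hΦ]
    · refine Measurable.aemeasurable ?_
      have m1 : Measurable (fun p : ℝ × (ι → ℝ) => ENNReal.ofReal p.1⁻¹) := by fun_prop
      have m2 : Measurable (fun p : ℝ × (ι → ℝ) => Φ p.2) := hΦ.comp measurable_snd
      have m3 : Measurable (fun p : ℝ × (ι → ℝ) => ψ (p.1 ^ 2 * qsq p.2)) :=
        hψ.comp ((measurable_fst.pow_const 2).mul (hq.comp measurable_snd))
      exact m1.mul (m2.mul m3)
  -- second form
  have hA2 : ∫⁻ c in Ioi (0 : ℝ), ∫⁻ x, ENNReal.ofReal c⁻¹ * (Φ x * ψ (c ^ 2 * qsq x)) ∂(gstd ι)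
      = ∫⁻ c in Ioi (0 : ℝ), ∫⁻ x,
          ENNReal.ofReal c⁻¹ * (grad n c (qsq x) * (Φ x * ψ (qsq x))) ∂(gstd ι) := by
    refine setLIntegral_congr_fun measurableSet_Ioi fun c hc => ?_
    have mL : Measurable (fun x : ι → ℝ => Φ x * ψ (c ^ 2 * qsq x)) :=
      hΦ.mul (hψ.comp (hq.const_mul _))
    have mg : Measurable (fun x : ι → ℝ => grad n c (qsq x)) :=
      ((measurable_grad_uncurry n).comp (measurable_const.prodMk measurable_id)).comp hq
    have mR : Measurable (fun x : ι → ℝ => grad n c (qsq x) * (Φ x * ψ (qsq x))) :=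
      mg.mul (hΦ.mul (hψ.comp hq))
    rw [lintegral_const_mul _ mL, lintegral_const_mul _ mR, lintegral_gstd_dilate hΦ hhom hψ hc]
  have hA3 : ∫⁻ c in Ioi (0 : ℝ), ∫⁻ x,
          ENNReal.ofReal c⁻¹ * (grad n c (qsq x) * (Φ x * ψ (qsq x))) ∂(gstd ι)
      = ∫⁻ x, Φ x * (ψ (qsq x) * gtheta n (qsq x)) ∂(gstd ι) := by
    rw [lintegral_lintegral_swap]
    · refine lintegral_congr fun x => ?_
      have e1 : ∀ c : ℝ, ENNReal.ofReal c⁻¹ * (grad n c (qsq x) * (Φ x * ψ (qsq x)))
          = (Φ x * ψ (qsq x)) * (ENNReal.ofReal c⁻¹ * grad n c (qsq x)) := by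
        intro c; ring
      simp only [e1]
      rw [lintegral_const_mul _ (by
        exact (by fun_prop : Measurable (fun c : ℝ => ENNReal.ofReal c⁻¹)).mul
          ((measurable_grad_uncurry n).comp (measurable_id.prodMk measurable_const)))]
      unfold gtheta; ring
    · refine Measurable.aemeasurable ?_
      have m1 : Measurable (fun p : ℝ × (ι → ℝ) => ENNReal.ofReal p.1⁻¹) := by fun_prop
      have m2 : Measurable (fun p : ℝ × (ι → ℝ) => Φ p.2) := hΦ.comp measurable_snd
      have m3 : Measurable (fun p : ℝ × (ι → ℝ) => ψ (qsq p.2)) :=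
        hψ.comp (hq.comp measurable_snd)
      have m4 : Measurable (fun p : ℝ × (ι → ℝ) => grad n p.1 (qsq p.2)) :=
        (measurable_grad_uncurry n).comp (measurable_fst.prodMk (hq.comp measurable_snd))
      exact m1.mul (m4.mul (m2.mul m3))
  rw [← hA1, hA2, hA3]

lemma gtheta_ne_zero (n : ℕ) {r : ℝ} (hr : 0 ≤ r) : gtheta n r ≠ 0 := by
  have h1 : ENNReal.ofReal ((1 / 2) * (1 / 2) ^ n) * volume (Icc (1 : ℝ) 2) ≤ gtheta n r := by
    calc ENNReal.ofReal ((1 / 2) * (1 / 2) ^ n) * volume (Icc (1 : ℝ) 2)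
        = ∫⁻ _ in Icc (1 : ℝ) 2, ENNReal.ofReal ((1 / 2) * (1 / 2) ^ n) := by
          rw [setLIntegral_const]
      _ ≤ ∫⁻ c in Icc (1 : ℝ) 2, ENNReal.ofReal c⁻¹ * grad n c r := by
          refine setLIntegral_mono' measurableSet_Icc fun c hc => ?_
          have hc0 : 0 < c := lt_of_lt_of_le one_pos hc.1
          unfold grad
          rw [← ENNReal.ofReal_mul (by positivity)]
          refine ENNReal.ofReal_le_ofReal ?_
          have hci : (1 / 2 : ℝ) ≤ c⁻¹ := by
            rw [one_div]; exact inv_anti₀ hc0 hc.2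
          have hc2 : 1 / c ^ 2 - 1 ≤ 0 := by
            have : 1 / c ^ 2 ≤ 1 := by
              rw [div_le_one (by positivity)]; nlinarith [hc.1]
            linarith
          have hexp : 1 ≤ Real.exp (-((1 / c ^ 2 - 1) * r / 2)) := by
            refine Real.one_le_exp ?_
            have := mul_nonneg (neg_nonneg.mpr hc2) hr
            nlinarith
          have hpow : (1 / 2 : ℝ) ^ n ≤ (c⁻¹) ^ n := pow_le_pow_left₀ (by norm_num) hci n
          calc (1 / 2 : ℝ) * (1 / 2) ^ n ≤ c⁻¹ * ((c⁻¹) ^ n * 1) := by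
                rw [mul_one]; exact mul_le_mul hci hpow (by positivity) (by positivity)
            _ ≤ c⁻¹ * ((c⁻¹) ^ n * Real.exp (-((1 / c ^ 2 - 1) * r / 2))) := by gcongr
      _ ≤ gtheta n r := by
          unfold gtheta
          exact lintegral_mono_set fun c hc => lt_of_lt_of_le one_pos hc.1
  intro h0
  rw [h0] at h1
  have h2 : ENNReal.ofReal ((1 / 2) * (1 / 2) ^ n) * volume (Icc (1 : ℝ) 2) ≠ 0 := by
    refine mul_ne_zero ?_ ?_
    · simp only [ne_eq, ENNReal.ofReal_eq_zero, not_le]; positivity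
    · rw [Real.volume_Icc]; norm_num
  exact h2 (le_antisymm h1 zero_le)

lemma gtheta_ne_top {n : ℕ} (hn : 1 ≤ n) {r : ℝ} (hr : 0 < r) : gtheta n r ≠ ∞ := by
  unfold gtheta
  rw [← Ioc_union_Ioi_eq_Ioi (zero_le_one' ℝ)]
  refine ne_of_lt (lt_of_le_of_lt (lintegral_union_le _ _ _) (ENNReal.add_lt_top.mpr ⟨?_, ?_⟩))
  · -- small `c`
    set C : ℝ := Real.exp (r / 2) * ((n + 1).factorial * (2 / r) ^ (n + 1)) with hC
    calc ∫⁻ c in Ioc (0 : ℝ) 1, ENNReal.ofReal c⁻¹ * grad n c r
        ≤ ∫⁻ _ in Ioc (0 : ℝ) 1, ENNReal.ofReal C := by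
          refine setLIntegral_mono' measurableSet_Ioc fun c hc => ?_
          have hc0 : 0 < c := hc.1
          unfold grad
          rw [← ENNReal.ofReal_mul (by positivity)]
          refine ENNReal.ofReal_le_ofReal ?_
          set y : ℝ := r / (2 * c ^ 2) with hy
          have hy0 : 0 < y := by positivity
          have h1 : y ^ (n + 1) / (n + 1).factorial ≤ Real.exp y :=
            Real.pow_div_factorial_le_exp y hy0.le (n + 1)
          have h2 : Real.exp (-y) ≤ (n + 1).factorial / y ^ (n + 1) := by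
            rw [Real.exp_neg, inv_eq_one_div, div_le_div_iff₀ (Real.exp_pos _) (by positivity)]
            rw [div_le_iff₀ (by positivity)] at h1
            linarith
          have h3 : Real.exp (-((1 / c ^ 2 - 1) * r / 2)) = Real.exp (r / 2) * Real.exp (-y) := by
            rw [← Real.exp_add]; congr 1; rw [hy]; field_simp; ring
          have h4 : c⁻¹ * (c⁻¹) ^ n * ((n + 1).factorial / y ^ (n + 1))
              = (n + 1).factorial * (2 / r) ^ (n + 1) * c ^ (n + 1) := by
            have hu : 0 < (c⁻¹) ^ (n + 1) := by positivity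
            have hw : 0 < (r / 2) ^ (n + 1) := by positivity
            have e1 : y ^ (n + 1) = (r / 2) ^ (n + 1) * ((c⁻¹) ^ (n + 1)) ^ 2 := by
              have : y = (r / 2) * (c⁻¹) ^ 2 := by rw [hy]; field_simp
              rw [this, mul_pow, ← pow_mul, ← pow_mul, mul_comm 2]
            have e2 : c ^ (n + 1) = ((c⁻¹) ^ (n + 1))⁻¹ := by rw [inv_pow, inv_inv]
            have e3 : (2 / r) ^ (n + 1) = ((r / 2) ^ (n + 1))⁻¹ := by
              rw [← inv_pow, inv_div]
            rw [← pow_succ', e1, e2, e3]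
            field_simp
          have h5 : c ^ (n + 1) ≤ 1 := pow_le_one₀ hc0.le hc.2
          calc c⁻¹ * ((c⁻¹) ^ n * Real.exp (-((1 / c ^ 2 - 1) * r / 2)))
              = Real.exp (r / 2) * (c⁻¹ * (c⁻¹) ^ n * Real.exp (-y)) := by rw [h3]; ring
            _ ≤ Real.exp (r / 2) * (c⁻¹ * (c⁻¹) ^ n * ((n + 1).factorial / y ^ (n + 1))) := by
                gcongr
            _ = Real.exp (r / 2) * ((n + 1).factorial * (2 / r) ^ (n + 1) * c ^ (n + 1)) := by
                rw [h4]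
            _ ≤ Real.exp (r / 2) * ((n + 1).factorial * (2 / r) ^ (n + 1) * 1) := by gcongr
            _ = C := by rw [hC]; ring
      _ < ∞ := by
          rw [setLIntegral_const, Real.volume_Ioc]
          exact ENNReal.mul_lt_top ENNReal.ofReal_lt_top ENNReal.ofReal_lt_top
  · -- large `c`
    have hint : IntegrableOn (fun c : ℝ => Real.exp (r / 2) * c ^ (-2 : ℝ)) (Ioi 1) :=
      (integrableOn_Ioi_rpow_of_lt (by norm_num : (-2 : ℝ) < -1) one_pos).const_mul _
    calc ∫⁻ c in Ioi (1 : ℝ), ENNReal.ofReal c⁻¹ * grad n c r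
        ≤ ∫⁻ c in Ioi (1 : ℝ), ENNReal.ofReal (Real.exp (r / 2) * c ^ (-2 : ℝ)) := by
          refine setLIntegral_mono' measurableSet_Ioi fun c hc => ?_
          have hc1 : (1 : ℝ) < c := hc
          have hc0 : 0 < c := lt_trans one_pos hc1
          unfold grad
          rw [← ENNReal.ofReal_mul (by positivity)]
          refine ENNReal.ofReal_le_ofReal ?_
          have h1 : c ^ (-2 : ℝ) = (c⁻¹) ^ 2 := by
            rw [Real.rpow_neg hc0.le, inv_pow]
            norm_cast
          have hci : c⁻¹ ≤ 1 := inv_le_one_of_one_le₀ hc1.le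
          have h2 : c⁻¹ * (c⁻¹) ^ n ≤ (c⁻¹) ^ 2 := by
            rw [← pow_succ']
            exact pow_le_pow_of_le_one (by positivity) hci (by omega)
          have h3 : Real.exp (-((1 / c ^ 2 - 1) * r / 2)) ≤ Real.exp (r / 2) := by
            refine Real.exp_le_exp.mpr ?_
            have : 0 ≤ 1 / c ^ 2 * r := by positivity
            nlinarith
          calc c⁻¹ * ((c⁻¹) ^ n * Real.exp (-((1 / c ^ 2 - 1) * r / 2)))
              = (c⁻¹ * (c⁻¹) ^ n) * Real.exp (-((1 / c ^ 2 - 1) * r / 2)) := by ring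
            _ ≤ (c⁻¹) ^ 2 * Real.exp (r / 2) := by gcongr
            _ = Real.exp (r / 2) * c ^ (-2 : ℝ) := by rw [h1]; ring
      _ < ∞ := hint.lintegral_lt_top

/-- (K4) **polar independence**: a `0`-homogeneous function is independent of the radius. -/
theorem gstd_polar_indep [Nonempty ι] {Φ : (ι → ℝ) → ℝ≥0∞} (hΦ : Measurable Φ)
    (hhom : ∀ c : ℝ, 0 < c → ∀ x, Φ (fun k => c * x k) = Φ x)
    {χ : ℝ → ℝ≥0∞} (hχ : Measurable χ) :
    ∫⁻ x, Φ x * χ (qsq x) ∂(gstd ι)
      = (∫⁻ x, Φ x ∂(gstd ι)) * ∫⁻ x, χ (qsq x) ∂(gstd ι) := by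
  set n := Fintype.card ι with hn
  have hn1 : 1 ≤ n := Fintype.card_pos
  set ψ : ℝ → ℝ≥0∞ := fun r => χ r / gtheta n r with hψd
  have hψ : Measurable ψ := hχ.div (measurable_gtheta n)
  have hcancel : ∀ᵐ x ∂(gstd ι), ψ (qsq x) * gtheta n (qsq x) = χ (qsq x) := by
    filter_upwards [ae_qsq_pos (ι := ι)] with x hx
    exact ENNReal.div_mul_cancel (gtheta_ne_zero n hx.le) (gtheta_ne_top hn1 hx)
  have h1 := polar_pre hΦ hhom hψ
  have h2 := polar_pre (ι := ι) (Φ := fun _ => 1) measurable_const (fun _ _ _ => rfl) hψ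
  have e1 : ∫⁻ x, Φ x * (ψ (qsq x) * gtheta n (qsq x)) ∂(gstd ι)
      = ∫⁻ x, Φ x * χ (qsq x) ∂(gstd ι) := by
    refine lintegral_congr_ae ?_
    filter_upwards [hcancel] with x hx
    rw [hx]
  have e2 : ∫⁻ x, (1 : ℝ≥0∞) * (ψ (qsq x) * gtheta n (qsq x)) ∂(gstd ι)
      = ∫⁻ x, χ (qsq x) ∂(gstd ι) := by
    refine lintegral_congr_ae ?_
    filter_upwards [hcancel] with x hx
    rw [hx, one_mul]
  rw [e1] at h1
  rw [e2, lintegral_one, measure_univ, one_mul] at h2
  rw [← h1, h2]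

end Polar

end Claimed.Agent.R133
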