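/-
Row 133 / S0266, module L1: measurability / continuity / openness.
`Mat n` carries the product (Borel) σ-algebra, see `Basic.lean`.
-/
import Claimed.Agent.R133.LinAlg

set_option autoImplicit false

namespace Claimed.Agent.R133

open MeasureTheory ProbabilityTheory
open scoped BigOperators NNReal ENNReal Matrix

variable {n : ℕ}

theorem measurable_triB (i : Fin n) : Measurable (fun p : Par n => triB p i) := by
  unfold triB
  refine Measurable.sqrt (Finset.measurable_sum _ fun e _ => ?_)
  split_ifs
  · exact ((measurable_pi_apply e).comp measurable_fst).pow_const 2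
  · exact measurable_const

theorem measurable_tri : Measurable (tri : Par n → Mat n) := by
  refine measurable_pi_iff.2 fun i => measurable_pi_iff.2 fun j => ?_
  unfold tri
  split_ifs
  · exact (measurable_pi_apply i).comp measurable_snd
  · exact measurable_triB _
  · exact measurable_triB _
  · exact measurable_const

theorem measurable_entry (i j : Fin n) : Measurable (fun J : Mat n => J i j) :=
  (measurable_pi_apply j).comp (measurable_pi_apply i)

theorem continuous_qf : Continuous (fun p : Mat n × Vec n => qf p.1 p.2) :=
  bl_continuous_qf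

theorem continuous_nrm2 : Continuous (nrm2 : Vec n → ℝ) :=
  bl_continuous_nrm2

theorem measurable_ray : Measurable (fun p : Mat n × Vec n => ray p.1 p.2) := by
  unfold ray
  exact continuous_qf.measurable.div (continuous_nrm2.measurable.comp measurable_snd)

theorem continuous_mulVec (O : Mat n) : Continuous (fun v : Vec n => O *ᵥ v) :=
  continuous_const.matrix_mulVec continuous_id

theorem continuous_spike (θ : ℝ) : Continuous (fun ξ : Vec n => spike θ ξ) := by
  unfold spike
  exact (continuous_id.matrix_vecMulVec continuous_id).const_smul θ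

theorem continuous_frob2 : Continuous (frob2 : Mat n → ℝ) := by
  unfold frob2
  exact continuous_finsetSum _ fun i _ => continuous_finsetSum _ fun j _ =>
    (continuous_id.matrix_elem i j).pow 2

theorem continuous_det_sub (z : ℝ) : Continuous (fun J : Mat n => (z • (1 : Mat n) - J).det) :=
  (continuous_const.sub continuous_id).matrix_det

theorem measurable_Rs (z : ℝ) : Measurable (Rs z : Mat n → Mat n) := by
  have h : (Rs z : Mat n → Mat n) = fun J =>
      ((z • (1 : Mat n) - J).det)⁻¹ • (z • (1 : Mat n) - J).adjugate := by
    funext J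
    rw [Rs, Matrix.inv_def, Ring.inverse_eq_inv']
  rw [h]
  have h1 : Measurable fun J : Mat n => ((z • (1 : Mat n) - J).det)⁻¹ :=
    (continuous_det_sub z).measurable.inv
  have h2 : Continuous fun J : Mat n => (z • (1 : Mat n) - J).adjugate :=
    (continuous_const.sub continuous_id).matrix_adjugate
  refine measurable_pi_iff.2 fun i => measurable_pi_iff.2 fun j => ?_
  have h3 : Measurable fun J : Mat n => (z • (1 : Mat n) - J).adjugate i j :=
    (h2.matrix_elem i j).measurable
  exact h1.mul h3

theorem measurableSet_below_add (A : Mat n) (z : ℝ) :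
    MeasurableSet {M : Mat n | Below (M + A) z} := by
  have hc : Continuous fun J : Mat n => J + A := continuous_id.add continuous_const
  exact ((isOpen_below z).preimage hc).measurableSet

theorem measurableSet_Ev (z ε : ℝ) : MeasurableSet {p : Mat n × Vec n | p.2 ∈ Ev z ε p.1} := by
  unfold Ev
  have hR : Measurable fun p : Mat n × Vec n => Rs z p.1 := (measurable_Rs z).comp measurable_fst
  have hmv : Continuous fun q : Mat n × Vec n => q.1 *ᵥ q.2 :=
    continuous_fst.matrix_mulVec continuous_snd
  have h1 : Measurable fun p : Mat n × Vec n => nrm2 (Rs z p.1 *ᵥ p.2) :=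
    continuous_nrm2.measurable.comp (hmv.measurable.comp (hR.prodMk measurable_snd))
  have h2 : Measurable fun p : Mat n × Vec n =>
      ε * npow n (-(1 / 3)) * frob2 (Rs z p.1) * nrm2 p.2 :=
    ((continuous_frob2.measurable.comp hR).const_mul _).mul
      (continuous_nrm2.measurable.comp measurable_snd)
  exact measurableSet_le h1 h2

theorem measurableSet_G3 (K C : ℝ) : MeasurableSet {p : Mat n × Vec n | p.2 ∈ G3set K C p.1} := by
  unfold G3set
  exact (measurableSet_below_spike _ _).inter (measurableSet_below_spike _ _).compl

theorem measurable_ZE : Measurable (ZE : Mat n → ℝ≥0∞) := by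
  unfold ZE
  refine Finset.measurable_sum _ fun x _ => ?_
  have h : Continuous fun J : Mat n => qf J (sv x) :=
    continuous_qf.comp (continuous_id.prodMk continuous_const)
  exact measurable_eexp.comp (h.measurable.div_const 2)

theorem measurable_IE : Measurable (IE : Mat n → ℝ≥0∞) := by
  unfold IE
  exact Measurable.lintegral_prod_right' (f := fun p : Mat n × Vec n =>
    eexp ((n : ℝ) / 2 * ray p.1 p.2)) (measurable_eexp.comp (measurable_ray.const_mul _))

theorem measurableSet_good (K C : ℝ) : MeasurableSet {J : Mat n | Good n K C J} := by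
  have h : {J : Mat n | Good n K C J} =
      {J : Mat n | Jᵀ = J} ∩ {J | Below J (gam (K / 2) n)} ∩ {J | frob2 J ≤ (n : ℝ) ^ 2} ∩
      {J | ThreeTop J (gam (-K) n)} ∩ {J | ENNReal.ofReal (23 / 24) ≤ gv n (G3set K C J)} ∩
      {J | (gam K n • (1 : Mat n) - J).det ≤
        Real.exp ((n : ℝ) / 2 + K * npow n (1 / 3) + npow n (1 / 10))} := by
    ext J
    simp only [Set.mem_inter_iff, Set.mem_ofPred_eq]
    exact ⟨fun h => ⟨⟨⟨⟨⟨h.symm, h.below⟩, h.frob⟩, h.three⟩, h.g3⟩, h.det⟩,
      fun h => ⟨h.1.1.1.1.1, h.1.1.1.1.2, h.1.1.1.2, h.1.1.2, h.1.2, h.2⟩⟩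
  rw [h]
  have h1 : MeasurableSet {J : Mat n | Jᵀ = J} :=
    (isClosed_eq continuous_id.matrix_transpose continuous_id).measurableSet
  have h3 : MeasurableSet {J : Mat n | frob2 J ≤ (n : ℝ) ^ 2} :=
    (isClosed_le continuous_frob2 continuous_const).measurableSet
  have h5 : MeasurableSet {J : Mat n | ENNReal.ofReal (23 / 24) ≤ gv n (G3set K C J)} := by
    have hm : Measurable fun J : Mat n => gv n (Prod.mk J ⁻¹' {p : Mat n × Vec n |
        p.2 ∈ G3set K C p.1}) := measurable_measure_prodMk_left (measurableSet_G3 K C)
    exact measurableSet_le measurable_const hm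
  have h6 : MeasurableSet {J : Mat n | (gam K n • (1 : Mat n) - J).det ≤
        Real.exp ((n : ℝ) / 2 + K * npow n (1 / 3) + npow n (1 / 10))} :=
    (isClosed_le (continuous_det_sub _) continuous_const).measurableSet
  exact ((((h1.inter (measurableSet_below _)).inter h3).inter (measurableSet_threeTop _)).inter
    h5).inter h6

end Claimed.Agent.R133
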