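/-
Row 133 / S0266, module C1: the GOE, elementary facts, link with `disorderLaw`.   Blueprint sections 0, 2 (M5), 4.
-/
import Claimed.Agent.R133.Meas
import Claimed.Agent.R133.Gauss1

set_option autoImplicit false

namespace Claimed.Agent.R133

open Claims.C0228.CriticalSK MeasureTheory ProbabilityTheory
open scoped BigOperators NNReal ENNReal Matrix

/-! ### coordinates of `parLaw` -/

/-- an off-diagonal parameter has law `N(0,v)` -/
theorem parLaw_mp_edge (v : ℝ≥0) {n : ℕ} (e : Edge n) :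
    MeasurePreserving (fun p : Par n => p.1 e) (parLaw v n) (gaussianReal 0 v) := by
  have h1 : MeasurePreserving (Prod.fst : Par n → Disorder n) (parLaw v n)
      (Measure.pi fun _ : Edge n => gaussianReal 0 v) := by
    unfold parLaw
    exact measurePreserving_fst
  have h2 : MeasurePreserving (Function.eval e : Disorder n → ℝ)
      (Measure.pi fun _ : Edge n => gaussianReal 0 v) (gaussianReal 0 v) :=
    measurePreserving_eval (fun _ : Edge n => gaussianReal 0 v) e
  exact h2.comp h1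

/-- a diagonal parameter has law `N(0,2v)` -/
theorem parLaw_mp_diag (v : ℝ≥0) {n : ℕ} (i : Fin n) :
    MeasurePreserving (fun p : Par n => p.2 i) (parLaw v n) (gaussianReal 0 (2 * v)) := by
  have h1 : MeasurePreserving (Prod.snd : Par n → Vec n) (parLaw v n)
      (Measure.pi fun _ : Fin n => gaussianReal 0 (2 * v)) := by
    unfold parLaw
    exact measurePreserving_snd
  have h2 : MeasurePreserving (Function.eval i : Vec n → ℝ)
      (Measure.pi fun _ : Fin n => gaussianReal 0 (2 * v)) (gaussianReal 0 (2 * v)) :=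
    measurePreserving_eval (fun _ : Fin n => gaussianReal 0 (2 * v)) i
  exact h2.comp h1

theorem toMat_diag {n : ℕ} (p : Par n) (i : Fin n) : toMat p i i = p.2 i := by
  simp [toMat]

theorem toMat_lt {n : ℕ} (p : Par n) {i j : Fin n} (h : i < j) :
    toMat p i j = p.1 ⟨(i, j), h⟩ := by
  simp [toMat, h]

theorem toMat_gt {n : ℕ} (p : Par n) {i j : Fin n} (h : j < i) :
    toMat p i j = p.1 ⟨(j, i), h⟩ := by
  simp [toMat, h, not_lt.mpr h.le]

/-- second moment of a centred Gaussian, `ℝ≥0∞` version -/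
theorem lintegral_sq_gaussianReal (w : ℝ≥0) :
    ∫⁻ t, ENNReal.ofReal (t ^ 2) ∂(gaussianReal 0 w) = w := by
  have h1 : eVar[(id : ℝ → ℝ); gaussianReal 0 w] = ENNReal.ofReal (w : ℝ) := by
    rw [← variance_id_gaussianReal (μ := 0) (v := w)]
    exact ((memLp_id_gaussianReal 2).ofReal_variance_eq).symm
  rw [evariance_eq_lintegral_ofReal] at h1
  simpa [integral_id_gaussianReal] using h1

/-- `J_ii ~ N(0,2/n)`: `P(|J_ii| > r) ≤ 2 exp(-n r²/4)` -/
theorem goe_diag_tail {n : ℕ} (i : Fin n) (r : ℝ) (hr : 0 ≤ r) :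
    goe n {J | r < |J i i|} ≤ 2 * eexp (-((n : ℝ) * r ^ 2 / 4)) := by
  have hn : (n : ℝ≥0) ≠ 0 := by
    have : 0 < n := i.pos
    exact_mod_cast this.ne'
  have hms : MeasurableSet {t : ℝ | r < |t|} :=
    measurableSet_lt measurable_const measurable_id.abs
  have hle : goe n {J | r < |J i i|} ≤ gaussianReal 0 (2 * (n : ℝ≥0)⁻¹) {t : ℝ | r < |t|} := by
    have hm : MeasurableSet {J : Mat n | r < |J i i|} := by
      have : Measurable (fun J : Mat n => J i i) :=
        (measurable_pi_apply i).comp (measurable_pi_apply i)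
      exact measurableSet_lt measurable_const this.abs
    unfold goe goeV
    rw [Measure.map_apply measurable_toMat hm,
      ← (parLaw_mp_diag (n : ℝ≥0)⁻¹ i).measure_preimage hms.nullMeasurableSet]
    apply le_of_eq
    congr 1
    ext p
    simp [toMat_diag]
  refine hle.trans ?_
  have hv : 2 * (n : ℝ≥0)⁻¹ ≠ 0 := mul_ne_zero two_ne_zero (inv_ne_zero hn)
  refine (gauss_tail_var _ hv r hr).trans (le_of_eq ?_)
  congr 2
  have hn' : (n : ℝ) ≠ 0 := by exact_mod_cast hn
  push_cast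
  field_simp
  ring

/-- second moments of the entries -/
theorem lintegral_toMat_sq (v : ℝ≥0) {n : ℕ} (i j : Fin n) :
    ∫⁻ p, ENNReal.ofReal (toMat p i j ^ 2) ∂(parLaw v n) =
      if i = j then ((2 * v : ℝ≥0) : ℝ≥0∞) else (v : ℝ≥0∞) := by
  have hm : Measurable (fun t : ℝ => ENNReal.ofReal (t ^ 2)) :=
    ENNReal.measurable_ofReal.comp (measurable_id.pow_const 2)
  rcases lt_trichotomy i j with h | h | h
  · rw [if_neg h.ne]
    simp_rw [toMat_lt _ h]
    rw [(parLaw_mp_edge v ⟨(i, j), h⟩).lintegral_comp hm, lintegral_sq_gaussianReal]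
  · subst h
    rw [if_pos rfl]
    simp_rw [toMat_diag]
    rw [(parLaw_mp_diag v i).lintegral_comp hm, lintegral_sq_gaussianReal]
  · rw [if_neg h.ne']
    simp_rw [toMat_gt _ h]
    rw [(parLaw_mp_edge v ⟨(j, i), h⟩).lintegral_comp hm, lintegral_sq_gaussianReal]

theorem measurable_toMat_entry {n : ℕ} (i j : Fin n) :
    Measurable (fun p : Par n => toMat p i j) :=
  ((measurable_pi_apply j).comp (measurable_pi_apply i)).comp measurable_toMat

/-- `E |J|_F² = n (n + 1) v` -/
theorem lintegral_frob2_parLaw (v : ℝ≥0) (n : ℕ) :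
    ∫⁻ p, ENNReal.ofReal (frob2 (toMat p)) ∂(parLaw v n) =
      (((n : ℝ≥0) * ((n : ℝ≥0) + 1) * v : ℝ≥0) : ℝ≥0∞) := by
  have h1 : ∀ p : Par n, ENNReal.ofReal (frob2 (toMat p)) =
      ∑ i, ∑ j, ENNReal.ofReal (toMat p i j ^ 2) := by
    intro p
    show ENNReal.ofReal (∑ i, ∑ j, toMat p i j ^ 2) = _
    rw [ENNReal.ofReal_sum_of_nonneg (s := Finset.univ) (f := fun i => ∑ j, toMat p i j ^ 2)
      (fun i _ => Finset.sum_nonneg fun j _ => sq_nonneg _)]
    refine Finset.sum_congr rfl fun i _ => ?_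
    rw [ENNReal.ofReal_sum_of_nonneg (s := Finset.univ) (f := fun j => toMat p i j ^ 2)
      (fun j _ => sq_nonneg _)]
  simp_rw [h1]
  have hm : ∀ i j : Fin n, Measurable (fun p : Par n => ENNReal.ofReal (toMat p i j ^ 2)) :=
    fun i j => ENNReal.measurable_ofReal.comp ((measurable_toMat_entry i j).pow_const 2)
  rw [lintegral_finsetSum _ (fun i _ => Finset.measurable_sum _ fun j _ => hm i j)]
  have h2 : ∀ i : Fin n, ∫⁻ p, ∑ j, ENNReal.ofReal (toMat p i j ^ 2) ∂(parLaw v n) =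
      ((((n : ℝ≥0) + 1) * v : ℝ≥0) : ℝ≥0∞) := by
    intro i
    rw [lintegral_finsetSum _ (fun j _ => hm i j)]
    simp_rw [lintegral_toMat_sq]
    have h3 : ∀ j : Fin n, (if i = j then ((2 * v : ℝ≥0) : ℝ≥0∞) else (v : ℝ≥0∞)) =
        (v : ℝ≥0∞) + if i = j then (v : ℝ≥0∞) else 0 := by
      intro j
      split_ifs
      · push_cast; ring
      · simp
    simp_rw [h3]
    rw [Finset.sum_add_distrib]
    simp
    ring
  simp_rw [h2]
  simp
  ring

/-- `E |J|_F² = n + 1` and Markov -/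
theorem goe_frob {n : ℕ} (hn : 0 < n) :
    goe n {J | (n : ℝ) ^ 2 < frob2 J} ≤ ENNReal.ofReal (((n : ℝ) + 1) / (n : ℝ) ^ 2) := by
  have hn0 : (n : ℝ≥0) ≠ 0 := by exact_mod_cast hn.ne'
  have hnR : (0 : ℝ) < (n : ℝ) ^ 2 := by positivity
  have hm : Measurable (fun J : Mat n => frob2 J) := by
    unfold frob2
    refine Finset.measurable_sum _ fun i _ => Finset.measurable_sum _ fun j _ => ?_
    exact ((measurable_pi_apply j).comp (measurable_pi_apply i)).pow_const 2
  have hm' : Measurable (fun J : Mat n => ENNReal.ofReal (frob2 J)) :=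
    ENNReal.measurable_ofReal.comp hm
  have hset : {J : Mat n | (n : ℝ) ^ 2 < frob2 J} ⊆
      {J | ENNReal.ofReal ((n : ℝ) ^ 2) ≤ ENNReal.ofReal (frob2 J)} :=
    fun J hJ => ENNReal.ofReal_le_ofReal (le_of_lt hJ)
  have hI : ∫⁻ J, ENNReal.ofReal (frob2 J) ∂(goe n) = ENNReal.ofReal ((n : ℝ) + 1) := by
    unfold goe goeV
    rw [lintegral_map hm' measurable_toMat, lintegral_frob2_parLaw]
    have h1 : (n : ℝ≥0) * ((n : ℝ≥0) + 1) * (n : ℝ≥0)⁻¹ = (n : ℝ≥0) + 1 := by
      field_simp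
    have h2 : (n : ℝ) + 1 = (((n : ℝ≥0) + 1 : ℝ≥0) : ℝ) := by push_cast; ring
    rw [h1, h2, ENNReal.ofReal_coe_nnreal]
  calc goe n {J | (n : ℝ) ^ 2 < frob2 J}
      ≤ goe n {J | ENNReal.ofReal ((n : ℝ) ^ 2) ≤ ENNReal.ofReal (frob2 J)} := measure_mono hset
    _ ≤ (∫⁻ J, ENNReal.ofReal (frob2 J) ∂(goe n)) / ENNReal.ofReal ((n : ℝ) ^ 2) :=
        meas_ge_le_lintegral_div hm'.aemeasurable
          (ENNReal.ofReal_pos.mpr hnR).ne' ENNReal.ofReal_ne_top
    _ = ENNReal.ofReal (((n : ℝ) + 1) / (n : ℝ) ^ 2) := by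
        rw [hI, ENNReal.ofReal_div_of_pos hnR]

theorem goe_symm (n : ℕ) : ∀ᵐ J ∂(goe n), Jᵀ = J :=
  goeV_symm _ n

theorem lintegral_goe_cj {n : ℕ} (O : Mat n) (hO : IsOrth O) (F : Mat n → ℝ≥0∞) (hF : Measurable F) :
    ∫⁻ J, F (cj O J) ∂(goe n) = ∫⁻ J, F J ∂(goe n) :=
  lintegral_goeV_cj _ n hO F hF

/-- transfer of an event from the disorder to the GOE (no measurability needed) -/
theorem disorderLaw_le_goe {n : ℕ} (S : Set (Disorder n)) (T : Set (Mat n))
    (h : ∀ W ∈ S, ∀ d : Vec n, toMat (W, d) ∈ T) : disorderLaw n S ≤ goe n T := by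
  have h1 : disorderLaw n S = parLaw (n : ℝ≥0)⁻¹ n (S ×ˢ Set.univ) := by
    unfold parLaw disorderLaw
    rw [Measure.prod_prod]
    simp
  rw [h1]
  unfold goe goeV
  refine le_trans (measure_mono ?_) (Measure.le_map_apply measurable_toMat.aemeasurable T)
  rintro ⟨W, d⟩ ⟨hW, -⟩
  exact h W hW d

theorem spinValue_mul_self (b : Bool) : spinValue b * spinValue b = 1 := by
  cases b <;> simp [spinValue]

/-- `xᵀ J x = 2 H(x) + tr J` on the cube -/
theorem qf_toMat_sv {n : ℕ} (W : Disorder n) (d : Vec n) (x : Spin n) :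
    qf (toMat (W, d)) (sv x) = 2 * hamiltonian W x + ∑ i, d i := by
  classical
  set f : Fin n × Fin n → ℝ := fun p =>
    (if h : p.1 < p.2 then W ⟨p, h⟩ else 0) * spinValue (x p.1) * spinValue (x p.2) with hf
  have hH : hamiltonian W x = ∑ p, f p := by
    have h1 : ∑ p ∈ Finset.univ.filter (fun p : Fin n × Fin n => p.1 < p.2), f p =
        ∑ e : Edge n, f e :=
      Finset.sum_subtype _ (by simp) f
    have h2 : ∑ p ∈ Finset.univ.filter (fun p : Fin n × Fin n => p.1 < p.2), f p = ∑ p, f p := by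
      refine Finset.sum_subset (Finset.filter_subset _ _) fun p _ hp => ?_
      have : ¬ p.1 < p.2 := by simpa using hp
      simp [hf, this]
    rw [← h2, h1]
    unfold hamiltonian
    refine Finset.sum_congr rfl fun e _ => ?_
    simp [hf, e.2]
  have hswap : ∑ p : Fin n × Fin n, f p.swap = ∑ p, f p :=
    Equiv.sum_comp (Equiv.prodComm (Fin n) (Fin n)) f
  have hdiag : ∑ p : Fin n × Fin n, (if p.1 = p.2 then d p.1 else 0) = ∑ i, d i := by
    rw [Fintype.sum_prod_type]
    simp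
  have hq : qf (toMat (W, d)) (sv x) =
      ∑ p : Fin n × Fin n, sv x p.1 * (toMat (W, d) p.1 p.2 * sv x p.2) := by
    rw [Fintype.sum_prod_type]
    unfold qf
    simp only [dotProduct, Matrix.mulVec, Finset.mul_sum]
  have hsum : 2 * hamiltonian W x + ∑ i, d i =
      ∑ p : Fin n × Fin n, (f p + f p.swap + (if p.1 = p.2 then d p.1 else 0)) := by
    rw [Finset.sum_add_distrib, Finset.sum_add_distrib, hswap, hdiag, hH]
    ring
  rw [hq, hsum]
  refine Finset.sum_congr rfl fun p _ => ?_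
  obtain ⟨i, j⟩ := p
  rcases lt_trichotomy i j with h | h | h
  · simp only [toMat_lt _ h, hf, sv, Prod.swap, h, dif_pos, not_lt.mpr h.le, dif_neg,
      not_false_eq_true, h.ne, if_false]
    ring
  · subst h
    simp only [toMat_diag, hf, sv, Prod.swap, lt_irrefl, dif_neg, not_false_eq_true, if_true]
    have := spinValue_mul_self (x i)
    linear_combination (d i) * this
  · simp only [toMat_gt _ h, hf, sv, Prod.swap, h, dif_pos, not_lt.mpr h.le, dif_neg,
      not_false_eq_true, h.ne', if_false]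
    ring

/-- the diagonal does not change the Gibbs measure -/
theorem gibbs_eq_toMat {n : ℕ} (W : Disorder n) (d : Vec n) (x : Spin n) :
    gibbs W x = Real.exp (qf (toMat (W, d)) (sv x) / 2) /
      ∑ y : Spin n, Real.exp (qf (toMat (W, d)) (sv y) / 2) := by
  have h : ∀ y : Spin n, Real.exp (qf (toMat (W, d)) (sv y) / 2) =
      Real.exp ((∑ i, d i) / 2) * Real.exp (hamiltonian W y) := by
    intro y
    rw [qf_toMat_sv, ← Real.exp_add]
    congr 1
    ring
  simp_rw [h]
  rw [← Finset.mul_sum, mul_div_mul_left _ _ (Real.exp_pos _).ne']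
  rfl

end Claimed.Agent.R133
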