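/-
Row 133 / S0266, section 4 (foundations).  Border decomposition of the GOE.
-/
import Claimed.Agent.R133.GoeDef

set_option autoImplicit false

namespace Claimed.Agent.R133

open Claims.C0228.CriticalSK MeasureTheory ProbabilityTheory
open scoped BigOperators NNReal ENNReal Matrix

noncomputable section

theorem border_zero_zero {m : ℕ} (d : ℝ) (w : Vec m) (M : Mat m) : border d w M 0 0 = d := rfl

theorem border_zero_succ {m : ℕ} (d : ℝ) (w : Vec m) (M : Mat m) (j : Fin m) :
    border d w M 0 j.succ = w j := rfl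

theorem border_succ_zero {m : ℕ} (d : ℝ) (w : Vec m) (M : Mat m) (i : Fin m) :
    border d w M i.succ 0 = w i := rfl

theorem border_succ_succ {m : ℕ} (d : ℝ) (w : Vec m) (M : Mat m) (i j : Fin m) :
    border d w M i.succ j.succ = M i j := rfl

theorem continuous_border {m : ℕ} :
    Continuous (fun x : ℝ × Vec m × Mat m => border x.1 x.2.1 x.2.2) := by
  refine continuous_matrix fun i j => ?_
  refine Fin.cases ?_ (fun i => ?_) i <;> refine Fin.cases ?_ (fun j => ?_) j
  · simp only [border_zero_zero]; fun_prop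
  · simp only [border_zero_succ]; fun_prop
  · simp only [border_succ_zero]; fun_prop
  · simp only [border_succ_succ]
    exact (continuous_snd.comp continuous_snd).matrix_elem i j

theorem measurable_border {m : ℕ} :
    Measurable (fun x : ℝ × Vec m × Mat m => border x.1 x.2.1 x.2.2) :=
  continuous_border.measurable

/-- `border` as a continuous linear map. -/
def borderL (m : ℕ) :
    (ℝ × (Fin m → ℝ) × (Fin m → Fin m → ℝ)) →L[ℝ] (Fin (m + 1) → Fin (m + 1) → ℝ) :=
  LinearMap.toContinuousLinearMap
    { toFun := fun x i j => border x.1 x.2.1 (Matrix.of x.2.2) i j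
      map_add' := by
        intro x y
        funext i j
        refine Fin.cases ?_ (fun i => ?_) i <;> refine Fin.cases ?_ (fun j => ?_) j <;> rfl
      map_smul' := by
        intro c x
        funext i j
        refine Fin.cases ?_ (fun i => ?_) i <;> refine Fin.cases ?_ (fun j => ?_) j <;> rfl }

theorem borderL_apply {m : ℕ} (x : ℝ × (Fin m → ℝ) × (Fin m → Fin m → ℝ)) :
    borderL m x = fun i j => border x.1 x.2.1 (Matrix.of x.2.2) i j := rfl

/-- a functional evaluated on a bordered matrix -/
theorem apply_border {m : ℕ} (L : StrongDual ℝ (Fin (m + 1) → Fin (m + 1) → ℝ)) (d : ℝ)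
    (w : Vec m) (M : Mat m) :
    L (fun i j => border d w M i j) = tc L 0 0 * d + ∑ j, tc L 0 j.succ * w j
      + ∑ i, tc L i.succ 0 * w i + ∑ i, ∑ j, tc L i.succ j.succ * M i j := by
  rw [tc_apply, Fin.sum_univ_succ, Fin.sum_univ_succ]
  simp only [Fin.sum_univ_succ (fun j => tc L (Fin.succ _) j * border d w M (Fin.succ _) j),
    border_zero_zero, border_zero_succ, border_succ_zero, border_succ_succ,
    Finset.sum_add_distrib]
  ring

/-- the algebraic identity behind the border decomposition -/
theorem frob2_border_identity {m : ℕ} (v : ℝ) (t : Mat (m + 1)) (t' : Mat m)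
    (ht : ∀ i j, t' i j = t i.succ j.succ) :
    2 * v * (t 0 0) ^ 2 + (∑ i : Fin m, v * (t 0 i.succ + t i.succ 0) ^ 2
      + v / 2 * frob2 (t' + t'ᵀ)) = v / 2 * frob2 (t + tᵀ) := by
  unfold frob2
  simp only [Matrix.add_apply, Matrix.transpose_apply, ht, Fin.sum_univ_succ,
    Finset.sum_add_distrib, ← Finset.mul_sum]
  have e : ∑ i : Fin m, (t i.succ 0 + t 0 i.succ) ^ 2 = ∑ i : Fin m, (t 0 i.succ + t i.succ 0) ^ 2 :=
    Finset.sum_congr rfl fun i _ => by ring
  rw [e]
  ring

/-- BORDER DECOMPOSITION of the GOE: first diagonal entry, first row, and the lower right block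
are independent, `N(0,2v)`, `N(0,v)^m` and `GOE_m(v)`. -/
theorem goeV_border (v : ℝ≥0) (m : ℕ) :
    ((gaussianReal 0 (2 * v)).prod
      ((Measure.pi fun _ : Fin m => gaussianReal 0 v).prod (goeV v m))).map
        (fun x => border x.1 x.2.1 x.2.2) = goeV v (m + 1) := by
  have h0 : CGauss (E := Fin m → Fin m → ℝ) (show Measure (Fin m → Fin m → ℝ) from goeV v m)
      (fun L => (v : ℝ) / 2 * frob2 (tc L + (tc L)ᵀ)) := cgauss_goeV v m
  have h0' : CGauss (E := Fin (m + 1) → Fin (m + 1) → ℝ)
      (show Measure (Fin (m + 1) → Fin (m + 1) → ℝ) from goeV v (m + 1))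
      (fun L => (v : ℝ) / 2 * frob2 (tc L + (tc L)ᵀ)) := cgauss_goeV v (m + 1)
  have h1 := ((cgauss_real (2 * v)).prod
    ((CGauss.pi fun _ : Fin m => cgauss_real v).prod h0)).map (borderL m)
  refine CGauss.ext (E := Fin (m + 1) → Fin (m + 1) → ℝ) h1 h0' fun L => ?_
  have e1 : ((L.comp (borderL m)).comp (.inl ℝ ℝ ((Fin m → ℝ) × (Fin m → Fin m → ℝ)))) 1
      = tc L 0 0 := by
    simp only [ContinuousLinearMap.comp_apply, ContinuousLinearMap.inl_apply, borderL_apply]
    rw [apply_border]
    simp
  have e2 : ∀ i : Fin m, ((((L.comp (borderL m)).comp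
      (.inr ℝ ℝ ((Fin m → ℝ) × (Fin m → Fin m → ℝ)))).comp
      (.inl ℝ (Fin m → ℝ) (Fin m → Fin m → ℝ))).comp
      (.single ℝ (fun _ : Fin m => ℝ) i)) 1 = tc L 0 i.succ + tc L i.succ 0 := by
    intro i
    simp only [ContinuousLinearMap.comp_apply, ContinuousLinearMap.inl_apply,
      ContinuousLinearMap.inr_apply, borderL_apply, ContinuousLinearMap.single_apply]
    rw [apply_border]
    simp [Pi.single_apply]
  have e3 : ∀ i j, tc (((L.comp (borderL m)).comp
      (.inr ℝ ℝ ((Fin m → ℝ) × (Fin m → Fin m → ℝ)))).comp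
      (.inr ℝ (Fin m → ℝ) (Fin m → Fin m → ℝ))) i j = tc L i.succ j.succ := by
    intro i j
    rw [tc]
    simp only [ContinuousLinearMap.comp_apply, ContinuousLinearMap.inr_apply, borderL_apply]
    rw [apply_border]
    have hs : ∀ x y : Fin m, (Matrix.of (Pi.single i (Pi.single j (1 : ℝ)) : Fin m → Fin m → ℝ)) x y
        = if x = i then (if y = j then 1 else 0) else 0 := by
      intro x y
      by_cases hx : x = i
      · subst hx
        simp [Pi.single_apply]
      · simp [hx]
    simp [hs]
  simp only [e1, e2]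
  have := frob2_border_identity (v : ℝ) (tc L) _ e3
  push_cast
  linarith

end

end Claimed.Agent.R133
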