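/-
Row 133 / S0266, module C3: Gaussian tilt of the diagonal of the GOE.   Blueprint sections 0, 2 (M5), 4.
-/
import Claimed.Agent.R133.GoeA
import Claimed.Agent.R133.Gauss1

set_option autoImplicit false

namespace Claimed.Agent.R133

open Claims.C0228.CriticalSK MeasureTheory ProbabilityTheory
open scoped BigOperators NNReal ENNReal Matrix

/-- tilt of one coordinate of a product of centred Gaussians -/
theorem goeTilt_pi_tilt {n : ℕ} (w : ℝ≥0) (i : Fin n) (c : ℝ) (G : Vec n → ℝ≥0∞)
    (hG : Measurable G) :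
    ∫⁻ d, G d * eexp (c * d i) ∂(Measure.pi fun _ : Fin n => gaussianReal 0 w) =
      eexp (w * c ^ 2 / 2) *
        ∫⁻ d, G (d + Pi.single i ((w : ℝ) * c)) ∂(Measure.pi fun _ : Fin n => gaussianReal 0 w) := by
  obtain ⟨m, rfl⟩ : ∃ m, n = m + 1 := ⟨n - 1, by have := i.pos; omega⟩
  have hmp := measurePreserving_piFinSuccAbove (fun _ : Fin (m + 1) => gaussianReal 0 w) i
  set e := MeasurableEquiv.piFinSuccAbove (fun _ : Fin (m + 1) => ℝ) i with he
  have key : ∀ H : Vec (m + 1) → ℝ≥0∞, Measurable H →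
      ∫⁻ d, H d ∂(Measure.pi fun _ : Fin (m + 1) => gaussianReal 0 w) =
        ∫⁻ y, ∫⁻ t, H (e.symm (t, y)) ∂(gaussianReal 0 w)
          ∂(Measure.pi fun _ : Fin m => gaussianReal 0 w) := by
    intro H hH
    rw [← (hmp.symm e).lintegral_comp hH]
    exact lintegral_prod_symm (fun a => H (e.symm a)) (hH.comp e.symm.measurable).aemeasurable
  have hins : ∀ (t : ℝ) (y : Fin m → ℝ),
      e.symm (t, y) = Fin.insertNth (α := fun _ => ℝ) i t y := fun _ _ => rfl
  have hsame : ∀ (t : ℝ) (y : Fin m → ℝ), (e.symm (t, y)) i = t := by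
    intro t y
    rw [hins, Fin.insertNth_apply_same]
  have hshift : ∀ (t s : ℝ) (y : Fin m → ℝ),
      e.symm (t, y) + Pi.single i s = e.symm (t + s, y) := by
    intro t s y
    funext k
    rcases Fin.eq_self_or_eq_succAbove i k with rfl | ⟨l, rfl⟩
    · rw [Pi.add_apply, hins, hins, Fin.insertNth_apply_same, Fin.insertNth_apply_same,
        Pi.single_eq_same]
    · rw [Pi.add_apply, hins, hins, Fin.insertNth_apply_succAbove, Fin.insertNth_apply_succAbove,
        Pi.single_eq_of_ne (Fin.succAbove_ne i l), add_zero]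
  have hm1 : Measurable fun d : Vec (m + 1) => G d * eexp (c * d i) :=
    hG.mul (measurable_eexp.comp (measurable_const.mul (measurable_pi_apply i)))
  have hm2 : Measurable fun d : Vec (m + 1) => G (d + Pi.single i ((w : ℝ) * c)) :=
    hG.comp (measurable_id.add measurable_const)
  rw [key _ hm1, key _ hm2, ← lintegral_const_mul]
  · refine lintegral_congr fun y => ?_
    have hGy : Measurable fun t : ℝ => G (e.symm (t, y)) :=
      hG.comp (e.symm.measurable.comp (measurable_id.prodMk measurable_const))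
    have h1 := gauss_tilt w c (fun t => G (e.symm (t, y))) hGy
    simp only [hsame, hshift]
    exact h1
  · exact (hm2.comp e.symm.measurable).lintegral_prod_left'

theorem goeTilt_toMat_add {n : ℕ} (W : Disorder n) (d : Vec n) (i : Fin n) (a : ℝ) :
    toMat (W, d + Pi.single i a) = toMat (W, d) + spike a (eb i) := by
  funext k l
  rw [Matrix.add_apply, spike_eb_apply]
  unfold toMat
  by_cases h1 : k < l
  · have : ¬ (k = i ∧ l = i) := by
      rintro ⟨rfl, rfl⟩; exact lt_irrefl _ h1
    simp [h1, this]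
  · by_cases h2 : l < k
    · have : ¬ (k = i ∧ l = i) := by
        rintro ⟨rfl, rfl⟩; exact lt_irrefl _ h2
      simp [h1, h2, this]
    · have hkl : k = l := le_antisymm (not_lt.1 h2) (not_lt.1 h1)
      subst hkl
      by_cases hk : k = i
      · subst hk; simp
      · simp [hk]

theorem goeTilt_toMat_diag {n : ℕ} (W : Disorder n) (d : Vec n) (i : Fin n) :
    toMat (W, d) i i = d i := by
  simp [toMat]

theorem goeTilt_lintegral_goe {n : ℕ} (H : Mat n → ℝ≥0∞) (hH : Measurable H) :
    ∫⁻ J, H J ∂(goe n) = ∫⁻ W, ∫⁻ d, H (toMat (W, d))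
      ∂(Measure.pi fun _ : Fin n => gaussianReal 0 (2 * (n : ℝ≥0)⁻¹))
      ∂(Measure.pi fun _ : Edge n => gaussianReal 0 (n : ℝ≥0)⁻¹) := by
  unfold goe goeV parLaw
  rw [lintegral_map hH measurable_toMat]
  exact lintegral_prod (fun p => H (toMat p)) (hH.comp measurable_toMat).aemeasurable

/-- GAUSSIAN TILT of two diagonal entries (`J_ii ~ N(0,2/n)`). -/
theorem goe_tilt {n : ℕ} (i j : Fin n) (hij : i ≠ j) (a b : ℝ) (F : Mat n → ℝ≥0∞)
    (hF : Measurable F) :
    ∫⁻ J, F J * eexp ((n : ℝ) / 2 * (a * J i i + b * J j j)) ∂(goe n) =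
      eexp ((n : ℝ) * (a ^ 2 + b ^ 2) / 4) *
        ∫⁻ J, F (J + spike a (eb i) + spike b (eb j)) ∂(goe n) := by
  have hn : (n : ℝ) ≠ 0 := by
    have := i.pos
    positivity
  have hw : (((2 * (n : ℝ≥0)⁻¹ : ℝ≥0)) : ℝ) = 2 * (n : ℝ)⁻¹ := by push_cast; ring
  have hmL : Measurable fun J : Mat n => F J * eexp ((n : ℝ) / 2 * (a * J i i + b * J j j)) :=
    hF.mul (measurable_eexp.comp (measurable_const.mul
      ((measurable_const.mul (measurable_entry i i)).add
        (measurable_const.mul (measurable_entry j j)))))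
  have hmR : Measurable fun J : Mat n => F (J + spike a (eb i) + spike b (eb j)) :=
    hF.comp ((continuous_id.add continuous_const).add continuous_const).measurable
  rw [goeTilt_lintegral_goe _ hmL, goeTilt_lintegral_goe _ hmR, ← lintegral_const_mul]
  · refine lintegral_congr fun W => ?_
    have hFW : Measurable fun d : Vec n => F (toMat (W, d)) :=
      hF.comp (measurable_toMat.comp (measurable_const.prodMk measurable_id))
    have hG1 : Measurable fun d : Vec n => F (toMat (W, d)) * eexp ((n : ℝ) / 2 * b * d j) :=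
      hFW.mul (measurable_eexp.comp (measurable_const.mul (measurable_pi_apply j)))
    have h1 := goeTilt_pi_tilt (2 * (n : ℝ≥0)⁻¹) i ((n : ℝ) / 2 * a) _ hG1
    have hG2 : Measurable fun d : Vec n => F (toMat (W, d + Pi.single i a)) :=
      hFW.comp (measurable_id.add measurable_const)
    have h2 := goeTilt_pi_tilt (2 * (n : ℝ≥0)⁻¹) j ((n : ℝ) / 2 * b) _ hG2
    have ea : (((2 * (n : ℝ≥0)⁻¹ : ℝ≥0)) : ℝ) * ((n : ℝ) / 2 * a) = a := by
      rw [hw]; field_simp
    have eb' : (((2 * (n : ℝ≥0)⁻¹ : ℝ≥0)) : ℝ) * ((n : ℝ) / 2 * b) = b := by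
      rw [hw]; field_simp
    rw [ea] at h1
    rw [eb'] at h2
    have e1 : ∀ d : Vec n, F (toMat (W, d)) *
        eexp ((n : ℝ) / 2 * (a * toMat (W, d) i i + b * toMat (W, d) j j)) =
        F (toMat (W, d)) * eexp ((n : ℝ) / 2 * b * d j) * eexp ((n : ℝ) / 2 * a * d i) := by
      intro d
      rw [goeTilt_toMat_diag, goeTilt_toMat_diag, mul_assoc, ← eexp_add]
      congr 2
      ring
    have e2 : ∀ d : Vec n, (d + (Pi.single i a : Vec n)) j = d j := by
      intro d
      rw [Pi.add_apply, Pi.single_eq_of_ne hij.symm, add_zero]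
    simp only [e1]
    rw [h1]
    simp only [e2]
    rw [h2, ← mul_assoc, ← eexp_add]
    congr 1
    · congr 1
      rw [hw]; field_simp; ring
    · refine lintegral_congr fun d => ?_
      rw [goeTilt_toMat_add, goeTilt_toMat_add, add_right_comm]
  · exact (hmR.comp measurable_toMat).lintegral_prod_right'

end Claimed.Agent.R133
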