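/-
Row 133 / S0266, section 4.  Jacobi matrices, the Jacobi (tridiagonal) model of the GOE.
-/
import Claimed.Agent.R133.GoeDef

set_option autoImplicit false

namespace Claimed.Agent.R133

open MeasureTheory ProbabilityTheory
open scoped BigOperators NNReal ENNReal Matrix

noncomputable section

/-- Jacobi matrix of size `n` with diagonal `a 0, …, a (n-1)` and off-diagonal `b 0, …, b (n-2)`
(`b j` couples `j` and `j+1`). -/
def jacM (n : ℕ) (a b : ℕ → ℝ) : Mat n := fun i j =>
  if i = j then a i.val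
  else if i.val + 1 = j.val then b i.val
  else if j.val + 1 = i.val then b j.val
  else 0

/-- parameters of the Jacobi model: `q j = (a_j, s_j)`, `s_j = b_j ^ 2`. -/
abbrev JPar (n : ℕ) := Fin n → ℝ × ℝ

/-- diagonal sequence -/
def ja {n : ℕ} (q : JPar n) (j : ℕ) : ℝ := if h : j < n then (q ⟨j, h⟩).1 else 0

/-- squared off-diagonal sequence -/
def js {n : ℕ} (q : JPar n) (j : ℕ) : ℝ := if h : j < n then (q ⟨j, h⟩).2 else 0

/-- off-diagonal sequence -/
def jb {n : ℕ} (q : JPar n) (j : ℕ) : ℝ := Real.sqrt (js q j)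

/-- the Jacobi matrix of the parameters -/
def jacMat {n : ℕ} (q : JPar n) : Mat n := jacM n (ja q) (jb q)

/-- law of `∑_{i<k} w_i ^ 2`, `w_i` i.i.d. `N(0,v)` -/
def chisq (v : ℝ≥0) (k : ℕ) : Measure ℝ :=
  (Measure.pi fun _ : Fin k => gaussianReal 0 v).map (fun w => ∑ i, w i ^ 2)

/-- the Jacobi model: independent `a_j ~ N(0,2v)`, `s_j ~ v χ²_{n-1-j}`. A PRODUCT measure. -/
def jacLaw (v : ℝ≥0) (n : ℕ) : Measure (JPar n) :=
  Measure.pi fun j : Fin n => (gaussianReal 0 (2 * v)).prod (chisq v (n - 1 - j.val))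

instance instProbChisq (v : ℝ≥0) (k : ℕ) : IsProbabilityMeasure (chisq v k) :=
  Measure.isProbabilityMeasure_map (Measurable.aemeasurable (by fun_prop))

instance instProbJacLaw (v : ℝ≥0) (n : ℕ) : IsProbabilityMeasure (jacLaw v n) := by
  unfold jacLaw; infer_instance

theorem jacM_transpose (n : ℕ) (a b : ℕ → ℝ) : (jacM n a b)ᵀ = jacM n a b := by
  ext i j
  rw [Matrix.transpose_apply]
  unfold jacM
  by_cases hij : i = j
  · subst hij; rfl
  · rw [if_neg hij, if_neg (Ne.symm hij)]
    split_ifs <;> first | rfl | omega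

/-- recursive structure of Jacobi matrices -/
theorem jacM_succ (m : ℕ) (a b : ℕ → ℝ) :
    jacM (m + 1) a b
      = border (a 0) (b 0 • e0 m) (jacM m (fun j => a (j + 1)) (fun j => b (j + 1))) := by
  ext i j
  refine Fin.cases ?_ (fun i => ?_) i <;> refine Fin.cases ?_ (fun j => ?_) j <;>
    simp [jacM, border, e0, Fin.ext_iff, eq_comm]

theorem jacMat_cons {m : ℕ} (x : ℝ × ℝ) (q : JPar m) :
    jacMat (Fin.cons x q : JPar (m + 1)) = border x.1 (Real.sqrt x.2 • e0 m) (jacMat q) := by
  have ha0 : ja (Fin.cons x q : JPar (m + 1)) 0 = x.1 := by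
    simp [ja]
  have hs0 : js (Fin.cons x q : JPar (m + 1)) 0 = x.2 := by
    simp [js]
  have hcons : ∀ (j : ℕ) (h : j < m) (h' : j + 1 < m + 1),
      (Fin.cons x q : JPar (m + 1)) ⟨j + 1, h'⟩ = q ⟨j, h⟩ := by
    intro j h h'
    exact Fin.cons_succ (α := fun _ => ℝ × ℝ) x q ⟨j, h⟩
  have ha : (fun j => ja (Fin.cons x q : JPar (m + 1)) (j + 1)) = ja q := by
    funext j
    by_cases h : j < m
    · have h' : j + 1 < m + 1 := by omega
      simp only [ja, dif_pos h, dif_pos h', hcons j h h']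
    · have h' : ¬ j + 1 < m + 1 := by omega
      simp only [ja, dif_neg h, dif_neg h']
  have hb : (fun j => jb (Fin.cons x q : JPar (m + 1)) (j + 1)) = jb q := by
    funext j
    by_cases h : j < m
    · have h' : j + 1 < m + 1 := by omega
      simp only [jb, js, dif_pos h, dif_pos h', hcons j h h']
    · have h' : ¬ j + 1 < m + 1 := by omega
      simp only [jb, js, dif_neg h, dif_neg h']
  unfold jacMat
  rw [jacM_succ, ha, hb, ha0]
  simp only [jb, hs0]

/-- bilinear form of a bordered matrix -/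
theorem jd_dot_border {m : ℕ} (d : ℝ) (w : Vec m) (M : Mat m) (u v : Vec (m + 1)) :
    u ⬝ᵥ (border d w M *ᵥ v)
      = u 0 * (d * v 0 + w ⬝ᵥ Fin.tail v)
        + Fin.tail u ⬝ᵥ (v 0 • w + M *ᵥ Fin.tail v) := by
  simp only [dotProduct, Matrix.mulVec, Fin.sum_univ_succ, border, Fin.tail, Matrix.of_apply,
    Fin.cons_zero, Fin.cons_succ, Pi.add_apply, Pi.smul_apply, smul_eq_mul]
  congr 1
  refine Finset.sum_congr rfl fun i _ => ?_
  ring

theorem jd_e0_dot (k : ℕ) (f : Vec (k + 1)) : e0 (k + 1) ⬝ᵥ f = f 0 := by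
  simp [e0, dotProduct]

theorem jd_dot_jacM (n : ℕ) (a b u v : ℕ → ℝ) :
    (fun i : Fin n => u i.val) ⬝ᵥ (jacM n a b *ᵥ fun i : Fin n => v i.val)
      = ∑ j ∈ Finset.range n, a j * u j * v j
        + ∑ j ∈ Finset.range (n - 1), b j * (u j * v (j + 1) + u (j + 1) * v j) := by
  induction n generalizing a b u v with
  | zero => simp
  | succ m ih =>
    have hu : Fin.tail (fun i : Fin (m + 1) => u i.val) = fun i : Fin m => u (i.val + 1) := rfl
    have hv : Fin.tail (fun i : Fin (m + 1) => v i.val) = fun i : Fin m => v (i.val + 1) := rfl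
    rw [jacM_succ, jd_dot_border, hu, hv, dotProduct_add,
      ih (fun j => a (j + 1)) (fun j => b (j + 1)) (fun j => u (j + 1)) (fun j => v (j + 1)),
      Finset.sum_range_succ' (fun j => a j * u j * v j) m]
    cases m with
    | zero => simp; ring
    | succ k =>
      rw [smul_dotProduct, jd_e0_dot, dotProduct_smul, dotProduct_smul, dotProduct_comm,
        jd_e0_dot]
      simp only [Nat.add_sub_cancel, Fin.val_zero, smul_eq_mul, zero_add]
      rw [Finset.sum_range_succ' (fun j => b j * (u j * v (j + 1) + u (j + 1) * v j)) k]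
      simp only [zero_add]
      ring

/-- quadratic form of a Jacobi matrix, in `ℕ`-indexed sums -/
theorem qf_jacM (n : ℕ) (a b v : ℕ → ℝ) :
    qf (jacM n a b) (fun i => v i.val)
      = ∑ j ∈ Finset.range n, a j * v j ^ 2
        + 2 * ∑ j ∈ Finset.range (n - 1), b j * v j * v (j + 1) := by
  unfold qf
  rw [jd_dot_jacM, Finset.mul_sum]
  congr 1
  · exact Finset.sum_congr rfl fun j _ => by ring
  · exact Finset.sum_congr rfl fun j _ => by ring

/-- bilinear version: for test vectors -/
theorem dot_jacM (n : ℕ) (a b u v : ℕ → ℝ) :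
    (fun i : Fin n => u i.val) ⬝ᵥ (jacM n a b *ᵥ fun i : Fin n => v i.val)
      = ∑ j ∈ Finset.range n, a j * u j * v j
        + ∑ j ∈ Finset.range (n - 1), b j * (u j * v (j + 1) + u (j + 1) * v j) :=
  jd_dot_jacM n a b u v

theorem measurable_ja {n : ℕ} (j : ℕ) : Measurable (fun q : JPar n => ja q j) := by
  unfold ja
  split_ifs with h
  · exact (measurable_pi_apply _).fst
  · exact measurable_const

theorem measurable_js {n : ℕ} (j : ℕ) : Measurable (fun q : JPar n => js q j) := by
  unfold js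
  split_ifs with h
  · exact (measurable_pi_apply _).snd
  · exact measurable_const

theorem measurable_jb {n : ℕ} (j : ℕ) : Measurable (fun q : JPar n => jb q j) :=
  (measurable_js j).sqrt

theorem measurable_jacMat {n : ℕ} : Measurable (jacMat (n := n)) := by
  refine measurable_pi_iff.2 fun i => measurable_pi_iff.2 fun j => ?_
  unfold jacMat jacM
  split_ifs
  · exact measurable_ja _
  · exact measurable_jb _
  · exact measurable_jb _
  · exact measurable_const

/-- recursive structure of the Jacobi model -/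
theorem jacLaw_succ (v : ℝ≥0) (m : ℕ) :
    jacLaw v (m + 1)
      = (((gaussianReal 0 (2 * v)).prod (chisq v m)).prod (jacLaw v m)).map
          (fun x => (Fin.cons x.1 x.2 : JPar (m + 1))) := by
  have h := (MeasureTheory.measurePreserving_piFinSuccAbove
    (fun j : Fin (m + 1) => (gaussianReal 0 (2 * v)).prod (chisq v (m + 1 - 1 - j.val))) 0).symm
  have h2 := h.map_eq
  unfold jacLaw
  rw [← h2]
  have e1 : (fun j : Fin m => (gaussianReal 0 (2 * v)).prod
      (chisq v (m + 1 - 1 - ((0 : Fin (m+1)).succAbove j).val)))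
      = fun j : Fin m => (gaussianReal 0 (2 * v)).prod (chisq v (m - 1 - j.val)) := by
    funext j
    congr 2
    simp
    omega
  simp only [e1]
  have e2 : m + 1 - 1 - ((0 : Fin (m+1)) : ℕ) = m := by simp
  rw [e2]
  congr 1
  funext x
  simp [MeasurableEquiv.piFinSuccAbove, Fin.insertNthEquiv]

theorem chisq_nonneg (v : ℝ≥0) (k : ℕ) : ∀ᵐ s ∂(chisq v k), 0 ≤ s := by
  unfold chisq
  rw [ae_map_iff (Measurable.aemeasurable (by fun_prop)) measurableSet_Ici]
  exact Filter.Eventually.of_forall fun w => Finset.sum_nonneg fun i _ => sq_nonneg _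

/-- `s_j ≥ 0` almost surely -/
theorem jacLaw_js_nonneg (v : ℝ≥0) (n : ℕ) : ∀ᵐ q ∂(jacLaw v n), ∀ j, 0 ≤ js q j := by
  rw [ae_all_iff]
  intro j
  unfold js
  split_ifs with h
  · unfold jacLaw
    have h1 : ∀ᵐ x ∂((gaussianReal 0 (2 * v)).prod (chisq v (n - 1 - j))), 0 ≤ x.2 :=
      (Measure.quasiMeasurePreserving_snd).ae (chisq_nonneg v _)
    exact (Measure.quasiMeasurePreserving_eval
      (μ := fun j : Fin n => (gaussianReal 0 (2 * v)).prod (chisq v (n - 1 - j.val))) ⟨j, h⟩).ae h1
  · exact Filter.Eventually.of_forall fun _ => le_rfl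

end

end Claimed.Agent.R133
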