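/-
Row 133 / S0266, section 7 (scalar version), part A: determinants of Jacobi matrices.
Three term recurrence, positivity below the spectrum's upper edge.
-/
import Claimed.Agent.R133.BelowL
import Claimed.Agent.R133.JacDef

set_option autoImplicit false

namespace Claimed.Agent.R133

open scoped BigOperators Matrix

noncomputable section

/-- `det (z - T_m(a,b))` -/
def jdet (z : ℝ) (m : ℕ) (a b : ℕ → ℝ) : ℝ := (z • (1 : Mat m) - jacM m a b).det

theorem jdet_zero (z : ℝ) (a b : ℕ → ℝ) : jdet z 0 a b = 1 := by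
  unfold jdet
  exact Matrix.det_isEmpty

theorem jdet_one (z : ℝ) (a b : ℕ → ℝ) : jdet z 1 a b = z - a 0 := by
  unfold jdet
  rw [Matrix.det_fin_one]
  simp [jacM]

theorem jdet_succ_succ_sub1 (z : ℝ) (m : ℕ) (a b : ℕ → ℝ) :
    (z • (1 : Mat (m + 1)) - jacM (m + 1) a b).submatrix Fin.succ Fin.succ
      = z • (1 : Mat m) - jacM m (fun i => a (i + 1)) (fun i => b (i + 1)) := by
  ext i j
  simp [jacM, Matrix.one_apply, Fin.ext_iff]

/-- three term recurrence (expand along the first row, then along the first column) -/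
theorem jdet_succ_succ (z : ℝ) (m : ℕ) (a b : ℕ → ℝ) :
    jdet z (m + 2) a b
      = (z - a 0) * jdet z (m + 1) (fun i => a (i + 1)) (fun i => b (i + 1))
        - b 0 ^ 2 * jdet z m (fun i => a (i + 2)) (fun i => b (i + 2)) := by
  unfold jdet
  rw [Matrix.det_succ_row_zero, Fin.sum_univ_succ, Fin.sum_univ_succ]
  have h0 : ∀ j : Fin m, (z • (1 : Mat (m + 2)) - jacM (m + 2) a b) 0 j.succ.succ = 0 := by
    intro j
    simp [jacM, Matrix.one_apply, Fin.ext_iff]
  rw [Finset.sum_eq_zero (fun j _ => by rw [h0 j]; ring), add_zero]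
  have h00 : (z • (1 : Mat (m + 2)) - jacM (m + 2) a b) 0 0 = z - a 0 := by
    simp [jacM]
  have h01 : (z • (1 : Mat (m + 2)) - jacM (m + 2) a b) 0 (Fin.succ 0) = - b 0 := by
    simp [jacM, Matrix.one_apply, Fin.ext_iff]
  rw [h00, h01, Fin.succAbove_zero, jdet_succ_succ_sub1]
  -- second determinant
  rw [Matrix.det_succ_column_zero
    ((z • (1 : Mat (m + 2)) - jacM (m + 2) a b).submatrix Fin.succ (Fin.succ 0).succAbove),
    Fin.sum_univ_succ]
  have h1 : ∀ i : Fin m, ((z • (1 : Mat (m + 2)) - jacM (m + 2) a b).submatrix Fin.succ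
      (Fin.succ 0).succAbove) i.succ 0 = 0 := by
    intro i
    simp [jacM, Matrix.one_apply, Fin.ext_iff]
  rw [Finset.sum_eq_zero (fun j _ => by rw [h1 j]; ring), add_zero]
  have h10 : ((z • (1 : Mat (m + 2)) - jacM (m + 2) a b).submatrix Fin.succ
      (Fin.succ 0).succAbove) 0 0 = - b 0 := by
    simp [jacM, Matrix.one_apply, Fin.ext_iff]
  rw [h10, Fin.succAbove_zero]
  have h2 : (((z • (1 : Mat (m + 2)) - jacM (m + 2) a b).submatrix Fin.succ
      (Fin.succ 0).succAbove).submatrix Fin.succ Fin.succ)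
      = z • (1 : Mat m) - jacM m (fun i => a (i + 2)) (fun i => b (i + 2)) := by
    ext i j
    simp [jacM, Matrix.one_apply, Fin.ext_iff, Fin.succAbove]
  rw [h2]
  simp
  ring

/-- restriction of the quadratic form to vectors vanishing at the first site -/
theorem below_jacM_tail {z : ℝ} {m : ℕ} {a b : ℕ → ℝ} (h : Below (jacM (m + 1) a b) z) :
    Below (jacM m (fun i => a (i + 1)) (fun i => b (i + 1))) z := by
  intro v hv
  have hne : (Fin.cons 0 v : Vec (m + 1)) ≠ 0 := by
    intro h0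
    apply hv
    funext i
    have := congrFun h0 i.succ
    simpa using this
  have h1 := h (Fin.cons 0 v : Vec (m + 1)) hne
  have hq : qf (jacM (m + 1) a b) (Fin.cons 0 v : Vec (m + 1))
      = qf (jacM m (fun i => a (i + 1)) (fun i => b (i + 1))) v := by
    unfold qf
    rw [jacM_succ, jd_dot_border]
    simp [Fin.tail_cons]
  have hn : nrm2 (Fin.cons 0 v : Vec (m + 1)) = nrm2 v := by
    unfold nrm2 dotProduct
    rw [Fin.sum_univ_succ]
    simp
  rwa [hq, hn] at h1

theorem jdet_pos {z : ℝ} {m : ℕ} {a b : ℕ → ℝ} (h : Below (jacM m a b) z) :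
    0 < jdet z m a b := by
  unfold jdet
  exact ((below_iff_posDef (jacM_transpose m a b) z).1 h).det_pos

/-- determinant of the trailing block starting at site `j` (size `n - j`) -/
def Dt (z : ℝ) (n : ℕ) (a b : ℕ → ℝ) (j : ℕ) : ℝ :=
  jdet z (n - j) (fun i => a (i + j)) (fun i => b (i + j))

theorem Dt_zero (z : ℝ) (n : ℕ) (a b : ℕ → ℝ) :
    Dt z n a b 0 = (z • (1 : Mat n) - jacM n a b).det := by
  simp [Dt, jdet]

theorem Dt_self (z : ℝ) (n : ℕ) (a b : ℕ → ℝ) : Dt z n a b n = 1 := by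
  unfold Dt
  rw [Nat.sub_self, jdet_zero]

theorem Dt_last (z : ℝ) (n : ℕ) (hn : 0 < n) (a b : ℕ → ℝ) :
    Dt z n a b (n - 1) = z - a (n - 1) := by
  unfold Dt
  have : n - (n - 1) = 1 := by omega
  rw [this, jdet_one, zero_add]

theorem Dt_rec (z : ℝ) (n : ℕ) (a b : ℕ → ℝ) (j : ℕ) (hj : j + 2 ≤ n) :
    Dt z n a b j = (z - a j) * Dt z n a b (j + 1) - b j ^ 2 * Dt z n a b (j + 2) := by
  obtain ⟨m, rfl⟩ : ∃ m, n = m + 2 + j := ⟨n - 2 - j, by omega⟩
  unfold Dt
  have e0 : m + 2 + j - j = m + 2 := by omega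
  have e1 : m + 2 + j - (j + 1) = m + 1 := by omega
  have e2 : m + 2 + j - (j + 2) = m := by omega
  rw [e0, e1, e2, jdet_succ_succ, zero_add]
  have f1 : ∀ c : ℕ → ℝ, (fun i => c (i + 1 + j)) = fun i => c (i + (j + 1)) := by
    intro c; funext i; congr 1; omega
  have f2 : ∀ c : ℕ → ℝ, (fun i => c (i + 2 + j)) = fun i => c (i + (j + 2)) := by
    intro c; funext i; congr 1; omega
  rw [f1 a, f1 b, f2 a, f2 b]

theorem Dt_pos_below {z : ℝ} {n : ℕ} {a b : ℕ → ℝ} (h : Below (jacM n a b) z) (j : ℕ)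
    (hj : j ≤ n) : Below (jacM (n - j) (fun i => a (i + j)) (fun i => b (i + j))) z := by
  induction j with
  | zero => simpa using h
  | succ k ih =>
    have ih' := ih (by omega)
    obtain ⟨m, hm⟩ : ∃ m, n - k = m + 1 := ⟨n - k - 1, by omega⟩
    have hm' : n - (k + 1) = m := by omega
    rw [hm] at ih'
    have := below_jacM_tail ih'
    rw [hm']
    have f1 : ∀ c : ℕ → ℝ, (fun i => c (i + 1 + k)) = fun i => c (i + (k + 1)) := by
      intro c; funext i; congr 1; omega
    rwa [f1 a, f1 b] at this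

theorem Dt_pos {z : ℝ} {n : ℕ} {a b : ℕ → ℝ} (h : Below (jacM n a b) z) (j : ℕ) (hj : j ≤ n) :
    0 < Dt z n a b j := by
  unfold Dt
  exact jdet_pos (Dt_pos_below h j hj)

end

end Claimed.Agent.R133
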