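/-
Row 133 / S0266, section 7 (scalar version), part B: the scalar form of
`log det A ≤ log det B + tr(B⁻¹(A-B))` for Jacobi matrices.  Pure real sequences.

`Δ j` = determinant of the trailing block, pivots `δ_j = Δ_j/Δ_{j+1} > 0`,
`δ_j = z - a_j - b_j²/δ_{j+1} ≤ z - a_j - 2 τ_j b_j + τ_j² δ_{j+1}`   (AM-GM, any `τ_j`),
`log δ_j ≤ log ρ_j + δ_j/ρ_j - 1`, and summation by parts with `g_0 = 1/ρ_0`,
`g_{j+1} = 1/ρ_{j+1} + τ_j² g_j`.
-/
import Mathlib

set_option autoImplicit false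

namespace Claimed.Agent.R133

open scoped BigOperators

/-- summation by parts identity used in `ld_scalar`. -/
theorem ld_scalar_parts (ρ τ g δ : ℕ → ℝ)
    (hg0 : g 0 = 1 / ρ 0) (hgs : ∀ j, g (j + 1) = 1 / ρ (j + 1) + τ j ^ 2 * g j) (k : ℕ) :
    ∑ j ∈ Finset.range (k + 1), δ j / ρ j
      = ∑ j ∈ Finset.range k, g j * (δ j - τ j ^ 2 * δ (j + 1)) + g k * δ k := by
  induction k with
  | zero => simp [hg0]; ring
  | succ k ih =>
    rw [Finset.sum_range_succ, ih, Finset.sum_range_succ, hgs k]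
    ring

/-- telescoping of the logarithms of the pivots. -/
theorem ld_scalar_tele (Δ : ℕ → ℝ) (n : ℕ) (hpos : ∀ j, j ≤ n → 0 < Δ j) :
    ∑ j ∈ Finset.range n, Real.log (Δ j / Δ (j + 1)) = Real.log (Δ 0) - Real.log (Δ n) := by
  induction n with
  | zero => simp
  | succ n ih =>
    rw [Finset.sum_range_succ, ih (fun j hj => hpos j (by omega)),
      Real.log_div (hpos n (by omega)).ne' (hpos (n + 1) le_rfl).ne']
    ring

/-- nonnegativity of the weights `g`. -/
theorem ld_scalar_g_nonneg (n : ℕ) (ρ τ g : ℕ → ℝ) (hρ : ∀ j, j < n → 0 < ρ j)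
    (hg0 : g 0 = 1 / ρ 0) (hgs : ∀ j, g (j + 1) = 1 / ρ (j + 1) + τ j ^ 2 * g j) :
    ∀ j, j < n → 0 ≤ g j := by
  intro j
  induction j with
  | zero =>
    intro h
    rw [hg0]
    exact (one_div_pos.mpr (hρ 0 h)).le
  | succ j ih =>
    intro h
    rw [hgs j]
    have h1 : 0 ≤ g j := ih (by omega)
    have h2 : 0 < 1 / ρ (j + 1) := one_div_pos.mpr (hρ (j + 1) h)
    positivity

theorem ld_scalar (n : ℕ) (hn : 0 < n) (z : ℝ) (a b ρ τ g Δ : ℕ → ℝ)
    (hpos : ∀ j, j ≤ n → 0 < Δ j) (hn1 : Δ n = 1) (hlast : Δ (n - 1) = z - a (n - 1))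
    (hrec : ∀ j, j + 2 ≤ n → Δ j = (z - a j) * Δ (j + 1) - b j ^ 2 * Δ (j + 2))
    (hρ : ∀ j, j < n → 0 < ρ j)
    (hg0 : g 0 = 1 / ρ 0) (hgs : ∀ j, g (j + 1) = 1 / ρ (j + 1) + τ j ^ 2 * g j) :
    Real.log (Δ 0) ≤ ∑ j ∈ Finset.range n, (Real.log (ρ j) - 1)
      + ∑ j ∈ Finset.range n, g j * (z - a j)
      - 2 * ∑ j ∈ Finset.range (n - 1), g j * τ j * b j := by
  obtain ⟨N, rfl⟩ : ∃ N, n = N + 1 := ⟨n - 1, by omega⟩
  simp only [Nat.add_sub_cancel] at hlast ⊢
  set δ : ℕ → ℝ := fun j => Δ j / Δ (j + 1) with hδ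
  have hδpos : ∀ j, j < N + 1 → 0 < δ j := fun j hj =>
    div_pos (hpos j (by omega)) (hpos (j + 1) (by omega))
  have hg : ∀ j, j < N + 1 → 0 ≤ g j := ld_scalar_g_nonneg (N + 1) ρ τ g hρ hg0 hgs
  -- (1) telescoping
  have h1 : Real.log (Δ 0) = ∑ j ∈ Finset.range (N + 1), Real.log (δ j) := by
    have := ld_scalar_tele Δ (N + 1) hpos
    rw [hn1, Real.log_one, sub_zero] at this
    exact this.symm
  -- (2) tangent line
  have h2 : ∀ j ∈ Finset.range (N + 1),
      Real.log (δ j) ≤ (Real.log (ρ j) - 1) + δ j / ρ j := by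
    intro j hj
    have hj' : j < N + 1 := Finset.mem_range.mp hj
    have hq : 0 < δ j / ρ j := div_pos (hδpos j hj') (hρ j hj')
    have := Real.log_le_sub_one_of_pos hq
    rw [Real.log_div (hδpos j hj').ne' (hρ j hj').ne'] at this
    linarith
  -- (3) AM-GM on the pivots
  have h3 : ∀ j ∈ Finset.range N,
      g j * (δ j - τ j ^ 2 * δ (j + 1)) ≤ g j * (z - a j) - 2 * (g j * τ j * b j) := by
    intro j hj
    have hj' : j < N := Finset.mem_range.mp hj
    have hD1 : 0 < Δ (j + 1) := hpos (j + 1) (by omega)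
    have hD2 : 0 < Δ (j + 2) := hpos (j + 2) (by omega)
    have hd1 : 0 < δ (j + 1) := hδpos (j + 1) (by omega)
    have hrec' := hrec j (by omega)
    have hdj : δ j = z - a j - b j ^ 2 / δ (j + 1) := by
      simp only [hδ]
      rw [hrec']
      field_simp
    have hkey : δ j - τ j ^ 2 * δ (j + 1) ≤ z - a j - 2 * τ j * b j := by
      have hsq : 0 ≤ (b j - τ j * δ (j + 1)) ^ 2 / δ (j + 1) := by positivity
      have hexp : (b j - τ j * δ (j + 1)) ^ 2 / δ (j + 1)
          = b j ^ 2 / δ (j + 1) - 2 * τ j * b j + τ j ^ 2 * δ (j + 1) := by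
        field_simp
        ring
      rw [hdj]
      linarith
    have := mul_le_mul_of_nonneg_left hkey (hg j (by omega))
    linarith
  have hδN : δ N = z - a N := by
    simp only [hδ]
    rw [hn1, div_one, hlast]
  -- assemble
  have h5 := ld_scalar_parts ρ τ g δ hg0 hgs N
  calc Real.log (Δ 0) = ∑ j ∈ Finset.range (N + 1), Real.log (δ j) := h1
    _ ≤ ∑ j ∈ Finset.range (N + 1), ((Real.log (ρ j) - 1) + δ j / ρ j) :=
        Finset.sum_le_sum h2
    _ = ∑ j ∈ Finset.range (N + 1), (Real.log (ρ j) - 1)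
          + (∑ j ∈ Finset.range N, g j * (δ j - τ j ^ 2 * δ (j + 1)) + g N * δ N) := by
        rw [Finset.sum_add_distrib, h5]
    _ ≤ ∑ j ∈ Finset.range (N + 1), (Real.log (ρ j) - 1)
          + (∑ j ∈ Finset.range N, (g j * (z - a j) - 2 * (g j * τ j * b j))
              + g N * δ N) := by
        have := Finset.sum_le_sum h3
        linarith
    _ = _ := by
        have e1 : ∑ j ∈ Finset.range N, (g j * (z - a j) - 2 * (g j * τ j * b j))
            = ∑ j ∈ Finset.range N, g j * (z - a j)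
              - 2 * ∑ j ∈ Finset.range N, g j * τ j * b j := by
          rw [Finset.sum_sub_distrib, ← Finset.mul_sum]
        rw [e1, hδN, Finset.sum_range_succ (fun j => g j * (z - a j))]
        ring

end Claimed.Agent.R133
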