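/-
Row 133 / S0266, section 7 (scalar version), part C: the deterministic weights.
Index `j = 0` is the EDGE (size `n - j` of the trailing block).
`Dq j = z² - 4 (n-j)/n`, `rq j = (z + √(Dq j))/2`, `bq j = √((n-1-j)/n)`, `tq j = bq j / rq (j+1)`,
`gq 0 = 1/rq 0`, `gq (j+1) = 1/rq (j+1) + tq j ² gq j`.
-/
import Mathlib

set_option autoImplicit false

namespace Claimed.Agent.R133

open scoped BigOperators

noncomputable section

def Dq (n : ℕ) (z : ℝ) (j : ℕ) : ℝ := z ^ 2 - 4 * (((n : ℝ) - j) / n)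

def rq (n : ℕ) (z : ℝ) (j : ℕ) : ℝ := (z + Real.sqrt (Dq n z j)) / 2

def bq (n : ℕ) (j : ℕ) : ℝ := Real.sqrt (((n - 1 - j : ℕ) : ℝ) / n)

def tq (n : ℕ) (z : ℝ) (j : ℕ) : ℝ := bq n j / rq n z (j + 1)

def gq (n : ℕ) (z : ℝ) : ℕ → ℝ
  | 0 => 1 / rq n z 0
  | j + 1 => 1 / rq n z (j + 1) + tq n z j ^ 2 * gq n z j

variable {n : ℕ} {z : ℝ}

theorem Dq_succ (hn : 0 < n) (j : ℕ) : Dq n z (j + 1) = Dq n z j + 4 / n := by
  have hn' : (n : ℝ) ≠ 0 := by exact_mod_cast hn.ne'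
  unfold Dq
  push_cast
  field_simp
  ring

theorem Dq_lower (hn : 0 < n) (j : ℕ) : Dq n z j = z ^ 2 - 4 + 4 * j / n := by
  have hn' : (n : ℝ) ≠ 0 := by exact_mod_cast hn.ne'
  unfold Dq
  field_simp
  ring

theorem Dq_nonneg (hn : 0 < n) (hz : 2 ≤ z) (j : ℕ) : 0 ≤ Dq n z j := by
  rw [Dq_lower hn]
  have h1 : 0 ≤ z ^ 2 - 4 := by nlinarith
  have h2 : 0 ≤ 4 * (j : ℝ) / n := by positivity
  linarith

theorem bq_sq (j : ℕ) : bq n j ^ 2 = ((n - 1 - j : ℕ) : ℝ) / n := by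
  unfold bq
  exact Real.sq_sqrt (by positivity)

theorem bq_pos (j : ℕ) (hj : j + 1 < n) : 0 < bq n j := by
  unfold bq
  exact Real.sqrt_pos.2 (div_pos (Nat.cast_pos.2 (by omega)) (Nat.cast_pos.2 (by omega)))

theorem bq_last (hn : 0 < n) : bq n (n - 1) = 0 := by
  unfold bq
  simp

theorem bq_le_one (j : ℕ) : bq n j ≤ 1 := by
  unfold bq
  rw [← Real.sqrt_one]
  refine Real.sqrt_le_sqrt ?_
  exact div_le_one_of_le₀ (Nat.cast_le.2 (by omega)) (Nat.cast_nonneg n)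

theorem rq_ge_one (hn : 0 < n) (hz : 2 ≤ z) (j : ℕ) : 1 ≤ rq n z j := by
  unfold rq
  have := Real.sqrt_nonneg (Dq n z j)
  linarith

theorem rq_le (hn : 0 < n) (hz : 2 ≤ z) (j : ℕ) (hj : j ≤ n) : rq n z j ≤ z := by
  unfold rq
  have h1 : Dq n z j ≤ z ^ 2 := by
    unfold Dq
    have : (0 : ℝ) ≤ ((n : ℝ) - j) / n :=
      div_nonneg (sub_nonneg.2 (Nat.cast_le.2 hj)) (Nat.cast_nonneg n)
    linarith
  have h2 : Real.sqrt (Dq n z j) ≤ z := by
    calc Real.sqrt (Dq n z j) ≤ Real.sqrt (z ^ 2) := Real.sqrt_le_sqrt h1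
      _ = z := Real.sqrt_sq (by linarith)
  linarith

theorem rq_self (hn : 0 < n) (hz : 2 ≤ z) : rq n z n = z := by
  unfold rq Dq
  rw [sub_self, zero_div, mul_zero, sub_zero, Real.sqrt_sq (by linarith)]
  ring

theorem rq_mono (hn : 0 < n) (hz : 2 ≤ z) (j : ℕ) : rq n z j ≤ rq n z (j + 1) := by
  unfold rq
  have h1 : Dq n z j ≤ Dq n z (j + 1) := by
    rw [Dq_succ hn]
    have : (0 : ℝ) ≤ 4 / n := by positivity
    linarith
  have := Real.sqrt_le_sqrt h1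
  linarith

/-- fixed point equation `ρ (z - ρ) = β²` -/
theorem rq_fix (hn : 0 < n) (hz : 2 ≤ z) (j : ℕ) (hj : j < n) :
    rq n z (j + 1) * (z - rq n z (j + 1)) = bq n j ^ 2 := by
  have hn' : (n : ℝ) ≠ 0 := by exact_mod_cast hn.ne'
  have hs : Real.sqrt (Dq n z (j + 1)) ^ 2 = Dq n z (j + 1) := Real.sq_sqrt (Dq_nonneg hn hz _)
  have hc : ((n - 1 - j : ℕ) : ℝ) = (n : ℝ) - 1 - j := by
    have h1 : n - 1 - j = n - (1 + j) := by omega
    rw [h1, Nat.cast_sub (by omega)]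
    push_cast
    ring
  rw [bq_sq, hc]
  unfold rq
  have e : (z + Real.sqrt (Dq n z (j + 1))) / 2 * (z - (z + Real.sqrt (Dq n z (j + 1))) / 2)
      = (z ^ 2 - Real.sqrt (Dq n z (j + 1)) ^ 2) / 4 := by ring
  rw [e, hs]
  unfold Dq
  push_cast
  field_simp
  ring

/-- `κ_j = τ_j² = 1 - √D_{j+1}/ρ_{j+1}` -/
theorem tq_sq (hn : 0 < n) (hz : 2 ≤ z) (j : ℕ) (hj : j < n) :
    tq n z j ^ 2 = 1 - Real.sqrt (Dq n z (j + 1)) / rq n z (j + 1) := by
  have hρ : 0 < rq n z (j + 1) := lt_of_lt_of_le one_pos (rq_ge_one hn hz _)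
  have hfix := rq_fix hn hz j hj
  have hs : Real.sqrt (Dq n z (j + 1)) = 2 * rq n z (j + 1) - z := by
    unfold rq
    ring
  unfold tq
  rw [div_pow, ← hfix, hs]
  field_simp
  ring

theorem gq_pos (hn : 0 < n) (hz : 2 ≤ z) (j : ℕ) : 0 < gq n z j := by
  induction j with
  | zero =>
    have hρ : 0 < rq n z 0 := lt_of_lt_of_le one_pos (rq_ge_one hn hz _)
    show 0 < 1 / rq n z 0
    positivity
  | succ j ih =>
    have hρ : 0 < rq n z (j + 1) := lt_of_lt_of_le one_pos (rq_ge_one hn hz _)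
    show 0 < 1 / rq n z (j + 1) + tq n z j ^ 2 * gq n z j
    positivity

/-- increments of `ρ` -/
theorem rq_incr_le (hn : 0 < n) (hz : 2 < z) (j : ℕ) :
    rq n z (j + 1) - rq n z j ≤ 1 / (n * Real.sqrt (Dq n z j)) := by
  have hn' : (0 : ℝ) < n := by exact_mod_cast hn
  have hD : 0 < Dq n z j := by
    rw [Dq_lower hn]
    have h1 : 0 < z ^ 2 - 4 := by nlinarith
    have h2 : 0 ≤ 4 * (j : ℝ) / n := by positivity
    linarith
  have hD' : 0 ≤ Dq n z (j + 1) := Dq_nonneg hn hz.le _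
  set s := Real.sqrt (Dq n z j) with hs
  set s' := Real.sqrt (Dq n z (j + 1)) with hs'
  have hs0 : 0 < s := Real.sqrt_pos.2 hD
  have hsq : s ^ 2 = Dq n z j := Real.sq_sqrt hD.le
  have hsq' : s' ^ 2 = Dq n z (j + 1) := Real.sq_sqrt hD'
  have hle : s ≤ s' := by
    refine Real.sqrt_le_sqrt ?_
    rw [Dq_succ hn]
    have : (0 : ℝ) ≤ 4 / n := by positivity
    linarith
  have hdiff : (s' - s) * (s' + s) = 4 / n := by
    have : (s' - s) * (s' + s) = s' ^ 2 - s ^ 2 := by ring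
    rw [this, hsq, hsq', Dq_succ hn]
    ring
  have e : rq n z (j + 1) - rq n z j = (s' - s) / 2 := by
    unfold rq
    ring
  rw [e, div_le_div_iff₀ two_pos (by positivity), one_mul]
  -- `(s' - s) * (n s) ≤ 2`
  have h1 : (s' - s) * (2 * s) ≤ 4 / n := by
    rw [← hdiff]
    exact mul_le_mul_of_nonneg_left (by linarith) (by linarith)
  have h2 : (s' - s) * (2 * s) * n ≤ 4 := by
    have := mul_le_mul_of_nonneg_right h1 hn'.le
    rwa [div_mul_cancel₀ _ hn'.ne'] at this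
  nlinarith

/-- one step of the induction for `gq_le`, in abstract form -/
theorem h687_gq_step (A B ρ κ g e : ℝ) (hA : 0 < A) (hB : 0 < B) (hAB : B ^ 2 = A ^ 2 + e)
    (he : 0 < e) (hA3 : 3 * e ≤ A ^ 2 * A) (hρ1 : 1 ≤ ρ) (hρ2 : ρ ≤ 5 / 2)
    (hκ : κ = 1 - B / ρ) (hκ0 : 0 ≤ κ) (hg : g ≤ 2 / A) : 1 / ρ + κ * g ≤ 2 / B := by
  have hρ : 0 < ρ := by linarith
  have hle : A ≤ B := by nlinarith
  have h1 : κ * g ≤ κ * (2 / A) := mul_le_mul_of_nonneg_left hg hκ0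
  have h2 : (B - A) * (A + B) = e := by nlinarith
  have h3 : A * A * (2 * A) ≤ B * (2 * B - A) * (A + B) := by
    have a1 : A * A ≤ B * (2 * B - A) :=
      mul_le_mul hle (by linarith) hA.le hB.le
    exact mul_le_mul a1 (by linarith) (by positivity) (by nlinarith)
  have h4 : 2 * ρ * (B - A) ≤ B * (2 * B - A) := by
    have hs : 0 < A + B := by linarith
    refine le_of_mul_le_mul_right ?_ hs
    have : 2 * ρ * (B - A) * (A + B) = 2 * ρ * e := by rw [mul_assoc, h2]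
    rw [this]
    nlinarith
  have h5 : 1 / ρ + κ * (2 / A) ≤ 2 / B := by
    rw [hκ, ← sub_nonneg]
    have e1 : 2 / B - (1 / ρ + (1 - B / ρ) * (2 / A))
        = (B * (2 * B - A) - 2 * ρ * (B - A)) / (ρ * A * B) := by
      field_simp
      ring
    rw [e1]
    exact div_nonneg (by linarith) (by positivity)
  linarith

/-- KEY BOUND, forward induction on `j`:
`2/√D_{j+1} - κ_j 2/√D_j = 2/ρ_{j+1} - 2 κ_j (1/√D_j - 1/√D_{j+1})` and
`1/√D_j - 1/√D_{j+1} ≤ (2/n)/(D_j √D_j) ≤ 1/6`, `1/ρ ≥ 2/5`. -/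
theorem gq_le (hn : 0 < n) (hz : 2 < z) (hz' : z ≤ 5 / 2)
    (hd : 12 / (n : ℝ) ≤ (z ^ 2 - 4) * Real.sqrt (z ^ 2 - 4)) (j : ℕ) (hj : j ≤ n) :
    gq n z j ≤ 2 / Real.sqrt (Dq n z j) := by
  have hN : (0 : ℝ) < n := by exact_mod_cast hn
  have hD0 : 0 < z ^ 2 - 4 := by nlinarith
  have hDpos : ∀ k : ℕ, 0 < Dq n z k := by
    intro k
    rw [Dq_lower hn]
    have : 0 ≤ 4 * (k : ℝ) / n := by positivity
    linarith
  induction j with
  | zero =>
    have h1 : gq n z 0 ≤ 1 := by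
      show 1 / rq n z 0 ≤ 1
      rw [div_le_one (by linarith [rq_ge_one hn hz.le 0])]
      exact rq_ge_one hn hz.le 0
    have h2 : Real.sqrt (Dq n z 0) ≤ 2 := by
      rw [Real.sqrt_le_left (by norm_num)]
      rw [Dq_lower hn]
      simp only [Nat.cast_zero, mul_zero, zero_div, add_zero]
      nlinarith
    have h3 : 0 < Real.sqrt (Dq n z 0) := Real.sqrt_pos.2 (hDpos 0)
    refine h1.trans ?_
    rw [le_div_iff₀ h3]
    linarith
  | succ j ih =>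
    have hj' : j < n := hj
    have ih := ih hj'.le
    have hA : 0 < Real.sqrt (Dq n z j) := Real.sqrt_pos.2 (hDpos j)
    have hB : 0 < Real.sqrt (Dq n z (j + 1)) := Real.sqrt_pos.2 (hDpos (j + 1))
    show 1 / rq n z (j + 1) + tq n z j ^ 2 * gq n z j ≤ 2 / Real.sqrt (Dq n z (j + 1))
    refine h687_gq_step (Real.sqrt (Dq n z j)) (Real.sqrt (Dq n z (j + 1))) (rq n z (j + 1))
      (tq n z j ^ 2) (gq n z j) (4 / n) hA hB ?_ (by positivity) ?_ (rq_ge_one hn hz.le _)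
      ((rq_le hn hz.le _ hj).trans hz') (tq_sq hn hz.le j hj') (sq_nonneg _) ih
    · rw [Real.sq_sqrt (hDpos _).le, Real.sq_sqrt (hDpos _).le, Dq_succ hn]
    · rw [Real.sq_sqrt (hDpos _).le]
      have hge : z ^ 2 - 4 ≤ Dq n z j := by
        rw [Dq_lower hn]
        have : 0 ≤ 4 * (j : ℝ) / n := by positivity
        linarith
      have h1 : (z ^ 2 - 4) * Real.sqrt (z ^ 2 - 4) ≤ Dq n z j * Real.sqrt (Dq n z j) :=
        mul_le_mul hge (Real.sqrt_le_sqrt hge) (Real.sqrt_nonneg _) (hDpos j).le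
      have h2 : 3 * (4 / (n : ℝ)) = 12 / n := by ring
      rw [h2]
      exact hd.trans h1

/-- MEAN PART: `∑ g_j z - 2 ∑ g_j τ_j β_j - n = ∑ g_j (ρ_{j+1} - ρ_j)` -/
theorem gq_mean (hn : 0 < n) (hz : 2 ≤ z) :
    ∑ j ∈ Finset.range n, gq n z j * z
      - 2 * ∑ j ∈ Finset.range (n - 1), gq n z j * tq n z j * bq n j - n
      = ∑ j ∈ Finset.range n, gq n z j * (rq n z (j + 1) - rq n z j) := by
  have hρ : ∀ k, rq n z k ≠ 0 := fun k => by
    have := rq_ge_one hn hz k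
    linarith
  -- `τ_j β_j = z - ρ_{j+1}`
  have h1 : ∀ j, j < n → tq n z j * bq n j = z - rq n z (j + 1) := by
    intro j hj
    have := rq_fix hn hz j hj
    unfold tq
    rw [div_mul_eq_mul_div, div_eq_iff (hρ _), ← sq, ← this]
    ring
  -- `g_{j+1} ρ_{j+1} = 1 + g_j (z - ρ_{j+1})`
  have h2 : ∀ j, j < n → gq n z (j + 1) * rq n z (j + 1) = 1 + gq n z j * (z - rq n z (j + 1)) := by
    intro j hj
    have := rq_fix hn hz j hj
    show (1 / rq n z (j + 1) + tq n z j ^ 2 * gq n z j) * rq n z (j + 1) = _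
    unfold tq
    rw [div_pow, ← this]
    have hr := hρ (j + 1)
    field_simp
  -- extend the second sum
  have h3 : ∑ j ∈ Finset.range (n - 1), gq n z j * tq n z j * bq n j
      = ∑ j ∈ Finset.range n, gq n z j * tq n z j * bq n j := by
    obtain ⟨N, rfl⟩ : ∃ N, n = N + 1 := ⟨n - 1, by omega⟩
    rw [Finset.sum_range_succ]
    have := bq_last hn
    simp only [Nat.add_sub_cancel] at this ⊢
    rw [this, mul_zero, add_zero]
  -- telescoping
  have h4 : ∑ j ∈ Finset.range n, (gq n z j * rq n z j - gq n z (j + 1) * rq n z (j + 1)) = 0 := by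
    rw [Finset.sum_range_sub' (fun j => gq n z j * rq n z j)]
    have e0 : gq n z 0 * rq n z 0 = 1 := by
      show 1 / rq n z 0 * rq n z 0 = 1
      exact div_mul_cancel₀ _ (hρ 0)
    have en : gq n z n * rq n z n = 1 := by
      obtain ⟨N, hN⟩ : ∃ N, n = N + 1 := ⟨n - 1, by omega⟩
      have := h2 N (by omega)
      rw [← hN, rq_self hn hz] at this
      rw [rq_self hn hz, this]
      ring
    rw [e0, en, sub_self]
  rw [h3, Finset.mul_sum, ← Finset.sum_sub_distrib]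
  have h5 : (n : ℝ) = ∑ _j ∈ Finset.range n, (1 : ℝ) := by simp
  rw [h5, ← Finset.sum_sub_distrib, ← add_zero (∑ j ∈ Finset.range n, gq n z j * _), ← h4,
    ← Finset.sum_add_distrib]
  refine Finset.sum_congr rfl fun j hj => ?_
  have hj : j < n := Finset.mem_range.1 hj
  rw [h2 j hj, mul_assoc, h1 j hj]
  ring

/-- `D_j ≥ 4 (j+1)/n` -/
theorem ldc_Dq_ge (hn : 0 < n) (h4 : 4 / (n : ℝ) ≤ z ^ 2 - 4) (j : ℕ) :
    4 * ((j : ℝ) + 1) / n ≤ Dq n z j := by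
  rw [Dq_lower hn j]
  have e : 4 * ((j : ℝ) + 1) / n = 4 / (n : ℝ) + 4 * j / n := by ring
  rw [e]
  linarith

theorem ldc_Dq_pos (hn : 0 < n) (h4 : 4 / (n : ℝ) ≤ z ^ 2 - 4) (j : ℕ) : 0 < Dq n z j := by
  have hn' : (0 : ℝ) < n := by exact_mod_cast hn
  refine lt_of_lt_of_le ?_ (ldc_Dq_ge hn h4 j)
  positivity

theorem ldc_inv_Dq_le (hn : 0 < n) (h4 : 4 / (n : ℝ) ≤ z ^ 2 - 4) (j : ℕ) :
    4 / Dq n z j ≤ n / ((j : ℝ) + 1) := by
  have hn' : (0 : ℝ) < n := by exact_mod_cast hn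
  have hD := ldc_Dq_pos (z := z) hn h4 j
  have hge := ldc_Dq_ge (z := z) hn h4 j
  rw [div_le_div_iff₀ hD (by positivity)]
  rw [div_le_iff₀ hn'] at hge
  linarith

theorem ldc_harmonic (n : ℕ) :
    ∑ j ∈ Finset.range n, 1 / ((j : ℝ) + 1) ≤ 1 + Real.log n := by
  have h := harmonic_le_one_add_log n
  have e : ((harmonic n : ℚ) : ℝ) = ∑ j ∈ Finset.range n, 1 / ((j : ℝ) + 1) := by
    simp [harmonic]
  rw [← e]
  exact h

theorem ldc_sum_inv_sqrt (k : ℕ) :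
    ∑ j ∈ Finset.range k, 1 / Real.sqrt ((j : ℝ) + 1) ≤ 2 * Real.sqrt k := by
  induction k with
  | zero => simp
  | succ k ih =>
    rw [Finset.sum_range_succ]
    have hk : (0 : ℝ) ≤ k := Nat.cast_nonneg k
    set a := Real.sqrt ((k : ℝ) + 1) with ha
    set b := Real.sqrt (k : ℝ) with hb
    have ha0 : 0 < a := Real.sqrt_pos.2 (by positivity)
    have hb0 : 0 ≤ b := Real.sqrt_nonneg _
    have hab : b ≤ a := Real.sqrt_le_sqrt (by linarith)
    have ha2 : a ^ 2 = (k : ℝ) + 1 := Real.sq_sqrt (by positivity)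
    have hb2 : b ^ 2 = (k : ℝ) := Real.sq_sqrt hk
    have h1 : 1 / a ≤ 2 * (a - b) := by
      rw [div_le_iff₀ ha0]
      nlinarith
    have e : Real.sqrt ((k + 1 : ℕ) : ℝ) = a := by rw [ha]; push_cast; rfl
    rw [e]
    linarith

/-- consequences of `gq_le` under `4/n ≤ z² - 4`, i.e. `D_j ≥ 4 (j+1)/n` -/
theorem gq_sq_le (hn : 0 < n) (hz : 2 < z) (hz' : z ≤ 5 / 2)
    (hd : 12 / (n : ℝ) ≤ (z ^ 2 - 4) * Real.sqrt (z ^ 2 - 4)) (h4 : 4 / (n : ℝ) ≤ z ^ 2 - 4)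
    (j : ℕ) (hj : j ≤ n) : gq n z j ^ 2 ≤ n / ((j : ℝ) + 1) := by
  have hD := ldc_Dq_pos (z := z) hn h4 j
  have hg := gq_le hn hz hz' hd j hj
  have hg0 := gq_pos (z := z) hn hz.le j
  calc gq n z j ^ 2 ≤ (2 / Real.sqrt (Dq n z j)) ^ 2 := pow_le_pow_left₀ hg0.le hg 2
    _ = 4 / Dq n z j := by rw [div_pow, Real.sq_sqrt hD.le]; norm_num
    _ ≤ n / ((j : ℝ) + 1) := ldc_inv_Dq_le hn h4 j

theorem sum_gq_incr_le (hn : 0 < n) (hz : 2 < z) (hz' : z ≤ 5 / 2)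
    (hd : 12 / (n : ℝ) ≤ (z ^ 2 - 4) * Real.sqrt (z ^ 2 - 4)) (h4 : 4 / (n : ℝ) ≤ z ^ 2 - 4) :
    ∑ j ∈ Finset.range n, gq n z j * (rq n z (j + 1) - rq n z j) ≤ (1 + Real.log n) / 2 := by
  have hn' : (0 : ℝ) < n := by exact_mod_cast hn
  have hterm : ∀ j ∈ Finset.range n, gq n z j * (rq n z (j + 1) - rq n z j) ≤
      1 / 2 * (1 / ((j : ℝ) + 1)) := by
    intro j hj
    have hjn : j ≤ n := (Finset.mem_range.1 hj).le
    have hD := ldc_Dq_pos (z := z) hn h4 j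
    have hs : 0 < Real.sqrt (Dq n z j) := Real.sqrt_pos.2 hD
    have hg := gq_le hn hz hz' hd j hjn
    have hΔ0 : 0 ≤ rq n z (j + 1) - rq n z j := sub_nonneg.2 (rq_mono hn hz.le j)
    have hΔ := rq_incr_le (z := z) hn hz j
    calc gq n z j * (rq n z (j + 1) - rq n z j)
        ≤ 2 / Real.sqrt (Dq n z j) * (1 / (n * Real.sqrt (Dq n z j))) :=
          mul_le_mul hg hΔ hΔ0 (by positivity)
      _ = 1 / (2 * n) * (4 / Dq n z j) := by
          have e : Dq n z j = Real.sqrt (Dq n z j) * Real.sqrt (Dq n z j) :=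
            (Real.mul_self_sqrt hD.le).symm
          conv_rhs => rw [e]
          field_simp
          ring
      _ ≤ 1 / (2 * n) * (n / ((j : ℝ) + 1)) :=
          mul_le_mul_of_nonneg_left (ldc_inv_Dq_le hn h4 j) (by positivity)
      _ = 1 / 2 * (1 / ((j : ℝ) + 1)) := by
          field_simp
  calc ∑ j ∈ Finset.range n, gq n z j * (rq n z (j + 1) - rq n z j)
      ≤ ∑ j ∈ Finset.range n, 1 / 2 * (1 / ((j : ℝ) + 1)) := Finset.sum_le_sum hterm
    _ = 1 / 2 * ∑ j ∈ Finset.range n, 1 / ((j : ℝ) + 1) := by rw [Finset.mul_sum]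
    _ ≤ 1 / 2 * (1 + Real.log n) :=
        mul_le_mul_of_nonneg_left (ldc_harmonic n) (by norm_num)
    _ = (1 + Real.log n) / 2 := by ring

theorem sum_gq_sq_le (hn : 0 < n) (hz : 2 < z) (hz' : z ≤ 5 / 2)
    (hd : 12 / (n : ℝ) ≤ (z ^ 2 - 4) * Real.sqrt (z ^ 2 - 4)) (h4 : 4 / (n : ℝ) ≤ z ^ 2 - 4) :
    ∑ j ∈ Finset.range n, gq n z j ^ 2 ≤ n * (1 + Real.log n) := by
  have hn' : (0 : ℝ) < n := by exact_mod_cast hn
  calc ∑ j ∈ Finset.range n, gq n z j ^ 2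
      ≤ ∑ j ∈ Finset.range n, (n : ℝ) * (1 / ((j : ℝ) + 1)) := by
        refine Finset.sum_le_sum fun j hj => ?_
        have := gq_sq_le hn hz hz' hd h4 j (Finset.mem_range.1 hj).le
        rwa [mul_one_div]
    _ = n * ∑ j ∈ Finset.range n, 1 / ((j : ℝ) + 1) := by rw [Finset.mul_sum]
    _ ≤ n * (1 + Real.log n) := mul_le_mul_of_nonneg_left (ldc_harmonic n) hn'.le

theorem sum_gq_le (hn : 0 < n) (hz : 2 < z) (hz' : z ≤ 5 / 2)
    (hd : 12 / (n : ℝ) ≤ (z ^ 2 - 4) * Real.sqrt (z ^ 2 - 4)) (h4 : 4 / (n : ℝ) ≤ z ^ 2 - 4) :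
    ∑ j ∈ Finset.range n, gq n z j ≤ 2 * n := by
  have hn' : (0 : ℝ) < n := by exact_mod_cast hn
  calc ∑ j ∈ Finset.range n, gq n z j
      ≤ ∑ j ∈ Finset.range n, Real.sqrt n * (1 / Real.sqrt ((j : ℝ) + 1)) := by
        refine Finset.sum_le_sum fun j hj => ?_
        have h := gq_sq_le hn hz hz' hd h4 j (Finset.mem_range.1 hj).le
        have h2 : gq n z j ≤ Real.sqrt (n / ((j : ℝ) + 1)) := Real.le_sqrt_of_sq_le h
        rwa [Real.sqrt_div hn'.le, div_eq_mul_one_div] at h2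
    _ = Real.sqrt n * ∑ j ∈ Finset.range n, 1 / Real.sqrt ((j : ℝ) + 1) := by
        rw [Finset.mul_sum]
    _ ≤ Real.sqrt n * (2 * Real.sqrt n) :=
        mul_le_mul_of_nonneg_left (ldc_sum_inv_sqrt n) (Real.sqrt_nonneg _)
    _ = 2 * n := by
        have := Real.mul_self_sqrt hn'.le
        linarith

end

end Claimed.Agent.R133
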