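/-
Row 133 / S0266, section 7 (scalar version), part D:  `∑_{j<n} log ρ_j ≤ n/2 + n (z-2)`.
-/
import Claimed.Agent.R133.LDetC

set_option autoImplicit false

namespace Claimed.Agent.R133

open scoped BigOperators

noncomputable section

/-- antiderivative: `F'(p) = (z - 2p) log p` -/
def Fq (z p : ℝ) : ℝ := z * p * (Real.log p - 1) - p ^ 2 * Real.log p + p ^ 2 / 2

theorem Fq_hasDerivAt (z t : ℝ) (ht : 0 < t) :
    HasDerivAt (Fq z) ((z - 2 * t) * Real.log t) t := by
  have h1 := Real.hasDerivAt_log ht.ne'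
  have hid := hasDerivAt_id t
  have h := ((((hid.const_mul z).mul (h1.sub_const 1)).sub ((hid.pow 2).mul h1)).add
    ((hid.pow 2).div_const 2))
  have e : (z - 2 * t) * Real.log t = z * 1 * (Real.log t - 1) + z * id t * t⁻¹
      - (((2 : ℕ) : ℝ) * id t ^ (2 - 1) * 1 * Real.log t + id t ^ 2 * t⁻¹)
      + ((2 : ℕ) : ℝ) * id t ^ (2 - 1) * 1 / 2 := by
    simp only [id]
    field_simp
    ring
  rw [e]
  exact h

/-- `G(t) = F(p) - F(t) - (x(p) - x(t)) log p`, `x(p) = p (z-p)`, has `G(p) = 0` and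
`G'(t) = (2t - z)(log t - log p) ≥ 0` for `t ≥ p ≥ z/2`. -/
theorem Fq_step (z p p' : ℝ) (hp : 0 < p) (hzp : z / 2 ≤ p) (hpp : p ≤ p') :
    (p * (z - p) - p' * (z - p')) * Real.log p ≤ Fq z p - Fq z p' := by
  set G : ℝ → ℝ := fun t => Fq z p - Fq z t - (p * (z - p) - t * (z - t)) * Real.log p with hG
  have hder : ∀ t, 0 < t →
      HasDerivAt G ((2 * t - z) * (Real.log t - Real.log p)) t := by
    intro t ht
    have hid := hasDerivAt_id t
    have h := ((Fq_hasDerivAt z t ht).const_sub (Fq z p)).sub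
      (((hid.mul (hid.const_sub z)).const_sub (p * (z - p))).mul_const (Real.log p))
    have e : (2 * t - z) * (Real.log t - Real.log p)
        = -((z - 2 * t) * Real.log t) - -(1 * (z - id t) + id t * -1) * Real.log p := by
      simp only [id]
      ring
    rw [e]
    exact h
  have hmono : MonotoneOn G (Set.Icc p p') := by
    refine monotoneOn_of_deriv_nonneg (convex_Icc p p') ?_ ?_ ?_
    · intro t ht
      exact (hder t (hp.trans_le ht.1)).continuousAt.continuousWithinAt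
    · intro t ht
      rw [interior_Icc] at ht
      exact (hder t (hp.trans ht.1)).differentiableAt.differentiableWithinAt
    · intro t ht
      rw [interior_Icc] at ht
      rw [(hder t (hp.trans ht.1)).deriv]
      refine mul_nonneg (by linarith [ht.1]) ?_
      exact sub_nonneg.2 (Real.log_le_log hp ht.1.le)
  have h := hmono (Set.left_mem_Icc.2 hpp) (Set.right_mem_Icc.2 hpp) hpp
  simp only [hG] at h
  linarith

/-- `F(r) - F(z) = log r + 1/(2 r²)` if `r (z - r) = 1` -/
theorem Fq_ends (z r : ℝ) (hr : 0 < r) (hz : 0 < z) (h : r * (z - r) = 1) :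
    Fq z r - Fq z z = Real.log r + 1 / (2 * r ^ 2) := by
  have hzr : z = r + 1 / r := by
    field_simp
    linarith
  subst hzr
  unfold Fq
  field_simp
  ring

/-- `log r + 1/(2r²) - 1/2 ≤ (r-1)²/r = z - 2` for `r ≥ 1` (derivatives `(r²-1)/r³ ≤ (r²-1)/r²`) -/
theorem log_r_le (r : ℝ) (hr : 1 ≤ r) :
    Real.log r + 1 / (2 * r ^ 2) ≤ 1 / 2 + (r + 1 / r - 2) := by
  set H : ℝ → ℝ := fun t => 1 / 2 + (t + t⁻¹ - 2) - Real.log t - (t ^ 2)⁻¹ / 2 with hH
  have hder : ∀ t, 0 < t → HasDerivAt H ((t - 1) ^ 2 * (t + 1) / t ^ 3) t := by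
    intro t ht
    have hid := hasDerivAt_id t
    have h1 := Real.hasDerivAt_log ht.ne'
    have hinv := hasDerivAt_inv ht.ne'
    have hinv2 := ((hid.pow 2).inv (by simpa using ht.ne'))
    have h := ((((hid.add hinv).sub_const 2).const_add (1 / 2)).sub h1).sub (hinv2.div_const 2)
    have e : (t - 1) ^ 2 * (t + 1) / t ^ 3
        = 1 + -(t ^ 2)⁻¹ - t⁻¹ - -(((2 : ℕ) : ℝ) * id t ^ (2 - 1) * 1) / (id t ^ 2) ^ 2 / 2 := by
      simp only [id]
      field_simp
      ring
    rw [e]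
    exact h
  have hmono : MonotoneOn H (Set.Icc 1 r) := by
    refine monotoneOn_of_deriv_nonneg (convex_Icc 1 r) ?_ ?_ ?_
    · intro t ht
      exact (hder t (zero_lt_one.trans_le ht.1)).continuousAt.continuousWithinAt
    · intro t ht
      rw [interior_Icc] at ht
      exact (hder t (zero_lt_one.trans ht.1)).differentiableAt.differentiableWithinAt
    · intro t ht
      rw [interior_Icc] at ht
      rw [(hder t (zero_lt_one.trans ht.1)).deriv]
      have : 0 < t := zero_lt_one.trans ht.1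
      positivity
  have h := hmono (Set.left_mem_Icc.2 hr) (Set.right_mem_Icc.2 hr) hr
  simp only [hH, Real.log_one] at h
  have e1 : 1 / (2 * r ^ 2) = (r ^ 2)⁻¹ / 2 := by
    have : 0 < r := zero_lt_one.trans_le hr
    field_simp
  have e2 : 1 / r = r⁻¹ := one_div r
  rw [e1, e2]
  norm_num at h
  linarith

theorem rq_mul_sub {n : ℕ} {z : ℝ} (hn : 0 < n) (hz : 2 ≤ z) (j : ℕ) :
    rq n z j * (z - rq n z j) = ((n : ℝ) - j) / n := by
  have h := Real.sq_sqrt (Dq_nonneg (z := z) hn hz j)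
  have e : rq n z j * (z - rq n z j) = (z ^ 2 - Real.sqrt (Dq n z j) ^ 2) / 4 := by
    unfold rq
    ring
  rw [e, h]
  unfold Dq
  ring

theorem sum_log_rq (n : ℕ) (hn : 0 < n) (z : ℝ) (hz : 2 ≤ z) :
    ∑ j ∈ Finset.range n, Real.log (rq n z j) ≤ (n : ℝ) / 2 + n * (z - 2) := by
  have hn' : (0 : ℝ) < n := Nat.cast_pos.2 hn
  have hstep : ∀ j ∈ Finset.range n,
      1 / (n : ℝ) * Real.log (rq n z j) ≤ Fq z (rq n z j) - Fq z (rq n z (j + 1)) := by
    intro j _
    have hp : 0 < rq n z j := zero_lt_one.trans_le (rq_ge_one hn hz j)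
    have hzp : z / 2 ≤ rq n z j := by
      unfold rq
      linarith [Real.sqrt_nonneg (Dq n z j)]
    have h := Fq_step z (rq n z j) (rq n z (j + 1)) hp hzp (rq_mono hn hz j)
    rw [rq_mul_sub hn hz, rq_mul_sub hn hz] at h
    have e : ((n : ℝ) - j) / n - ((n : ℝ) - ((j + 1 : ℕ) : ℝ)) / n = 1 / n := by
      push_cast
      field_simp
      ring
    rwa [e] at h
  have hsum := Finset.sum_le_sum hstep
  rw [← Finset.mul_sum, Finset.sum_range_sub', rq_self hn hz] at hsum
  have hr1 : 1 ≤ rq n z 0 := rq_ge_one hn hz 0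
  have hr0 : 0 < rq n z 0 := zero_lt_one.trans_le hr1
  have hfix : rq n z 0 * (z - rq n z 0) = 1 := by
    rw [rq_mul_sub hn hz]
    simp [hn'.ne']
  rw [Fq_ends z (rq n z 0) hr0 (by linarith) hfix] at hsum
  have hz' : z = rq n z 0 + 1 / rq n z 0 := by
    field_simp
    linarith
  have h2 := log_r_le (rq n z 0) hr1
  rw [← hz'] at h2
  have h3 : 1 / (n : ℝ) * ∑ j ∈ Finset.range n, Real.log (rq n z j) ≤ 1 / 2 + (z - 2) :=
    hsum.trans h2
  have h4 := mul_le_mul_of_nonneg_left h3 hn'.le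
  have e5 : (n : ℝ) * (1 / (n : ℝ) * ∑ j ∈ Finset.range n, Real.log (rq n z j))
      = ∑ j ∈ Finset.range n, Real.log (rq n z j) := by
    field_simp
  rw [e5] at h4
  linarith

end

end Claimed.Agent.R133
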