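/-
Row 133 / S0266, sections 4-7: the ONLY probabilistic toolkit used for the Jacobi noise.
`SubG μ X s Λ` : `E exp(t X) ≤ exp(s t²/2)` for `|t| ≤ Λ`  (everything in `lintegral` form, so there
are no integrability side conditions).  Closed under scaling and independent sums; Chernoff bound,
second moment bound, maximal inequality (Etemadi).
-/
import Claimed.Agent.R133.LinAlg
import Claimed.Agent.R133.Gauss1

set_option autoImplicit false

namespace Claimed.Agent.R133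

open MeasureTheory ProbabilityTheory
open scoped BigOperators NNReal ENNReal

variable {Ω : Type*} [MeasurableSpace Ω] {μ : Measure Ω}

/-- sub-Gaussian moment generating function with variance proxy `s` on the window `|t| ≤ Λ` -/
def SubG (μ : Measure Ω) (X : Ω → ℝ) (s Λ : ℝ) : Prop :=
  ∀ t : ℝ, |t| ≤ Λ → ∫⁻ ω, eexp (t * X ω) ∂μ ≤ eexp (s * t ^ 2 / 2)

theorem SubG.mono {X : Ω → ℝ} {s s' Λ Λ' : ℝ} (h : SubG μ X s Λ) (hs : s ≤ s') (hΛ : Λ' ≤ Λ) :
    SubG μ X s' Λ' := by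
  intro t ht
  refine (h t (ht.trans hΛ)).trans (eexp_le_eexp.2 ?_)
  have : 0 ≤ t ^ 2 := sq_nonneg t
  nlinarith

theorem SubG.const_mul {X : Ω → ℝ} {s Λ : ℝ} (h : SubG μ X s Λ) (c Λ' : ℝ)
    (hΛ : |c| * Λ' ≤ Λ) : SubG μ (fun ω => c * X ω) (c ^ 2 * s) Λ' := by
  intro t ht
  have h1 : |t * c| ≤ Λ := by
    rw [abs_mul, mul_comm]
    exact (mul_le_mul_of_nonneg_left ht (abs_nonneg c)).trans hΛ
  have h2 := h (t * c) h1
  have e1 : ∀ ω, t * (c * X ω) = t * c * X ω := fun ω => by ring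
  have e2 : c ^ 2 * s * t ^ 2 / 2 = s * (t * c) ^ 2 / 2 := by ring
  simp only [e1, e2]
  exact h2

theorem SubG.neg {X : Ω → ℝ} {s Λ : ℝ} (h : SubG μ X s Λ) : SubG μ (fun ω => - X ω) s Λ := by
  intro t ht
  have h2 := h (-t) (by rwa [abs_neg])
  have e1 : ∀ ω, t * (- X ω) = -t * X ω := fun ω => by ring
  have e2 : s * t ^ 2 / 2 = s * (-t) ^ 2 / 2 := by ring
  simp only [e1, e2]
  exact h2

theorem SubG.congr_ae {X Y : Ω → ℝ} {s Λ : ℝ} (h : SubG μ X s Λ) (hXY : X =ᵐ[μ] Y) :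
    SubG μ Y s Λ := by
  intro t ht
  refine le_trans (le_of_eq ?_) (h t ht)
  refine lintegral_congr_ae ?_
  filter_upwards [hXY] with ω hω
  rw [hω]

theorem subG_zero [IsProbabilityMeasure μ] (Λ : ℝ) : SubG μ (fun _ => (0 : ℝ)) 0 Λ := by
  intro t _
  simp [eexp_zero]

theorem SubG.add {X Y : Ω → ℝ} {s s' Λ : ℝ} (hX : SubG μ X s Λ) (hY : SubG μ Y s' Λ)
    (mX : Measurable X) (mY : Measurable Y) (hXY : IndepFun X Y μ) :
    SubG μ (fun ω => X ω + Y ω) (s + s') Λ := by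
  intro t ht
  have m1 : Measurable fun x : ℝ => eexp (t * x) :=
    measurable_eexp.comp (measurable_id.const_mul t)
  have e1 : ∀ ω, eexp (t * (X ω + Y ω)) = eexp (t * X ω) * eexp (t * Y ω) := fun ω => by
    rw [mul_add, eexp_add]
  have e2 : (s + s') * t ^ 2 / 2 = s * t ^ 2 / 2 + s' * t ^ 2 / 2 := by ring
  simp only [e1]
  have e3 : ∫⁻ ω, eexp (t * X ω) * eexp (t * Y ω) ∂μ =
      (∫⁻ ω, eexp (t * X ω) ∂μ) * ∫⁻ ω, eexp (t * Y ω) ∂μ :=
    lintegral_mul_eq_lintegral_mul_lintegral_of_indepFun''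
      (m1.comp mX).aemeasurable (m1.comp mY).aemeasurable (hXY.comp m1 m1)
  rw [e2, eexp_add, e3]
  exact mul_le_mul' (hX t ht) (hY t ht)

theorem SubG.sum {ι : Type*} {X : ι → Ω → ℝ} {s : ι → ℝ} {Λ : ℝ} (S : Finset ι)
    (mX : ∀ i, Measurable (X i)) (hind : iIndepFun X μ) (h : ∀ i ∈ S, SubG μ (X i) (s i) Λ) :
    SubG μ (fun ω => ∑ i ∈ S, X i ω) (∑ i ∈ S, s i) Λ := by
  intro t ht
  have m1 : Measurable fun x : ℝ => eexp (t * x) :=
    measurable_eexp.comp (measurable_id.const_mul t)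
  have e1 : ∀ ω, eexp (t * ∑ i ∈ S, X i ω) = ∏ i ∈ S, eexp (t * X i ω) := fun ω => by
    rw [Finset.mul_sum, eexp_sum]
  have e2 : (∑ i ∈ S, s i) * t ^ 2 / 2 = ∑ i ∈ S, s i * t ^ 2 / 2 := by
    rw [Finset.sum_mul, Finset.sum_div]
  simp only [e1]
  rw [e2, eexp_sum, lintegral_prod_eq_prod_lintegral_of_indepFun S
    (fun i ω => eexp (t * X i ω)) (hind.comp (fun _ x => eexp (t * x)) fun _ => m1)
    fun i => m1.comp (mX i)]
  exact Finset.prod_le_prod' fun i hi => h i hi t ht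

/-- transfer along a measurable map -/
theorem subG_map {Ω' : Type*} [MeasurableSpace Ω'] {f : Ω → Ω'} (hf : Measurable f)
    {X : Ω' → ℝ} (mX : Measurable X) (s Λ : ℝ) :
    SubG (μ.map f) X s Λ ↔ SubG μ (fun ω => X (f ω)) s Λ := by
  have key : ∀ t : ℝ, ∫⁻ ω, eexp (t * X ω) ∂(μ.map f) = ∫⁻ ω, eexp (t * X (f ω)) ∂μ := fun t =>
    lintegral_map (measurable_eexp.comp (mX.const_mul t)) hf
  unfold SubG
  simp only [key]

/-- CHERNOFF -/
theorem SubG.tail {X : Ω → ℝ} {s Λ x : ℝ} (h : SubG μ X s Λ) (mX : Measurable X)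
    (hs : 0 < s) (hx : 0 ≤ x) (hxΛ : x ≤ s * Λ) :
    μ {ω | x ≤ X ω} ≤ eexp (-(x ^ 2 / (2 * s))) := by
  have ht0 : 0 ≤ x / s := div_nonneg hx hs.le
  have htΛ : |x / s| ≤ Λ := by
    rw [abs_of_nonneg ht0, div_le_iff₀ hs]
    linarith
  have h1 := h (x / s) htΛ
  have hm : Measurable fun ω => eexp (x / s * X ω) := measurable_eexp.comp (mX.const_mul _)
  have h2 := mul_meas_ge_le_lintegral (μ := μ) hm (eexp (x / s * x))
  have h3 : μ {ω | x ≤ X ω} ≤ μ {ω | eexp (x / s * x) ≤ eexp (x / s * X ω)} := by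
    apply measure_mono
    intro ω hω
    exact eexp_le_eexp.2 (mul_le_mul_of_nonneg_left hω ht0)
  have h4 : eexp (x / s * x) * μ {ω | x ≤ X ω} ≤ eexp (s * (x / s) ^ 2 / 2) :=
    (mul_le_mul_right h3 _).trans (h2.trans h1)
  calc μ {ω | x ≤ X ω} = eexp (-(x / s * x)) * (eexp (x / s * x) * μ {ω | x ≤ X ω}) := by
        rw [← mul_assoc, ← eexp_add, neg_add_cancel, eexp_zero, one_mul]
    _ ≤ eexp (-(x / s * x)) * eexp (s * (x / s) ^ 2 / 2) := mul_le_mul_right h4 _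
    _ = eexp (-(x ^ 2 / (2 * s))) := by
        rw [← eexp_add]
        congr 1
        field_simp
        ring

theorem SubG.tail_neg {X : Ω → ℝ} {s Λ x : ℝ} (h : SubG μ X s Λ) (mX : Measurable X)
    (hs : 0 < s) (hx : 0 ≤ x) (hxΛ : x ≤ s * Λ) :
    μ {ω | X ω ≤ -x} ≤ eexp (-(x ^ 2 / (2 * s))) := by
  have h1 := h.neg.tail mX.neg hs hx hxΛ
  have h2 : {ω | X ω ≤ -x} = {ω | x ≤ - X ω} := by
    ext ω
    show X ω ≤ -x ↔ x ≤ - X ω
    constructor <;> intro h <;> linarith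
  rw [h2]
  exact h1

theorem SubG.tail_abs {X : Ω → ℝ} {s Λ x : ℝ} (h : SubG μ X s Λ) (mX : Measurable X)
    (hs : 0 < s) (hx : 0 ≤ x) (hxΛ : x ≤ s * Λ) :
    μ {ω | x ≤ |X ω|} ≤ 2 * eexp (-(x ^ 2 / (2 * s))) := by
  have h1 : {ω | x ≤ |X ω|} ⊆ {ω | x ≤ X ω} ∪ {ω | X ω ≤ -x} := by
    intro ω hω
    have hω' : x ≤ |X ω| := hω
    rcases le_abs.1 hω' with h | h
    · exact Or.inl h
    · refine Or.inr ?_
      show X ω ≤ -x
      linarith
  calc μ {ω | x ≤ |X ω|} ≤ μ ({ω | x ≤ X ω} ∪ {ω | X ω ≤ -x}) := measure_mono h1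
    _ ≤ μ {ω | x ≤ X ω} + μ {ω | X ω ≤ -x} := measure_union_le _ _
    _ ≤ eexp (-(x ^ 2 / (2 * s))) + eexp (-(x ^ 2 / (2 * s))) :=
        add_le_add (h.tail mX hs hx hxΛ) (h.tail_neg mX hs hx hxΛ)
    _ = 2 * eexp (-(x ^ 2 / (2 * s))) := (two_mul _).symm

/-- `u² + 2 ≤ e^u + e^{-u}` -/
theorem subG_sq_add_two_le (u : ℝ) : u ^ 2 + 2 ≤ Real.exp u + Real.exp (-u) := by
  have h1 : Real.exp u + Real.exp (-u) = 2 * Real.cosh u := by
    rw [Real.cosh_eq]; ring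
  have h2 : Real.cosh u = 1 + 2 * Real.sinh (u / 2) ^ 2 := by
    have h3 := Real.cosh_two_mul (u / 2)
    have h4 := Real.cosh_sq (u / 2)
    rw [mul_div_cancel₀ _ (two_ne_zero)] at h3
    rw [h3, h4]; ring
  have h5 : (u / 2) ^ 2 ≤ Real.sinh (u / 2) ^ 2 := by
    rcases le_total 0 (u / 2) with h | h
    · exact pow_le_pow_left₀ h (Real.self_le_sinh_iff.2 h) 2
    · have h6 := Real.sinh_le_self_iff.2 h
      nlinarith
  rw [h1, h2]
  nlinarith

/-- `e^u ≤ 1 + 2u` on `[0,1/2]` -/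
theorem subG_exp_le_one_add (u : ℝ) (h0 : 0 ≤ u) (h1 : u ≤ 1 / 2) : Real.exp u ≤ 1 + 2 * u := by
  have h2 := Real.exp_bound_div_one_sub_of_interval h0 (by linarith : u < 1)
  refine h2.trans ?_
  rw [div_le_iff₀ (by linarith)]
  nlinarith

/-- second moment: `t² X² + 2 ≤ e^{tX} + e^{-tX}`, `t` small -/
theorem SubG.sq_le [IsProbabilityMeasure μ] {X : Ω → ℝ} {s Λ : ℝ} (h : SubG μ X s Λ)
    (mX : Measurable X) (hs : 0 ≤ s) (hΛ : 0 < Λ) :
    ∫⁻ ω, ENNReal.ofReal (X ω ^ 2) ∂μ ≤ ENNReal.ofReal (2 * s) := by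
  obtain ⟨t, ht0, htΛ, hst⟩ : ∃ t : ℝ, 0 < t ∧ t ≤ Λ ∧ s * t ^ 2 ≤ 1 := by
    refine ⟨min Λ (1 / (s + 1)), lt_min hΛ (by positivity), min_le_left _ _, ?_⟩
    have h1 : min Λ (1 / (s + 1)) ≤ 1 / (s + 1) := min_le_right _ _
    have h2 : 0 < min Λ (1 / (s + 1)) := lt_min hΛ (by positivity)
    have h3 : min Λ (1 / (s + 1)) ^ 2 ≤ (1 / (s + 1)) ^ 2 := pow_le_pow_left₀ h2.le h1 2
    calc s * min Λ (1 / (s + 1)) ^ 2 ≤ s * (1 / (s + 1)) ^ 2 := mul_le_mul_of_nonneg_left h3 hs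
      _ ≤ 1 := by
        rw [div_pow, one_pow, mul_one_div, div_le_one (by positivity)]
        nlinarith
  have ha : ∫⁻ ω, eexp (t * X ω) ∂μ ≤ eexp (s * t ^ 2 / 2) := h t (by rwa [abs_of_pos ht0])
  have hb : ∫⁻ ω, eexp (-t * X ω) ∂μ ≤ eexp (s * t ^ 2 / 2) := by
    have := h (-t) (by rwa [abs_neg, abs_of_pos ht0])
    rwa [neg_sq] at this
  have hm1 : Measurable fun ω => eexp (t * X ω) := measurable_eexp.comp (mX.const_mul _)
  have hm2 : Measurable fun ω => ENNReal.ofReal (X ω ^ 2) := (mX.pow_const 2).ennreal_ofReal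
  have hpt : ∀ ω, ENNReal.ofReal (t ^ 2) * ENNReal.ofReal (X ω ^ 2) + 2
      ≤ eexp (t * X ω) + eexp (-t * X ω) := by
    intro ω
    have h1 := subG_sq_add_two_le (t * X ω)
    unfold eexp
    rw [← ENNReal.ofReal_mul (by positivity), ← ENNReal.ofReal_add (Real.exp_pos _).le (Real.exp_pos _).le]
    have h2 : (2 : ℝ≥0∞) = ENNReal.ofReal 2 := by simp
    rw [h2, ← ENNReal.ofReal_add (by positivity) (by norm_num)]
    apply ENNReal.ofReal_le_ofReal
    have h3 : -t * X ω = -(t * X ω) := by ring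
    rw [h3]
    nlinarith
  have h1 : ENNReal.ofReal (t ^ 2) * ∫⁻ ω, ENNReal.ofReal (X ω ^ 2) ∂μ + 2
      ≤ ENNReal.ofReal (t ^ 2) * ENNReal.ofReal (2 * s) + 2 := by
    calc ENNReal.ofReal (t ^ 2) * ∫⁻ ω, ENNReal.ofReal (X ω ^ 2) ∂μ + 2
        = ∫⁻ ω, (ENNReal.ofReal (t ^ 2) * ENNReal.ofReal (X ω ^ 2) + 2) ∂μ := by
          rw [lintegral_add_right _ measurable_const, lintegral_const_mul _ hm2, lintegral_const,
            measure_univ, mul_one]
      _ ≤ ∫⁻ ω, (eexp (t * X ω) + eexp (-t * X ω)) ∂μ := lintegral_mono hpt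
      _ = ∫⁻ ω, eexp (t * X ω) ∂μ + ∫⁻ ω, eexp (-t * X ω) ∂μ := lintegral_add_left hm1 _
      _ ≤ eexp (s * t ^ 2 / 2) + eexp (s * t ^ 2 / 2) := add_le_add ha hb
      _ ≤ ENNReal.ofReal (t ^ 2) * ENNReal.ofReal (2 * s) + 2 := by
          have h3 := subG_exp_le_one_add (s * t ^ 2 / 2) (by positivity) (by linarith)
          unfold eexp
          have h2 : (2 : ℝ≥0∞) = ENNReal.ofReal 2 := by simp
          rw [← ENNReal.ofReal_add (Real.exp_pos _).le (Real.exp_pos _).le,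
            ← ENNReal.ofReal_mul (by positivity), h2, ← ENNReal.ofReal_add (by positivity) (by norm_num)]
          apply ENNReal.ofReal_le_ofReal
          nlinarith
  have h2 := (ENNReal.add_le_add_iff_right (by simp : (2 : ℝ≥0∞) ≠ ∞)).1 h1
  have h3 : ENNReal.ofReal (t ^ 2) ≠ 0 := by
    rw [Ne, ENNReal.ofReal_eq_zero, not_le]
    positivity
  exact (ENNReal.mul_le_mul_iff_right h3 ENNReal.ofReal_ne_top).1 h2

/-- centred Gaussian -/
theorem subG_gaussian (v : ℝ≥0) (Λ : ℝ) : SubG (gaussianReal 0 v) (fun x => x) v Λ := by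
  intro t _
  have h1 : ∫⁻ x, eexp (t * x) ∂(gaussianReal 0 v)
      = ENNReal.ofReal (∫ x, Real.exp (t * x) ∂(gaussianReal 0 v)) :=
    (ofReal_integral_eq_lintegral_ofReal (integrable_exp_mul_gaussianReal t)
      (Filter.Eventually.of_forall fun x => (Real.exp_pos _).le)).symm
  have h2 : ∫ x, Real.exp (t * x) ∂(gaussianReal 0 v) = Real.exp (v * t ^ 2 / 2) := by
    have h3 := congrFun (mgf_id_gaussianReal (μ := 0) (v := v)) t
    simpa [mgf] using h3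
  rw [h1, h2]
  exact le_rfl

/-- square of a centred Gaussian: `-u - (1/2) log (1 - 2u) ≤ 2 u²` for `|u| ≤ 1/4`, `u = t v` -/
theorem subG_gaussian_sq (v : ℝ≥0) :
    SubG (gaussianReal 0 v) (fun x => x ^ 2 - v) (4 * (v : ℝ) ^ 2) (1 / (4 * v)) := by
  intro t ht
  rcases eq_or_ne v 0 with rfl | hv
  · have ht0 : t = 0 := by
      have : |t| ≤ 0 := by simpa using ht
      exact abs_eq_zero.1 (le_antisymm this (abs_nonneg _))
    subst ht0
    simp [eexp_zero]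
  · have hv0 : (0 : ℝ) < v := by
      exact_mod_cast pos_iff_ne_zero.2 hv
    have hl : |t * v| ≤ 1 / 4 := by
      rw [abs_mul, abs_of_pos hv0]
      rw [le_div_iff₀ (by positivity)] at ht
      linarith
    have h1 := gauss_sq_mgf (t * v) hl
    have hm : Measurable fun x : ℝ => eexp (t * (x ^ 2 - v)) :=
      measurable_eexp.comp (((measurable_id.pow_const 2).sub_const _).const_mul _)
    show ∫⁻ x, eexp (t * (x ^ 2 - v)) ∂(gaussianReal 0 v) ≤ _
    rw [← gauss_map_mul v, lintegral_map hm (measurable_const_mul _)]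
    have h2 : ∀ y : ℝ, eexp (t * ((Real.sqrt v * y) ^ 2 - v)) = eexp (t * v * (y ^ 2 - 1)) := by
      intro y
      congr 1
      rw [mul_pow, Real.sq_sqrt hv0.le]
      ring
    simp only [h2]
    refine h1.trans (le_of_eq ?_)
    congr 1
    ring

end Claimed.Agent.R133
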