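/-
Row 133 / S0266: maximal inequality (Etemadi) for sums of independent `SubG` variables.
-/
import Claimed.Agent.R133.SubG

set_option autoImplicit false

namespace Claimed.Agent.R133

open MeasureTheory ProbabilityTheory
open scoped BigOperators NNReal ENNReal

variable {Ω : Type*} [MeasurableSpace Ω] {μ : Measure Ω}

/-- ETEMADI.  `S_k = ∑_{i<k} X_i`.  `P(max_{k ≤ m} |S_k| ≥ 3x) ≤ P(|S_m| ≥ x) +
max_k P(|S_m - S_k| ≥ x) ≤ 4 exp(-x²/2s)`. -/
theorem subG_max {m : ℕ} {X : Fin m → Ω → ℝ} {σ : Fin m → ℝ} {Λ s x : ℝ}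
    (mX : ∀ i, Measurable (X i)) (hind : iIndepFun X μ) (h : ∀ i, SubG μ (X i) (σ i) Λ)
    (hσ : ∀ i, 0 ≤ σ i) (hs : ∑ i, σ i ≤ s) (hs0 : 0 < s) (hx : 0 ≤ x) (hxΛ : x ≤ s * Λ) :
    μ {ω | ∃ k : ℕ, k ≤ m ∧ 3 * x ≤ |∑ i : Fin m, if i.val < k then X i ω else 0|}
      ≤ 4 * eexp (-(x ^ 2 / (2 * s))) := by
  classical
  have : IsProbabilityMeasure μ := hind.isProbabilityMeasure
  set e : ℝ≥0∞ := eexp (-(x ^ 2 / (2 * s))) with he
  let S : ℕ → Ω → ℝ := fun k ω => ∑ i : Fin m, if i.val < k then X i ω else 0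
  let T : ℕ → Ω → ℝ := fun k ω => ∑ i ∈ Finset.univ.filter (fun i : Fin m => k ≤ i.val), X i ω
  let A : ℕ → Set Ω := fun k =>
    {ω | 3 * x ≤ |S k ω|} ∩ ⋂ l ∈ Finset.range k, {ω | |S l ω| < 3 * x}
  let B : ℕ → Set Ω := fun k => {ω | x ≤ |T k ω|}
  let F : Fin m → MeasurableSpace Ω := fun i => MeasurableSpace.comap (X i) inferInstance
  let m1 : ℕ → MeasurableSpace Ω := fun k => ⨆ i ∈ {i : Fin m | i.val < k}, F i
  let m2 : ℕ → MeasurableSpace Ω := fun k => ⨆ i ∈ {i : Fin m | k ≤ i.val}, F i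
  have hF : ∀ i, F i ≤ ‹MeasurableSpace Ω› := fun i => (mX i).comap_le
  have hm1 : ∀ k, m1 k ≤ ‹MeasurableSpace Ω› := fun k => iSup₂_le fun i _ => hF i
  -- increments
  have hST : ∀ k ω, S m ω - S k ω = T k ω := by
    intro k ω
    simp only [S, T]
    rw [← Finset.sum_sub_distrib, Finset.sum_filter]
    refine Finset.sum_congr rfl fun i _ => ?_
    have := i.isLt
    by_cases hik : i.val < k
    · simp [hik, this, not_le.2 hik]
    · simp [hik, this, not_lt.1 hik]
  have hS0 : ∀ ω, S 0 ω = 0 := fun ω => by simp [S]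
  -- measurability with respect to the past / the future
  have mS1 : ∀ k l, l ≤ k → Measurable[m1 k] (S l) := by
    intro k l hl
    refine Finset.measurable_sum _ fun i _ => ?_
    by_cases hil : i.val < l
    · simp only [hil, if_true]
      have h1 : Measurable[F i] (X i) := comap_measurable (X i)
      exact h1.mono (le_iSup₂_of_le (f := fun (i : Fin m) (_ : i ∈ {i : Fin m | i.val < k}) => F i)
        i (lt_of_lt_of_le hil hl) le_rfl) le_rfl
    · simp only [hil, if_false]
      exact measurable_const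
  have mT2 : ∀ k, Measurable[m2 k] (T k) := by
    intro k
    refine Finset.measurable_sum _ fun i hi => ?_
    have h1 : Measurable[F i] (X i) := comap_measurable (X i)
    exact h1.mono (le_iSup₂_of_le (f := fun (i : Fin m) (_ : i ∈ {i : Fin m | k ≤ i.val}) => F i)
      i (Finset.mem_filter.1 hi).2 le_rfl) le_rfl
  have mT : ∀ k, Measurable (T k) := fun k =>
    Finset.measurable_sum _ fun i _ => mX i
  have hC1 : MeasurableSet {y : ℝ | 3 * x ≤ |y|} :=
    measurableSet_le measurable_const continuous_abs.measurable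
  have hC2 : MeasurableSet {y : ℝ | |y| < 3 * x} :=
    measurableSet_lt continuous_abs.measurable measurable_const
  have hC3 : MeasurableSet {y : ℝ | x ≤ |y|} :=
    measurableSet_le measurable_const continuous_abs.measurable
  have mA1 : ∀ k, MeasurableSet[m1 k] (A k) := fun k =>
    MeasurableSet.inter (mS1 k k le_rfl hC1)
      (Finset.measurableSet_biInter _ fun l hl => mS1 k l (Finset.mem_range.1 hl).le hC2)
  have mA : ∀ k, MeasurableSet (A k) := fun k => hm1 k _ (mA1 k)
  -- independence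
  have hindep : ∀ k, μ (A k ∩ B k) = μ (A k) * μ (B k) := by
    intro k
    have hd : Disjoint {i : Fin m | i.val < k} {i : Fin m | k ≤ i.val} := by
      rw [Set.disjoint_left]
      intro i (h1 : i.val < k) (h2 : k ≤ i.val)
      exact absurd h1 (not_lt.2 h2)
    have hI : Indep (m1 k) (m2 k) μ := indep_iSup_of_disjoint hF hind hd
    exact (Indep_iff _ _ _).1 hI _ _ (mA1 k) (mT2 k hC3)
  -- tails of the increments
  have tailT : ∀ k, μ (B k) ≤ 2 * e := by
    intro k
    have h1 : SubG μ (T k) (∑ i ∈ Finset.univ.filter (fun i : Fin m => k ≤ i.val), σ i) Λ :=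
      SubG.sum _ mX hind fun i _ => h i
    have h2 : ∑ i ∈ Finset.univ.filter (fun i : Fin m => k ≤ i.val), σ i ≤ s :=
      le_trans (Finset.sum_le_sum_of_subset_of_nonneg (Finset.filter_subset _ _)
        fun i _ _ => hσ i) hs
    exact (h1.mono h2 le_rfl).tail_abs (mT k) hs0 hx hxΛ
  -- disjointness of the first passage events
  have hdisj : (↑(Finset.range (m + 1)) : Set ℕ).PairwiseDisjoint A := by
    intro a _ b _ hab
    rw [Function.onFun, Set.disjoint_left]
    intro ω ha hb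
    rcases lt_or_gt_of_ne hab with hlt | hlt
    · have h1 : 3 * x ≤ |S a ω| := ha.1
      have h2 : |S a ω| < 3 * x := Set.mem_iInter₂.1 hb.2 a (Finset.mem_range.2 hlt)
      exact absurd h1 (not_le.2 h2)
    · have h1 : 3 * x ≤ |S b ω| := hb.1
      have h2 : |S b ω| < 3 * x := Set.mem_iInter₂.1 ha.2 b (Finset.mem_range.2 hlt)
      exact absurd h1 (not_le.2 h2)
  -- the covering
  have hcover : {ω | ∃ k : ℕ, k ≤ m ∧ 3 * x ≤ |S k ω|} ⊆
      B 0 ∪ ⋃ k ∈ Finset.range (m + 1), (A k ∩ B k) := by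
    rintro ω ⟨k, hk, hkx⟩
    have hex : ∃ k, 3 * x ≤ |S k ω| := ⟨k, hkx⟩
    have hk0 : 3 * x ≤ |S (Nat.find hex) ω| := Nat.find_spec hex
    have hk0le : Nat.find hex ≤ k := Nat.find_min' hex hkx
    have hmin : ∀ l < Nat.find hex, ¬ 3 * x ≤ |S l ω| := fun l hl => Nat.find_min hex hl
    by_cases hm : x ≤ |S m ω|
    · left
      show x ≤ |T 0 ω|
      rw [← hST 0 ω, hS0, sub_zero]
      exact hm
    · right
      refine Set.mem_iUnion₂.2 ⟨Nat.find hex, Finset.mem_range.2 (by omega), ⟨hk0, ?_⟩, ?_⟩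
      · exact Set.mem_iInter₂.2 fun l hl => not_le.1 (hmin l (Finset.mem_range.1 hl))
      · show x ≤ |T (Nat.find hex) ω|
        rw [← hST]
        have h1 := abs_sub_abs_le_abs_sub (S (Nat.find hex) ω) (S m ω)
        rw [abs_sub_comm] at h1
        have h2 := not_le.1 hm
        linarith
  calc μ {ω | ∃ k : ℕ, k ≤ m ∧ 3 * x ≤ |S k ω|}
      ≤ μ (B 0 ∪ ⋃ k ∈ Finset.range (m + 1), (A k ∩ B k)) := measure_mono hcover
    _ ≤ μ (B 0) + μ (⋃ k ∈ Finset.range (m + 1), (A k ∩ B k)) := measure_union_le _ _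
    _ ≤ 2 * e + ∑ k ∈ Finset.range (m + 1), μ (A k ∩ B k) :=
        add_le_add (tailT 0) (measure_biUnion_finset_le _ _)
    _ ≤ 2 * e + ∑ k ∈ Finset.range (m + 1), μ (A k) * (2 * e) := by
        gcongr with k _
        rw [hindep]
        gcongr
        exact tailT k
    _ = 2 * e + μ (⋃ k ∈ Finset.range (m + 1), A k) * (2 * e) := by
        rw [← Finset.sum_mul, measure_biUnion_finset hdisj fun k _ => mA k]
    _ ≤ 2 * e + 1 * (2 * e) := by
        gcongr
        exact prob_le_one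
    _ = 4 * e := by ring

end Claimed.Agent.R133
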