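/-
Row 133 / S0266, section 4: the noise of the Jacobi model `jacLaw v n`.
`a_j = ja q j ~ N(0,2v)`, `x_j = jx v q j = s_j - k_j v` (`k_j = n-1-j`), all independent.
Everything that sections 5-7 need about the noise:
  * `subG_jlin`  : linear statistics `∑ (α_j a_j + γ_j x_j)` are `SubG`,
  * `jlin_tail*` : Chernoff bounds for them,
  * `jac_max`    : maximal inequality for partial sums over a block,
  * `jx_sq`      : second moment of `x_j`,
  * `sqrt_add_le`, `sqrt_add_ge` : `b_j = √(β² + x)` versus `β + x/(2β)`.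
-/
import Claimed.Agent.R133.SubGMax
import Claimed.Agent.R133.JacDef

set_option autoImplicit false

namespace Claimed.Agent.R133

open MeasureTheory ProbabilityTheory
open scoped BigOperators NNReal ENNReal

noncomputable section

/-- centred squared off-diagonal entry `x_j = s_j - (n-1-j) v` (`= 0` for `j ≥ n`) -/
def jx {n : ℕ} (v : ℝ) (q : JPar n) (j : ℕ) : ℝ := js q j - ((n - 1 - j : ℕ) : ℝ) * v

/-- linear statistic of the noise -/
def jlin {n : ℕ} (v : ℝ) (α γ : ℕ → ℝ) (q : JPar n) : ℝ :=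
  ∑ j ∈ Finset.range n, (α j * ja q j + γ j * jx v q j)

/-- variance proxy of one site -/
def jvar1 (n : ℕ) (v : ℝ) (α γ : ℕ → ℝ) (j : ℕ) : ℝ :=
  2 * v * α j ^ 2 + 4 * ((n - 1 - j : ℕ) : ℝ) * v ^ 2 * γ j ^ 2

/-- variance proxy of a linear statistic -/
def jvar (n : ℕ) (v : ℝ) (α γ : ℕ → ℝ) : ℝ := ∑ j ∈ Finset.range n, jvar1 n v α γ j

theorem measurable_jx {n : ℕ} (v : ℝ) (j : ℕ) : Measurable (fun q : JPar n => jx v q j) :=
  (measurable_js j).sub_const _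

theorem measurable_jlin {n : ℕ} (v : ℝ) (α γ : ℕ → ℝ) : Measurable (jlin (n := n) v α γ) := by
  unfold jlin
  exact Finset.measurable_sum _ fun j _ =>
    ((measurable_ja j).const_mul _).add ((measurable_jx v j).const_mul _)

theorem subG_chisq (v : ℝ≥0) (k : ℕ) :
    SubG (chisq v k) (fun s => s - (k : ℝ) * v) (4 * (k : ℝ) * (v : ℝ) ^ 2) (1 / (4 * v)) := by
  unfold chisq
  rw [subG_map (by fun_prop) (by fun_prop)]
  have e1 : (fun w : Fin k → ℝ => (∑ i, w i ^ 2) - (k : ℝ) * v)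
      = fun w => ∑ i ∈ Finset.univ, (w i ^ 2 - (v : ℝ)) := by
    funext w
    rw [Finset.sum_sub_distrib, Finset.sum_const, Finset.card_univ, Fintype.card_fin, nsmul_eq_mul]
  have e2 : 4 * (k : ℝ) * (v : ℝ) ^ 2 = ∑ _i ∈ (Finset.univ : Finset (Fin k)), 4 * (v : ℝ) ^ 2 := by
    rw [Finset.sum_const, Finset.card_univ, Fintype.card_fin, nsmul_eq_mul]
    ring
  rw [e1, e2]
  refine SubG.sum (X := fun (i : Fin k) (w : Fin k → ℝ) => w i ^ 2 - (v : ℝ)) Finset.univ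
    (fun i => by fun_prop) ?_ fun i _ => ?_
  · exact iIndepFun_pi (μ := fun _ : Fin k => gaussianReal 0 v)
      (X := fun (_ : Fin k) (x : ℝ) => x ^ 2 - (v : ℝ)) (fun i => by fun_prop)
  · have h := subG_gaussian_sq v
    rw [← (measurePreserving_eval (fun _ : Fin k => gaussianReal 0 v) i).map_eq,
      subG_map (measurable_pi_apply i) (by fun_prop)] at h
    exact h

/-- the sites are independent -/
theorem jac_iIndep (v : ℝ≥0) (n : ℕ) (f : Fin n → ℝ × ℝ → ℝ) (hf : ∀ j, Measurable (f j)) :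
    iIndepFun (fun (j : Fin n) (q : JPar n) => f j (q j)) (jacLaw v n) := by
  unfold jacLaw
  exact iIndepFun_pi (X := f) (fun j => (hf j).aemeasurable)

theorem jsite_eq {n : ℕ} (v : ℝ) (α γ : ℕ → ℝ) (j : ℕ) (hj : j < n) (q : JPar n) :
    α j * ja q j + γ j * jx v q j
      = α j * (q ⟨j, hj⟩).1 + γ j * ((q ⟨j, hj⟩).2 - ((n - 1 - j : ℕ) : ℝ) * v) := by
  simp [ja, js, jx, hj]

/-- one site -/
theorem subG_site (v : ℝ≥0) (n : ℕ) (α γ : ℕ → ℝ) (Λ : ℝ) (j : ℕ) (hj : j < n)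
    (hΛ : |γ j| * Λ ≤ 1 / (4 * v)) :
    SubG (jacLaw v n) (fun q => α j * ja q j + γ j * jx v q j) (jvar1 n v α γ j) Λ := by
  have e1 : (fun q : JPar n => α j * ja q j + γ j * jx v q j)
      = fun q => (fun x : ℝ × ℝ => α j * x.1 + γ j * (x.2 - ((n - 1 - j : ℕ) : ℝ) * v))
          (q ⟨j, hj⟩) := by
    funext q
    exact jsite_eq v α γ j hj q
  rw [e1]
  refine (subG_map (μ := jacLaw v n) (f := fun q : JPar n => q ⟨j, hj⟩) (measurable_pi_apply _)
    (X := fun x : ℝ × ℝ => α j * x.1 + γ j * (x.2 - ((n - 1 - j : ℕ) : ℝ) * v))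
    (by fun_prop) _ _).1 ?_
  have e2 : (jacLaw v n).map (fun q : JPar n => q ⟨j, hj⟩)
      = (gaussianReal 0 (2 * v)).prod (chisq v (n - 1 - j)) := by
    unfold jacLaw
    exact (measurePreserving_eval
      (fun j : Fin n => (gaussianReal 0 (2 * v)).prod (chisq v (n - 1 - j.val))) ⟨j, hj⟩).map_eq
  rw [e2]
  have h1 : SubG ((gaussianReal 0 (2 * v)).prod (chisq v (n - 1 - j))) (fun x => α j * x.1)
      (α j ^ 2 * ((2 * v : ℝ≥0) : ℝ)) Λ := by
    have h := subG_gaussian (2 * v) (|α j| * Λ)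
    rw [← (measurePreserving_fst (μ := gaussianReal 0 (2 * v))
      (ν := chisq v (n - 1 - j))).map_eq, subG_map measurable_fst (by fun_prop)] at h
    exact h.const_mul (α j) Λ le_rfl
  have h2 : SubG ((gaussianReal 0 (2 * v)).prod (chisq v (n - 1 - j)))
      (fun x => γ j * (x.2 - ((n - 1 - j : ℕ) : ℝ) * v))
      (γ j ^ 2 * (4 * ((n - 1 - j : ℕ) : ℝ) * (v : ℝ) ^ 2)) Λ := by
    have h := subG_chisq v (n - 1 - j)
    rw [← (measurePreserving_snd (μ := gaussianReal 0 (2 * v))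
      (ν := chisq v (n - 1 - j))).map_eq, subG_map measurable_snd (by fun_prop)] at h
    exact h.const_mul (γ j) Λ hΛ
  have h3 : IndepFun (fun x : ℝ × ℝ => α j * x.1)
      (fun x : ℝ × ℝ => γ j * (x.2 - ((n - 1 - j : ℕ) : ℝ) * v))
      ((gaussianReal 0 (2 * v)).prod (chisq v (n - 1 - j))) :=
    indepFun_prod (X := fun x : ℝ => α j * x)
      (Y := fun y : ℝ => γ j * (y - ((n - 1 - j : ℕ) : ℝ) * v)) (by fun_prop) (by fun_prop)
  have h4 := h1.add h2 (by fun_prop) (by fun_prop) h3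
  have e3 : jvar1 n v α γ j = α j ^ 2 * ((2 * v : ℝ≥0) : ℝ)
      + γ j ^ 2 * (4 * ((n - 1 - j : ℕ) : ℝ) * (v : ℝ) ^ 2) := by
    unfold jvar1
    push_cast
    ring
  rw [e3]
  exact h4

/-- LINEAR STATISTICS ARE SUB-GAUSSIAN -/
theorem subG_jlin (v : ℝ≥0) (n : ℕ) (α γ : ℕ → ℝ) (Λ : ℝ)
    (hΛ : ∀ j < n, |γ j| * Λ ≤ 1 / (4 * v)) :
    SubG (jacLaw v n) (jlin v α γ) (jvar n v α γ) Λ := by
  have e1 : jlin (n := n) v α γ = fun q => ∑ j ∈ (Finset.univ : Finset (Fin n)),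
      (α j * ja q j + γ j * jx v q j) := by
    funext q
    unfold jlin
    rw [Finset.sum_range]
  have e2 : jvar n v α γ = ∑ j ∈ (Finset.univ : Finset (Fin n)), jvar1 n v α γ j := by
    unfold jvar
    rw [Finset.sum_range]
  rw [e1, e2]
  refine SubG.sum (X := fun (j : Fin n) (q : JPar n) => α j * ja q j + γ j * jx v q j)
    (s := fun j : Fin n => jvar1 n v α γ j) Finset.univ
    (fun j => ((measurable_ja _).const_mul _).add ((measurable_jx v _).const_mul _)) ?_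
    fun j _ => subG_site v n α γ Λ j j.2 (hΛ j j.2)
  have h := jac_iIndep v n
    (fun (j : Fin n) (x : ℝ × ℝ) => α j * x.1 + γ j * (x.2 - ((n - 1 - (j : ℕ) : ℕ) : ℝ) * v))
    (fun j => by fun_prop)
  have e3 : (fun (j : Fin n) (q : JPar n) => α j * ja q j + γ j * jx v q j)
      = fun (j : Fin n) (q : JPar n) =>
        α j * (q j).1 + γ j * ((q j).2 - ((n - 1 - (j : ℕ) : ℕ) : ℝ) * v) := by
    funext j q
    exact jsite_eq v α γ j j.2 q
  rw [e3]
  exact h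

/-- Chernoff, upper tail; `s` is any upper bound of the variance proxy -/
theorem jlin_tail (v : ℝ≥0) (n : ℕ) (α γ : ℕ → ℝ) (Λ s x : ℝ)
    (hΛ : ∀ j < n, |γ j| * Λ ≤ 1 / (4 * v)) (hs : jvar n v α γ ≤ s) (hs0 : 0 < s)
    (hx : 0 ≤ x) (hxΛ : x ≤ s * Λ) :
    jacLaw v n {q | x ≤ jlin v α γ q} ≤ eexp (-(x ^ 2 / (2 * s))) :=
  ((subG_jlin v n α γ Λ hΛ).mono hs le_rfl).tail (measurable_jlin _ _ _) hs0 hx hxΛ

/-- Chernoff, lower tail -/
theorem jlin_tail_neg (v : ℝ≥0) (n : ℕ) (α γ : ℕ → ℝ) (Λ s x : ℝ)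
    (hΛ : ∀ j < n, |γ j| * Λ ≤ 1 / (4 * v)) (hs : jvar n v α γ ≤ s) (hs0 : 0 < s)
    (hx : 0 ≤ x) (hxΛ : x ≤ s * Λ) :
    jacLaw v n {q | jlin v α γ q ≤ -x} ≤ eexp (-(x ^ 2 / (2 * s))) :=
  ((subG_jlin v n α γ Λ hΛ).mono hs le_rfl).tail_neg (measurable_jlin _ _ _) hs0 hx hxΛ

/-- MAXIMAL INEQUALITY over the block `[j0, j0+m)` -/
theorem jac_max (v : ℝ≥0) (n : ℕ) (α γ : ℕ → ℝ) (Λ s x : ℝ) (j0 m : ℕ) (hjm : j0 + m ≤ n)
    (hΛ : ∀ j < n, |γ j| * Λ ≤ 1 / (4 * v))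
    (hs : ∑ t ∈ Finset.range m, jvar1 n v α γ (j0 + t) ≤ s) (hs0 : 0 < s)
    (hx : 0 ≤ x) (hxΛ : x ≤ s * Λ) :
    jacLaw v n {q | ∃ k : ℕ, k ≤ m ∧
        3 * x ≤ |∑ t ∈ Finset.range k, (α (j0 + t) * ja q (j0 + t) + γ (j0 + t) * jx v q (j0 + t))|}
      ≤ 4 * eexp (-(x ^ 2 / (2 * s))) := by
  set Y : ℕ → JPar n → ℝ := fun t q =>
    α (j0 + t) * ja q (j0 + t) + γ (j0 + t) * jx v q (j0 + t) with hY
  have mY : ∀ t, Measurable (Y t) := fun t =>
    ((measurable_ja (j0 + t)).const_mul _).add ((measurable_jx v (j0 + t)).const_mul _)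
  set f : Fin n → ℝ × ℝ → ℝ := fun j p =>
    α j.val * p.1 + γ j.val * (p.2 - ((n - 1 - j.val : ℕ) : ℝ) * v) with hf
  have mf : ∀ j, Measurable (f j) := fun j =>
    (measurable_fst.const_mul _).add ((measurable_snd.sub_const _).const_mul _)
  have hlt : ∀ t : Fin m, j0 + t.val < n := fun t => by have := t.2; omega
  set g : Fin m → Fin n := fun t => ⟨j0 + t.val, hlt t⟩ with hg
  have hginj : Function.Injective g := by
    intro a b hab
    have : j0 + a.val = j0 + b.val := congrArg Fin.val hab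
    exact Fin.ext (by omega)
  have hXf : (fun (t : Fin m) (q : JPar n) => Y t.val q)
      = fun (t : Fin m) (q : JPar n) => f (g t) (q (g t)) := by
    funext t q
    simp only [hY, hf, hg, ja, js, jx, dif_pos (hlt t)]
  have hind : iIndepFun (fun (t : Fin m) (q : JPar n) => Y t.val q) (jacLaw v n) := by
    rw [hXf]
    exact (jac_iIndep v n f mf).precomp hginj
  have hsub : ∀ t : Fin m, SubG (jacLaw v n) (fun q => Y t.val q)
      (jvar1 n v α γ (j0 + t.val)) Λ := fun t =>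
    subG_site v n α γ Λ (j0 + t.val) (hlt t) (hΛ _ (hlt t))
  have hσ : ∀ t : Fin m, 0 ≤ jvar1 n v α γ (j0 + t.val) := by
    intro t
    unfold jvar1
    have : (0 : ℝ) ≤ v := v.2
    positivity
  have hsum : ∑ t : Fin m, jvar1 n v α γ (j0 + t.val) ≤ s := by
    rw [Fin.sum_univ_eq_sum_range (fun t => jvar1 n v α γ (j0 + t)) m]
    exact hs
  have key := subG_max (μ := jacLaw v n) (X := fun (t : Fin m) (q : JPar n) => Y t.val q)
    (fun t => mY t.val) hind hsub hσ hsum hs0 hx hxΛ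
  refine le_trans (measure_mono ?_) key
  rintro q ⟨k, hk, hq⟩
  refine ⟨k, hk, ?_⟩
  have e : ∑ i : Fin m, (if i.val < k then Y i.val q else 0) = ∑ t ∈ Finset.range k, Y t q := by
    rw [Fin.sum_univ_eq_sum_range (fun t => if t < k then Y t q else 0) m, ← Finset.sum_filter]
    congr 1
    ext t
    simp only [Finset.mem_filter, Finset.mem_range]
    omega
  rw [e]
  exact hq

/-- second moment of `x_j` -/
theorem jx_sq (v : ℝ≥0) (hv : v ≠ 0) (n j : ℕ) :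
    ∫⁻ q, ENNReal.ofReal (jx v q j ^ 2) ∂(jacLaw v n)
      ≤ ENNReal.ofReal (8 * ((n - 1 - j : ℕ) : ℝ) * (v : ℝ) ^ 2) := by
  by_cases hj : j < n
  · have hv0 : (0 : ℝ) < v := lt_of_le_of_ne v.2 (fun h => hv (NNReal.coe_eq_zero.1 h.symm))
    have h := subG_site v n (fun _ => 0) (fun _ => 1) (1 / (4 * v)) j hj (by simp)
    have hX : (fun q : JPar n => (0 : ℝ) * ja q j + 1 * jx v q j) = fun q => jx v q j := by
      funext q; ring
    rw [hX] at h
    have hs : jvar1 n v (fun _ => 0) (fun _ => 1) j = 4 * ((n - 1 - j : ℕ) : ℝ) * (v : ℝ) ^ 2 := by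
      unfold jvar1; ring
    rw [hs] at h
    have h2 := h.sq_le (measurable_jx v j) (by positivity) (by positivity)
    refine h2.trans (le_of_eq ?_)
    congr 1
    ring
  · have h0 : ∀ q : JPar n, jx v q j = 0 := by
      intro q
      have hk : n - 1 - j = 0 := by omega
      simp [jx, js, hj, hk]
    simp [h0]

/-- concavity of the square root -/
theorem sqrt_add_le (β x : ℝ) (hβ : 0 < β) (h : 0 ≤ β ^ 2 + x) :
    Real.sqrt (β ^ 2 + x) ≤ β + x / (2 * β) := by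
  have e : β + x / (2 * β) = (2 * β ^ 2 + x) / (2 * β) := by field_simp
  rw [Real.sqrt_le_iff]
  constructor
  · rw [e]
    have : 0 ≤ 2 * β ^ 2 + x := by nlinarith [sq_nonneg β]
    positivity
  · have e2 : (β + x / (2 * β)) ^ 2 = β ^ 2 + x + (x / (2 * β)) ^ 2 := by field_simp; ring
    rw [e2]
    nlinarith [sq_nonneg (x / (2 * β))]

/-- second order lower bound: with `s = √(β²+x)/β`, `s - 1 - (s²-1)/2 + (s²-1)²/2
= (s-1)² s (s+2)/2 ≥ 0` -/
theorem sqrt_add_ge (β x : ℝ) (hβ : 0 < β) (h : 0 ≤ β ^ 2 + x) :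
    β + x / (2 * β) - x ^ 2 / (2 * β ^ 3) ≤ Real.sqrt (β ^ 2 + x) := by
  have hr0 : 0 ≤ Real.sqrt (β ^ 2 + x) := Real.sqrt_nonneg _
  have hr2 : Real.sqrt (β ^ 2 + x) ^ 2 = β ^ 2 + x := Real.sq_sqrt h
  generalize Real.sqrt (β ^ 2 + x) = r at hr0 hr2
  have hx : x = r ^ 2 - β ^ 2 := by linarith
  subst hx
  have e : r - (β + (r ^ 2 - β ^ 2) / (2 * β) - (r ^ 2 - β ^ 2) ^ 2 / (2 * β ^ 3))
      = (r - β) ^ 2 * r * (r + 2 * β) / (2 * β ^ 3) := by
    field_simp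
    ring
  rw [← sub_nonneg, e]
  positivity

end

end Claimed.Agent.R133
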