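/-
Row 133 / S0266, section 7 (scalar version), part E: master inequality for `log det (z - T)` on the
Jacobi model, and the probabilistic estimates.  Result: `jac_G4_main` (= `RmtJac.jac_G4`).
-/
import Claimed.Agent.R133.LDetA
import Claimed.Agent.R133.LDetB
import Claimed.Agent.R133.LDetD
import Claimed.Agent.R133.NoiseJ

set_option autoImplicit false

namespace Claimed.Agent.R133

open MeasureTheory ProbabilityTheory Filter
open scoped BigOperators NNReal ENNReal Matrix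

noncomputable section

/-- variance `1/n` -/
def vn (n : ℕ) : ℝ≥0 := (n : ℝ≥0)⁻¹

theorem vn_coe (n : ℕ) : ((vn n : ℝ≥0) : ℝ) = 1 / (n : ℝ) := by
  simp [vn]

/-- weights of the linear statistic: diagonal noise -/
def ldα (n : ℕ) (z : ℝ) : ℕ → ℝ := fun j => - gq n z j

/-- weights of the linear statistic: off-diagonal noise -/
def ldγ (n : ℕ) (z : ℝ) : ℕ → ℝ := fun j => if j + 1 < n then - (gq n z j / rq n z (j + 1)) else 0

/-- quadratic remainder -/
def ldQ (n : ℕ) (z : ℝ) (q : JPar n) : ℝ :=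
  ∑ j ∈ Finset.range (n - 1), gq n z j / (rq n z (j + 1) * bq n j ^ 2) * jx (vn n) q j ^ 2

/-- MASTER INEQUALITY (deterministic).  `ld_scalar` with `Δ = Dt`, `ρ = rq`, `τ = tq`, `g = gq`;
`gq_mean`; `b_j = √(β_j² + x_j) ≥ β_j + x_j/(2β_j) - x_j²/(2β_j³)` (`sqrt_add_ge`), `τ_j/β_j = 1/ρ_{j+1}`. -/
theorem ld_master (n : ℕ) (hn : 0 < n) (z : ℝ) (hz : 2 ≤ z) (q : JPar n) (hs : ∀ j, 0 ≤ js q j)
    (hB : Below (jacMat q) z) :
    Real.log ((z • (1 : Mat n) - jacMat q).det)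
      ≤ ∑ j ∈ Finset.range n, Real.log (rq n z j)
        + ∑ j ∈ Finset.range n, gq n z j * (rq n z (j + 1) - rq n z j)
        + jlin (vn n) (ldα n z) (ldγ n z) q + ldQ n z q := by
  have hρ : ∀ j, 0 < rq n z j := fun j => lt_of_lt_of_le one_pos (rq_ge_one hn hz j)
  have hg : ∀ j, 0 < gq n z j := fun j => gq_pos hn hz j
  have hB' : Below (jacM n (ja q) (jb q)) z := hB
  have h1 := ld_scalar n hn z (ja q) (jb q) (rq n z) (tq n z) (gq n z) (Dt z n (ja q) (jb q))
    (fun j hj => Dt_pos hB' j hj) (Dt_self _ _ _ _) (Dt_last _ _ hn _ _)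
    (fun j hj => Dt_rec _ _ _ _ j hj) (fun j _ => hρ j) rfl (fun j => rfl)
  rw [Dt_zero] at h1
  have hmean := gq_mean (n := n) (z := z) hn hz
  -- the second order lower bound for `b_j`
  have hterm : ∀ j ∈ Finset.range (n - 1),
      gq n z j * tq n z j * bq n j + (gq n z j / rq n z (j + 1) * jx (vn n) q j
        - gq n z j / (rq n z (j + 1) * bq n j ^ 2) * jx (vn n) q j ^ 2) / 2
        ≤ gq n z j * tq n z j * jb q j := by
    intro j hj
    have hj1 : j + 1 < n := by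
      have := Finset.mem_range.1 hj
      omega
    have hβ : 0 < bq n j := bq_pos j hj1
    have hx : js q j = bq n j ^ 2 + jx (vn n) q j := by
      unfold jx
      rw [bq_sq, vn_coe]
      ring
    have h2 := sqrt_add_ge (bq n j) (jx (vn n) q j) hβ (by rw [← hx]; exact hs j)
    rw [← hx] at h2
    have h3 : 0 ≤ gq n z j * tq n z j := by
      unfold tq
      exact mul_nonneg (hg j).le (div_nonneg hβ.le (hρ _).le)
    have h4 := mul_le_mul_of_nonneg_left h2 h3
    refine le_trans (le_of_eq ?_) h4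
    unfold tq
    have := (hρ (j + 1)).ne'
    field_simp
    ring
  have hsum := Finset.sum_le_sum hterm
  rw [Finset.sum_add_distrib, ← Finset.sum_div, Finset.sum_sub_distrib] at hsum
  -- the linear statistic
  have hjlin : jlin (vn n) (ldα n z) (ldγ n z) q
      = - ∑ j ∈ Finset.range n, gq n z j * ja q j
        - ∑ j ∈ Finset.range (n - 1), gq n z j / rq n z (j + 1) * jx (vn n) q j := by
    unfold jlin
    rw [Finset.sum_add_distrib]
    have e1 : ∑ j ∈ Finset.range n, ldα n z j * ja q j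
        = - ∑ j ∈ Finset.range n, gq n z j * ja q j := by
      rw [← Finset.sum_neg_distrib]
      exact Finset.sum_congr rfl fun j _ => by unfold ldα; ring
    have e2 : ∑ j ∈ Finset.range n, ldγ n z j * jx (vn n) q j
        = - ∑ j ∈ Finset.range (n - 1), gq n z j / rq n z (j + 1) * jx (vn n) q j := by
      obtain ⟨m, rfl⟩ : ∃ m, n = m + 1 := ⟨n - 1, by omega⟩
      rw [Finset.sum_range_succ, Nat.add_sub_cancel, ← Finset.sum_neg_distrib]
      have e3 : ldγ (m + 1) z m = 0 := by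
        unfold ldγ
        rw [if_neg (lt_irrefl _)]
      rw [e3, zero_mul, add_zero]
      refine Finset.sum_congr rfl fun j hj => ?_
      have hj1 : j + 1 < m + 1 := by
        have := Finset.mem_range.1 hj
        omega
      unfold ldγ
      rw [if_pos hj1]
      ring
    rw [e1, e2]
    ring
  have hS1 : ∑ j ∈ Finset.range n, (Real.log (rq n z j) - 1)
      = ∑ j ∈ Finset.range n, Real.log (rq n z j) - n := by
    rw [Finset.sum_sub_distrib]
    simp
  have hS2 : ∑ j ∈ Finset.range n, gq n z j * (z - ja q j)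
      = ∑ j ∈ Finset.range n, gq n z j * z - ∑ j ∈ Finset.range n, gq n z j * ja q j := by
    rw [← Finset.sum_sub_distrib]
    exact Finset.sum_congr rfl fun j _ => by ring
  rw [hS1, hS2] at h1
  rw [hjlin]
  unfold ldQ
  have hdet : (z • (1 : Mat n) - jacMat q).det = (z • (1 : Mat n) - jacM n (ja q) (jb q)).det := rfl
  rw [hdet]
  linarith

/-- variance proxy of the linear statistic -/
theorem ld_jvar_le (n : ℕ) (hn : 0 < n) (z : ℝ) (hz : 2 < z) (hz' : z ≤ 5 / 2)
    (hd : 12 / (n : ℝ) ≤ (z ^ 2 - 4) * Real.sqrt (z ^ 2 - 4)) (h4 : 4 / (n : ℝ) ≤ z ^ 2 - 4) :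
    jvar n (vn n) (ldα n z) (ldγ n z) ≤ 6 * (1 + Real.log n) := by
  have hn' : (0 : ℝ) < n := by exact_mod_cast hn
  have hz2 : (2 : ℝ) ≤ z := hz.le
  have h1 : ∀ j ∈ Finset.range n, jvar1 n (vn n) (ldα n z) (ldγ n z) j ≤ 6 / n * gq n z j ^ 2 := by
    intro j _
    unfold jvar1
    rw [vn_coe]
    have hk : ((n - 1 - j : ℕ) : ℝ) ≤ n := by
      exact_mod_cast (Nat.sub_le _ _).trans (Nat.sub_le _ _)
    have hk0 : (0 : ℝ) ≤ ((n - 1 - j : ℕ) : ℝ) := Nat.cast_nonneg _
    have hg : ldγ n z j ^ 2 ≤ gq n z j ^ 2 := by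
      unfold ldγ
      split_ifs with hj
      · have hr := rq_ge_one (n := n) (z := z) hn hz2 (j + 1)
        have hg0 := (gq_pos (n := n) (z := z) hn hz2 j).le
        rw [neg_sq]
        apply pow_le_pow_left₀ (by positivity)
        exact div_le_self hg0 hr
      · rw [zero_pow two_ne_zero]; positivity
    have hα : ldα n z j ^ 2 = gq n z j ^ 2 := by unfold ldα; ring
    rw [hα]
    have h2 : 4 * ((n - 1 - j : ℕ) : ℝ) * (1 / (n : ℝ)) ^ 2 * ldγ n z j ^ 2
        ≤ 4 * (n : ℝ) * (1 / (n : ℝ)) ^ 2 * gq n z j ^ 2 := by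
      apply mul_le_mul _ hg (sq_nonneg _) (by positivity)
      apply mul_le_mul_of_nonneg_right _ (by positivity)
      linarith
    have e : 6 / (n : ℝ) * gq n z j ^ 2
        = 2 * (1 / (n : ℝ)) * gq n z j ^ 2 + 4 * (n : ℝ) * (1 / (n : ℝ)) ^ 2 * gq n z j ^ 2 := by
      field_simp
      ring
    rw [e]
    linarith
  unfold jvar
  calc ∑ j ∈ Finset.range n, jvar1 n (vn n) (ldα n z) (ldγ n z) j
      ≤ ∑ j ∈ Finset.range n, 6 / n * gq n z j ^ 2 := Finset.sum_le_sum h1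
    _ = 6 / n * ∑ j ∈ Finset.range n, gq n z j ^ 2 := by rw [Finset.mul_sum]
    _ ≤ 6 / n * (n * (1 + Real.log n)) :=
        mul_le_mul_of_nonneg_left (sum_gq_sq_le hn hz hz' hd h4) (by positivity)
    _ = 6 * (1 + Real.log n) := by field_simp

/-- Chernoff for the linear statistic; window `Λ = n √(z²-4) / 8` -/
theorem ld_lin_tail (n : ℕ) (hn : 0 < n) (z : ℝ) (hz : 2 < z) (hz' : z ≤ 5 / 2)
    (hd : 12 / (n : ℝ) ≤ (z ^ 2 - 4) * Real.sqrt (z ^ 2 - 4)) (h4 : 4 / (n : ℝ) ≤ z ^ 2 - 4)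
    (x : ℝ) (hx : 0 ≤ x) (hxΛ : x ≤ 6 * (1 + Real.log n) * (n * Real.sqrt (z ^ 2 - 4) / 8)) :
    jacLaw (vn n) n {q | x ≤ jlin (vn n) (ldα n z) (ldγ n z) q}
      ≤ eexp (-(x ^ 2 / (12 * (1 + Real.log n)))) := by
  have hn' : (0 : ℝ) < n := by exact_mod_cast hn
  have hz2 : (2 : ℝ) ≤ z := hz.le
  have hlog : 0 ≤ Real.log n := Real.log_natCast_nonneg n
  have hw : 0 < z ^ 2 - 4 := by nlinarith
  have hsw : 0 < Real.sqrt (z ^ 2 - 4) := Real.sqrt_pos.2 hw
  have hΛ : ∀ j < n, |ldγ n z j| * (n * Real.sqrt (z ^ 2 - 4) / 8) ≤ 1 / (4 * (vn n : ℝ)) := by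
    intro j hj
    rw [vn_coe]
    have hg0 := (gq_pos (n := n) (z := z) hn hz2 j).le
    have h1 : |ldγ n z j| ≤ gq n z j := by
      unfold ldγ
      split_ifs with hj'
      · have hr := rq_ge_one (n := n) (z := z) hn hz2 (j + 1)
        rw [abs_neg, abs_of_nonneg (by positivity)]
        exact div_le_self hg0 hr
      · rw [abs_zero]; exact hg0
    have h2 : gq n z j ≤ 2 / Real.sqrt (Dq n z j) := gq_le hn hz hz' hd j hj.le
    have h3 : Real.sqrt (z ^ 2 - 4) ≤ Real.sqrt (Dq n z j) := by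
      apply Real.sqrt_le_sqrt
      rw [Dq_lower hn]
      have : 0 ≤ 4 * (j : ℝ) / n := by positivity
      linarith
    have h4' : 2 / Real.sqrt (Dq n z j) ≤ 2 / Real.sqrt (z ^ 2 - 4) :=
      div_le_div_of_nonneg_left (by norm_num) hsw h3
    calc |ldγ n z j| * (n * Real.sqrt (z ^ 2 - 4) / 8)
        ≤ 2 / Real.sqrt (z ^ 2 - 4) * (n * Real.sqrt (z ^ 2 - 4) / 8) :=
          mul_le_mul_of_nonneg_right (h1.trans (h2.trans h4')) (by positivity)
      _ = 1 / (4 * (1 / (n : ℝ))) := by field_simp; norm_num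
  have h := jlin_tail (vn n) n (ldα n z) (ldγ n z) (n * Real.sqrt (z ^ 2 - 4) / 8)
    (6 * (1 + Real.log n)) x hΛ (ld_jvar_le n hn z hz hz' hd h4) (by positivity) hx hxΛ
  refine h.trans (le_of_eq ?_)
  congr 2
  ring

theorem measurable_ldQ (n : ℕ) (z : ℝ) : Measurable (ldQ n z) := by
  unfold ldQ
  exact Finset.measurable_sum _ fun j _ => ((measurable_jx _ j).pow_const 2).const_mul _

/-- first moment of the quadratic remainder -/
theorem ld_quad_mean (n : ℕ) (hn : 0 < n) (z : ℝ) (hz : 2 < z) (hz' : z ≤ 5 / 2)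
    (hd : 12 / (n : ℝ) ≤ (z ^ 2 - 4) * Real.sqrt (z ^ 2 - 4)) (h4 : 4 / (n : ℝ) ≤ z ^ 2 - 4) :
    ∫⁻ q, ENNReal.ofReal (ldQ n z q) ∂(jacLaw (vn n) n) ≤ ENNReal.ofReal 16 := by
  have hn' : (0 : ℝ) < n := by exact_mod_cast hn
  have hz2 : (2 : ℝ) ≤ z := hz.le
  have hv : vn n ≠ 0 := by
    unfold vn
    exact inv_ne_zero (by exact_mod_cast hn.ne')
  have hc : ∀ j, 0 ≤ gq n z j / (rq n z (j + 1) * bq n j ^ 2) := by
    intro j
    have hr := rq_ge_one (n := n) (z := z) hn hz2 (j + 1)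
    have hg0 := (gq_pos (n := n) (z := z) hn hz2 j).le
    have : 0 ≤ rq n z (j + 1) := by linarith
    positivity
  have e1 : ∀ q : JPar n, ENNReal.ofReal (ldQ n z q)
      = ∑ j ∈ Finset.range (n - 1), ENNReal.ofReal (gq n z j / (rq n z (j + 1) * bq n j ^ 2))
          * ENNReal.ofReal (jx (vn n) q j ^ 2) := by
    intro q
    unfold ldQ
    rw [ENNReal.ofReal_sum_of_nonneg fun j _ => mul_nonneg (hc j) (sq_nonneg _)]
    exact Finset.sum_congr rfl fun j _ => ENNReal.ofReal_mul (hc j)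
  simp only [e1]
  rw [lintegral_finsetSum _ fun j _ =>
    (((measurable_jx _ j).pow_const 2).ennreal_ofReal).const_mul _]
  have h1 : ∀ j ∈ Finset.range (n - 1),
      ∫⁻ q, ENNReal.ofReal (gq n z j / (rq n z (j + 1) * bq n j ^ 2))
          * ENNReal.ofReal (jx (vn n) q j ^ 2) ∂(jacLaw (vn n) n)
        ≤ ENNReal.ofReal (8 / n * gq n z j) := by
    intro j hj
    have hj' : j + 1 < n := by
      have := Finset.mem_range.1 hj
      omega
    rw [lintegral_const_mul _ ((measurable_jx _ j).pow_const 2).ennreal_ofReal]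
    refine (mul_le_mul_right (jx_sq (vn n) hv n j) _).trans ?_
    rw [← ENNReal.ofReal_mul (hc j)]
    apply ENNReal.ofReal_le_ofReal
    rw [vn_coe]
    have hr := rq_ge_one (n := n) (z := z) hn hz2 (j + 1)
    have hr0 : 0 < rq n z (j + 1) := by linarith
    have hg0 := (gq_pos (n := n) (z := z) hn hz2 j).le
    have hb := bq_pos (n := n) j hj'
    have hb2 : ((n - 1 - j : ℕ) : ℝ) = bq n j ^ 2 * n := by
      rw [bq_sq]; field_simp
    rw [hb2]
    have e : gq n z j / (rq n z (j + 1) * bq n j ^ 2) * (8 * (bq n j ^ 2 * n) * (1 / (n : ℝ)) ^ 2)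
        = 8 / n * (gq n z j / rq n z (j + 1)) := by
      field_simp
    rw [e]
    apply mul_le_mul_of_nonneg_left (div_le_self hg0 hr) (by positivity)
  refine (Finset.sum_le_sum h1).trans ?_
  rw [← ENNReal.ofReal_sum_of_nonneg fun j _ =>
    mul_nonneg (by positivity) (gq_pos (n := n) (z := z) hn hz2 j).le]
  apply ENNReal.ofReal_le_ofReal
  rw [← Finset.mul_sum]
  have h2 : ∑ j ∈ Finset.range (n - 1), gq n z j ≤ ∑ j ∈ Finset.range n, gq n z j :=
    Finset.sum_le_sum_of_subset_of_nonneg (Finset.range_mono (Nat.sub_le _ _))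
      fun j _ _ => (gq_pos (n := n) (z := z) hn hz2 j).le
  calc 8 / (n : ℝ) * ∑ j ∈ Finset.range (n - 1), gq n z j
      ≤ 8 / (n : ℝ) * (2 * n) :=
        mul_le_mul_of_nonneg_left (h2.trans (sum_gq_le hn hz hz' hd h4)) (by positivity)
    _ = 16 := by field_simp; norm_num

/-- Markov for the quadratic remainder -/
theorem ld_quad_tail (n : ℕ) (hn : 0 < n) (z : ℝ) (hz : 2 < z) (hz' : z ≤ 5 / 2)
    (hd : 12 / (n : ℝ) ≤ (z ^ 2 - 4) * Real.sqrt (z ^ 2 - 4)) (h4 : 4 / (n : ℝ) ≤ z ^ 2 - 4)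
    (x : ℝ) (hx : 0 < x) :
    jacLaw (vn n) n {q | x ≤ ldQ n z q} ≤ ENNReal.ofReal (16 / x) := by
  have h1 := mul_meas_ge_le_lintegral (μ := jacLaw (vn n) n)
    (measurable_ldQ n z).ennreal_ofReal (ENNReal.ofReal x)
  have h2 := h1.trans (ld_quad_mean n hn z hz hz' hd h4)
  have hsub : {q : JPar n | x ≤ ldQ n z q}
      ⊆ {q | ENNReal.ofReal x ≤ ENNReal.ofReal (ldQ n z q)} :=
    fun q hq => ENNReal.ofReal_le_ofReal hq
  refine (measure_mono hsub).trans ?_
  rw [ENNReal.ofReal_div_of_pos hx]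
  rw [ENNReal.le_div_iff_mul_le (Or.inl (by simpa using hx)) (Or.inl ENNReal.ofReal_ne_top),
    mul_comm]
  exact h2

/-- `log n ≤ c n^a` eventually -/
theorem log_le_npow_ev {a c : ℝ} (ha : 0 < a) (hc : 0 < c) : ∀ᶠ n : ℕ in atTop,
    Real.log n ≤ c * npow n a := by
  have h := (isLittleO_log_rpow_atTop ha).bound hc
  have h2 := tendsto_natCast_atTop_atTop (R := ℝ) |>.eventually h
  filter_upwards [h2, eventually_gt_atTop 0] with n hn hn0
  have h3 : 0 ≤ (n : ℝ) ^ a := Real.rpow_nonneg (by positivity) a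
  rw [Real.norm_of_nonneg h3] at hn
  exact (le_abs_self _).trans hn

/-- numerical facts about `z = gam K n`, `K ≥ 2`, `n` large -/
theorem gam_facts (K : ℝ) (hK : 2 ≤ K) : ∀ᶠ n : ℕ in atTop,
    2 < gam K n ∧ gam K n ≤ 5 / 2 ∧
    12 / (n : ℝ) ≤ (gam K n ^ 2 - 4) * Real.sqrt (gam K n ^ 2 - 4) ∧
    4 / (n : ℝ) ≤ gam K n ^ 2 - 4 ∧
    (n : ℝ) * (gam K n - 2) = K * npow n (1 / 3) ∧
    (1 + Real.log n) / 2 ≤ npow n (1 / 10) / 3 ∧
    npow n (1 / 10) / 3 ≤ 6 * (1 + Real.log n) * (n * Real.sqrt (gam K n ^ 2 - 4) / 8) := by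
  have e1 : ∀ᶠ n : ℕ in atTop, K * npow n (-(2 / 3)) ≤ 1 / 2 := by
    have h0 := (tendsto_npow_neg (a := -(2 / 3)) (by norm_num)).const_mul K
    rw [mul_zero] at h0
    exact h0.eventually_le_const (by norm_num)
  have e2 : ∀ᶠ n : ℕ in atTop, Real.log n ≤ (1 / 3) * npow n (1 / 10) :=
    log_le_npow_ev (by norm_num) (by norm_num)
  have e3 : ∀ᶠ n : ℕ in atTop, (3 : ℝ) ≤ npow n (1 / 10) :=
    (tendsto_npow_pos (a := 1 / 10) (by norm_num)).eventually_ge_atTop 3
  filter_upwards [e1, e2, e3, eventually_gt_atTop 0] with n h1 h2 h3 hn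
  have hnR : (0 : ℝ) < n := by exact_mod_cast hn
  have hn1 : (1 : ℝ) ≤ n := by exact_mod_cast hn
  set t := npow n (-(2 / 3)) with ht
  set s := npow n (-(1 / 3)) with hs
  have htpos : 0 < t := npow_pos hn _
  have hspos : 0 < s := npow_pos hn _
  have hss : s * s = t := by
    rw [hs, ht, ← npow_add hn]; norm_num
  have hst : (n : ℝ) * (s * t) = 1 := by
    have : npow n 1 * (npow n (-(1 / 3)) * npow n (-(2 / 3))) = npow n 0 := by
      rw [← npow_add hn, ← npow_add hn]; norm_num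
    rw [npow_one] at this
    rw [hs, ht, this]; simp [npow]
  have hnt : (n : ℝ) * t = npow n (1 / 3) := by
    have : npow n 1 * npow n (-(2 / 3)) = npow n (1 / 3) := by
      rw [← npow_add hn]; norm_num
    rw [npow_one] at this
    exact this
  have hns : (n : ℝ) * s = npow n (2 / 3) := by
    have : npow n 1 * npow n (-(1 / 3)) = npow n (2 / 3) := by
      rw [← npow_add hn]; norm_num
    rw [npow_one] at this
    exact this
  have hgam : gam K n = 2 + K * t := rfl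
  have hz4 : gam K n ^ 2 - 4 = K * t * (4 + K * t) := by rw [hgam]; ring
  have hKt : 0 < K * t := by positivity
  have hz8 : 8 * t ≤ gam K n ^ 2 - 4 := by
    rw [hz4]; nlinarith
  have hsq : 2 * s ≤ Real.sqrt (gam K n ^ 2 - 4) := by
    apply Real.le_sqrt_of_sq_le
    nlinarith
  have hinv : 1 / (n : ℝ) = s * t := by
    field_simp
    linarith
  have hs1 : s ≤ 1 := by
    have h0 : npow n (-(1 / 3)) ≤ npow n 0 := npow_le_npow hn (by norm_num)
    have h00 : npow n 0 = 1 := Real.rpow_zero _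
    rw [h00] at h0
    exact h0
  have hlog : 0 ≤ Real.log n := Real.log_nonneg hn1
  refine ⟨by rw [hgam]; linarith, by rw [hgam]; linarith, ?_, ?_, ?_, ?_, ?_⟩
  · have : 12 / (n : ℝ) = 12 * (s * t) := by rw [← hinv]; ring
    rw [this]
    have h16 : (8 * t) * (2 * s) ≤ (gam K n ^ 2 - 4) * Real.sqrt (gam K n ^ 2 - 4) :=
      mul_le_mul hz8 hsq (by positivity) (by linarith [mul_pos (by norm_num : (0:ℝ) < 8) htpos])
    nlinarith [mul_pos hspos htpos]
  · have : 4 / (n : ℝ) = 4 * (s * t) := by rw [← hinv]; ring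
    rw [this]
    nlinarith [mul_pos hspos htpos]
  · rw [hgam, ← hnt]; ring
  · linarith
  · have h23 : npow n (1 / 10) ≤ npow n (2 / 3) := npow_le_npow hn (by norm_num)
    have hA : (n : ℝ) * (2 * s) ≤ n * Real.sqrt (gam K n ^ 2 - 4) :=
      mul_le_mul_of_nonneg_left hsq hnR.le
    have hB : 0 ≤ (n : ℝ) * Real.sqrt (gam K n ^ 2 - 4) / 8 := by positivity
    have hC : 6 * (n * Real.sqrt (gam K n ^ 2 - 4) / 8)
        ≤ 6 * (1 + Real.log n) * (n * Real.sqrt (gam K n ^ 2 - 4) / 8) := by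
      nlinarith
    have hpos : 0 < npow n (2 / 3) := npow_pos hn _
    nlinarith

/-- the two error probabilities tend to zero -/
theorem ld_err_small (η : ℝ) (hη : 0 < η) : ∀ᶠ n : ℕ in atTop,
    eexp (-((npow n (1 / 10) / 3) ^ 2 / (12 * (1 + Real.log n))))
      + ENNReal.ofReal (16 / (npow n (1 / 10) / 3)) ≤ ENNReal.ofReal η := by
  -- choose `M` with `exp (-M) ≤ η/2`
  obtain ⟨M, hM0, hM⟩ : ∃ M : ℝ, 0 < M ∧ Real.exp (-M) ≤ η / 2 := by
    have h := Real.tendsto_exp_neg_atTop_nhds_zero.eventually_le_const (by positivity : 0 < η / 2)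
    obtain ⟨M, hM⟩ := (h.and (eventually_gt_atTop 0)).exists
    exact ⟨M, hM.2, hM.1⟩
  have e1 : ∀ᶠ n : ℕ in atTop, Real.log n ≤ 1 * npow n (1 / 10) :=
    log_le_npow_ev (by norm_num) (by norm_num)
  have e2 : ∀ᶠ n : ℕ in atTop, max (max 1 (216 * M)) (96 / η) ≤ npow n (1 / 10) :=
    (tendsto_npow_pos (a := 1 / 10) (by norm_num)).eventually_ge_atTop _
  filter_upwards [e1, e2, eventually_gt_atTop 0] with n h1 h2 hn
  have hn1 : (1 : ℝ) ≤ n := by exact_mod_cast hn
  have hlog : 0 ≤ Real.log n := Real.log_nonneg hn1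
  set w := npow n (1 / 10) with hw
  have hw1 : 1 ≤ w := (le_max_left _ _).trans ((le_max_left _ _).trans h2)
  have hwM : 216 * M ≤ w := (le_max_right _ _).trans ((le_max_left _ _).trans h2)
  have hwη : 96 / η ≤ w := (le_max_right _ _).trans h2
  have hwpos : 0 < w := by linarith
  have hA : M ≤ (w / 3) ^ 2 / (12 * (1 + Real.log n)) := by
    rw [le_div_iff₀ (by positivity)]
    have : 1 + Real.log n ≤ 2 * w := by linarith
    nlinarith
  have hB : 16 / (w / 3) ≤ η / 2 := by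
    rw [div_le_iff₀ (by positivity)]
    rw [div_le_iff₀ hη] at hwη
    nlinarith
  have hC : Real.exp (-((w / 3) ^ 2 / (12 * (1 + Real.log n)))) ≤ η / 2 :=
    (Real.exp_le_exp.mpr (by linarith)).trans hM
  unfold eexp
  rw [← ENNReal.ofReal_add (Real.exp_pos _).le (by positivity)]
  exact ENNReal.ofReal_le_ofReal (by linarith)

/-- (G4) for the Jacobi model -/
theorem jac_G4_main (η K : ℝ) (hη : 0 < η) (hK : 2 ≤ K) : ∀ᶠ n : ℕ in atTop,
    jacLaw (vn n) n {q | Below (jacMat q) (gam K n) ∧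
      Real.exp ((n : ℝ) / 2 + K * npow n (1 / 3) + npow n (1 / 10))
        < (gam K n • (1 : Mat n) - jacMat q).det}
      ≤ ENNReal.ofReal η := by
  filter_upwards [gam_facts K hK, ld_err_small η hη, eventually_gt_atTop 0] with n hg he hn
  obtain ⟨hz, hz', hd, h4, hnz, hlog, hxΛ⟩ := hg
  have hnpos : (0 : ℝ) < npow n (1 / 10) := by
    unfold npow
    exact Real.rpow_pos_of_pos (by exact_mod_cast hn) _
  have hx : 0 < npow n (1 / 10) / 3 := by positivity
  have hsub : {q : JPar n | Below (jacMat q) (gam K n) ∧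
      Real.exp ((n : ℝ) / 2 + K * npow n (1 / 3) + npow n (1 / 10))
        < (gam K n • (1 : Mat n) - jacMat q).det}
      ⊆ {q : JPar n | ¬ ∀ j, 0 ≤ js q j}
        ∪ ({q : JPar n | npow n (1 / 10) / 3
              ≤ jlin (vn n) (ldα n (gam K n)) (ldγ n (gam K n)) q}
          ∪ {q : JPar n | npow n (1 / 10) / 3 ≤ ldQ n (gam K n) q}) := by
    rintro q ⟨hB, hdet⟩
    by_contra hcon
    simp only [Set.mem_union, Set.mem_setOf_eq, not_or, not_not, not_le] at hcon
    obtain ⟨hs, hl, hQ⟩ := hcon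
    have hdpos : 0 < (gam K n • (1 : Mat n) - jacMat q).det := lt_trans (Real.exp_pos _) hdet
    have h1 := ld_master n hn (gam K n) hz.le q hs hB
    have h2 := sum_log_rq n hn (gam K n) hz.le
    have h3 := sum_gq_incr_le (n := n) (z := gam K n) hn hz hz' hd h4
    have h5 : (n : ℝ) / 2 + K * npow n (1 / 3) + npow n (1 / 10)
        < Real.log ((gam K n • (1 : Mat n) - jacMat q).det) :=
      (Real.lt_log_iff_exp_lt hdpos).2 hdet
    linarith
  have hnull : jacLaw (vn n) n {q : JPar n | ¬ ∀ j, 0 ≤ js q j} = 0 :=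
    ae_iff.1 (jacLaw_js_nonneg (vn n) n)
  calc jacLaw (vn n) n {q | Below (jacMat q) (gam K n) ∧
      Real.exp ((n : ℝ) / 2 + K * npow n (1 / 3) + npow n (1 / 10))
        < (gam K n • (1 : Mat n) - jacMat q).det}
      ≤ jacLaw (vn n) n ({q : JPar n | ¬ ∀ j, 0 ≤ js q j}
        ∪ ({q : JPar n | npow n (1 / 10) / 3
              ≤ jlin (vn n) (ldα n (gam K n)) (ldγ n (gam K n)) q}
          ∪ {q : JPar n | npow n (1 / 10) / 3 ≤ ldQ n (gam K n) q})) := measure_mono hsub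
    _ ≤ jacLaw (vn n) n {q : JPar n | ¬ ∀ j, 0 ≤ js q j}
        + (jacLaw (vn n) n {q : JPar n | npow n (1 / 10) / 3
              ≤ jlin (vn n) (ldα n (gam K n)) (ldγ n (gam K n)) q}
          + jacLaw (vn n) n {q : JPar n | npow n (1 / 10) / 3 ≤ ldQ n (gam K n) q}) :=
        (measure_union_le _ _).trans (add_le_add le_rfl (measure_union_le _ _))
    _ ≤ 0 + (eexp (-((npow n (1 / 10) / 3) ^ 2 / (12 * (1 + Real.log n))))
          + ENNReal.ofReal (16 / (npow n (1 / 10) / 3))) :=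
        add_le_add hnull.le (add_le_add
          (ld_lin_tail n hn (gam K n) hz hz' hd h4 _ hx.le hxΛ)
          (ld_quad_tail n hn (gam K n) hz hz' hd h4 _ hx))
    _ ≤ ENNReal.ofReal η := by rw [zero_add]; exact he

end

end Claimed.Agent.R133
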