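/-
Row 133 / S0266, section 5 (T1), part A: the deterministic form bound, for ARBITRARY weights.
`Q(v) = z ∑ v_j² - ∑ a_j v_j² - 2 ∑ b_j v_j v_{j+1} - (1+τ) v_0²
      ≥ ∑_j c_j v_j² + ∑ b_j (v_{j+1}-v_j)² - τ v_0²`,  `c_0 = z-a_0-b_0-1`, `c_j = z-a_j-b_j-b_{j-1}`.
If `c_j ≥ w_j - (R_{j+1} - R_j)` then Abel summation and `ab ≤ a²/4 + b²` give
`Q(v) ≥ ∑_j (w_j - 2R_{j+1}² - 2R_j² - [j<L] 2τ/L) v_j²`.
-/
import Claimed.Agent.R133.BelowL
import Claimed.Agent.R133.JacDef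

set_option autoImplicit false

namespace Claimed.Agent.R133

open scoped BigOperators Matrix

/-- spike lemma: `L v_0² ≤ 2 ∑_{j<L} v_j² + 2 L² ∑_{j<L} (v_{j+1}-v_j)²` -/
theorem t1_spike (L : ℕ) (v : ℕ → ℝ) :
    (L : ℝ) * v 0 ^ 2 ≤ 2 * ∑ j ∈ Finset.range L, v j ^ 2
      + 2 * (L : ℝ) ^ 2 * ∑ j ∈ Finset.range L, (v (j + 1) - v j) ^ 2 := by
  set S : ℝ := ∑ j ∈ Finset.range L, (v (j + 1) - v j) ^ 2 with hS
  have key : ∀ j ∈ Finset.range L, v 0 ^ 2 ≤ 2 * v j ^ 2 + 2 * (L : ℝ) * S := by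
    intro j hj
    have hjL : j ≤ L := (Finset.mem_range.1 hj).le
    have e1 : ∑ i ∈ Finset.range j, (v (i + 1) - v i) = v j - v 0 := Finset.sum_range_sub v j
    have e2 : (∑ i ∈ Finset.range j, (v (i + 1) - v i)) ^ 2
        ≤ (j : ℝ) * ∑ i ∈ Finset.range j, (v (i + 1) - v i) ^ 2 := by
      have := sq_sum_le_card_mul_sum_sq (s := Finset.range j) (f := fun i => v (i + 1) - v i)
      simpa using this
    have e3 : ∑ i ∈ Finset.range j, (v (i + 1) - v i) ^ 2 ≤ S :=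
      Finset.sum_le_sum_of_subset_of_nonneg (Finset.range_subset_range.2 hjL)
        (fun i _ _ => sq_nonneg _)
    have hS0 : 0 ≤ ∑ i ∈ Finset.range j, (v (i + 1) - v i) ^ 2 :=
      Finset.sum_nonneg (fun i _ => sq_nonneg _)
    have e4 : (j : ℝ) * ∑ i ∈ Finset.range j, (v (i + 1) - v i) ^ 2 ≤ (L : ℝ) * S :=
      mul_le_mul (by exact_mod_cast hjL) e3 hS0 (Nat.cast_nonneg _)
    rw [e1] at e2
    nlinarith [sq_nonneg (v j + (v j - v 0) - v j + v j - v 0 + 0), sq_nonneg (2 * v j - v 0)]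
  have := Finset.sum_le_sum key
  rw [Finset.sum_const, Finset.card_range, nsmul_eq_mul, Finset.sum_add_distrib,
    Finset.sum_const, Finset.card_range, nsmul_eq_mul, ← Finset.mul_sum] at this
  nlinarith [this]

/-- Abel summation: `R 0 = 0`, `R n = 0` -/
theorem t1_abel (n : ℕ) (hn : 0 < n) (R v : ℕ → ℝ) (hR0 : R 0 = 0) (hRn : R n = 0) :
    ∑ j ∈ Finset.range n, (R (j + 1) - R j) * v j ^ 2
      = ∑ j ∈ Finset.range (n - 1), R (j + 1) * (v j ^ 2 - v (j + 1) ^ 2) := by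
  obtain ⟨k, rfl⟩ : ∃ k, n = k + 1 := ⟨n - 1, by omega⟩
  simp only [Nat.add_sub_cancel]
  have h1 : ∑ j ∈ Finset.range (k + 1), (R (j + 1) - R j) * v j ^ 2
      = ∑ j ∈ Finset.range (k + 1), R (j + 1) * v j ^ 2
        - ∑ j ∈ Finset.range (k + 1), R j * v j ^ 2 := by
    rw [← Finset.sum_sub_distrib]
    exact Finset.sum_congr rfl (fun j _ => by ring)
  rw [h1, Finset.sum_range_succ, Finset.sum_range_succ' (fun j => R j * v j ^ 2), hRn, hR0,
    ← sub_eq_zero]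
  have h2 : ∑ j ∈ Finset.range k, R (j + 1) * (v j ^ 2 - v (j + 1) ^ 2)
      = ∑ j ∈ Finset.range k, R (j + 1) * v j ^ 2
        - ∑ j ∈ Finset.range k, R (j + 1) * v (j + 1) ^ 2 := by
    rw [← Finset.sum_sub_distrib]
    exact Finset.sum_congr rfl (fun j _ => by ring)
  rw [h2]
  ring

/-- sum of squares form of the quadratic form -/
theorem t1_sos (n : ℕ) (hn : 0 < n) (b v : ℕ → ℝ) :
    2 * ∑ j ∈ Finset.range (n - 1), b j * v j * v (j + 1)
      = ∑ j ∈ Finset.range (n - 1), b j * v j ^ 2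
        + ∑ j ∈ Finset.range (n - 1), b j * v (j + 1) ^ 2
        - ∑ j ∈ Finset.range (n - 1), b j * (v (j + 1) - v j) ^ 2 := by
  rw [Finset.mul_sum, ← Finset.sum_add_distrib, ← Finset.sum_sub_distrib]
  exact Finset.sum_congr rfl (fun j _ => by ring)

/-- auxiliary: a sum of truncated terms -/
theorem t1_sum_ite_lt (f : ℕ → ℝ) {L m : ℕ} (h : L ≤ m) :
    ∑ j ∈ Finset.range m, (if j < L then f j else 0) = ∑ j ∈ Finset.range L, f j := by
  induction m, h using Nat.le_induction with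
  | base => exact Finset.sum_congr rfl (fun j hj => if_pos (Finset.mem_range.1 hj))
  | succ m hm ih => rw [Finset.sum_range_succ, ih, if_neg (not_lt.2 hm), add_zero]

/-- THE DETERMINISTIC FORM BOUND. -/
theorem t1_form (n N L : ℕ) (z τ : ℝ) (a b w R : ℕ → ℝ)
    (hN : N < n) (hL0 : 0 < L) (hL : L ≤ N)
    (hb0 : ∀ j, 0 ≤ b j) (hbN : ∀ j, j < N → 3 / 8 ≤ b j)
    (hR0 : R 0 = 0) (hRN : ∀ j, N < j → R j = 0)
    (hτ0 : 0 ≤ τ) (hτL : τ * (2 * L) ≤ 1 / 8)
    (hc0 : w 0 - (R 1 - R 0) ≤ z - a 0 - b 0 - 1)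
    (hc : ∀ j, 0 < j → j < n → w j - (R (j + 1) - R j) ≤ z - a j - b j - b (j - 1))
    (hw : ∀ j, j < n → 0 < w j - 2 * R (j + 1) ^ 2 - 2 * R j ^ 2 - (if j < L then 2 * τ / L else 0))
    (v : ℕ → ℝ) (hv : ∃ j, j < n ∧ v j ≠ 0) :
    ∑ j ∈ Finset.range n, a j * v j ^ 2
      + 2 * ∑ j ∈ Finset.range (n - 1), b j * v j * v (j + 1) + (1 + τ) * v 0 ^ 2
      < z * ∑ j ∈ Finset.range n, v j ^ 2 := by
  have hn : 0 < n := by omega
  have E1 := t1_sos n hn b v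
  have E5 := t1_abel n hn R v hR0 (hRN n hN)
  obtain ⟨k, rfl⟩ : ∃ k, n = k + 1 := ⟨n - 1, by omega⟩
  simp only [Nat.add_sub_cancel] at E1 E5 ⊢
  have hNk : N ≤ k := by omega
  have hLpos : (0 : ℝ) < L := by exact_mod_cast hL0
  -- E2
  have E2 : ∑ j ∈ Finset.range k, b j * v j ^ 2 ≤ ∑ j ∈ Finset.range (k + 1), b j * v j ^ 2 := by
    rw [Finset.sum_range_succ]
    have := mul_nonneg (hb0 k) (sq_nonneg (v k))
    linarith
  -- E3
  have E3 : ∑ j ∈ Finset.range k, b j * v (j + 1) ^ 2 + v 0 ^ 2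
      = ∑ j ∈ Finset.range (k + 1), (if j = 0 then 1 else b (j - 1)) * v j ^ 2 := by
    rw [Finset.sum_range_succ']
    simp
  -- E4
  have E4 : ∑ j ∈ Finset.range (k + 1), (w j - (R (j + 1) - R j)) * v j ^ 2
      ≤ ∑ j ∈ Finset.range (k + 1),
          (z - a j - b j - (if j = 0 then 1 else b (j - 1))) * v j ^ 2 := by
    refine Finset.sum_le_sum (fun j hj => mul_le_mul_of_nonneg_right ?_ (sq_nonneg _))
    rcases Nat.eq_zero_or_pos j with rfl | hj0
    · simpa using hc0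
    · rw [if_neg hj0.ne']
      exact hc j hj0 (Finset.mem_range.1 hj)
  have E4l : ∑ j ∈ Finset.range (k + 1), (w j - (R (j + 1) - R j)) * v j ^ 2
      = ∑ j ∈ Finset.range (k + 1), w j * v j ^ 2
        - ∑ j ∈ Finset.range (k + 1), (R (j + 1) - R j) * v j ^ 2 := by
    rw [← Finset.sum_sub_distrib]
    exact Finset.sum_congr rfl (fun j _ => by ring)
  have E4r : ∑ j ∈ Finset.range (k + 1),
          (z - a j - b j - (if j = 0 then 1 else b (j - 1))) * v j ^ 2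
      = z * ∑ j ∈ Finset.range (k + 1), v j ^ 2 - ∑ j ∈ Finset.range (k + 1), a j * v j ^ 2
        - ∑ j ∈ Finset.range (k + 1), b j * v j ^ 2
        - ∑ j ∈ Finset.range (k + 1), (if j = 0 then 1 else b (j - 1)) * v j ^ 2 := by
    rw [Finset.mul_sum, ← Finset.sum_sub_distrib, ← Finset.sum_sub_distrib,
      ← Finset.sum_sub_distrib]
    exact Finset.sum_congr rfl (fun j _ => by ring)
  -- E6
  have E6 : ∑ j ∈ Finset.range k, R (j + 1) * (v j ^ 2 - v (j + 1) ^ 2)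
      ≤ ∑ j ∈ Finset.range k, (if j < N then (v (j + 1) - v j) ^ 2 / 4 else 0)
        + ∑ j ∈ Finset.range k, 2 * R (j + 1) ^ 2 * v j ^ 2
        + ∑ j ∈ Finset.range k, 2 * R (j + 1) ^ 2 * v (j + 1) ^ 2 := by
    rw [← Finset.sum_add_distrib, ← Finset.sum_add_distrib]
    refine Finset.sum_le_sum (fun j _ => ?_)
    by_cases hj : j < N
    · rw [if_pos hj]
      nlinarith [sq_nonneg ((v (j + 1) - v j) / 2 + R (j + 1) * (v j + v (j + 1))),
        mul_nonneg (sq_nonneg (R (j + 1))) (sq_nonneg (v j - v (j + 1)))]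
    · rw [if_neg hj, hRN (j + 1) (by omega)]
      simp
  -- E7
  have E7a : ∑ j ∈ Finset.range k, 2 * R (j + 1) ^ 2 * v j ^ 2
      ≤ ∑ j ∈ Finset.range (k + 1), 2 * R (j + 1) ^ 2 * v j ^ 2 := by
    rw [Finset.sum_range_succ]
    have : 0 ≤ 2 * R (k + 1) ^ 2 * v k ^ 2 := by positivity
    linarith
  have E7b : ∑ j ∈ Finset.range k, 2 * R (j + 1) ^ 2 * v (j + 1) ^ 2
      ≤ ∑ j ∈ Finset.range (k + 1), 2 * R j ^ 2 * v j ^ 2 := by
    rw [Finset.sum_range_succ']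
    have : 0 ≤ 2 * R 0 ^ 2 * v 0 ^ 2 := by positivity
    linarith
  -- E8
  have E8 : τ * v 0 ^ 2 ≤ ∑ j ∈ Finset.range (k + 1), (if j < L then 2 * τ / L else 0) * v j ^ 2
      + ∑ j ∈ Finset.range k, (if j < N then (v (j + 1) - v j) ^ 2 / 8 else 0) := by
    have s1 : ∑ j ∈ Finset.range (k + 1), (if j < L then 2 * τ / L else 0) * v j ^ 2
        = 2 * τ / L * ∑ j ∈ Finset.range L, v j ^ 2 := by
      rw [Finset.mul_sum, ← t1_sum_ite_lt (fun j => 2 * τ / L * v j ^ 2) (show L ≤ k + 1 by omega)]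
      refine Finset.sum_congr rfl (fun j _ => ?_)
      split_ifs <;> simp
    have s2 : ∑ j ∈ Finset.range k, (if j < N then (v (j + 1) - v j) ^ 2 / 8 else 0)
        = (∑ j ∈ Finset.range N, (v (j + 1) - v j) ^ 2) / 8 := by
      rw [t1_sum_ite_lt (fun j => (v (j + 1) - v j) ^ 2 / 8) hNk, Finset.sum_div]
    have s3 : ∑ j ∈ Finset.range L, (v (j + 1) - v j) ^ 2
        ≤ ∑ j ∈ Finset.range N, (v (j + 1) - v j) ^ 2 :=
      Finset.sum_le_sum_of_subset_of_nonneg (Finset.range_subset_range.2 hL)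
        (fun i _ _ => sq_nonneg _)
    have s4 : 0 ≤ ∑ j ∈ Finset.range L, (v (j + 1) - v j) ^ 2 :=
      Finset.sum_nonneg (fun i _ => sq_nonneg _)
    have sp := t1_spike L v
    rw [s1, s2]
    have sp' : τ * v 0 ^ 2 ≤ 2 * τ / L * ∑ j ∈ Finset.range L, v j ^ 2
        + τ * (2 * L) * ∑ j ∈ Finset.range L, (v (j + 1) - v j) ^ 2 := by
      have := mul_le_mul_of_nonneg_left sp (div_nonneg hτ0 hLpos.le)
      calc τ * v 0 ^ 2 = τ / L * (L * v 0 ^ 2) := by field_simp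
        _ ≤ _ := this
        _ = _ := by field_simp
    have s5 : τ * (2 * L) * ∑ j ∈ Finset.range L, (v (j + 1) - v j) ^ 2
        ≤ 1 / 8 * ∑ j ∈ Finset.range L, (v (j + 1) - v j) ^ 2 :=
      mul_le_mul_of_nonneg_right hτL s4
    linarith
  -- E9
  have E9 : ∑ j ∈ Finset.range k, (if j < N then (v (j + 1) - v j) ^ 2 / 4 else 0)
      + ∑ j ∈ Finset.range k, (if j < N then (v (j + 1) - v j) ^ 2 / 8 else 0)
      ≤ ∑ j ∈ Finset.range k, b j * (v (j + 1) - v j) ^ 2 := by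
    rw [← Finset.sum_add_distrib]
    refine Finset.sum_le_sum (fun j _ => ?_)
    by_cases hj : j < N
    · rw [if_pos hj, if_pos hj]
      have := mul_le_mul_of_nonneg_right (hbN j hj) (sq_nonneg (v (j + 1) - v j))
      linarith
    · rw [if_neg hj, if_neg hj]
      have := mul_nonneg (hb0 j) (sq_nonneg (v (j + 1) - v j))
      linarith
  -- E10
  have E10 : 0 < ∑ j ∈ Finset.range (k + 1),
      (w j - 2 * R (j + 1) ^ 2 - 2 * R j ^ 2 - (if j < L then 2 * τ / L else 0)) * v j ^ 2 := by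
    obtain ⟨j0, hj0, hvj0⟩ := hv
    refine Finset.sum_pos' (fun j hj => ?_) ⟨j0, Finset.mem_range.2 hj0, ?_⟩
    · exact mul_nonneg (hw j (Finset.mem_range.1 hj)).le (sq_nonneg _)
    · exact mul_pos (hw j0 hj0) (by positivity)
  have E10' : ∑ j ∈ Finset.range (k + 1),
      (w j - 2 * R (j + 1) ^ 2 - 2 * R j ^ 2 - (if j < L then 2 * τ / L else 0)) * v j ^ 2
      = ∑ j ∈ Finset.range (k + 1), w j * v j ^ 2
        - ∑ j ∈ Finset.range (k + 1), 2 * R (j + 1) ^ 2 * v j ^ 2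
        - ∑ j ∈ Finset.range (k + 1), 2 * R j ^ 2 * v j ^ 2
        - ∑ j ∈ Finset.range (k + 1), (if j < L then 2 * τ / L else 0) * v j ^ 2 := by
    rw [← Finset.sum_sub_distrib, ← Finset.sum_sub_distrib, ← Finset.sum_sub_distrib]
    exact Finset.sum_congr rfl (fun j _ => by ring)
  linarith

/-- the form identity behind `below_of_form` / `not_below_of_form` -/
theorem t1_form_id (n : ℕ) (hn : 0 < n) (a b : ℕ → ℝ) (θ : ℝ) (v : ℕ → ℝ) :
    qf (jacM n a b + spike θ (e0 n)) (fun i : Fin n => v i.val)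
      = ∑ j ∈ Finset.range n, a j * v j ^ 2
        + 2 * ∑ j ∈ Finset.range (n - 1), b j * v j * v (j + 1) + θ * v 0 ^ 2 := by
  have he : e0 n ⬝ᵥ (fun i : Fin n => v i.val) = v 0 := by
    unfold e0 dotProduct
    rw [Finset.sum_eq_single (⟨0, hn⟩ : Fin n)]
    · simp
    · intro c _ hc
      have : c.val ≠ 0 := fun h => hc (Fin.ext h)
      simp [this]
    · simp
  rw [qf_add, qf_spike, qf_jacM, he]

theorem t1_nrm2_id (n : ℕ) (v : ℕ → ℝ) :
    nrm2 (fun i : Fin n => v i.val) = ∑ j ∈ Finset.range n, v j ^ 2 := by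
  unfold nrm2 dotProduct
  rw [← Fin.sum_univ_eq_sum_range (fun j => v j ^ 2) n]
  exact Finset.sum_congr rfl fun i _ => by ring

/-- from `ℕ`-indexed sums to `Below` -/
theorem below_of_form (n : ℕ) (a b : ℕ → ℝ) (θ z : ℝ)
    (h : ∀ v : ℕ → ℝ, (∃ j, j < n ∧ v j ≠ 0) →
      ∑ j ∈ Finset.range n, a j * v j ^ 2
        + 2 * ∑ j ∈ Finset.range (n - 1), b j * v j * v (j + 1) + θ * v 0 ^ 2
        < z * ∑ j ∈ Finset.range n, v j ^ 2) :
    Below (jacM n a b + spike θ (e0 n)) z := by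
  intro u hu
  set v : ℕ → ℝ := fun j => if hj : j < n then u ⟨j, hj⟩ else 0 with hvdef
  have huv : u = fun i : Fin n => v i.val := by
    funext i
    simp [hvdef, i.2]
  have hex : ∃ j, j < n ∧ v j ≠ 0 := by
    by_contra hcon
    push Not at hcon
    apply hu
    funext i
    have := hcon i.val i.2
    rw [huv]
    simpa using this
  obtain ⟨j, hj, -⟩ := id hex
  have hn : 0 < n := lt_of_le_of_lt (Nat.zero_le _) hj
  have key := h v hex
  rw [huv, t1_form_id n hn, t1_nrm2_id]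
  exact key

/-- converse direction, for test vectors: a vector with large Rayleigh quotient excludes `Below` -/
theorem not_below_of_form (n : ℕ) (a b : ℕ → ℝ) (θ z : ℝ) (v : ℕ → ℝ) (hv : ∃ j, j < n ∧ v j ≠ 0)
    (h : z * ∑ j ∈ Finset.range n, v j ^ 2 ≤
      ∑ j ∈ Finset.range n, a j * v j ^ 2
        + 2 * ∑ j ∈ Finset.range (n - 1), b j * v j * v (j + 1) + θ * v 0 ^ 2) :
    ¬ Below (jacM n a b + spike θ (e0 n)) z := by
  intro hB
  obtain ⟨j, hj, hvj⟩ := hv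
  have hn : 0 < n := lt_of_le_of_lt (Nat.zero_le _) hj
  have hne : (fun i : Fin n => v i.val) ≠ 0 := fun h0 => hvj (congrFun h0 ⟨j, hj⟩)
  have := hB _ hne
  rw [t1_form_id n hn, t1_nrm2_id] at this
  exact absurd this (not_lt.mpr h)

end Claimed.Agent.R133
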