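/-
Row 133 / S0266, section 5 (T1), part B: block decomposition of a sequence (deterministic).
Blocks of length `m`; `bS X m l i` = partial sums inside block `l`; `bZ` = block mean;
`bP` = bridge, shifted by one (`bP 0 = 0`, `bP (j+1) = ρ_j`).   `X j = bZ (j/m) + bP (j+1) - bP j`.
-/
import Mathlib

set_option autoImplicit false

namespace Claimed.Agent.R133

open scoped BigOperators

noncomputable section

/-- partial sum of the first `i` terms of block `l` -/
def bS (X : ℕ → ℝ) (m l i : ℕ) : ℝ := ∑ t ∈ Finset.range i, X (l * m + t)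

/-- block mean -/
def bZ (X : ℕ → ℝ) (m l : ℕ) : ℝ := bS X m l m / m

/-- bridge inside the blocks, shifted by one -/
def bP (X : ℕ → ℝ) (m : ℕ) : ℕ → ℝ
  | 0 => 0
  | j + 1 => bS X m (j / m) (j % m + 1) - ((j % m : ℕ) + 1 : ℝ) * bZ X m (j / m)

/-- the bridge vanishes at the block boundaries -/
theorem bP_boundary (X : ℕ → ℝ) (m : ℕ) (hm : 0 < m) (l : ℕ) : bP X m (l * m) = 0 := by
  cases l with
  | zero => simp [bP]
  | succ k =>
    obtain ⟨p, rfl⟩ : ∃ p, m = p + 1 := ⟨m - 1, by omega⟩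
    have e : (k + 1) * (p + 1) = (k * (p + 1) + p) + 1 := by ring
    have h1 : (k * (p + 1) + p) / (p + 1) = k := by
      rw [Nat.add_comm, Nat.add_mul_div_right _ _ (Nat.succ_pos p), Nat.div_eq_of_lt (Nat.lt_succ_self p),
        Nat.zero_add]
    have h2 : (k * (p + 1) + p) % (p + 1) = p := by
      rw [Nat.add_comm, Nat.add_mul_mod_self_right, Nat.mod_eq_of_lt (Nat.lt_succ_self p)]
    rw [e]
    show bS X (p + 1) ((k * (p + 1) + p) / (p + 1)) ((k * (p + 1) + p) % (p + 1) + 1)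
      - ((((k * (p + 1) + p) % (p + 1) : ℕ) : ℝ) + 1) * bZ X (p + 1) ((k * (p + 1) + p) / (p + 1)) = 0
    rw [h1, h2]
    unfold bZ
    have hp : ((p : ℝ) + 1) ≠ 0 := by positivity
    push_cast
    field_simp
    ring

theorem bP_decomp (X : ℕ → ℝ) (m : ℕ) (hm : 0 < m) (j : ℕ) :
    X j = bZ X m (j / m) + bP X m (j + 1) - bP X m j := by
  have hdm : j / m * m + j % m = j := Nat.div_add_mod' j m
  have hs : bP X m (j + 1)
      = bS X m (j / m) (j % m + 1) - ((j % m : ℕ) + 1 : ℝ) * bZ X m (j / m) := rfl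
  rcases Nat.eq_zero_or_pos (j % m) with h0 | hpos
  · have hj : j = j / m * m := by omega
    have hb : bP X m j = 0 := by
      conv_lhs => rw [hj]
      exact bP_boundary X m hm _
    rw [hs, hb, h0]
    unfold bS
    rw [Finset.sum_range_one, Nat.add_zero, ← hj]
    simp
  · obtain ⟨i, hi⟩ : ∃ i, j % m = i + 1 := ⟨j % m - 1, by omega⟩
    obtain ⟨j', rfl⟩ : ∃ j', j = j' + 1 := ⟨j - 1, by omega⟩
    have hlt : (j' + 1) % m < m := Nat.mod_lt _ hm
    have hj' : j' = (j' + 1) / m * m + i := by omega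
    have h1 : j' / m = (j' + 1) / m := by
      conv_lhs => rw [hj']
      rw [Nat.add_comm, Nat.add_mul_div_right _ _ hm, Nat.div_eq_of_lt (by omega), Nat.zero_add]
    have h2 : j' % m = i := by
      conv_lhs => rw [hj']
      rw [Nat.add_comm, Nat.add_mul_mod_self_right, Nat.mod_eq_of_lt (by omega)]
    have hs' : bP X m (j' + 1)
        = bS X m (j' / m) (j' % m + 1) - ((j' % m : ℕ) + 1 : ℝ) * bZ X m (j' / m) := rfl
    rw [hs, hs', h1, h2, hi]
    unfold bS
    rw [Finset.sum_range_succ _ (i + 1)]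
    have e : (j' + 1) / m * m + (i + 1) = j' + 1 := by omega
    rw [e]
    push_cast
    ring

theorem bZ_abs_le (X : ℕ → ℝ) (m : ℕ) (hm : 0 < m) (l : ℕ) (y : ℝ)
    (h : ∀ i, i ≤ m → |bS X m l i| ≤ y) : |bZ X m l| ≤ y / m := by
  have hm' : (0 : ℝ) < m := by exact_mod_cast hm
  unfold bZ
  rw [abs_div, abs_of_pos hm']
  exact div_le_div_of_nonneg_right (h m le_rfl) hm'.le

theorem bP_abs_le (X : ℕ → ℝ) (m : ℕ) (hm : 0 < m) (j : ℕ) (y : ℝ)
    (h : ∀ i, i ≤ m → |bS X m (j / m) i| ≤ y) : |bP X m (j + 1)| ≤ 2 * y := by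
  have hm' : (0 : ℝ) < m := by exact_mod_cast hm
  have hlt : j % m < m := Nat.mod_lt _ hm
  have hs : bP X m (j + 1)
      = bS X m (j / m) (j % m + 1) - ((j % m : ℕ) + 1 : ℝ) * bZ X m (j / m) := rfl
  have h1 := h (j % m + 1) hlt
  have h2 := bZ_abs_le X m hm (j / m) y h
  have hy : 0 ≤ y := (abs_nonneg _).trans h1
  have hc : ((j % m : ℕ) + 1 : ℝ) ≤ m := by exact_mod_cast hlt
  have hc0 : (0 : ℝ) ≤ ((j % m : ℕ) + 1 : ℝ) := by positivity
  have h3 : |((j % m : ℕ) + 1 : ℝ) * bZ X m (j / m)| ≤ y := by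
    rw [abs_mul, abs_of_nonneg hc0]
    calc ((j % m : ℕ) + 1 : ℝ) * |bZ X m (j / m)| ≤ m * (y / m) :=
          mul_le_mul hc h2 (abs_nonneg _) hm'.le
      _ = y := by field_simp
  rw [hs]
  calc |bS X m (j / m) (j % m + 1) - ((j % m : ℕ) + 1 : ℝ) * bZ X m (j / m)|
      ≤ |bS X m (j / m) (j % m + 1)| + |((j % m : ℕ) + 1 : ℝ) * bZ X m (j / m)| := abs_sub _ _
    _ ≤ 2 * y := by linarith

end

end Claimed.Agent.R133
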