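/-
Row 133 / S0266, section 5 (T1), part C: from four explicit events on the noise to
`Below (jacMat q + spike (1+τ) e0) (gam K n)`.   Deterministic.
-/
import Claimed.Agent.R133.T1A
import Claimed.Agent.R133.T1B
import Claimed.Agent.R133.LDetE

set_option autoImplicit false

namespace Claimed.Agent.R133

open scoped BigOperators NNReal Matrix

noncomputable section

/-- `η_j = x_j / (2 β_j)` -/
def jeta {n : ℕ} (q : JPar n) (j : ℕ) : ℝ := jx (vn n) q j / (2 * bq n j)

/-- `X_j = a_j + 2 η_j` : independent, centred -/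
def jX {n : ℕ} (q : JPar n) (j : ℕ) : ℝ := ja q j + jx (vn n) q j / bq n j

/-- `β_j ≤ 1 - (j+1)/(2n)` -/
theorem bq_le (n j : ℕ) (hj : j < n) : bq n j ≤ 1 - ((j : ℝ) + 1) / (2 * n) := by
  have hn : (0 : ℝ) < n := by exact_mod_cast (by omega : 0 < n)
  have hc : ((n - 1 - j : ℕ) : ℝ) = (n : ℝ) - 1 - j := by
    rw [Nat.sub_sub, Nat.cast_sub (by omega)]; push_cast; ring
  have hjn : (j : ℝ) + 1 ≤ n := by exact_mod_cast hj
  have hj0 : (0 : ℝ) ≤ j := Nat.cast_nonneg j
  set u : ℝ := ((j : ℝ) + 1) / n with hu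
  have hu1 : u ≤ 1 := by rw [hu, div_le_one hn]; exact hjn
  have e1 : ((n - 1 - j : ℕ) : ℝ) / n = 1 - u := by
    rw [hc, hu]; field_simp; ring
  have e2 : ((j : ℝ) + 1) / (2 * n) = u / 2 := by
    rw [hu]; field_simp
  unfold bq
  rw [e1, e2, Real.sqrt_le_iff]
  constructor
  · linarith
  · nlinarith [sq_nonneg u]

/-- `b_j ≤ 1 - (j+1)/(2n) + η_j` -/
theorem jb_le {n : ℕ} (q : JPar n) (j : ℕ) (hj : j + 1 < n) (hs : 0 ≤ js q j) :
    jb q j ≤ 1 - ((j : ℝ) + 1) / (2 * n) + jeta q j := by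
  have hβ : 0 < bq n j := bq_pos j hj
  have hx : js q j = bq n j ^ 2 + jx (vn n) q j := by
    unfold jx
    rw [bq_sq, vn_coe]; ring
  have h1 := sqrt_add_le (bq n j) (jx (vn n) q j) hβ (by rw [← hx]; exact hs)
  have h2 := bq_le n j (by omega)
  unfold jb jeta
  rw [hx]
  linarith

/-- `b_j ≥ 1/2` in the first half, if `|η_j| ≤ 1/20` -/
theorem jb_ge {n : ℕ} (q : JPar n) (j : ℕ) (hj : 2 * (j + 1) ≤ n) (hs : 0 ≤ js q j)
    (hη : |jeta q j| ≤ 1 / 20) : 1 / 2 ≤ jb q j := by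
  have hjn : j + 1 < n := by omega
  have hβ : 0 < bq n j := bq_pos j hjn
  have hβ1 : bq n j ≤ 1 := bq_le_one j
  have hn : (0 : ℝ) < n := by exact_mod_cast (by omega : 0 < n)
  have hc : ((n - 1 - j : ℕ) : ℝ) = (n : ℝ) - 1 - j := by
    rw [Nat.sub_sub, Nat.cast_sub (by omega)]; push_cast; ring
  have hj2 : 2 * ((j : ℝ) + 1) ≤ n := by exact_mod_cast hj
  have hβ2 : 1 / 2 ≤ bq n j ^ 2 := by
    rw [bq_sq, hc, le_div_iff₀ hn]; linarith
  have hx : js q j = bq n j ^ 2 + jx (vn n) q j := by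
    unfold jx
    rw [bq_sq, vn_coe]; ring
  have hxe : jx (vn n) q j = 2 * bq n j * jeta q j := by
    unfold jeta; field_simp
  have hη' := abs_le.1 hη
  unfold jb
  refine Real.le_sqrt_of_sq_le ?_
  rw [hx, hxe]
  nlinarith [hη'.1, hη'.2]

/-- THE BRIDGE.  `N = m * Lb` sites are treated by blocks of length `m`, the others crudely. -/
theorem t1_bridge (n m Lb L : ℕ) (K τ ε : ℝ) (y : ℕ → ℝ) (q : JPar n)
    (hm : 0 < m) (hN : 2 * (m * Lb) ≤ n) (hn : 0 < n) (hL0 : 0 < L) (hL : L ≤ m * Lb)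
    (hK : 0 ≤ K) (hε0 : 0 ≤ ε) (hε : ε ≤ 1 / 20)
    (hτ0 : 0 ≤ τ) (hτL : τ * (2 * L) ≤ 1 / 8)
    (hy : Monotone y)
    (hnum : ∀ l, l < Lb →
      y l / m + 4 * (2 * y l + ε) ^ 2 + 2 * τ / L < K * npow n (-(2 / 3)) + (l * m : ℝ) / n)
    (e0' : ∀ j, 0 ≤ js q j)
    (e1 : ∀ j, j < n → |ja q j| ≤ ε)
    (e2 : ∀ j, j < m * Lb → |jeta q j| ≤ ε)
    (e3 : ∀ j, j < n → m * Lb ≤ j + 1 → js q j ≤ 16 / 25)
    (e4 : ∀ l, l < Lb → ∀ i, i ≤ m → |bS (jX q) m l i| ≤ y l) :
    Below (jacMat q + spike (1 + τ) (e0 n)) (gam K n) := by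
  classical
  set N : ℕ := m * Lb with hNdef
  have hN1 : 1 ≤ N := le_trans hL0 hL
  have hNn : N < n := by omega
  have hnR : (0 : ℝ) < n := by exact_mod_cast hn
  have hmR : (0 : ℝ) < m := by exact_mod_cast hm
  have hLR : (0 : ℝ) < L := by exact_mod_cast hL0
  set P : ℝ := K * npow n (-(2 / 3)) with hP
  have hP0 : 0 ≤ P := by
    rw [hP]; unfold npow; positivity
  set z : ℝ := gam K n with hz
  have hzP : z = 2 + P := rfl
  set X : ℕ → ℝ := jX q with hX
  set η : ℕ → ℝ := jeta q with hηdef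
  have hXa : ∀ j, X j = ja q j + 2 * η j := by
    intro j
    rw [hX, hηdef]; unfold jX jeta; ring
  set R : ℕ → ℝ := fun j =>
    if j ≤ N then bP X m j - (if j = 0 then 0 else η (j - 1)) else 0 with hR
  set w : ℕ → ℝ := fun j =>
    if j < N then (z - 2 + (2 * (j : ℝ) + 1) / (2 * n)) - bZ X m (j / m) else 2 / 5 - 2 * ε with hw
  -- values of R
  have R0 : R 0 = 0 := by simp [hR, bP]
  have Rsucc : ∀ j, j < N → R (j + 1) = bP X m (j + 1) - η j := by
    intro j hj
    have : j + 1 ≤ N := hj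
    simp [hR, this]
  have Rbig : ∀ j, N < j → R j = 0 := by
    intro j hj
    have : ¬ j ≤ N := by omega
    simp [hR, this]
  have RN : R N = - η (N - 1) := by
    obtain ⟨N', hN'⟩ : ∃ N', N = N' + 1 := ⟨N - 1, by omega⟩
    have hb : bP X m N = 0 := by
      have := bP_boundary X m hm Lb
      rwa [mul_comm Lb m] at this
    have h1 := Rsucc N' (by omega)
    rw [← hN', hb] at h1
    rw [h1, hN']; simp
  have wsmall : ∀ j, j < N → w j = (z - 2 + (2 * (j : ℝ) + 1) / (2 * n)) - bZ X m (j / m) := by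
    intro j hj; simp [hw, hj]
  have wbig : ∀ j, N ≤ j → w j = 2 / 5 - 2 * ε := by
    intro j hj
    have : ¬ j < N := by omega
    simp [hw, this]
  -- bounds on b
  have hb45 : ∀ j, j < n → N ≤ j + 1 → jb q j ≤ 4 / 5 := by
    intro j hj hNj
    unfold jb
    rw [Real.sqrt_le_iff]
    refine ⟨by norm_num, ?_⟩
    have := e3 j hj hNj
    norm_num
    linarith
  have hηε : ∀ j, j < N → |η j| ≤ ε := e2
  have hy0 : ∀ l, l < Lb → 0 ≤ y l := by
    intro l hl
    have := e4 l hl 0 (Nat.zero_le m)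
    exact le_trans (abs_nonneg _) this
  have hdiv : ∀ j, j < N → j / m < Lb := by
    intro j hj
    rw [Nat.div_lt_iff_lt_mul hm, mul_comm]
    exact hj
  have Rabs : ∀ j, j < N → |R (j + 1)| ≤ 2 * y (j / m) + ε := by
    intro j hj
    rw [Rsucc j hj]
    have h1 := bP_abs_le X m hm j (y (j / m)) (e4 (j / m) (hdiv j hj))
    have h2 := hηε j hj
    calc |bP X m (j + 1) - η j| ≤ |bP X m (j + 1)| + |η j| := abs_sub _ _
      _ ≤ 2 * y (j / m) + ε := add_le_add h1 h2
  unfold jacMat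
  refine below_of_form n (ja q) (jb q) (1 + τ) z ?_
  intro v hv
  refine t1_form n N L z τ (ja q) (jb q) w R hNn hL0 hL (fun j => Real.sqrt_nonneg _) ?_ R0 Rbig
    hτ0 hτL ?_ ?_ ?_ v hv
  · -- hbN
    intro j hj
    have := jb_ge q j (by omega) (e0' j) ((hηε j hj).trans hε)
    linarith
  · -- hc0
    have h0N : 0 < N := hN1
    rw [wsmall 0 h0N, Rsucc 0 h0N, R0]
    have hd := bP_decomp X m hm 0
    have hb0 : bP X m 0 = 0 := by simp [bP]
    rw [hb0, hXa 0] at hd
    have hj := jb_le q 0 (by omega) (e0' 0)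
    simp only [Nat.zero_div, Nat.cast_zero, zero_add, mul_zero] at hd hj ⊢
    linarith
  · -- hc
    intro j hj0 hjn
    obtain ⟨j', rfl⟩ : ∃ j', j = j' + 1 := ⟨j - 1, by omega⟩
    simp only [Nat.add_sub_cancel]
    rcases lt_trichotomy (j' + 1) N with hlt | heq | hgt
    · rw [wsmall _ hlt, Rsucc _ hlt, Rsucc j' (by omega)]
      have hd := bP_decomp X m hm (j' + 1)
      rw [hXa (j' + 1)] at hd
      have h1 := jb_le q (j' + 1) (by omega) (e0' _)
      have h2 := jb_le q j' (by omega) (e0' _)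
      have e : (2 * ((j' + 1 : ℕ) : ℝ) + 1) / (2 * n)
          = (((j' + 1 : ℕ) : ℝ) + 1) / (2 * n) + ((j' : ℝ) + 1) / (2 * n) := by
        push_cast; ring
      rw [e]
      change jb q (j' + 1) ≤ 1 - (((j' + 1 : ℕ) : ℝ) + 1) / (2 * n) + η (j' + 1) at h1
      change jb q j' ≤ 1 - ((j' : ℝ) + 1) / (2 * n) + η j' at h2
      linarith
    · rw [wbig _ heq.ge, Rbig (j' + 1 + 1) (by omega), heq, RN, ← heq]
      simp only [Nat.add_sub_cancel]
      have h1 := hb45 (j' + 1) hjn (by omega)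
      have h2 := hb45 j' (by omega) (by omega)
      have h3 := abs_le.1 (e1 (j' + 1) hjn)
      have h4 := abs_le.1 (hηε j' (by omega))
      linarith [h3.1, h3.2, h4.1, h4.2]
    · rw [wbig _ hgt.le, Rbig (j' + 1 + 1) (by omega), Rbig (j' + 1) hgt]
      have h1 := hb45 (j' + 1) hjn (by omega)
      have h2 := hb45 j' (by omega) (by omega)
      have h3 := abs_le.1 (e1 (j' + 1) hjn)
      linarith [h3.1, h3.2]
  · -- hw
    intro j hjn
    by_cases hjN : j < N
    · set l := j / m with hl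
      have hlLb : l < Lb := hdiv j hjN
      have hyl := hy0 l hlLb
      have hZ := abs_le.1 (bZ_abs_le X m hm l (y l) (e4 l hlLb))
      have hR1 : R (j + 1) ^ 2 ≤ (2 * y l + ε) ^ 2 := by
        have := Rabs j hjN
        exact sq_le_sq' (by linarith [(abs_le.1 this).1]) (abs_le.1 this).2
      have hR2 : R j ^ 2 ≤ (2 * y l + ε) ^ 2 := by
        rcases Nat.eq_zero_or_pos j with h0 | hpos
        · rw [h0, R0]; simpa using sq_nonneg (2 * y l + ε)
        · obtain ⟨j', rfl⟩ : ∃ j', j = j' + 1 := ⟨j - 1, by omega⟩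
          have h1 := Rabs j' (by omega)
          have h2 : y (j' / m) ≤ y l := hy (Nat.div_le_div_right (Nat.le_succ j'))
          have h3 : |R (j' + 1)| ≤ 2 * y l + ε := by linarith
          exact sq_le_sq' (by linarith [(abs_le.1 h3).1]) (abs_le.1 h3).2
      have hif : (if j < L then 2 * τ / L else 0) ≤ 2 * τ / L := by
        split_ifs
        · exact le_rfl
        · positivity
      have hlm : ((l * m : ℕ) : ℝ) ≤ j := by exact_mod_cast Nat.div_mul_le_self j m
      have hV : (l * m : ℝ) / n ≤ (2 * (j : ℝ) + 1) / (2 * n) := by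
        rw [div_le_div_iff₀ hnR (by positivity)]
        push_cast at hlm
        nlinarith
      have hnum' := hnum l hlLb
      rw [wsmall j hjN, hzP]
      linarith [hZ.2]
    · have hNj : N ≤ j := not_lt.1 hjN
      have hjL : ¬ j < L := by omega
      rw [wbig j hNj, Rbig (j + 1) (by omega), if_neg hjL]
      have hRj : R j ^ 2 ≤ ε ^ 2 := by
        rcases hNj.eq_or_lt with heq | hlt
        · rw [← heq, RN]
          have h4 := abs_le.1 (hηε (N - 1) (by omega))
          exact sq_le_sq' (by linarith [h4.2]) (by linarith [h4.1])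
        · rw [Rbig j hlt]; simpa using sq_nonneg ε
      nlinarith

end

end Claimed.Agent.R133
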