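/-
Row 133 / S0266, section 5 (T1), part D: probabilities of the four events of `t1_bridge`.
All from `NoiseJ.lean` (`jlin_tail`, `jlin_tail_neg`, `jac_max`) and union bounds.
-/
import Claimed.Agent.R133.T1C

set_option autoImplicit false

namespace Claimed.Agent.R133

open MeasureTheory ProbabilityTheory
open scoped BigOperators NNReal ENNReal

noncomputable section

/-! ### one site -/

theorem t1d_jlin_single {n : ℕ} (v : ℝ) (q : JPar n) (j : ℕ) (hj : j < n) (a c : ℝ) :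
    jlin v (fun i => if i = j then a else 0) (fun i => if i = j then c else 0) q
      = a * ja q j + c * jx v q j := by
  show ∑ i ∈ Finset.range n, ((if i = j then a else 0) * ja q i
      + (if i = j then c else 0) * jx v q i) = _
  rw [Finset.sum_eq_single j]
  · simp
  · intro i _ hij
    simp [hij]
  · intro h
    exact absurd (Finset.mem_range.2 hj) h

theorem t1d_jvar_single (n : ℕ) (v : ℝ) (j : ℕ) (hj : j < n) (a c : ℝ) :
    jvar n v (fun i => if i = j then a else 0) (fun i => if i = j then c else 0)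
      = 2 * v * a ^ 2 + 4 * ((n - 1 - j : ℕ) : ℝ) * v ^ 2 * c ^ 2 := by
  show ∑ i ∈ Finset.range n, (2 * v * (if i = j then a else 0) ^ 2
      + 4 * ((n - 1 - i : ℕ) : ℝ) * v ^ 2 * (if i = j then c else 0) ^ 2) = _
  rw [Finset.sum_eq_single j]
  · simp
  · intro i _ hij
    simp [hij]
  · intro h
    exact absurd (Finset.mem_range.2 hj) h

theorem t1d_hΛ (n : ℕ) (j : ℕ) (c Λ : ℝ) (hΛ : |c| * Λ ≤ n / 4) :
    ∀ i < n, |(fun i => if i = j then c else 0) i| * Λ ≤ 1 / (4 * ((vn n : ℝ≥0) : ℝ)) := by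
  intro i _
  have e : 1 / (4 * ((vn n : ℝ≥0) : ℝ)) = n / 4 := by
    rw [vn_coe]
    by_cases hn : (n : ℝ) = 0
    · simp [hn]
    · field_simp
  rw [e]
  by_cases hij : i = j
  · simpa [hij] using hΛ
  · simp only [if_neg hij, abs_zero, zero_mul]
    positivity

/-- upper tail of `a * a_j + c * x_j` -/
theorem t1d_site_tail (n : ℕ) (j : ℕ) (hj : j < n) (a c Λ s x : ℝ)
    (hΛ : |c| * Λ ≤ n / 4)
    (hs : 2 * (1 / (n : ℝ)) * a ^ 2 + 4 * ((n - 1 - j : ℕ) : ℝ) * (1 / (n : ℝ)) ^ 2 * c ^ 2 ≤ s)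
    (hs0 : 0 < s) (hx : 0 ≤ x) (hxΛ : x ≤ s * Λ) :
    jacLaw (vn n) n {q | x ≤ a * ja q j + c * jx (vn n) q j} ≤ eexp (-(x ^ 2 / (2 * s))) := by
  have h := jlin_tail (vn n) n (fun i => if i = j then a else 0) (fun i => if i = j then c else 0)
    Λ s x (t1d_hΛ n j c Λ hΛ) (by rw [t1d_jvar_single n _ j hj, vn_coe]; exact hs) hs0 hx hxΛ
  simpa only [t1d_jlin_single _ _ j hj] using h

/-- lower tail of `a * a_j + c * x_j` -/
theorem t1d_site_tail_neg (n : ℕ) (j : ℕ) (hj : j < n) (a c Λ s x : ℝ)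
    (hΛ : |c| * Λ ≤ n / 4)
    (hs : 2 * (1 / (n : ℝ)) * a ^ 2 + 4 * ((n - 1 - j : ℕ) : ℝ) * (1 / (n : ℝ)) ^ 2 * c ^ 2 ≤ s)
    (hs0 : 0 < s) (hx : 0 ≤ x) (hxΛ : x ≤ s * Λ) :
    jacLaw (vn n) n {q | a * ja q j + c * jx (vn n) q j ≤ -x} ≤ eexp (-(x ^ 2 / (2 * s))) := by
  have h := jlin_tail_neg (vn n) n (fun i => if i = j then a else 0)
    (fun i => if i = j then c else 0)
    Λ s x (t1d_hΛ n j c Λ hΛ) (by rw [t1d_jvar_single n _ j hj, vn_coe]; exact hs) hs0 hx hxΛ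
  simpa only [t1d_jlin_single _ _ j hj] using h

/-- two-sided tail of `a * a_j + c * x_j` -/
theorem t1d_site_tail_abs (n : ℕ) (j : ℕ) (hj : j < n) (a c Λ s x : ℝ)
    (hΛ : |c| * Λ ≤ n / 4)
    (hs : 2 * (1 / (n : ℝ)) * a ^ 2 + 4 * ((n - 1 - j : ℕ) : ℝ) * (1 / (n : ℝ)) ^ 2 * c ^ 2 ≤ s)
    (hs0 : 0 < s) (hx : 0 ≤ x) (hxΛ : x ≤ s * Λ) :
    jacLaw (vn n) n {q | x ≤ |a * ja q j + c * jx (vn n) q j|}
      ≤ 2 * eexp (-(x ^ 2 / (2 * s))) := by
  have hsub : {q : JPar n | x ≤ |a * ja q j + c * jx (vn n) q j|}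
      ⊆ {q | x ≤ a * ja q j + c * jx (vn n) q j} ∪ {q | a * ja q j + c * jx (vn n) q j ≤ -x} := by
    intro q hq
    rcases le_abs'.1 (show x ≤ |a * ja q j + c * jx (vn n) q j| from hq) with h | h
    · exact Or.inr h
    · exact Or.inl h
  calc jacLaw (vn n) n {q | x ≤ |a * ja q j + c * jx (vn n) q j|}
      ≤ jacLaw (vn n) n ({q | x ≤ a * ja q j + c * jx (vn n) q j}
          ∪ {q | a * ja q j + c * jx (vn n) q j ≤ -x}) := measure_mono hsub
    _ ≤ jacLaw (vn n) n {q | x ≤ a * ja q j + c * jx (vn n) q j}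
          + jacLaw (vn n) n {q | a * ja q j + c * jx (vn n) q j ≤ -x} := measure_union_le _ _
    _ ≤ eexp (-(x ^ 2 / (2 * s))) + eexp (-(x ^ 2 / (2 * s))) :=
        add_le_add (t1d_site_tail n j hj a c Λ s x hΛ hs hs0 hx hxΛ)
          (t1d_site_tail_neg n j hj a c Λ s x hΛ hs hs0 hx hxΛ)
    _ = 2 * eexp (-(x ^ 2 / (2 * s))) := (two_mul _).symm

/-- `β_j² ≥ 1/2` in the first half -/
theorem t1d_bq_sq_ge (n j : ℕ) (hj : 2 * (j + 1) ≤ n) : 1 / 2 ≤ bq n j ^ 2 := by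
  rw [bq_sq]
  have hn : (0 : ℝ) < n := by
    have : 0 < n := by omega
    exact_mod_cast this
  rw [le_div_iff₀ hn]
  have h1 : n ≤ 2 * (n - 1 - j) := by omega
  have h2 : (n : ℝ) ≤ 2 * ((n - 1 - j : ℕ) : ℝ) := by exact_mod_cast h1
  linarith

theorem t1d_bq_pos (n j : ℕ) (hj : 2 * (j + 1) ≤ n) : 0 < bq n j :=
  bq_pos j (by omega)

/-- `β_j ≥ 1/2` in the first half -/
theorem t1d_bq_ge (n j : ℕ) (hj : 2 * (j + 1) ≤ n) : 1 / 2 ≤ bq n j := by
  have h1 := t1d_bq_sq_ge n j hj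
  have h2 := t1d_bq_pos n j hj
  nlinarith

/-- one diagonal entry: `jlin` with `α = 1_{j}`, `γ = 0`, `s = 2/n` -/
theorem t1_ja_tail (n : ℕ) (hn : 0 < n) (j : ℕ) (hj : j < n) (ε : ℝ) (hε : 0 ≤ ε) :
    jacLaw (vn n) n {q | ε ≤ |ja q j|} ≤ 2 * eexp (-(ε ^ 2 * n / 4)) := by
  have hn' : (0 : ℝ) < n := by exact_mod_cast hn
  have h := t1d_site_tail_abs n j hj 1 0 (ε * n / 2) (2 / n) ε (by simp; positivity)
    (by simp; exact le_of_eq (by ring)) (by positivity) hε (le_of_eq (by field_simp))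
  have e : ε ^ 2 / (2 * (2 / (n : ℝ))) = ε ^ 2 * n / 4 := by field_simp; ring
  rw [e] at h
  simpa using h

/-- one `η_j`: `jlin` with `α = 0`, `γ = 1_{j}/(2β_j)`, `s = 1/n`, `Λ = n β_j / 2` -/
theorem t1_jeta_tail (n : ℕ) (j : ℕ) (hj : 2 * (j + 1) ≤ n) (ε : ℝ) (hε : 0 ≤ ε)
    (hε' : ε ≤ 1 / 4) :
    jacLaw (vn n) n {q | ε ≤ |jeta q j|} ≤ 2 * eexp (-(ε ^ 2 * n / 2)) := by
  have hn : 0 < n := by omega
  have hn' : (0 : ℝ) < n := by exact_mod_cast hn
  have hβ := t1d_bq_pos n j hj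
  have hβ2 := t1d_bq_ge n j hj
  have hsq : bq n j ^ 2 = ((n - 1 - j : ℕ) : ℝ) / n := bq_sq j
  have h := t1d_site_tail_abs n j (by omega) 0 (1 / (2 * bq n j)) (n * bq n j / 2) (1 / n) ε
    (by
      rw [abs_of_pos (by positivity)]
      exact le_of_eq (by field_simp; ring))
    (by
      have hk : ((n - 1 - j : ℕ) : ℝ) = bq n j ^ 2 * n := by rw [hsq]; field_simp
      rw [hk]
      exact le_of_eq (by field_simp; ring))
    (by positivity) hε
    (by
      have : 1 / (n : ℝ) * (n * bq n j / 2) = bq n j / 2 := by field_simp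
      rw [this]; linarith)
  have e : ε ^ 2 / (2 * (1 / (n : ℝ))) = ε ^ 2 * n / 2 := by field_simp
  rw [e] at h
  have e2 : ∀ q : JPar n, 0 * ja q j + 1 / (2 * bq n j) * jx (vn n) q j = jeta q j := by
    intro q
    show _ = jx (vn n) q j / (2 * bq n j)
    ring
  simpa only [e2] using h

/-- crude bound in the second half: `jlin` with `γ = 1_{j}`, `s = 4/n`, `Λ = n/4`, `x = 9/100` -/
theorem t1_js_tail (n : ℕ) (hn : 0 < n) (j : ℕ) (hj : j < n) (hj' : 9 * n ≤ 20 * (j + 1)) :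
    jacLaw (vn n) n {q | 16 / 25 < js q j} ≤ eexp (-((n : ℝ) / 1000)) := by
  have hn' : (0 : ℝ) < n := by exact_mod_cast hn
  have hk : ((n - 1 - j : ℕ) : ℝ) ≤ n := by exact_mod_cast (by omega : n - 1 - j ≤ n)
  have hk0 : (0 : ℝ) ≤ ((n - 1 - j : ℕ) : ℝ) := Nat.cast_nonneg _
  have hk2 : 20 * ((n - 1 - j : ℕ) : ℝ) ≤ 11 * n := by
    exact_mod_cast (by omega : 20 * (n - 1 - j) ≤ 11 * n)
  have h := t1d_site_tail n j hj 0 1 (n / 4) (4 / n) (9 / 100)
    (by simp)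
    (by
      have : 2 * (1 / (n : ℝ)) * 0 ^ 2 + 4 * ((n - 1 - j : ℕ) : ℝ) * (1 / (n : ℝ)) ^ 2 * 1 ^ 2
          = 4 / n * (((n - 1 - j : ℕ) : ℝ) / n) := by field_simp; ring
      rw [this]
      have h1 : ((n - 1 - j : ℕ) : ℝ) / n ≤ 1 := (div_le_one hn').2 hk
      have h2 : (0 : ℝ) ≤ 4 / n := by positivity
      nlinarith)
    (by positivity) (by norm_num)
    (by
      have : 4 / (n : ℝ) * (n / 4) = 1 := by field_simp
      rw [this]; norm_num)
  refine le_trans (measure_mono ?_) (le_trans h ?_)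
  · intro q hq
    have hq' : 16 / 25 < js q j := hq
    show 9 / 100 ≤ 0 * ja q j + 1 * jx (vn n) q j
    have e : jx (vn n) q j = js q j - ((n - 1 - j : ℕ) : ℝ) * ((vn n : ℝ≥0) : ℝ) := rfl
    rw [e, vn_coe]
    have h3 : ((n - 1 - j : ℕ) : ℝ) * (1 / n) ≤ 11 / 20 := by
      rw [mul_one_div, div_le_iff₀ hn']
      linarith
    linarith
  · rw [eexp_le_eexp]
    have e : ((9 : ℝ) / 100) ^ 2 / (2 * (4 / (n : ℝ))) = 81 / 80000 * n := by field_simp; ring
    rw [e]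
    linarith

/-- one block: `jac_max` with `α = 1`, `γ_j = 1/β_j` for `j < m Lb` (else `0`), `s = 6m/n`,
`Λ = n/8`, `x = y/3` -/
theorem t1_block_tail (n m Lb l : ℕ) (hm : 0 < m) (hN : 2 * (m * Lb) ≤ n) (hl : l < Lb)
    (y : ℝ) (hy0 : 0 ≤ y) (hy : y ≤ 9 * m / 4) :
    jacLaw (vn n) n {q | ¬ ∀ i, i ≤ m → |bS (jX q) m l i| ≤ y}
      ≤ 4 * eexp (-(y ^ 2 * n / (108 * m))) := by
  have hlm : l * m + m ≤ m * Lb := by
    calc l * m + m = m * (l + 1) := by ring
      _ ≤ m * Lb := Nat.mul_le_mul_left _ hl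
  have hn : 0 < n := by omega
  have hn' : (0 : ℝ) < n := by exact_mod_cast hn
  have hm' : (0 : ℝ) < m := by exact_mod_cast hm
  have e4 : 1 / (4 * ((vn n : ℝ≥0) : ℝ)) = n / 4 := by
    rw [vn_coe]; field_simp
  have h := jac_max (vn n) n (fun _ => 1) (fun j => if j < m * Lb then 1 / bq n j else 0)
    (n / 8) (6 * m / n) (y / 3) (l * m) m (by omega)
    (by
      intro j _
      rw [e4]
      by_cases hj : j < m * Lb
      · have hβ := t1d_bq_ge n j (by omega)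
        have hβ0 := t1d_bq_pos n j (by omega)
        simp only [if_pos hj]
        rw [abs_of_pos (by positivity)]
        have : 1 / bq n j ≤ 2 := by
          rw [div_le_iff₀ hβ0]; linarith
        nlinarith
      · simp only [if_neg hj, abs_zero, zero_mul]
        positivity)
    (by
      have : ∀ t ∈ Finset.range m, jvar1 n (vn n) (fun _ => 1)
          (fun j => if j < m * Lb then 1 / bq n j else 0) (l * m + t) = 6 / n := by
        intro t ht
        have ht' : l * m + t < m * Lb := by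
          have := Finset.mem_range.1 ht; omega
        show 2 * ((vn n : ℝ≥0) : ℝ) * 1 ^ 2 + 4 * ((n - 1 - (l * m + t) : ℕ) : ℝ)
          * ((vn n : ℝ≥0) : ℝ) ^ 2 * (if l * m + t < m * Lb then 1 / bq n (l * m + t) else 0) ^ 2
          = 6 / n
        rw [if_pos ht', vn_coe]
        have hβ0 := t1d_bq_pos n (l * m + t) (by omega)
        have hsq : bq n (l * m + t) ^ 2 = ((n - 1 - (l * m + t) : ℕ) : ℝ) / n := bq_sq _
        have hk : ((n - 1 - (l * m + t) : ℕ) : ℝ) = bq n (l * m + t) ^ 2 * n := by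
          rw [hsq]; field_simp
        rw [hk]
        field_simp
        ring
      rw [Finset.sum_congr rfl this, Finset.sum_const, Finset.card_range, nsmul_eq_mul]
      exact le_of_eq (by ring))
    (by positivity) (by positivity)
    (by
      have : 6 * (m : ℝ) / n * (n / 8) = 3 * m / 4 := by field_simp; ring
      rw [this]; linarith)
  have e : (y / 3) ^ 2 / (2 * (6 * (m : ℝ) / n)) = y ^ 2 * n / (108 * m) := by
    field_simp; ring
  rw [e] at h
  refine le_trans (measure_mono ?_) h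
  intro q hq
  have hq' : ¬ ∀ i, i ≤ m → |bS (jX q) m l i| ≤ y := hq
  push Not at hq'
  obtain ⟨i, hi, hyi⟩ := hq'
  refine ⟨i, hi, ?_⟩
  have e5 : ∑ t ∈ Finset.range i, ((fun _ => (1 : ℝ)) (l * m + t) * ja q (l * m + t)
      + (fun j => if j < m * Lb then 1 / bq n j else 0) (l * m + t) * jx (vn n) q (l * m + t))
      = bS (jX q) m l i := by
    show _ = ∑ t ∈ Finset.range i, jX q (l * m + t)
    refine Finset.sum_congr rfl fun t ht => ?_
    have ht' : l * m + t < m * Lb := by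
      have := Finset.mem_range.1 ht; omega
    show _ = ja q (l * m + t) + jx (vn n) q (l * m + t) / bq n (l * m + t)
    simp only [if_pos ht']
    ring
  rw [e5]
  linarith

/-- UNION BOUND: outside an event of small probability all hypotheses `e0' … e4` of `t1_bridge`
hold. -/
theorem t1_union (n m Lb : ℕ) (ε : ℝ) (y : ℕ → ℝ) (hn : 0 < n) (hm : 0 < m)
    (hN : 2 * (m * Lb) ≤ n) (hN' : 9 * n ≤ 20 * (m * Lb))
    (hε : 0 ≤ ε) (hε' : ε ≤ 1 / 4) (hy0 : ∀ l, 0 ≤ y l) (hy : ∀ l, l < Lb → y l ≤ 9 * m / 4) :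
    jacLaw (vn n) n {q | ¬ ((∀ j, 0 ≤ js q j) ∧ (∀ j, j < n → |ja q j| ≤ ε) ∧
        (∀ j, j < m * Lb → |jeta q j| ≤ ε) ∧
        (∀ j, j < n → m * Lb ≤ j + 1 → js q j ≤ 16 / 25) ∧
        (∀ l, l < Lb → ∀ i, i ≤ m → |bS (jX q) m l i| ≤ y l))}
      ≤ (n : ℝ≥0∞) * (2 * eexp (-(ε ^ 2 * n / 4))) + (n : ℝ≥0∞) * (2 * eexp (-(ε ^ 2 * n / 2)))
        + (n : ℝ≥0∞) * eexp (-((n : ℝ) / 1000))
        + ∑ l ∈ Finset.range Lb, 4 * eexp (-(y l ^ 2 * n / (108 * m))) := by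
  set μ := jacLaw (vn n) n with hμ
  set A0 : Set (JPar n) := {q | ¬ ∀ j, 0 ≤ js q j} with hA0
  set A1 : Set (JPar n) := ⋃ j ∈ Finset.range n, {q | ε ≤ |ja q j|} with hA1
  set A2 : Set (JPar n) := ⋃ j ∈ Finset.range (m * Lb), {q | ε ≤ |jeta q j|} with hA2
  set A3 : Set (JPar n) := ⋃ j ∈ (Finset.range n).filter (fun j => m * Lb ≤ j + 1),
    {q | 16 / 25 < js q j} with hA3
  set A4 : Set (JPar n) := ⋃ l ∈ Finset.range Lb,
    {q | ¬ ∀ i, i ≤ m → |bS (jX q) m l i| ≤ y l} with hA4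
  have h0 : μ A0 = 0 := jacLaw_js_nonneg (vn n) n
  have h1 : μ A1 ≤ (n : ℝ≥0∞) * (2 * eexp (-(ε ^ 2 * n / 4))) := by
    refine le_trans (measure_biUnion_finset_le _ _) ?_
    refine le_trans (Finset.sum_le_card_nsmul _ _ (2 * eexp (-(ε ^ 2 * n / 4))) ?_) ?_
    · intro j hj
      exact t1_ja_tail n hn j (Finset.mem_range.1 hj) ε hε
    · rw [Finset.card_range, nsmul_eq_mul]
  have h2 : μ A2 ≤ (n : ℝ≥0∞) * (2 * eexp (-(ε ^ 2 * n / 2))) := by
    refine le_trans (measure_biUnion_finset_le _ _) ?_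
    refine le_trans (Finset.sum_le_card_nsmul _ _ (2 * eexp (-(ε ^ 2 * n / 2))) ?_) ?_
    · intro j hj
      have := Finset.mem_range.1 hj
      exact t1_jeta_tail n j (by omega) ε hε hε'
    · rw [Finset.card_range, nsmul_eq_mul]
      gcongr
      omega
  have h3 : μ A3 ≤ (n : ℝ≥0∞) * eexp (-((n : ℝ) / 1000)) := by
    refine le_trans (measure_biUnion_finset_le _ _) ?_
    refine le_trans (Finset.sum_le_card_nsmul _ _ (eexp (-((n : ℝ) / 1000))) ?_) ?_
    · intro j hj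
      have := Finset.mem_filter.1 hj
      exact t1_js_tail n hn j (Finset.mem_range.1 this.1) (by omega)
    · rw [nsmul_eq_mul]
      gcongr
      calc ((Finset.range n).filter (fun j => m * Lb ≤ j + 1)).card ≤ (Finset.range n).card :=
            Finset.card_filter_le _ _
        _ = n := Finset.card_range n
  have h4 : μ A4 ≤ ∑ l ∈ Finset.range Lb, 4 * eexp (-(y l ^ 2 * n / (108 * m))) := by
    refine le_trans (measure_biUnion_finset_le _ _) ?_
    refine Finset.sum_le_sum fun l hl => ?_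
    have := Finset.mem_range.1 hl
    exact t1_block_tail n m Lb l hm hN this (y l) (hy0 l) (hy l this)
  have hsub : {q : JPar n | ¬ ((∀ j, 0 ≤ js q j) ∧ (∀ j, j < n → |ja q j| ≤ ε) ∧
        (∀ j, j < m * Lb → |jeta q j| ≤ ε) ∧
        (∀ j, j < n → m * Lb ≤ j + 1 → js q j ≤ 16 / 25) ∧
        (∀ l, l < Lb → ∀ i, i ≤ m → |bS (jX q) m l i| ≤ y l))}
      ⊆ A0 ∪ A1 ∪ A2 ∪ A3 ∪ A4 := by
    intro q hq
    by_contra hc
    simp only [Set.mem_union, not_or] at hc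
    obtain ⟨⟨⟨⟨c0, c1⟩, c2⟩, c3⟩, c4⟩ := hc
    apply hq
    refine ⟨not_not.1 c0, ?_, ?_, ?_, ?_⟩
    · intro j hj
      by_contra hh
      apply c1
      simp only [hA1, Set.mem_iUnion]
      exact ⟨j, Finset.mem_range.2 hj, le_of_lt (not_le.1 hh)⟩
    · intro j hj
      by_contra hh
      apply c2
      simp only [hA2, Set.mem_iUnion]
      exact ⟨j, Finset.mem_range.2 hj, le_of_lt (not_le.1 hh)⟩
    · intro j hj hj2
      by_contra hh
      apply c3
      simp only [hA3, Set.mem_iUnion]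
      exact ⟨j, Finset.mem_filter.2 ⟨Finset.mem_range.2 hj, hj2⟩, not_le.1 hh⟩
    · intro l hl
      by_contra hh
      apply c4
      simp only [hA4, Set.mem_iUnion]
      exact ⟨l, Finset.mem_range.2 hl, hh⟩
  calc μ _ ≤ μ (A0 ∪ A1 ∪ A2 ∪ A3 ∪ A4) := measure_mono hsub
    _ ≤ μ A0 + μ A1 + μ A2 + μ A3 + μ A4 := by
        refine le_trans (measure_union_le _ _) (add_le_add_left ?_ _)
        refine le_trans (measure_union_le _ _) (add_le_add_left ?_ _)
        refine le_trans (measure_union_le _ _) (add_le_add_left ?_ _)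
        exact measure_union_le _ _
    _ ≤ _ := by
        rw [h0, zero_add]
        exact add_le_add (add_le_add (add_le_add h1 h2) h3) h4

end

end Claimed.Agent.R133
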