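/-
Row 133 / S0266, section 5 (T1), part E: choice of the parameters, asymptotics, final statement.
`m = ⌈n^{1/3}⌉`, `Lb = n/(2m)`, `L = ⌊n^{1/3}/(16c)⌋`, `τ = c n^{-1/3}`, `ε = n^{-2/5}`,
`y_l = √((K+l) n^{-2/3}/128)`.
-/
import Claimed.Agent.R133.T1D

set_option autoImplicit false

namespace Claimed.Agent.R133

open MeasureTheory ProbabilityTheory Filter Topology
open scoped BigOperators NNReal ENNReal Matrix

noncomputable section

def t1m (n : ℕ) : ℕ := ⌈npow n (1 / 3)⌉₊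

def t1Lb (n : ℕ) : ℕ := n / (2 * t1m n)

def t1L (c : ℝ) (n : ℕ) : ℕ := ⌊npow n (1 / 3) / (16 * c)⌋₊

def t1y (K : ℝ) (n : ℕ) (l : ℕ) : ℝ := Real.sqrt ((K + l) * npow n (-(2 / 3)) / 128)

/-- relations between the powers of `n` used below, in terms of `x = n^{1/3}` -/
theorem t1e_x {n : ℕ} (hn : 0 < n) :
    0 < npow n (1 / 3) ∧ npow n (1 / 3) ^ 3 = n ∧ npow n (2 / 3) = npow n (1 / 3) ^ 2 ∧
    npow n (-(1 / 3)) = (npow n (1 / 3))⁻¹ ∧ npow n (-(2 / 3)) = (npow n (1 / 3) ^ 2)⁻¹ := by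
  have hx : 0 < npow n (1 / 3) := npow_pos hn _
  have h2 : npow n (2 / 3) = npow n (1 / 3) ^ 2 := by
    rw [show (2 / 3 : ℝ) = 1 / 3 + 1 / 3 by norm_num, npow_add hn, sq]
  have h3 : npow n (1 / 3) ^ 3 = n := by
    have : npow n (1 : ℝ) = npow n (2 / 3) * npow n (1 / 3) := by
      rw [← npow_add hn]; norm_num
    rw [npow_one, h2] at this
    rw [this]; ring
  have h0 : npow n 0 = 1 := Real.rpow_zero _
  have h4 : npow n (-(1 / 3)) = (npow n (1 / 3))⁻¹ := by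
    refine eq_inv_of_mul_eq_one_left ?_
    rw [← npow_add hn, ← h0]; norm_num
  have h5 : npow n (-(2 / 3)) = (npow n (1 / 3) ^ 2)⁻¹ := by
    refine eq_inv_of_mul_eq_one_left ?_
    rw [← h2, ← npow_add hn, ← h0]; norm_num
  exact ⟨hx, h3, h2, h4, h5⟩

theorem t1e_sq (y e : ℝ) : 4 * (2 * y + e) ^ 2 ≤ 32 * y ^ 2 + 8 * e ^ 2 := by
  nlinarith [sq_nonneg (2 * y - e)]

/-- eventually `n^{1/3} ≥ A` -/
theorem t1e_large (A : ℝ) : ∀ᶠ n : ℕ in atTop, 0 < n ∧ A ≤ npow n (1 / 3) := by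
  have h := (tendsto_npow_pos (a := 1 / 3) (by norm_num)).eventually_ge_atTop A
  filter_upwards [h, eventually_gt_atTop 0] with n h1 h2
  exact ⟨h2, h1⟩

/-- size of the blocks -/
theorem t1m_facts : ∀ᶠ n : ℕ in atTop,
    0 < t1m n ∧ npow n (1 / 3) ≤ t1m n ∧ (t1m n : ℝ) ≤ 2 * npow n (1 / 3) ∧
    2 * (t1m n * t1Lb n) ≤ n ∧ 9 * n ≤ 20 * (t1m n * t1Lb n) ∧
    (t1Lb n : ℝ) ≤ npow n (2 / 3) := by
  filter_upwards [t1e_large 7] with n hn
  obtain ⟨hn0, hx7⟩ := hn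
  obtain ⟨hx, hx3, hx2, -, -⟩ := t1e_x hn0
  set x := npow n (1 / 3) with hxdef
  have hm0 : 0 < t1m n := Nat.ceil_pos.mpr hx
  have hm1 : x ≤ t1m n := Nat.le_ceil x
  have hm2 : (t1m n : ℝ) ≤ 2 * x := by
    have := Nat.ceil_lt_add_one hx.le
    have h' : (t1m n : ℝ) < x + 1 := this
    linarith
  have h2m : 0 < 2 * t1m n := by omega
  have hA : 2 * (t1m n * t1Lb n) ≤ n := by
    have := Nat.mul_div_le n (2 * t1m n)
    have e : 2 * (t1m n * t1Lb n) = 2 * t1m n * (n / (2 * t1m n)) := by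
      unfold t1Lb; ring
    rw [e]; exact this
  have h20 : 20 * t1m n ≤ n := by
    have : (20 * t1m n : ℝ) ≤ n := by
      rw [← hx3]
      nlinarith [mul_pos hx hx]
    exact_mod_cast this
  have hB : 9 * n ≤ 20 * (t1m n * t1Lb n) := by
    have h1 := Nat.div_add_mod n (2 * t1m n)
    have h2 := Nat.mod_lt n h2m
    have e : 2 * t1m n * (n / (2 * t1m n)) = 2 * (t1m n * t1Lb n) := by
      unfold t1Lb; ring
    rw [e] at h1
    omega
  have hC : (t1Lb n : ℝ) ≤ npow n (2 / 3) := by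
    rw [hx2]
    have hmpos : (0 : ℝ) < t1m n := by exact_mod_cast hm0
    have h1 : (2 * (t1m n * t1Lb n) : ℝ) ≤ n := by exact_mod_cast hA
    rw [← hx3] at h1
    have hLb : (0 : ℝ) ≤ t1Lb n := Nat.cast_nonneg _
    have h2 : x * (t1Lb n : ℝ) ≤ t1m n * t1Lb n := mul_le_mul_of_nonneg_right hm1 hLb
    have h3 : x * (t1Lb n : ℝ) ≤ x * x ^ 2 := by nlinarith
    exact le_of_mul_le_mul_left h3 hx
  exact ⟨hm0, hm1, hm2, hA, hB, hC⟩

/-- the spike parameters -/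
theorem t1L_facts (c : ℝ) (hc : 0 < c) : ∀ᶠ n : ℕ in atTop,
    0 < t1L c n ∧ t1L c n ≤ t1m n * t1Lb n ∧
    c * npow n (-(1 / 3)) * (2 * t1L c n) ≤ 1 / 8 ∧
    2 * (c * npow n (-(1 / 3))) / t1L c n ≤ 64 * c ^ 2 * npow n (-(2 / 3)) := by
  filter_upwards [t1e_large (max (32 * c) (max 1 (1 / c))), t1m_facts] with n hn hm
  obtain ⟨hn0, hxA⟩ := hn
  obtain ⟨hx, hx3, hx2, hxi, hxi2⟩ := t1e_x hn0
  obtain ⟨-, -, -, -, hB, -⟩ := hm
  set x := npow n (1 / 3) with hxdef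
  have hx32 : 32 * c ≤ x := (le_max_left _ _).trans hxA
  have hx1 : 1 ≤ x := ((le_max_left _ _).trans (le_max_right _ _)).trans hxA
  have hxc : 1 / c ≤ x := ((le_max_right _ _).trans (le_max_right _ _)).trans hxA
  have h16 : (0 : ℝ) < 16 * c := by positivity
  set w := x / (16 * c) with hw
  have hw2 : 2 ≤ w := by
    rw [hw, le_div_iff₀ h16]; linarith
  have hw0 : 0 ≤ w := by linarith
  have hL0 : 0 < t1L c n := Nat.floor_pos.mpr (by linarith)
  have hLle : (t1L c n : ℝ) ≤ w := Nat.floor_le hw0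
  have hLge : w / 2 ≤ (t1L c n : ℝ) := by
    have : w < (t1L c n : ℝ) + 1 := Nat.lt_floor_add_one w
    linarith
  have hLpos : (0 : ℝ) < t1L c n := by exact_mod_cast hL0
  have hwx : w * (16 * c) = x := by
    rw [hw]; field_simp
  refine ⟨hL0, ?_, ?_, ?_⟩
  · have hB' : (9 * n : ℝ) ≤ 20 * (t1m n * t1Lb n) := by exact_mod_cast hB
    have h1 : w ≤ x ^ 3 * (9 / 20) := by
      have hcx : 1 ≤ c * x := by
        have := (div_le_iff₀ hc).mp hxc
        linarith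
      have h2 : w * (16 * c) ≤ x ^ 3 * (9 / 20) * (16 * c) := by
        rw [hwx]
        have : x * 1 ≤ x * (x * (c * x) * (9 / 20 * 16)) := by
          refine mul_le_mul_of_nonneg_left ?_ hx.le
          nlinarith
        nlinarith
      exact le_of_mul_le_mul_right h2 h16
    have h3 : (t1L c n : ℝ) ≤ ((t1m n * t1Lb n : ℕ) : ℝ) := by
      push_cast
      rw [← hx3] at hB'
      linarith
    exact_mod_cast h3
  · rw [hxi]
    have h1 : c * x⁻¹ * (2 * (t1L c n : ℝ)) ≤ c * x⁻¹ * (2 * w) := by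
      have : 0 ≤ c * x⁻¹ := by positivity
      exact mul_le_mul_of_nonneg_left (by linarith) this
    have h2 : c * x⁻¹ * (2 * w) = 1 / 8 := by
      rw [hw]; field_simp; norm_num
    linarith
  · rw [hxi, hxi2, div_le_iff₀ hLpos]
    have h1 : 64 * c ^ 2 * (x ^ 2)⁻¹ * (w / 2) ≤ 64 * c ^ 2 * (x ^ 2)⁻¹ * (t1L c n : ℝ) := by
      have : 0 ≤ 64 * c ^ 2 * (x ^ 2)⁻¹ := by positivity
      exact mul_le_mul_of_nonneg_left hLge this
    have h2 : 64 * c ^ 2 * (x ^ 2)⁻¹ * (w / 2) = 2 * (c * x⁻¹) := by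
      rw [hw]; field_simp; norm_num
    linarith

theorem t1y_mono (K : ℝ) (n : ℕ) : Monotone (t1y K n) := by
  intro l l' h
  unfold t1y
  refine Real.sqrt_le_sqrt ?_
  have hu : 0 ≤ npow n (-(2 / 3)) := Real.rpow_nonneg (Nat.cast_nonneg _) _
  have hl : (l : ℝ) ≤ l' := by exact_mod_cast h
  have : (K + l) * npow n (-(2 / 3)) ≤ (K + l') * npow n (-(2 / 3)) :=
    mul_le_mul_of_nonneg_right (by linarith) hu
  linarith

/-- the numerical hypothesis `hnum` of `t1_bridge` -/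
theorem t1_hnum (K c : ℝ) (hc : 0 < c) (hK1 : 1 ≤ K) (hK : 256 * c ^ 2 ≤ K) :
    ∀ᶠ n : ℕ in atTop, ∀ l, l < t1Lb n →
      t1y K n l / t1m n + 4 * (2 * t1y K n l + npow n (-(2 / 5))) ^ 2
        + 2 * (c * npow n (-(1 / 3))) / t1L c n
      < K * npow n (-(2 / 3)) + (l * t1m n : ℝ) / n := by
  have h64 := (tendsto_npow_pos (a := 2 / 15) (by norm_num)).eventually_ge_atTop 64
  filter_upwards [t1e_large 1, t1m_facts, t1L_facts c hc, h64] with n hn hm hL h64 l _hl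
  obtain ⟨hn0, hx1⟩ := hn
  obtain ⟨hx, hx3, hx2, hxi, hxi2⟩ := t1e_x hn0
  obtain ⟨hm0, hm1, -, -, -, -⟩ := hm
  obtain ⟨-, -, -, hL4⟩ := hL
  set x := npow n (1 / 3) with hxdef
  set u := npow n (-(2 / 3)) with hu
  have hupos : 0 < u := npow_pos hn0 _
  set V := (K + l) * u with hV
  have hl0 : (0 : ℝ) ≤ l := Nat.cast_nonneg _
  have huV : u ≤ V := by
    rw [hV]; nlinarith
  have hVpos : 0 < V := lt_of_lt_of_le hupos huV
  set y := t1y K n l with hy
  have hy0 : 0 ≤ y := Real.sqrt_nonneg _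
  have hy2 : y ^ 2 = V / 128 := by
    rw [hy]; unfold t1y
    exact Real.sq_sqrt (by positivity)
  have hmpos : (0 : ℝ) < t1m n := by exact_mod_cast hm0
  have hnpos : (0 : ℝ) < n := by exact_mod_cast hn0
  clear_value y V u x
  -- right hand side
  have hR : V ≤ K * u + (l * t1m n : ℝ) / n := by
    have h1 : u ≤ (t1m n : ℝ) / n := by
      rw [le_div_iff₀ hnpos, hxi2, ← hx3]
      have : (x ^ 2)⁻¹ * x ^ 3 = x := by field_simp
      rw [this]; exact hm1
    have h2 : (l : ℝ) * u ≤ l * ((t1m n : ℝ) / n) := mul_le_mul_of_nonneg_left h1 hl0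
    have h3 : (l * t1m n : ℝ) / n = l * ((t1m n : ℝ) / n) := by ring
    rw [h3, hV]; linarith
  -- (i)
  have hi : y / t1m n ≤ V / 8 := by
    have h1 : y / t1m n ≤ y / x := div_le_div_of_nonneg_left hy0 hx hm1
    have h2 : (y / x) ^ 2 ≤ (V / 8) ^ 2 := by
      rw [div_pow, hy2]
      have : V / 128 / x ^ 2 = V * u / 128 := by
        rw [hxi2]; field_simp
      rw [this]
      nlinarith
    have h3 : y / x ≤ V / 8 :=
      (pow_le_pow_iff_left₀ (by positivity) (by positivity) (two_ne_zero)).mp h2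
    linarith
  -- (ii)
  have hε : 64 * npow n (-(2 / 5)) ^ 2 ≤ u := by
    have e1 : npow n (-(2 / 5)) ^ 2 = npow n (-(4 / 5)) := by
      rw [sq, ← npow_add hn0]; norm_num
    have e2 : u = npow n (-(4 / 5)) * npow n (2 / 15) := by
      rw [hu, ← npow_add hn0]; norm_num
    rw [e1, e2]
    have : 0 < npow n (-(4 / 5)) := npow_pos hn0 _
    nlinarith
  have hii : 4 * (2 * y + npow n (-(2 / 5))) ^ 2 ≤ V / 4 + V / 8 := by
    have h1 := t1e_sq y (npow n (-(2 / 5)))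
    rw [hy2] at h1
    linarith
  -- (iii)
  have hiii : 2 * (c * npow n (-(1 / 3))) / t1L c n ≤ V / 4 := by
    have h1 : 64 * c ^ 2 * u ≤ K * u / 4 := by nlinarith
    have h2 : K * u ≤ V := by
      rw [hV]; nlinarith
    linarith
  linarith

theorem t1y_le (K : ℝ) (hK : 0 ≤ K) : ∀ᶠ n : ℕ in atTop, ∀ l, l < t1Lb n →
    t1y K n l ≤ 9 * t1m n / 4 := by
  filter_upwards [t1e_large (max 1 K), t1m_facts] with n hn hm l hl
  obtain ⟨hn0, hxA⟩ := hn
  obtain ⟨hx, hx3, hx2, hxi, hxi2⟩ := t1e_x hn0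
  obtain ⟨hm0, -, -, -, -, hLb⟩ := hm
  set x := npow n (1 / 3) with hxdef
  have hx1 : 1 ≤ x := (le_max_left _ _).trans hxA
  have hxK : K ≤ x := (le_max_right _ _).trans hxA
  have hl' : (l : ℝ) ≤ x ^ 2 := by
    have : (l : ℝ) ≤ t1Lb n := by exact_mod_cast hl.le
    rw [hx2] at hLb
    linarith
  have h1 : t1y K n l ≤ 1 := by
    unfold t1y
    refine Real.sqrt_le_one.mpr ?_
    rw [hxi2]
    have hx2pos : 0 < x ^ 2 := by positivity
    rw [div_le_iff₀ (by norm_num : (0 : ℝ) < 128), ← div_eq_mul_inv, div_le_iff₀ hx2pos]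
    nlinarith
  have hm1 : (1 : ℝ) ≤ t1m n := by exact_mod_cast hm0
  linarith

/-- the block probabilities are summable, uniformly in `n`, and small for `K` large -/
theorem t1_block_sum (K : ℝ) (hK : 0 ≤ K) : ∀ᶠ n : ℕ in atTop,
    ∑ l ∈ Finset.range (t1Lb n), 4 * eexp (-(t1y K n l ^ 2 * n / (108 * t1m n)))
      ≤ ENNReal.ofReal (4 * Real.exp (-(K / 27648)) / (1 - Real.exp (-(1 / 27648)))) := by
  filter_upwards [t1m_facts, eventually_gt_atTop 0] with n hm hn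
  obtain ⟨hm0, _, hm2, _, _, _⟩ := hm
  have hnR : (0:ℝ) < n := by exact_mod_cast hn
  have hmR : (0:ℝ) < t1m n := by exact_mod_cast hm0
  set r : ℝ := Real.exp (-(1 / 27648)) with hr
  have hr0 : 0 < r := Real.exp_pos _
  have hr1 : r < 1 := by
    rw [hr, Real.exp_lt_one_iff]
    norm_num
  have hnp : npow n (-(2 / 3)) * n = npow n (1 / 3) := by
    unfold npow
    have : ((n:ℝ) ^ (-(2 / 3) : ℝ)) * n = (n:ℝ) ^ (-(2 / 3) : ℝ) * (n:ℝ) ^ (1:ℝ) := by
      rw [Real.rpow_one]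
    rw [this, ← Real.rpow_add hnR]
    norm_num
  have hp : 0 < npow n (1 / 3) := Real.rpow_pos_of_pos hnR _
  have hterm : ∀ l ∈ Finset.range (t1Lb n),
      4 * eexp (-(t1y K n l ^ 2 * n / (108 * t1m n)))
        ≤ ENNReal.ofReal (4 * Real.exp (-(K / 27648)) * r ^ l) := by
    intro l _
    have hl : (0:ℝ) ≤ l := Nat.cast_nonneg l
    have hy2 : t1y K n l ^ 2 = (K + l) * npow n (-(2 / 3)) / 128 := by
      unfold t1y
      rw [Real.sq_sqrt]
      have : 0 ≤ npow n (-(2 / 3)) := Real.rpow_nonneg hnR.le _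
      positivity
    have h1 : (K + l) / 27648 ≤ t1y K n l ^ 2 * n / (108 * t1m n) := by
      have e : t1y K n l ^ 2 * n = (K + l) * npow n (1 / 3) / 128 := by
        rw [hy2, ← hnp]; ring
      rw [e, div_le_div_iff₀ (by norm_num) (by positivity)]
      have : 0 ≤ K + l := by positivity
      nlinarith
    have h2 : Real.exp (-(t1y K n l ^ 2 * n / (108 * t1m n)))
        ≤ Real.exp (-(K / 27648)) * r ^ l := by
      rw [hr, ← Real.exp_nat_mul, ← Real.exp_add]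
      apply Real.exp_le_exp.mpr
      have : -(K / 27648) + (l:ℝ) * -(1 / 27648) = -((K + l) / 27648) := by ring
      rw [this]
      linarith
    unfold eexp
    have h4 : (4 : ℝ≥0∞) = ENNReal.ofReal 4 := by norm_num
    rw [h4, ← ENNReal.ofReal_mul (by norm_num)]
    apply ENNReal.ofReal_le_ofReal
    linarith
  refine (Finset.sum_le_sum hterm).trans ?_
  rw [← ENNReal.ofReal_sum_of_nonneg (fun l _ => by positivity)]
  apply ENNReal.ofReal_le_ofReal
  rw [← Finset.mul_sum, div_eq_mul_inv]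
  apply mul_le_mul_of_nonneg_left _ (by positivity)
  rw [← tsum_geometric_of_lt_one hr0.le hr1]
  exact (summable_geometric_of_lt_one hr0.le hr1).sum_le_tsum _ (fun _ _ => by positivity)

theorem t1_err_aux1 : Tendsto (fun n : ℕ => (n:ℝ) * Real.exp (-((n:ℝ) / 1000))) atTop (𝓝 0) := by
  have h := Real.tendsto_pow_mul_exp_neg_atTop_nhds_zero 1
  have h1 : Tendsto (fun n : ℕ => (n:ℝ) / 1000) atTop atTop :=
    tendsto_natCast_atTop_atTop.atTop_div_const (by norm_num)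
  have h2 := (h.comp h1).const_mul 1000
  simp only [mul_zero] at h2
  refine h2.congr (fun n => ?_)
  simp only [Function.comp, pow_one]
  ring

theorem t1_err_aux2 :
    Tendsto (fun n : ℕ => (n:ℝ) * Real.exp (-(npow n (1 / 5) / 4))) atTop (𝓝 0) := by
  have h := Real.tendsto_pow_mul_exp_neg_atTop_nhds_zero 5
  have h0 : Tendsto (fun n : ℕ => npow n (1 / 5)) atTop atTop :=
    (tendsto_rpow_atTop (by norm_num : (0:ℝ) < 1 / 5)).comp tendsto_natCast_atTop_atTop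
  have h1 : Tendsto (fun n : ℕ => npow n (1 / 5) / 4) atTop atTop :=
    h0.atTop_div_const (by norm_num)
  have h2 := (h.comp h1).const_mul 1024
  simp only [mul_zero] at h2
  refine h2.congr (fun n => ?_)
  simp only [Function.comp]
  have e : npow n (1 / 5) ^ 5 = n := by
    unfold npow
    rw [← Real.rpow_natCast, ← Real.rpow_mul (Nat.cast_nonneg n)]
    norm_num
  have e2 : (npow n (1 / 5) / 4) ^ 5 = n / 1024 := by
    rw [div_pow, e]; norm_num
  rw [e2]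
  ring

/-- the three other error terms tend to zero -/
theorem t1_err_small (η : ℝ) (hη : 0 < η) : ∀ᶠ n : ℕ in atTop,
    (n : ℝ≥0∞) * (2 * eexp (-(npow n (-(2 / 5)) ^ 2 * n / 4)))
      + (n : ℝ≥0∞) * (2 * eexp (-(npow n (-(2 / 5)) ^ 2 * n / 2)))
      + (n : ℝ≥0∞) * eexp (-((n : ℝ) / 1000)) ≤ ENNReal.ofReal η := by
  have h1 := (t1_err_aux1.eventually (gt_mem_nhds (by positivity : (0:ℝ) < η / 5)))
  have h2 := (t1_err_aux2.eventually (gt_mem_nhds (by positivity : (0:ℝ) < η / 5)))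
  filter_upwards [h1, h2, eventually_gt_atTop 0] with n h1 h2 hn
  have hnR : (0:ℝ) < n := by exact_mod_cast hn
  have e : npow n (-(2 / 5)) ^ 2 * n = npow n (1 / 5) := by
    unfold npow
    rw [← Real.rpow_natCast, ← Real.rpow_mul hnR.le]
    have : ((n:ℝ) ^ (-(2 / 5) * ((2:ℕ):ℝ))) * n
        = (n:ℝ) ^ (-(2 / 5) * ((2:ℕ):ℝ)) * (n:ℝ) ^ (1:ℝ) := by rw [Real.rpow_one]
    rw [this, ← Real.rpow_add hnR]
    norm_num
  rw [e]
  have hp : 0 < npow n (1 / 5) := Real.rpow_pos_of_pos hnR _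
  have h3 : Real.exp (-(npow n (1 / 5) / 2)) ≤ Real.exp (-(npow n (1 / 5) / 4)) :=
    Real.exp_le_exp.mpr (by linarith)
  unfold eexp
  have hn' : (n : ℝ≥0∞) = ENNReal.ofReal n := (ENNReal.ofReal_natCast n).symm
  have h2' : (2 : ℝ≥0∞) = ENNReal.ofReal 2 := by norm_num
  have t1 : ∀ x : ℝ, (n : ℝ≥0∞) * (2 * ENNReal.ofReal (Real.exp x))
      = ENNReal.ofReal (n * (2 * Real.exp x)) := by
    intro x
    rw [hn', h2', ← ENNReal.ofReal_mul (by norm_num : (0:ℝ) ≤ 2), ← ENNReal.ofReal_mul hnR.le]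
  have t2 : ∀ x : ℝ, (n : ℝ≥0∞) * ENNReal.ofReal (Real.exp x)
      = ENNReal.ofReal (n * Real.exp x) := by
    intro x
    rw [hn', ← ENNReal.ofReal_mul hnR.le]
  rw [t1, t1, t2, ← ENNReal.ofReal_add (by positivity) (by positivity),
    ← ENNReal.ofReal_add (by positivity) (by positivity)]
  apply ENNReal.ofReal_le_ofReal
  have h4 := mul_le_mul_of_nonneg_left h3 hnR.le
  linarith

theorem t1_choose_K (η c : ℝ) (hη : 0 < η) : ∃ K : ℝ, 1 ≤ K ∧ 256 * c ^ 2 ≤ K ∧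
    4 * Real.exp (-(K / 27648)) / (1 - Real.exp (-(1 / 27648))) ≤ η / 2 := by
  have h1 : Tendsto (fun K : ℝ => K / 27648) atTop atTop :=
    tendsto_id.atTop_div_const (by norm_num)
  have h2 : Tendsto (fun K : ℝ => Real.exp (-(K / 27648))) atTop (𝓝 0) :=
    Real.tendsto_exp_neg_atTop_nhds_zero.comp h1
  have h3 := (h2.const_mul 4).div_const (1 - Real.exp (-(1 / 27648)))
  simp only [mul_zero, zero_div] at h3
  have h4 := h3.eventually (gt_mem_nhds (by positivity : (0:ℝ) < η / 2))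
  obtain ⟨K, ⟨hK1, hK2⟩, hK3⟩ :=
    (((eventually_ge_atTop (1:ℝ)).and (eventually_ge_atTop (256 * c ^ 2))).and h4).exists
  exact ⟨K, hK1, hK2, hK3.le⟩

/-- (T1) for the Jacobi model, for every large `K` -/
theorem jac_T1_main (η c : ℝ) (hη : 0 < η) (hc : 0 < c) : ∃ K : ℝ, 0 < K ∧ ∀ᶠ n : ℕ in atTop,
    jacLaw (vn n) n
      {q | ¬ Below (jacMat q + spike (1 + c * npow n (-(1 / 3))) (e0 n)) (gam K n)}
      ≤ ENNReal.ofReal η := by
  obtain ⟨K, hK1, hK2, hK3⟩ := t1_choose_K η c hη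
  have hK0 : 0 ≤ K := by linarith
  refine ⟨K, by linarith, ?_⟩
  have hε : ∀ᶠ n : ℕ in atTop, npow n (-(2 / 5)) ≤ 1 / 20 := by
    have h1 : Tendsto (fun n : ℕ => npow n (-(2 / 5))) atTop (𝓝 0) :=
      (tendsto_rpow_neg_atTop (by norm_num : (0:ℝ) < 2 / 5)).comp tendsto_natCast_atTop_atTop
    exact (h1.eventually (gt_mem_nhds (by norm_num : (0:ℝ) < 1 / 20))).mono (fun n h => h.le)
  filter_upwards [t1m_facts, t1L_facts c hc, t1_hnum K c hc hK1 hK2, t1y_le K hK0,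
    t1_block_sum K hK0, t1_err_small (η / 2) (by positivity), hε, eventually_gt_atTop 0]
    with n hm hL hnum hyle hblock herr hε hn
  obtain ⟨hm0, _, _, hN, hN', _⟩ := hm
  obtain ⟨hL0, hLle, hτL, _⟩ := hL
  have hnR : (0:ℝ) < n := by exact_mod_cast hn
  have hε0 : 0 ≤ npow n (-(2 / 5)) := Real.rpow_nonneg hnR.le _
  have hτ0 : 0 ≤ c * npow n (-(1 / 3)) := mul_nonneg hc.le (Real.rpow_nonneg hnR.le _)
  have hsub : {q : JPar n | ¬ Below (jacMat q + spike (1 + c * npow n (-(1 / 3))) (e0 n)) (gam K n)}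
      ⊆ {q | ¬ ((∀ j, 0 ≤ js q j) ∧ (∀ j, j < n → |ja q j| ≤ npow n (-(2 / 5))) ∧
        (∀ j, j < t1m n * t1Lb n → |jeta q j| ≤ npow n (-(2 / 5))) ∧
        (∀ j, j < n → t1m n * t1Lb n ≤ j + 1 → js q j ≤ 16 / 25) ∧
        (∀ l, l < t1Lb n → ∀ i, i ≤ t1m n → |bS (jX q) (t1m n) l i| ≤ t1y K n l))} := by
    intro q hq hall
    obtain ⟨e0', e1, e2, e3, e4⟩ := hall
    exact hq (t1_bridge n (t1m n) (t1Lb n) (t1L c n) K (c * npow n (-(1 / 3))) (npow n (-(2 / 5)))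
      (t1y K n) q hm0 hN hn hL0 hLle hK0 hε0 hε hτ0 hτL (t1y_mono K n) hnum e0' e1 e2 e3 e4)
  refine (measure_mono hsub).trans ?_
  refine (t1_union n (t1m n) (t1Lb n) (npow n (-(2 / 5))) (t1y K n) hn hm0 hN hN' hε0
    (by linarith) (fun l => Real.sqrt_nonneg _) hyle).trans ?_
  calc _ ≤ ENNReal.ofReal (η / 2)
        + ENNReal.ofReal (4 * Real.exp (-(K / 27648)) / (1 - Real.exp (-(1 / 27648)))) :=
        add_le_add herr hblock
    _ ≤ ENNReal.ofReal (η / 2) + ENNReal.ofReal (η / 2) := by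
        gcongr
    _ = ENNReal.ofReal η := by
        rw [← ENNReal.ofReal_add (by positivity) (by positivity)]
        congr 1
        ring

end

end Claimed.Agent.R133
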