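/-
Row 133 / S0266, section 6 (test vectors), part 1: definitions, deterministic lower bound of the
quadratic form, noise and regularity probabilities, the core lemma `tv_core`, geometric test vector
and the spike lemma `tv_spike`.  Blueprint: docs/R133_S0266.md sect.6.
-/
import Claimed.Agent.R133.NoiseJ
import Claimed.Agent.R133.BelowL

set_option autoImplicit false

namespace Claimed.Agent.R133

open MeasureTheory ProbabilityTheory Filter
open scoped BigOperators NNReal ENNReal Matrix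

noncomputable section

/-! ### (formerly `TVDef.lean`)
Row 133 / S0266, section 6 (test vectors): definitions and elementary algebra.
Blueprint: docs/R133_S0266.md sect.6; plan of the module in the header of `TVCore.lean`.
-/

/-- the variance `1/n` of the normalised Jacobi model -/
def tvV (n : ℕ) : ℝ≥0 := (n : ℝ≥0)⁻¹

theorem tvV_coe (n : ℕ) : ((tvV n : ℝ≥0) : ℝ) = (n : ℝ)⁻¹ := by
  simp [tvV]

/-- the vector of `ℝ^n` attached to a sequence -/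
def tvVec (n : ℕ) (w : ℕ → ℝ) : Vec n := fun i => w i.val

/-- `∑ w_j²` -/
def tvW2 (n : ℕ) (w : ℕ → ℝ) : ℝ := ∑ j ∈ Finset.range n, w j ^ 2

/-- `∑ w_j w_{j+1}` -/
def tvCr (n : ℕ) (w : ℕ → ℝ) : ℝ := ∑ j ∈ Finset.range (n - 1), w j * w (j + 1)

/-- `∑ (j+1) w_j w_{j+1}` -/
def tvDr (n : ℕ) (w : ℕ → ℝ) : ℝ :=
  ∑ j ∈ Finset.range (n - 1), ((j : ℝ) + 1) * (w j * w (j + 1))

/-- coefficients of the diagonal noise -/
def tvAl (w : ℕ → ℝ) : ℕ → ℝ := fun j => w j ^ 2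

/-- coefficients of the off-diagonal noise: `w_j w_{j+1} / β_j`, `β_j = √(k_j / n)` -/
def tvGa (n : ℕ) (w : ℕ → ℝ) : ℕ → ℝ := fun j =>
  w j * w (j + 1) / Real.sqrt (((n - 1 - j : ℕ) : ℝ) * (tvV n : ℝ))

/-- regularity event: `|s_j - k_j/n| ≤ y` for `j < m` -/
def tvReg (n m : ℕ) (y : ℝ) : Set (JPar n) := {q | ∀ j < m, |jx (tvV n : ℝ) q j| ≤ y}

theorem tv_nrm2 (n : ℕ) (w : ℕ → ℝ) : nrm2 (tvVec n w) = tvW2 n w := by
  unfold nrm2 tvVec tvW2 dotProduct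
  rw [Fin.sum_univ_eq_sum_range (fun j => w j * w j) n]
  exact Finset.sum_congr rfl fun j _ => (sq (w j)).symm

theorem tv_cr_le (n : ℕ) (w : ℕ → ℝ) : tvCr n w ≤ tvW2 n w := by
  unfold tvCr tvW2
  rcases Nat.eq_zero_or_pos n with rfl | hn
  · simp
  obtain ⟨k, rfl⟩ : ∃ k, n = k + 1 := ⟨n - 1, by omega⟩
  simp only [Nat.add_sub_cancel]
  have h1 : ∑ j ∈ Finset.range k, w j * w (j + 1)
      ≤ ∑ j ∈ Finset.range k, (w j ^ 2 / 2 + w (j + 1) ^ 2 / 2) :=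
    Finset.sum_le_sum fun j _ => by nlinarith [sq_nonneg (w j - w (j + 1))]
  have h2 : ∑ j ∈ Finset.range (k + 1), w j ^ 2 = ∑ j ∈ Finset.range k, w j ^ 2 + w k ^ 2 :=
    Finset.sum_range_succ _ _
  have h3 : ∑ j ∈ Finset.range (k + 1), w j ^ 2 = ∑ j ∈ Finset.range k, w (j + 1) ^ 2 + w 0 ^ 2 :=
    Finset.sum_range_succ' _ _
  rw [Finset.sum_add_distrib, ← Finset.sum_div, ← Finset.sum_div] at h1
  nlinarith [sq_nonneg (w k), sq_nonneg (w 0)]

theorem tv_e0_dot (n : ℕ) (hn : 0 < n) (w : ℕ → ℝ) : e0 n ⬝ᵥ tvVec n w = w 0 := by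
  unfold e0 tvVec dotProduct
  rw [Finset.sum_eq_single (⟨0, hn⟩ : Fin n)]
  · simp
  · intro b _ hb
    have : b.val ≠ 0 := fun h => hb (Fin.ext h)
    simp [this]
  · intro h; exact absurd (Finset.mem_univ _) h

theorem tv_dot_zero (n : ℕ) (u v : ℕ → ℝ) (h1 : ∀ j, u j * v j = 0) :
    tvVec n u ⬝ᵥ tvVec n v = 0 := by
  unfold tvVec dotProduct
  exact Finset.sum_eq_zero fun i _ => h1 i.val

theorem tv_dot_jac_zero (n : ℕ) (q : JPar n) (u v : ℕ → ℝ) (h1 : ∀ j, u j * v j = 0)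
    (h2 : ∀ j, u j * v (j + 1) = 0) (h3 : ∀ j, u (j + 1) * v j = 0) :
    tvVec n u ⬝ᵥ (jacMat q *ᵥ tvVec n v) = 0 := by
  unfold tvVec jacMat
  rw [dot_jacM]
  have e1 : ∑ j ∈ Finset.range n, ja q j * u j * v j = 0 :=
    Finset.sum_eq_zero fun j _ => by rw [mul_assoc, h1, mul_zero]
  have e2 : ∑ j ∈ Finset.range (n - 1), jb q j * (u j * v (j + 1) + u (j + 1) * v j) = 0 :=
    Finset.sum_eq_zero fun j _ => by rw [h2, h3]; simp
  rw [e1, e2, add_zero]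

/-! ### (formerly `TVLow.lean`)
Row 133 / S0266, section 6: deterministic lower bound for the quadratic form of a Jacobi matrix
at a non-negative test vector, on the regularity event.
-/

/-- scalar inequality behind `tv_qf_lower` -/
theorem tv_low_scalar (β x y t : ℝ) (hβ : 0 < β) (hβ2 : β ^ 2 = t) (ht1 : 1 / 2 ≤ t) (ht2 : t ≤ 1)
    (hy0 : 0 ≤ y) (hy : y ≤ 1 / 2) (hx : |x| ≤ y) :
    x / β + 2 * t - 3 * y ^ 2 ≤ 2 * Real.sqrt (β ^ 2 + x) := by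
  have hx1 := abs_le.1 hx
  have h0 : 0 ≤ β ^ 2 + x := by rw [hβ2]; linarith [hx1.1]
  have h1 := sqrt_add_ge β x hβ h0
  have hβ1 : β ≤ 1 := by nlinarith
  have hβt : t ≤ β := by rw [← hβ2]; nlinarith
  have hβ7 : 7 / 10 ≤ β := by nlinarith
  have hβ3 : 1 / 3 ≤ β ^ 3 := by
    have : (7 / 10 : ℝ) ^ 3 ≤ β ^ 3 := pow_le_pow_left₀ (by norm_num) hβ7 3
    linarith [this, (by norm_num : (1 / 3 : ℝ) ≤ (7 / 10) ^ 3)]
  have hx2 : x ^ 2 ≤ y ^ 2 := by
    rw [← sq_abs x]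
    exact pow_le_pow_left₀ (abs_nonneg x) hx 2
  have h2 : x ^ 2 / (2 * β ^ 3) ≤ 3 / 2 * y ^ 2 := by
    rw [div_le_iff₀ (by positivity)]
    nlinarith [sq_nonneg y]
  have h3 : x / (2 * β) = x / β / 2 := by
    field_simp
  rw [h3] at h1
  linarith

/-- DETERMINISTIC lower bound on the regularity event. -/
theorem tv_qf_lower (n m : ℕ) (hn : 0 < n) (hm : 2 * m ≤ n) (w : ℕ → ℝ) (h0 : ∀ j, 0 ≤ w j)
    (hs : ∀ j, m ≤ j → w j = 0) (y : ℝ) (hy0 : 0 ≤ y) (hy : y ≤ 1 / 2) (q : JPar n)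
    (hq : q ∈ tvReg n m y) :
    jlin (tvV n : ℝ) (tvAl w) (tvGa n w) q + 2 * tvCr n w - 2 / n * tvDr n w
        - 3 * y ^ 2 * tvW2 n w ≤ qf (jacMat q) (tvVec n w) := by
  have hnR : (0 : ℝ) < n := by exact_mod_cast hn
  have e1 : qf (jacMat q) (tvVec n w)
      = ∑ j ∈ Finset.range n, ja q j * w j ^ 2
        + 2 * ∑ j ∈ Finset.range (n - 1), jb q j * w j * w (j + 1) :=
    qf_jacM n (ja q) (jb q) w
  have e2 : jlin (tvV n : ℝ) (tvAl w) (tvGa n w) q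
      = ∑ j ∈ Finset.range n, ja q j * w j ^ 2
        + ∑ j ∈ Finset.range (n - 1), tvGa n w j * jx (tvV n : ℝ) q j := by
    unfold jlin
    rw [Finset.sum_add_distrib]
    congr 1
    · exact Finset.sum_congr rfl fun j _ => by simp only [tvAl]; ring
    · obtain ⟨k, rfl⟩ : ∃ k, n = k + 1 := ⟨n - 1, by omega⟩
      rw [Finset.sum_range_succ, Nat.add_sub_cancel]
      have : tvGa (k + 1) w k = 0 := by
        unfold tvGa
        rw [hs (k + 1) (by omega)]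
        simp
      rw [this]
      simp
  have hcr : 3 * y ^ 2 * tvCr n w ≤ 3 * y ^ 2 * tvW2 n w :=
    mul_le_mul_of_nonneg_left (tv_cr_le n w) (by positivity)
  have key : ∑ j ∈ Finset.range (n - 1), tvGa n w j * jx (tvV n : ℝ) q j + 2 * tvCr n w
      - 2 / n * tvDr n w - 3 * y ^ 2 * tvCr n w
      ≤ 2 * ∑ j ∈ Finset.range (n - 1), jb q j * w j * w (j + 1) := by
    unfold tvCr tvDr
    rw [Finset.mul_sum, Finset.mul_sum, Finset.mul_sum, Finset.mul_sum, ← Finset.sum_add_distrib,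
      ← Finset.sum_sub_distrib, ← Finset.sum_sub_distrib]
    refine Finset.sum_le_sum fun j hj => ?_
    have hj1 : j < n - 1 := Finset.mem_range.1 hj
    by_cases hjm : m ≤ j + 1
    · have hw : w (j + 1) = 0 := hs _ hjm
      simp [tvGa, hw]
    · have hjm' : j + 1 < m := by omega
      set β : ℝ := Real.sqrt (((n - 1 - j : ℕ) : ℝ) * (tvV n : ℝ)) with hβdef
      set t : ℝ := 1 - ((j : ℝ) + 1) / n with htdef
      have hk : ((n - 1 - j : ℕ) : ℝ) = (n : ℝ) - 1 - j := by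
        rw [Nat.sub_sub, Nat.cast_sub (by omega)]
        push_cast
        ring
      have hkt : ((n - 1 - j : ℕ) : ℝ) * (tvV n : ℝ) = t := by
        rw [hk, tvV_coe, htdef]
        field_simp
        ring
      have hjn : 2 * ((j : ℝ) + 1) ≤ n := by
        have : 2 * (j + 1) ≤ n := by omega
        exact_mod_cast this
      have ht1 : 1 / 2 ≤ t := by
        rw [htdef]
        have : ((j : ℝ) + 1) / n ≤ 1 / 2 := by
          rw [div_le_iff₀ hnR]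
          linarith
        linarith
      have ht2 : t ≤ 1 := by
        rw [htdef]
        have : 0 ≤ ((j : ℝ) + 1) / n := by positivity
        linarith
      have hβ2 : β ^ 2 = t := by
        rw [hβdef, hkt, Real.sq_sqrt (by linarith)]
      have hβ : 0 < β := by
        rw [hβdef, hkt]
        exact Real.sqrt_pos.2 (by linarith)
      have hx : |jx (tvV n : ℝ) q j| ≤ y := hq j (by omega)
      have hb : jb q j = Real.sqrt (β ^ 2 + jx (tvV n : ℝ) q j) := by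
        unfold jb jx
        rw [hβ2, hkt]
        congr 1
        ring
      have hsc := tv_low_scalar β (jx (tvV n : ℝ) q j) y t hβ hβ2 ht1 ht2 hy0 hy hx
      rw [← hb] at hsc
      have hc : 0 ≤ w j * w (j + 1) := mul_nonneg (h0 _) (h0 _)
      have hga : tvGa n w j = w j * w (j + 1) / β := rfl
      have h5 := mul_le_mul_of_nonneg_right hsc hc
      have e5 : tvGa n w j * jx (tvV n : ℝ) q j + 2 * (w j * w (j + 1))
          - 2 / n * (((j : ℝ) + 1) * (w j * w (j + 1))) - 3 * y ^ 2 * (w j * w (j + 1))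
          = (jx (tvV n : ℝ) q j / β + 2 * t - 3 * y ^ 2) * (w j * w (j + 1)) := by
        rw [hga, htdef]
        field_simp
        ring
      rw [e5]
      calc _ ≤ _ := h5
        _ = _ := by ring
  rw [e1, e2]
  linarith

/-! ### (formerly `TVProb.lean`)
Row 133 / S0266, section 6: the two probability estimates (Chernoff for the linear noise of a test
vector; the regularity event).  Inputs: `NoiseJ.lean`.
-/

/-- `|γ_j| ≤ 3/2` for a test vector supported in `[0,m)`, `2m ≤ n` -/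
theorem tvp_ga_le (n m : ℕ) (hn : 0 < n) (hm : 2 * m ≤ n) (w : ℕ → ℝ) (h0 : ∀ j, 0 ≤ w j)
    (h1 : ∀ j, w j ≤ 1) (hs : ∀ j, m ≤ j → w j = 0) (j : ℕ) : |tvGa n w j| ≤ 3 / 2 := by
  unfold tvGa
  by_cases hj : j + 1 < m
  · have hnR : (0 : ℝ) < n := by exact_mod_cast hn
    have hk : (n : ℝ) / 2 ≤ ((n - 1 - j : ℕ) : ℝ) := by
      have h2 : n ≤ 2 * (n - 1 - j) := by omega
      have h3 : (n : ℝ) ≤ 2 * ((n - 1 - j : ℕ) : ℝ) := by exact_mod_cast h2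
      linarith
    have hkv : (1 : ℝ) / 2 ≤ ((n - 1 - j : ℕ) : ℝ) * (tvV n : ℝ) := by
      rw [tvV_coe, ← div_eq_mul_inv, le_div_iff₀ hnR]
      linarith
    have hsq : (2 : ℝ) / 3 ≤ Real.sqrt (((n - 1 - j : ℕ) : ℝ) * (tvV n : ℝ)) := by
      apply Real.le_sqrt_of_sq_le
      norm_num
      linarith
    have hnum0 : 0 ≤ w j * w (j + 1) := mul_nonneg (h0 _) (h0 _)
    have hnum1 : w j * w (j + 1) ≤ 1 := by
      have := mul_le_mul (h1 j) (h1 (j + 1)) (h0 _) zero_le_one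
      linarith
    have hpos : 0 < Real.sqrt (((n - 1 - j : ℕ) : ℝ) * (tvV n : ℝ)) := by linarith
    rw [abs_of_nonneg (div_nonneg hnum0 hpos.le), div_le_iff₀ hpos]
    linarith
  · have : w (j + 1) = 0 := hs _ (by omega)
    rw [this]
    simp
    norm_num

/-- one-site variance proxy of a test vector -/
theorem tvp_jvar1_le (n : ℕ) (w : ℕ → ℝ) (h0 : ∀ j, 0 ≤ w j)
    (h1 : ∀ j, w j ≤ 1) (j : ℕ) :
    jvar1 n (tvV n : ℝ) (tvAl w) (tvGa n w) j ≤ 6 * (tvV n : ℝ) * w j ^ 2 := by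
  have hv : (0 : ℝ) ≤ (tvV n : ℝ) := (tvV n).2
  have hk : (0 : ℝ) ≤ ((n - 1 - j : ℕ) : ℝ) := Nat.cast_nonneg _
  have hw2 : w j ^ 2 ≤ 1 := pow_le_one₀ (h0 j) (h1 j)
  have hw2' : w (j + 1) ^ 2 ≤ 1 := pow_le_one₀ (h0 _) (h1 _)
  have hA : (w j ^ 2) ^ 2 ≤ w j ^ 2 := by
    have := mul_le_mul_of_nonneg_left hw2 (sq_nonneg (w j))
    nlinarith
  have hB : ((n - 1 - j : ℕ) : ℝ) * (tvV n : ℝ) ^ 2 * tvGa n w j ^ 2 ≤ (tvV n : ℝ) * w j ^ 2 := by
    unfold tvGa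
    rw [div_pow, Real.sq_sqrt (mul_nonneg hk hv)]
    rcases eq_or_lt_of_le (mul_nonneg hk hv) with h | h
    · rw [← h]
      simp
      positivity
    · have e : ((n - 1 - j : ℕ) : ℝ) * (tvV n : ℝ) ^ 2 *
          ((w j * w (j + 1)) ^ 2 / (((n - 1 - j : ℕ) : ℝ) * (tvV n : ℝ)))
          = (tvV n : ℝ) * (w j ^ 2 * w (j + 1) ^ 2) := by
        have hk0 : ((n - 1 - j : ℕ) : ℝ) ≠ 0 := fun h' => by rw [h'] at h; simp at h
        have hv0 : (tvV n : ℝ) ≠ 0 := fun h' => by rw [h'] at h; simp at h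
        field_simp
      rw [e]
      apply mul_le_mul_of_nonneg_left _ hv
      have := mul_le_mul_of_nonneg_left hw2' (sq_nonneg (w j))
      linarith
  unfold jvar1
  have hA' : (tvV n : ℝ) * tvAl w j ^ 2 ≤ (tvV n : ℝ) * w j ^ 2 :=
    mul_le_mul_of_nonneg_left hA hv
  nlinarith

/-- Chernoff bound for the linear noise of a test vector. -/
theorem tv_noise (n m : ℕ) (hn : 0 < n) (hm : 2 * m ≤ n) (w : ℕ → ℝ) (h0 : ∀ j, 0 ≤ w j)
    (h1 : ∀ j, w j ≤ 1) (hs : ∀ j, m ≤ j → w j = 0) (τ : ℝ) (hτ0 : 0 ≤ τ) (hτ1 : τ ≤ 1)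
    (hW : 0 < tvW2 n w) :
    jacLaw (tvV n) n {q | jlin (tvV n : ℝ) (tvAl w) (tvGa n w) q ≤ -(τ * tvW2 n w)}
      ≤ eexp (-((n : ℝ) * τ ^ 2 * tvW2 n w / 12)) := by
  have hnR : (0 : ℝ) < n := by exact_mod_cast hn
  have key := jlin_tail_neg (tvV n) n (tvAl w) (tvGa n w) ((n : ℝ) / 6) (6 * tvW2 n w / n)
    (τ * tvW2 n w) ?_ ?_ (by positivity) (by positivity) ?_
  · refine key.trans (le_of_eq ?_)
    congr 2
    field_simp
    ring
  · intro j _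
    have h := tvp_ga_le n m hn hm w h0 h1 hs j
    rw [tvV_coe]
    have e : 1 / (4 * (n : ℝ)⁻¹) = n / 4 := by field_simp
    rw [e]
    nlinarith
  · unfold jvar
    calc ∑ j ∈ Finset.range n, jvar1 n (tvV n : ℝ) (tvAl w) (tvGa n w) j
        ≤ ∑ j ∈ Finset.range n, 6 * (tvV n : ℝ) * w j ^ 2 :=
          Finset.sum_le_sum fun j _ => tvp_jvar1_le n w h0 h1 j
      _ = 6 * tvW2 n w / n := by
          rw [← Finset.mul_sum, tvV_coe]
          unfold tvW2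
          field_simp
  · have e : 6 * tvW2 n w / n * ((n : ℝ) / 6) = tvW2 n w := by field_simp
    rw [e]
    nlinarith

/-- the regularity event has overwhelming probability -/
theorem tv_reg_prob (n m : ℕ) (hn : 0 < n) (hm : m ≤ n) (y : ℝ) (hy0 : 0 ≤ y) (hy : y ≤ 1) :
    jacLaw (tvV n) n (tvReg n m y)ᶜ ≤ 2 * (m : ℝ≥0∞) * eexp (-((n : ℝ) * y ^ 2 / 8)) := by
  have hnR : (0 : ℝ) < n := by exact_mod_cast hn
  have hv0 : (0 : ℝ) < (tvV n : ℝ) := by rw [tvV_coe]; positivity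
  have hsub : (tvReg n m y)ᶜ ⊆ ⋃ j ∈ Finset.range m, {q : JPar n | y ≤ |jx (tvV n : ℝ) q j|} := by
    intro q hq
    have hq' : ¬ ∀ j < m, |jx (tvV n : ℝ) q j| ≤ y := hq
    push Not at hq'
    obtain ⟨j, hj, hjy⟩ := hq'
    simp only [Set.mem_iUnion, Finset.mem_range, Set.mem_ofPred_eq]
    exact ⟨j, hj, hjy.le⟩
  have hone : ∀ j ∈ Finset.range m, jacLaw (tvV n) n {q : JPar n | y ≤ |jx (tvV n : ℝ) q j|}
      ≤ 2 * eexp (-((n : ℝ) * y ^ 2 / 8)) := by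
    intro j hj
    have hjn : j < n := lt_of_lt_of_le (Finset.mem_range.1 hj) hm
    have h := subG_site (tvV n) n (fun _ => 0) (fun _ => 1) (1 / (4 * (tvV n : ℝ))) j hjn (by simp)
    have hX : (fun q : JPar n => (0 : ℝ) * ja q j + 1 * jx (tvV n : ℝ) q j)
        = fun q => jx (tvV n : ℝ) q j := by
      funext q; ring
    rw [hX] at h
    have hs : jvar1 n (tvV n : ℝ) (fun _ => 0) (fun _ => 1) j ≤ 4 * (tvV n : ℝ) := by
      unfold jvar1
      have hk : ((n - 1 - j : ℕ) : ℝ) ≤ n := by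
        have : n - 1 - j ≤ n := by omega
        exact_mod_cast this
      have hkv : ((n - 1 - j : ℕ) : ℝ) * (tvV n : ℝ) ≤ 1 := by
        rw [tvV_coe, ← div_eq_mul_inv, div_le_one hnR]
        exact hk
      have := mul_le_mul_of_nonneg_right hkv hv0.le
      nlinarith
    have h2 := (h.mono hs le_rfl).tail_abs (measurable_jx _ j) (by positivity) hy0
      (by
        have e : 4 * (tvV n : ℝ) * (1 / (4 * (tvV n : ℝ))) = 1 := by field_simp
        rw [e]; exact hy)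
    refine h2.trans (le_of_eq ?_)
    congr 3
    rw [tvV_coe]
    field_simp
    ring
  calc jacLaw (tvV n) n (tvReg n m y)ᶜ
      ≤ jacLaw (tvV n) n (⋃ j ∈ Finset.range m, {q : JPar n | y ≤ |jx (tvV n : ℝ) q j|}) :=
        measure_mono hsub
    _ ≤ ∑ j ∈ Finset.range m, jacLaw (tvV n) n {q : JPar n | y ≤ |jx (tvV n : ℝ) q j|} :=
        measure_biUnion_finset_le _ _
    _ ≤ ∑ _j ∈ Finset.range m, 2 * eexp (-((n : ℝ) * y ^ 2 / 8)) := Finset.sum_le_sum hone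
    _ = 2 * (m : ℝ≥0∞) * eexp (-((n : ℝ) * y ^ 2 / 8)) := by
        rw [Finset.sum_const, Finset.card_range, nsmul_eq_mul]
        ring

/-! ### (formerly `TVCore.lean`)
Row 133 / S0266, section 6 (test vectors), core.
For a non-negative sequence `w` with values in `[0,1]`, supported in `[0,m)`, `2m ≤ n`, the quadratic
form of the Jacobi model at `w` is bounded below, with overwhelming probability, by
`2 ∑ w_j w_{j+1} - (2/n) ∑ (j+1) w_j w_{j+1} - (3y² + τ) ∑ w_j²`.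
Files: TVDef (definitions), TVLow (deterministic bound), TVProb (probability), TVCore (this file),
TVGeo + TVSpike (geometric vector: spiked matrices), TVTentA/B + TVTent (three tents),
TVAsymA/B/C + TVAsym (asymptotics; exports tv_R6, tv_R4, tv_G2).
-/

/-- CORE: lower bound for the quadratic form at a test vector. -/
theorem tv_core (n m : ℕ) (hn : 0 < n) (hm : 2 * m ≤ n) (w : ℕ → ℝ) (h0 : ∀ j, 0 ≤ w j)
    (h1 : ∀ j, w j ≤ 1) (hs : ∀ j, m ≤ j → w j = 0) (y : ℝ) (hy0 : 0 ≤ y) (hy : y ≤ 1 / 2)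
    (τ : ℝ) (hτ0 : 0 ≤ τ) (hτ1 : τ ≤ 1) (hW : 0 < tvW2 n w) :
    jacLaw (tvV n) n {q | q ∈ tvReg n m y ∧ qf (jacMat q) (tvVec n w)
        < 2 * tvCr n w - 2 / n * tvDr n w - (3 * y ^ 2 + τ) * tvW2 n w}
      ≤ eexp (-((n : ℝ) * τ ^ 2 * tvW2 n w / 12)) := by
  refine le_trans (measure_mono ?_) (tv_noise n m hn hm w h0 h1 hs τ hτ0 hτ1 hW)
  rintro q ⟨hq, hlt⟩
  have h := tv_qf_lower n m hn hm w h0 hs y hy0 hy q hq
  simp only [Set.mem_setOf_eq]
  nlinarith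

/-! ### (formerly `TVGeo.lean`)
Row 133 / S0266, section 6 (E-spike): the truncated geometric sequence and its sums.
-/

/-- truncated geometric sequence -/
def tvGeo (m : ℕ) (ρ : ℝ) : ℕ → ℝ := fun j => if j < m then ρ ^ j else 0

theorem tvGeo_nonneg (m : ℕ) (ρ : ℝ) (hρ : 0 ≤ ρ) (j : ℕ) : 0 ≤ tvGeo m ρ j := by
  unfold tvGeo
  split_ifs
  · positivity
  · exact le_rfl

theorem tvGeo_le_one (m : ℕ) (ρ : ℝ) (hρ : 0 ≤ ρ) (hρ1 : ρ ≤ 1) (j : ℕ) : tvGeo m ρ j ≤ 1 := by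
  unfold tvGeo
  split_ifs
  · exact pow_le_one₀ hρ hρ1
  · exact zero_le_one

theorem tvGeo_supp (m : ℕ) (ρ : ℝ) (j : ℕ) (hj : m ≤ j) : tvGeo m ρ j = 0 := by
  unfold tvGeo
  rw [if_neg (by omega)]

/-- the three sums of the geometric vector as sums over `j < m` -/
theorem tvGeo_W2 (n m : ℕ) (hm : m ≤ n) (ρ : ℝ) :
    tvW2 n (tvGeo m ρ) = ∑ j ∈ Finset.range m, ρ ^ (2 * j) := by
  unfold tvW2
  rw [← Finset.sum_subset (Finset.range_subset_range.2 hm)]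
  · refine Finset.sum_congr rfl fun j hj => ?_
    rw [tvGeo, if_pos (Finset.mem_range.1 hj), ← pow_mul, mul_comm]
  · intro j _ hj
    rw [tvGeo, if_neg (by simpa using hj)]
    simp

theorem tvGeo_mul_succ (m : ℕ) (ρ : ℝ) (j : ℕ) :
    tvGeo m ρ j * tvGeo m ρ (j + 1) = if j < m - 1 then ρ ^ (2 * j + 1) else 0 := by
  unfold tvGeo
  by_cases h : j < m - 1
  · rw [if_pos h, if_pos (by omega), if_pos (by omega), ← pow_add]
    congr 1
    omega
  · rw [if_neg h, if_neg (show ¬ (j + 1 < m) by omega), mul_zero]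

theorem tvGeo_Cr (n m : ℕ) (hm : m ≤ n) (ρ : ℝ) :
    tvCr n (tvGeo m ρ) = ∑ j ∈ Finset.range (m - 1), ρ ^ (2 * j + 1) := by
  unfold tvCr
  rw [← Finset.sum_subset (Finset.range_subset_range.2 (show m - 1 ≤ n - 1 by omega))]
  · refine Finset.sum_congr rfl fun j hj => ?_
    rw [tvGeo_mul_succ, if_pos (Finset.mem_range.1 hj)]
  · intro j _ hj
    rw [tvGeo_mul_succ, if_neg (by simpa using hj)]

theorem tvGeo_Dr (n m : ℕ) (hm : m ≤ n) (ρ : ℝ) :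
    tvDr n (tvGeo m ρ) = ∑ j ∈ Finset.range (m - 1), ((j : ℝ) + 1) * ρ ^ (2 * j + 1) := by
  unfold tvDr
  rw [← Finset.sum_subset (Finset.range_subset_range.2 (show m - 1 ≤ n - 1 by omega))]
  · refine Finset.sum_congr rfl fun j hj => ?_
    rw [tvGeo_mul_succ, if_pos (Finset.mem_range.1 hj)]
  · intro j _ hj
    rw [tvGeo_mul_succ, if_neg (by simpa using hj), mul_zero]

/-- `(1-x) ∑_{j<k} (j+1) x^j = ∑_{j<k} x^j - k x^k` -/
theorem tvGeo_arith_geom (x : ℝ) (k : ℕ) :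
    (1 - x) * ∑ j ∈ Finset.range k, ((j : ℝ) + 1) * x ^ j =
      ∑ j ∈ Finset.range k, x ^ j - k * x ^ k := by
  induction k with
  | zero => simp
  | succ k ih =>
    rw [Finset.sum_range_succ, Finset.sum_range_succ, mul_add, ih]
    push_cast
    ring

/-- facts on `x = ρ²`, `ρ = 1/(1+R)` -/
theorem tvGeo_x_bounds (R x : ℝ) (hR0 : 0 < R) (hR1 : R ≤ 1) (hx0 : 0 < x)
    (hxth : x * (1 + R) ^ 2 = 1) : 3 * R / 4 ≤ 1 - x ∧ 1 - x ≤ 2 * R := by
  have hx1 : 1 - x = x * (R * (2 + R)) := by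
    have : x * (R * (2 + R)) = x * (1 + R) ^ 2 - x := by ring
    rw [this, hxth]
  constructor
  · have h3 : 1 - x - 3 * R / 4 = x * (R * ((1 - R) * (5 + 3 * R) / 4)) := by
      have : x * (R * ((1 - R) * (5 + 3 * R) / 4)) =
          x * (R * (2 + R)) - 3 * R / 4 * (x * (1 + R) ^ 2) := by ring
      rw [this, hxth, ← hx1]; ring
    have h4 : 0 ≤ x * (R * ((1 - R) * (5 + 3 * R) / 4)) := by
      have : 0 ≤ 1 - R := by linarith
      positivity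
    linarith
  · have h3 : 2 * R - (1 - x) = x * (R * (3 * R + 2 * R ^ 2)) := by
      have : x * (R * (3 * R + 2 * R ^ 2)) =
          2 * R * (x * (1 + R) ^ 2) - x * (R * (2 + R)) := by ring
      rw [this, hxth, ← hx1]; ring
    have h4 : 0 ≤ x * (R * (3 * R + 2 * R ^ 2)) := by positivity
    linarith

/-- Bernoulli: `(1+R)^{-a} ≤ 2/(nR)` if `n ≤ 2a` -/
theorem tvGeo_bernoulli (n a : ℕ) (h1 : n ≤ 2 * a) (hn0 : 0 < n) (R : ℝ) (hR0 : 0 < R) :
    1 / (1 + R) ^ a ≤ 2 / ((n : ℝ) * R) := by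
  have hn : (0 : ℝ) < n := by exact_mod_cast hn0
  have hnR0 : 0 < (n : ℝ) * R := by positivity
  have hb : 1 + (a : ℝ) * R ≤ (1 + R) ^ a := one_add_mul_le_pow (by linarith) _
  have hk : (n : ℝ) ≤ 2 * (a : ℝ) := by exact_mod_cast h1
  have hk2 : (n : ℝ) * R ≤ 2 * (a : ℝ) * R := mul_le_mul_of_nonneg_right hk hR0.le
  have hpos : 0 < (1 + R) ^ a := by positivity
  rw [div_le_div_iff₀ hpos hnR0]
  linarith

/-- the first claim, in abstract variables -/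
theorem tvGeo_claim1 (R ρ D' E' g N κ : ℝ) (hR0 : 0 < R) (hR1 : R ≤ 1) (hN : 0 < N)
    (hρ1 : ρ ≤ 1) (hρth : (1 + R) * ρ = 1)
    (hgeo : D' * (1 - ρ ^ 2) = 1 - g) (hari : (1 - ρ ^ 2) * E' = D' - κ * g) (hκ : 0 ≤ κ)
    (hg0 : 0 ≤ g) (hE'0 : 0 ≤ E') (hD1 : 1 ≤ D' + g) (hF5 : ρ * g ≤ 2 / (N * R))
    (hxlow : 3 * R / 4 ≤ 1 - ρ ^ 2) :
    (2 + R ^ 2 / 2 - 6 / (N * R)) * (D' + g) ≤ (1 + R) + 2 * (ρ * D') - 2 / N * (ρ * E') := by
  have hth : 0 < 1 + R := by linarith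
  have hnR0 : 0 < N * R := by positivity
  have hF3 : (1 + R) + 2 * (ρ * D') = ((1 + R) + ρ) * (D' + g) - ρ * g := by
    linear_combination (-(1 + R)) * hgeo - ρ * D' * hρth
  have hF4 : 2 + R ^ 2 / 2 ≤ (1 + R) + ρ := by
    have h3 : (1 + R) + ρ - 2 = ρ * R ^ 2 := by
      have : ρ * R ^ 2 = ρ * (1 + R) * (1 + R) - 2 * (ρ * (1 + R)) + ρ := by ring
      rw [this, mul_comm ρ, hρth]; ring
    have h4 : 1 / 2 ≤ ρ := by
      have : ρ = 1 / (1 + R) := by field_simp; linarith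
      rw [this]
      exact one_div_le_one_div_of_le hth (by linarith)
    have h5 : 1 / 2 * R ^ 2 ≤ ρ * R ^ 2 := mul_le_mul_of_nonneg_right h4 (sq_nonneg R)
    linarith
  have hF6 : 3 * R / 4 * E' ≤ D' + g := by
    have h3 : 3 * R / 4 * E' ≤ (1 - ρ ^ 2) * E' := mul_le_mul_of_nonneg_right hxlow hE'0
    have h4 : 0 ≤ κ * g := by positivity
    linarith
  have hF6' : 2 / N * (ρ * E') ≤ 8 / 3 / (N * R) * (D' + g) := by
    have h3 : ρ * E' ≤ 1 * E' := mul_le_mul_of_nonneg_right hρ1 hE'0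
    have h4 : E' ≤ 4 / (3 * R) * (D' + g) := by
      have : 4 / (3 * R) * (3 * R / 4 * E') = E' := by field_simp
      rw [← this]
      exact mul_le_mul_of_nonneg_left hF6 (by positivity)
    have h5 : 2 / N * (ρ * E') ≤ 2 / N * (4 / (3 * R) * (D' + g)) :=
      mul_le_mul_of_nonneg_left (by linarith) (by positivity)
    have h6 : 2 / N * (4 / (3 * R) * (D' + g)) = 8 / 3 / (N * R) * (D' + g) := by
      field_simp
      ring
    linarith
  have hF5' : ρ * g ≤ 2 / (N * R) * (D' + g) := by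
    have : 2 / (N * R) * 1 ≤ 2 / (N * R) * (D' + g) :=
      mul_le_mul_of_nonneg_left hD1 (by positivity)
    linarith
  have hD0 : 0 ≤ D' + g := by linarith
  have h7 : (2 + R ^ 2 / 2) * (D' + g) ≤ ((1 + R) + ρ) * (D' + g) :=
    mul_le_mul_of_nonneg_right hF4 hD0
  have h8 : 6 / (N * R) = 2 / (N * R) + 8 / 3 / (N * R) + 4 / 3 / (N * R) := by
    field_simp
    norm_num
  have h9 : 0 ≤ 4 / 3 / (N * R) * (D' + g) := by positivity
  have h10 : (2 + R ^ 2 / 2 - 6 / (N * R)) * (D' + g) =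
      (2 + R ^ 2 / 2) * (D' + g) - 2 / (N * R) * (D' + g)
        - 8 / 3 / (N * R) * (D' + g) - 4 / 3 / (N * R) * (D' + g) := by
    rw [h8]; ring
  rw [hF3, h10]
  linarith

/-- the second claim, in abstract variables -/
theorem tvGeo_claim2 (R x D' g : ℝ) (hR0 : 0 < R) (hgeo : D' * (1 - x) = 1 - g)
    (hD1 : 1 ≤ D' + g) (hgx : x * g ≤ 1 / 2) (hxup : 1 - x ≤ 2 * R) :
    1 / (4 * R) ≤ D' + g := by
  have h3 : (D' + g) * (1 - x) = 1 - x * g := by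
    rw [add_mul, hgeo]; ring
  have hD0 : 0 ≤ D' + g := by linarith
  have h4 : (D' + g) * (1 - x) ≤ (D' + g) * (2 * R) := mul_le_mul_of_nonneg_left hxup hD0
  rw [div_le_iff₀ (by positivity)]
  have h5 : (D' + g) * (4 * R) = 2 * ((D' + g) * (2 * R)) := by ring
  rw [h5]
  linarith

/-- the analytic core of `tv_geo_series`, with `m = k + 1` -/
theorem tvGeo_series_core (n k : ℕ) (h1 : n ≤ 2 * (2 * k + 1)) (h2 : n ≤ 2 * (2 * (k + 1)))
    (hn0 : 0 < n) (R : ℝ) (hR0 : 0 < R) (hR1 : R ≤ 1) (hnR : 4 ≤ (n : ℝ) * R) :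
    (2 + R ^ 2 / 2 - 6 / ((n : ℝ) * R)) * (∑ j ∈ Finset.range (k + 1), (1 / (1 + R)) ^ (2 * j))
        ≤ (1 + R) + 2 * (∑ j ∈ Finset.range k, (1 / (1 + R)) ^ (2 * j + 1))
          - 2 / n * ∑ j ∈ Finset.range k, ((j : ℝ) + 1) * (1 / (1 + R)) ^ (2 * j + 1)
      ∧ 1 / (4 * R) ≤ ∑ j ∈ Finset.range (k + 1), (1 / (1 + R)) ^ (2 * j) := by
  obtain ⟨ρ, hρ⟩ : ∃ ρ : ℝ, ρ = 1 / (1 + R) := ⟨_, rfl⟩
  rw [← hρ]
  have hth : 0 < 1 + R := by linarith
  have hρ0 : 0 < ρ := by rw [hρ]; positivity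
  have hρth : (1 + R) * ρ = 1 := by rw [hρ]; field_simp
  have hρ1 : ρ ≤ 1 := by
    rw [hρ, div_le_one hth]; linarith
  have hx0 : 0 < ρ ^ 2 := by positivity
  have hxth : ρ ^ 2 * (1 + R) ^ 2 = 1 := by
    rw [← mul_pow, mul_comm ρ, hρth, one_pow]
  have eD : ∑ j ∈ Finset.range (k + 1), ρ ^ (2 * j) =
      ∑ j ∈ Finset.range k, (ρ ^ 2) ^ j + (ρ ^ 2) ^ k := by
    rw [Finset.sum_range_succ]
    simp only [pow_mul]
  have eC : ∑ j ∈ Finset.range k, ρ ^ (2 * j + 1) = ρ * ∑ j ∈ Finset.range k, (ρ ^ 2) ^ j := by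
    rw [Finset.mul_sum]
    refine Finset.sum_congr rfl fun j _ => ?_
    rw [pow_succ, pow_mul, mul_comm]
  have eE : ∑ j ∈ Finset.range k, ((j : ℝ) + 1) * ρ ^ (2 * j + 1) =
      ρ * ∑ j ∈ Finset.range k, ((j : ℝ) + 1) * (ρ ^ 2) ^ j := by
    rw [Finset.mul_sum]
    refine Finset.sum_congr rfl fun j _ => ?_
    rw [pow_succ, pow_mul]
    ring
  rw [eD, eC, eE]
  have hgeo : (∑ j ∈ Finset.range k, (ρ ^ 2) ^ j) * (1 - ρ ^ 2) = 1 - (ρ ^ 2) ^ k :=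
    geom_sum_mul_neg _ k
  have hari := tvGeo_arith_geom (ρ ^ 2) k
  have hD1 : 1 ≤ ∑ j ∈ Finset.range k, (ρ ^ 2) ^ j + (ρ ^ 2) ^ k := by
    rw [← Finset.sum_range_succ, Finset.sum_range_succ']
    have : 0 ≤ ∑ j ∈ Finset.range k, (ρ ^ 2) ^ (j + 1) :=
      Finset.sum_nonneg fun j _ => by positivity
    simp only [pow_zero]
    linarith
  obtain ⟨hxlow, hxup⟩ := tvGeo_x_bounds R (ρ ^ 2) hR0 hR1 hx0 hxth
  have hn : (0 : ℝ) < n := by exact_mod_cast hn0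
  have hF5 : ρ * (ρ ^ 2) ^ k ≤ 2 / ((n : ℝ) * R) := by
    have e : ρ * (ρ ^ 2) ^ k = 1 / (1 + R) ^ (2 * k + 1) := by
      rw [← pow_mul, ← pow_succ', hρ, one_div_pow]
    rw [e]
    exact tvGeo_bernoulli n _ h1 hn0 R hR0
  have hgx : ρ ^ 2 * (ρ ^ 2) ^ k ≤ 1 / 2 := by
    have e : ρ ^ 2 * (ρ ^ 2) ^ k = 1 / (1 + R) ^ (2 * (k + 1)) := by
      rw [← pow_succ', ← pow_mul, hρ, one_div_pow]
    rw [e]
    refine (tvGeo_bernoulli n _ h2 hn0 R hR0).trans ?_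
    rw [div_le_div_iff₀ (by positivity) (by norm_num)]
    linarith
  exact ⟨tvGeo_claim1 R ρ _ _ _ n k hR0 hR1 hn hρ1 hρth hgeo hari (Nat.cast_nonneg k)
    (by positivity) (Finset.sum_nonneg fun j _ => by positivity) hD1 hF5 hxlow,
    tvGeo_claim2 R (ρ ^ 2) _ _ hR0 hgeo hD1 hgx hxup⟩

/-- pure geometric-series inequality.  `D = ∑_{j<m} ρ^{2j}`, `ρ = 1/(1+R)`:
`(1+R) + 2 ∑_{j<m-1} ρ^{2j+1} = (1+R+ρ) D - ρ^{2m-1}`, `1+R+ρ ≥ 2+R²/2`,
`ρ^{2m-1} ≤ 1/((2m-1)R)` (Bernoulli), `∑ (j+1) ρ^{2j+1} ≤ D/(1-ρ²)`, `3R/4 ≤ 1-ρ² ≤ 2R`. -/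
theorem tv_geo_series (n m : ℕ) (hn : 4 ≤ n) (hm : m = n / 2) (R : ℝ) (hR0 : 0 < R) (hR1 : R ≤ 1)
    (hnR : 4 ≤ (n : ℝ) * R) :
    (2 + R ^ 2 / 2 - 6 / ((n : ℝ) * R)) * (∑ j ∈ Finset.range m, (1 / (1 + R)) ^ (2 * j))
        ≤ (1 + R) + 2 * (∑ j ∈ Finset.range (m - 1), (1 / (1 + R)) ^ (2 * j + 1))
          - 2 / n * ∑ j ∈ Finset.range (m - 1), ((j : ℝ) + 1) * (1 / (1 + R)) ^ (2 * j + 1)
      ∧ 1 / (4 * R) ≤ ∑ j ∈ Finset.range m, (1 / (1 + R)) ^ (2 * j) := by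
  obtain ⟨k, rfl⟩ : ∃ k, m = k + 1 := ⟨m - 1, by omega⟩
  rw [Nat.add_sub_cancel]
  exact tvGeo_series_core n k (by omega) (by omega) (by omega) R hR0 hR1 hnR

/-! ### (formerly `TVSpike.lean`)
Row 133 / S0266, section 6 (E-spike): the geometric test vector `w_j = (1+R)^{-j}`, `j < n/2`.
A spike `1 + R` at `e0` pushes the top eigenvalue of the Jacobi model above
`2 + 3R²/8 - 6/(nR) - 3y²`, up to probability `exp(-nR³/3072) + 2n exp(-ny²/8)`.
-/

/-- (E-spike) -/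
theorem tv_spike (n : ℕ) (hn : 4 ≤ n) (R y z : ℝ) (hR0 : 0 < R) (hR1 : R ≤ 1) (hy0 : 0 ≤ y)
    (hy : y ≤ 1 / 2) (hnR : 4 ≤ (n : ℝ) * R)
    (hz : z ≤ 2 + 3 * R ^ 2 / 8 - 6 / ((n : ℝ) * R) - 3 * y ^ 2) :
    jacLaw (tvV n) n {q | Below (jacMat q + spike (1 + R) (e0 n)) z}
      ≤ eexp (-((n : ℝ) * R ^ 3 / 3072)) + 2 * (n : ℝ≥0∞) * eexp (-((n : ℝ) * y ^ 2 / 8)) := by
  have hn0 : 0 < n := by omega
  set m := n / 2 with hm
  have h2m : 2 * m ≤ n := by omega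
  have hmn : m ≤ n := by omega
  have hm0 : 0 < m := by omega
  set ρ : ℝ := 1 / (1 + R) with hρ
  have hρ0 : 0 ≤ ρ := by rw [hρ]; positivity
  have hρ1 : ρ ≤ 1 := by
    rw [hρ, div_le_one (by linarith)]; linarith
  set w := tvGeo m ρ with hw
  obtain ⟨hser, hD⟩ := tv_geo_series n m hn hm R hR0 hR1 hnR
  rw [← hρ, ← tvGeo_W2 n m hmn ρ, ← tvGeo_Cr n m hmn ρ, ← tvGeo_Dr n m hmn ρ, ← hw] at hser
  rw [← hρ, ← tvGeo_W2 n m hmn ρ, ← hw] at hD
  have hW : 0 < tvW2 n w := lt_of_lt_of_le (by positivity) hD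
  set τ : ℝ := R ^ 2 / 8 with hτ
  have hτ0 : 0 ≤ τ := by rw [hτ]; positivity
  have hτ1 : τ ≤ 1 := by rw [hτ]; nlinarith
  have hcore := tv_core n m hn0 h2m w (tvGeo_nonneg m ρ hρ0) (tvGeo_le_one m ρ hρ0 hρ1)
    (tvGeo_supp m ρ) y hy0 hy τ hτ0 hτ1 hW
  have hreg := tv_reg_prob n m hn0 hmn y hy0 (by linarith)
  -- inclusion of events
  have hsub : {q : JPar n | Below (jacMat q + spike (1 + R) (e0 n)) z} ⊆
      {q | q ∈ tvReg n m y ∧ qf (jacMat q) (tvVec n w)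
        < 2 * tvCr n w - 2 / n * tvDr n w - (3 * y ^ 2 + τ) * tvW2 n w} ∪ (tvReg n m y)ᶜ := by
    intro q hq
    by_cases hr : q ∈ tvReg n m y
    · left
      refine ⟨hr, ?_⟩
      have hne : tvVec n w ≠ 0 := by
        intro h0
        have := tv_nrm2 n w
        rw [h0] at this
        simp [nrm2] at this
        linarith
      have hb := hq (tvVec n w) hne
      rw [qf_add, qf_spike, tv_e0_dot n hn0, tv_nrm2] at hb
      have hw0 : w 0 = 1 := by simp [hw, tvGeo, hm0]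
      rw [hw0] at hb
      have hzW : z * tvW2 n w ≤ (2 + 3 * R ^ 2 / 8 - 6 / ((n : ℝ) * R) - 3 * y ^ 2) * tvW2 n w :=
        mul_le_mul_of_nonneg_right hz hW.le
      rw [hτ]
      nlinarith
    · right
      exact hr
  refine le_trans (measure_mono hsub) (le_trans (measure_union_le _ _) ?_)
  refine add_le_add (le_trans hcore ?_) (le_trans hreg ?_)
  · rw [eexp_le_eexp]
    have h1 : (n : ℝ) * R ^ 3 / 3072 = (n : ℝ) * τ ^ 2 * (1 / (4 * R)) / 12 := by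
      rw [hτ]; field_simp; ring
    rw [h1]
    have hnn : (0 : ℝ) ≤ (n : ℝ) * τ ^ 2 := by positivity
    have := mul_le_mul_of_nonneg_left hD hnn
    linarith
  · gcongr

end

end Claimed.Agent.R133
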