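/-
Row 133 / S0266, section 6 (test vectors), part 2: tent test vectors (`tv_tents`), the power asymptotics
and the exports `tv_R6`, `tv_R4`, `tv_G2` used by `RmtJac.lean`.  Blueprint: docs/R133_S0266.md sect.6.
-/
import Claimed.Agent.R133.TVDef

set_option autoImplicit false

namespace Claimed.Agent.R133

open MeasureTheory ProbabilityTheory Filter
open scoped BigOperators NNReal ENNReal Matrix

noncomputable section

/-! ### (formerly `TVTentA.lean`)
Row 133 / S0266, section 6 (E-tent): the normalised tent, pointwise properties.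
-/

/-- normalised tent on `[p, p+2L]`, height `1` -/
def tvTent (p L : ℕ) : ℕ → ℝ := fun j =>
  if p ≤ j ∧ j ≤ p + 2 * L then min ((j : ℝ) - p) ((p : ℝ) + 2 * L - j) / L else 0

theorem tvTent_nonneg (p L : ℕ) (j : ℕ) : 0 ≤ tvTent p L j := by
  unfold tvTent
  split_ifs with h
  · obtain ⟨h1, h2⟩ := h
    have h1' : (p : ℝ) ≤ j := by exact_mod_cast h1
    have h2' : (j : ℝ) ≤ p + 2 * L := by exact_mod_cast h2
    apply div_nonneg _ (Nat.cast_nonneg L)
    exact le_min (by linarith) (by linarith)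
  · exact le_rfl

theorem tvTent_le_one (p L : ℕ) (j : ℕ) : tvTent p L j ≤ 1 := by
  unfold tvTent
  split_ifs with h
  · rcases Nat.eq_zero_or_pos L with hL | hL
    · subst hL; simp
    · have hL' : (0 : ℝ) < L := by exact_mod_cast hL
      rw [div_le_one hL']
      rcases le_total ((j : ℝ) - p) L with h3 | h3
      · exact (min_le_left _ _).trans h3
      · exact (min_le_right _ _).trans (by linarith)
  · exact zero_le_one

/-- the tent vanishes on the right of (and at) `p + 2L` -/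
theorem tvTent_right (p L : ℕ) (j : ℕ) (hj : p + 2 * L ≤ j) : tvTent p L j = 0 := by
  unfold tvTent
  split_ifs with h
  · obtain ⟨h1, h2⟩ := h
    have hje : j = p + 2 * L := le_antisymm h2 hj
    subst hje
    have : min (((p + 2 * L : ℕ) : ℝ) - p) ((p : ℝ) + 2 * L - ((p + 2 * L : ℕ) : ℝ)) = 0 := by
      push_cast
      rw [min_eq_right] <;> [ring; (have : (0:ℝ) ≤ L := Nat.cast_nonneg L; linarith)]
    rw [this, zero_div]
  · rfl

/-- the tent vanishes on the left of (and at) `p` -/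
theorem tvTent_left (p L : ℕ) (j : ℕ) (hj : j ≤ p) : tvTent p L j = 0 := by
  unfold tvTent
  split_ifs with h
  · obtain ⟨h1, h2⟩ := h
    have hje : j = p := le_antisymm hj h1
    subst hje
    have : min ((j : ℝ) - j) ((j : ℝ) + 2 * L - j) = 0 := by
      rw [min_eq_left] <;> [ring; (have : (0:ℝ) ≤ L := Nat.cast_nonneg L; linarith)]
    rw [this, zero_div]
  · rfl

/-- closed formula inside the support -/
theorem tvTent_eq (p L : ℕ) (j : ℕ) (h1 : p ≤ j) (h2 : j ≤ p + 2 * L) :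
    tvTent p L j = min ((j : ℝ) - p) ((p : ℝ) + 2 * L - j) / L := by
  unfold tvTent
  rw [if_pos ⟨h1, h2⟩]

/-- increments are at most `1/L` -/
theorem tvTent_incr (p L : ℕ) (j : ℕ) : |tvTent p L (j + 1) - tvTent p L j| ≤ 1 / L := by
  rcases Nat.lt_or_ge j p with hjp | hjp
  · rw [tvTent_left p L (j + 1) hjp, tvTent_left p L j hjp.le]; simp
  rcases Nat.lt_or_ge j (p + 2 * L) with hjq | hjq
  · rw [tvTent_eq p L (j + 1) (by omega) (by omega), tvTent_eq p L j hjp hjq.le, ← sub_div,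
      abs_div, abs_of_nonneg (Nat.cast_nonneg L : (0:ℝ) ≤ (L:ℝ))]
    apply div_le_div_of_nonneg_right _ (Nat.cast_nonneg L)
    push_cast
    refine (abs_min_sub_min_le_max _ _ _ _).trans ?_
    apply max_le
    · rw [show (j : ℝ) + 1 - p - (j - p) = 1 by ring]; simp
    · rw [show (p : ℝ) + 2 * L - (j + 1) - (p + 2 * L - j) = -1 by ring]; simp
  · rw [tvTent_right p L (j + 1) (by omega), tvTent_right p L j hjq]; simp

/-- the tent is at least `1/2` on the middle half -/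
theorem tvTent_mid (p L : ℕ) (hL : 1 ≤ L) (j : ℕ) (h1 : 2 * p + L ≤ 2 * j)
    (h2 : 2 * j ≤ 2 * p + 3 * L) : 1 / 2 ≤ tvTent p L j := by
  have hL' : (0 : ℝ) < L := by exact_mod_cast hL
  have h1' : 2 * (p : ℝ) + L ≤ 2 * j := by exact_mod_cast h1
  have h2' : 2 * (j : ℝ) ≤ 2 * p + 3 * L := by exact_mod_cast h2
  rw [tvTent_eq p L j (by omega) (by omega), le_div_iff₀ hL']
  exact le_min (by linarith) (by linarith)

/-- separated tents do not interact -/
theorem tvTent_sep (p p' L : ℕ) (h : p + 2 * L ≤ p' ∨ p' + 2 * L ≤ p) (j : ℕ) :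
    tvTent p L j * tvTent p' L j = 0 ∧ tvTent p L j * tvTent p' L (j + 1) = 0 ∧
      tvTent p L (j + 1) * tvTent p' L j = 0 := by
  rcases h with h | h
  · rcases Nat.lt_or_ge j (p + 2 * L) with hj | hj
    · have a0 : tvTent p' L j = 0 := tvTent_left p' L j (by omega)
      have a1 : tvTent p' L (j + 1) = 0 := tvTent_left p' L (j + 1) (by omega)
      simp [a0, a1]
    · have a0 : tvTent p L j = 0 := tvTent_right p L j hj
      have a1 : tvTent p L (j + 1) = 0 := tvTent_right p L (j + 1) (by omega)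
      simp [a0, a1]
  · rcases Nat.lt_or_ge j (p' + 2 * L) with hj | hj
    · have a0 : tvTent p L j = 0 := tvTent_left p L j (by omega)
      have a1 : tvTent p L (j + 1) = 0 := tvTent_left p L (j + 1) (by omega)
      simp [a0, a1]
    · have a0 : tvTent p' L j = 0 := tvTent_right p' L j hj
      have a1 : tvTent p' L (j + 1) = 0 := tvTent_right p' L (j + 1) (by omega)
      simp [a0, a1]

/-! ### (formerly `TVTentB.lean`)
Row 133 / S0266, section 6 (E-tent): the sums of a tent.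
-/

/-- abstract version of `tv_tent_det`: only the pointwise properties of the tent are used -/
theorem tv_tent_det_aux (m p L : ℕ) (hL : 1 ≤ L) (hp : p ≤ 4 * L) (hn : 12 * L ≤ m + 1)
    (u : ℕ → ℝ) (hnn : ∀ j, 0 ≤ u j) (hleft : ∀ j, j ≤ p → u j = 0)
    (hright : ∀ j, p + 2 * L ≤ j → u j = 0)
    (hincr : ∀ j, |u (j + 1) - u j| ≤ 1 / (L : ℝ))
    (hmid : ∀ j, 2 * p + L ≤ 2 * j → 2 * j ≤ 2 * p + 3 * L → 1 / 2 ≤ u j) :
    (2 - 8 / (L : ℝ) ^ 2 - 12 * L / ((m + 1 : ℕ) : ℝ)) * tvW2 (m + 1) u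
        ≤ 2 * tvCr (m + 1) u - 2 / ((m + 1 : ℕ) : ℝ) * tvDr (m + 1) u
      ∧ (L : ℝ) / 4 ≤ tvW2 (m + 1) u := by
  have hLpos : (0 : ℝ) < L := by exact_mod_cast hL
  have hu0 : u 0 = 0 := hleft 0 (Nat.zero_le _)
  have hum : u m = 0 := hright m (by omega)
  -- (1) discrete integration by parts
  have h1 : ∑ j ∈ Finset.range m, (u (j + 1) - u j) ^ 2
      = 2 * tvW2 (m + 1) u - 2 * tvCr (m + 1) u := by
    have ha : tvW2 (m + 1) u = ∑ j ∈ Finset.range m, u j ^ 2 := by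
      unfold tvW2; rw [Finset.sum_range_succ, hum]; simp
    have hb : tvW2 (m + 1) u = ∑ j ∈ Finset.range m, u (j + 1) ^ 2 := by
      unfold tvW2; rw [Finset.sum_range_succ', hu0]; simp
    have hc : tvCr (m + 1) u = ∑ j ∈ Finset.range m, u j * u (j + 1) := by
      unfold tvCr; simp
    calc ∑ j ∈ Finset.range m, (u (j + 1) - u j) ^ 2
        = ∑ j ∈ Finset.range m, (u (j + 1) ^ 2 + u j ^ 2 - 2 * (u j * u (j + 1))) := by
          apply Finset.sum_congr rfl; intros; ring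
      _ = tvW2 (m + 1) u + tvW2 (m + 1) u - 2 * tvCr (m + 1) u := by
          rw [Finset.sum_sub_distrib, Finset.sum_add_distrib, ← Finset.mul_sum, ← hc]
          nth_rewrite 1 [hb]
          nth_rewrite 1 [ha]
          rfl
      _ = _ := by ring
  -- (2) the energy of the tent
  have h2 : ∑ j ∈ Finset.range m, (u (j + 1) - u j) ^ 2 ≤ 2 / L := by
    have hsub : ∀ j ∈ Finset.range m, (u (j + 1) - u j) ^ 2
        ≤ if j ∈ Finset.Ico p (p + 2 * L) then (1 / (L : ℝ)) ^ 2 else 0 := by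
      intro j _
      split_ifs with h
      · rw [← sq_abs]
        exact pow_le_pow_left₀ (abs_nonneg _) (hincr j) 2
      · rw [Finset.mem_Ico, not_and_or] at h
        rcases h with h | h
        · rw [hleft (j + 1) (by omega), hleft j (by omega)]; simp
        · rw [hright (j + 1) (by omega), hright j (by omega)]; simp
    calc ∑ j ∈ Finset.range m, (u (j + 1) - u j) ^ 2
        ≤ ∑ j ∈ Finset.range m,
            (if j ∈ Finset.Ico p (p + 2 * L) then (1 / (L : ℝ)) ^ 2 else 0) :=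
          Finset.sum_le_sum hsub
      _ = ∑ j ∈ Finset.Ico p (p + 2 * L), (1 / (L : ℝ)) ^ 2 := by
          rw [← Finset.sum_filter]
          congr 1
          ext j
          simp only [Finset.mem_filter, Finset.mem_range, Finset.mem_Ico]
          omega
      _ = 2 / L := by
          rw [Finset.sum_const, Nat.card_Ico, nsmul_eq_mul]
          have : p + 2 * L - p = 2 * L := by omega
          rw [this]
          push_cast
          field_simp
  -- (3) the drift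
  have h3 : tvDr (m + 1) u ≤ 6 * L * tvW2 (m + 1) u := by
    calc tvDr (m + 1) u ≤ 6 * L * tvCr (m + 1) u := by
          unfold tvDr tvCr
          rw [Finset.mul_sum]
          apply Finset.sum_le_sum
          intro j _
          by_cases h : p + 2 * L ≤ j + 1
          · rw [hright (j + 1) h]; simp
          · have h6 : ((j : ℝ) + 1) ≤ 6 * L := by
              have : j + 1 ≤ 6 * L := by omega
              exact_mod_cast this
            exact mul_le_mul_of_nonneg_right h6 (mul_nonneg (hnn _) (hnn _))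
      _ ≤ 6 * L * tvW2 (m + 1) u :=
          mul_le_mul_of_nonneg_left (tv_cr_le _ _) (by positivity)
  -- (4) the mass
  have h4 : (L : ℝ) / 4 ≤ tvW2 (m + 1) u := by
    unfold tvW2
    calc (L : ℝ) / 4
        = ∑ _j ∈ Finset.Ico (p + (L + 1) / 2) (p + (L + 1) / 2 + L), (1 / 4 : ℝ) := by
          rw [Finset.sum_const, Nat.card_Ico, nsmul_eq_mul]
          have : p + (L + 1) / 2 + L - (p + (L + 1) / 2) = L := by omega
          rw [this]; ring
      _ ≤ ∑ j ∈ Finset.Ico (p + (L + 1) / 2) (p + (L + 1) / 2 + L), u j ^ 2 := by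
          apply Finset.sum_le_sum
          intro j hj
          rw [Finset.mem_Ico] at hj
          have := hmid j (by omega) (by omega)
          nlinarith
      _ ≤ ∑ j ∈ Finset.range (m + 1), u j ^ 2 := by
          apply Finset.sum_le_sum_of_subset_of_nonneg
          · intro j hj
            rw [Finset.mem_Ico] at hj
            rw [Finset.mem_range]
            omega
          · intros; positivity
  refine ⟨?_, h4⟩
  have hnpos : (0 : ℝ) < ((m + 1 : ℕ) : ℝ) := by positivity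
  have h5 : 2 / (L : ℝ) ≤ 8 / (L : ℝ) ^ 2 * tvW2 (m + 1) u := by
    calc 2 / (L : ℝ) = 8 / (L : ℝ) ^ 2 * ((L : ℝ) / 4) := by field_simp; ring
      _ ≤ _ := mul_le_mul_of_nonneg_left h4 (by positivity)
  have h6 : 2 / ((m + 1 : ℕ) : ℝ) * tvDr (m + 1) u
      ≤ 12 * L / ((m + 1 : ℕ) : ℝ) * tvW2 (m + 1) u := by
    calc 2 / ((m + 1 : ℕ) : ℝ) * tvDr (m + 1) u
        ≤ 2 / ((m + 1 : ℕ) : ℝ) * (6 * L * tvW2 (m + 1) u) :=
          mul_le_mul_of_nonneg_left h3 (by positivity)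
      _ = _ := by ring
  have h7 : 2 * tvW2 (m + 1) u - 2 * tvCr (m + 1) u ≤ 2 / L := h1 ▸ h2
  calc (2 - 8 / (L : ℝ) ^ 2 - 12 * L / ((m + 1 : ℕ) : ℝ)) * tvW2 (m + 1) u
      = 2 * tvW2 (m + 1) u - 8 / (L : ℝ) ^ 2 * tvW2 (m + 1) u
          - 12 * L / ((m + 1 : ℕ) : ℝ) * tvW2 (m + 1) u := by ring
    _ ≤ _ := by linarith

/-- deterministic sums of a tent.  `2 Cr = 2 W2 - ∑ (Δu)²`, `∑ (Δu)² ≤ 2L/L²`, `Dr ≤ 6L W2`,
`W2 ≥ L/4` (at least `L` sites with `u ≥ 1/2`). -/
theorem tv_tent_det (n p L : ℕ) (hL : 1 ≤ L) (hp : p ≤ 4 * L) (hn : 12 * L ≤ n) :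
    (2 - 8 / (L : ℝ) ^ 2 - 12 * L / n) * tvW2 n (tvTent p L)
        ≤ 2 * tvCr n (tvTent p L) - 2 / n * tvDr n (tvTent p L)
      ∧ (L : ℝ) / 4 ≤ tvW2 n (tvTent p L) := by
  obtain ⟨m, rfl⟩ : ∃ m, n = m + 1 := ⟨n - 1, by omega⟩
  exact tv_tent_det_aux m p L hL hp hn (tvTent p L) (tvTent_nonneg p L) (tvTent_left p L)
    (tvTent_right p L) (tvTent_incr p L) (tvTent_mid p L hL)

/-! ### (formerly `TVTent.lean`)
Row 133 / S0266, section 6 (E-tent): three tents of half-width `L ~ n^{1/3}` with separated supports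
show that the Jacobi model has three eigenvalues above `2 - 8/L² - 12L/n - 3y² - τ`.
-/

/-- (E-tent) -/
theorem tv_tents (n L : ℕ) (hL : 1 ≤ L) (hn : 12 * L ≤ n) (y τ c : ℝ) (hy0 : 0 ≤ y)
    (hy : y ≤ 1 / 2) (hτ0 : 0 ≤ τ) (hτ1 : τ ≤ 1)
    (hc : c < 2 - 8 / (L : ℝ) ^ 2 - 12 * L / n - 3 * y ^ 2 - τ) :
    jacLaw (tvV n) n {q | ¬ ThreeTop (jacMat q) c}
      ≤ 3 * eexp (-((n : ℝ) * τ ^ 2 * L / 48)) + 2 * (n : ℝ≥0∞) * eexp (-((n : ℝ) * y ^ 2 / 8)) := by
  have hn0 : 0 < n := by omega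
  set m := 6 * L with hm
  have h2m : 2 * m ≤ n := by omega
  have hmn : m ≤ n := by omega
  set u : Fin 3 → ℕ → ℝ := fun a => tvTent (2 * L * a.val) L with hu
  have hpa : ∀ a : Fin 3, 2 * L * a.val ≤ 4 * L := by
    intro a
    have : a.val ≤ 2 := by omega
    nlinarith
  have hdet := fun a : Fin 3 => tv_tent_det n (2 * L * a.val) L hL (hpa a) hn
  have hLpos : (0 : ℝ) < L := by exact_mod_cast hL
  have hW : ∀ a, 0 < tvW2 n (u a) := fun a => lt_of_lt_of_le (by positivity) (hdet a).2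
  have hsupp : ∀ a : Fin 3, ∀ j, m ≤ j → u a j = 0 := by
    intro a j hj
    exact tvTent_right _ _ _ (by have := hpa a; omega)
  have hcore := fun a : Fin 3 => tv_core n m hn0 h2m (u a) (tvTent_nonneg _ _) (tvTent_le_one _ _)
    (hsupp a) y hy0 hy τ hτ0 hτ1 (hW a)
  have hreg := tv_reg_prob n m hn0 hmn y hy0 (by linarith)
  set E : Fin 3 → Set (JPar n) := fun a => {q | q ∈ tvReg n m y ∧ qf (jacMat q) (tvVec n (u a))
        < 2 * tvCr n (u a) - 2 / n * tvDr n (u a) - (3 * y ^ 2 + τ) * tvW2 n (u a)} with hE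
  have hsep : ∀ a b : Fin 3, a ≠ b →
      2 * L * a.val + 2 * L ≤ 2 * L * b.val ∨ 2 * L * b.val + 2 * L ≤ 2 * L * a.val := by
    intro a b hab
    have hab' : a.val ≠ b.val := fun h => hab (Fin.ext h)
    rcases Nat.lt_or_gt_of_ne hab' with h | h
    · left; nlinarith
    · right; nlinarith
  have hsub : {q : JPar n | ¬ ThreeTop (jacMat q) c} ⊆ (⋃ a, E a) ∪ (tvReg n m y)ᶜ := by
    intro q hq
    by_cases hr : q ∈ tvReg n m y
    · left
      by_contra hcon
      apply hq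
      refine threeTop_of_vectors (jacMat q) c (fun a => tvVec n (u a)) ?_ ?_ ?_
      · intro a b hab
        exact tv_dot_zero n _ _ (fun j => (tvTent_sep _ _ L (hsep a b hab) j).1)
      · intro a b hab
        exact tv_dot_jac_zero n q _ _ (fun j => (tvTent_sep _ _ L (hsep a b hab) j).1)
          (fun j => (tvTent_sep _ _ L (hsep a b hab) j).2.1)
          (fun j => (tvTent_sep _ _ L (hsep a b hab) j).2.2)
      · intro a
        rw [tv_nrm2]
        have hna : q ∉ E a := fun h => hcon (Set.mem_iUnion.2 ⟨a, h⟩)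
        have hge : 2 * tvCr n (u a) - 2 / n * tvDr n (u a) - (3 * y ^ 2 + τ) * tvW2 n (u a)
            ≤ qf (jacMat q) (tvVec n (u a)) := by
          by_contra hlt
          exact hna ⟨hr, not_le.1 hlt⟩
        have h1 := (hdet a).1
        have h2 : c * tvW2 n (u a)
            < (2 - 8 / (L : ℝ) ^ 2 - 12 * L / n - 3 * y ^ 2 - τ) * tvW2 n (u a) :=
          mul_lt_mul_of_pos_right hc (hW a)
        nlinarith
    · right
      exact hr
  refine le_trans (measure_mono hsub) (le_trans (measure_union_le _ _) ?_)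
  refine add_le_add ?_ (le_trans hreg ?_)
  · refine le_trans (measure_iUnion_fintype_le _ _) ?_
    have hEa : ∀ a, jacLaw (tvV n) n (E a) ≤ eexp (-((n : ℝ) * τ ^ 2 * L / 48)) := by
      intro a
      refine le_trans (hcore a) ?_
      rw [eexp_le_eexp]
      have hnn : (0 : ℝ) ≤ (n : ℝ) * τ ^ 2 := by positivity
      have := mul_le_mul_of_nonneg_left (hdet a).2 hnn
      linarith
    calc ∑ a, jacLaw (tvV n) n (E a) ≤ ∑ _a : Fin 3, eexp (-((n : ℝ) * τ ^ 2 * L / 48)) :=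
          Finset.sum_le_sum fun a _ => hEa a
      _ = 3 * eexp (-((n : ℝ) * τ ^ 2 * L / 48)) := by simp
  · gcongr

/-! ### (formerly `TVAsymA.lean`)
Row 133 / S0266, section 6, asymptotics A: `y_n = n^{-7/20}` and the regularity term.
-/

/-- `y_n = n^{-7/20}` -/
def tvY (n : ℕ) : ℝ := npow n (-(7 / 20))

theorem tvY_nonneg (n : ℕ) : 0 ≤ tvY n := Real.rpow_nonneg (Nat.cast_nonneg n) _

/-- powers of `npow` -/
theorem npow_pow_nat (n : ℕ) (a : ℝ) (k : ℕ) : npow n a ^ k = npow n (a * k) := by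
  unfold npow
  rw [← Real.rpow_natCast, ← Real.rpow_mul (Nat.cast_nonneg n)]

theorem tvY_sq {n : ℕ} (hn : 0 < n) : tvY n ^ 2 = npow n (-(7 / 10)) := by
  unfold tvY
  rw [npow_pow_nat]
  norm_num

/-- `n y² = n^{3/10}` -/
theorem tvY_n {n : ℕ} (hn : 0 < n) : (n : ℝ) * tvY n ^ 2 = npow n (3 / 10) := by
  rw [tvY_sq hn]
  nth_rewrite 1 [← npow_one n]
  rw [← npow_add hn]
  norm_num

theorem tvY_le_half : ∀ᶠ n : ℕ in atTop, tvY n ≤ 1 / 2 := by
  have h := tendsto_npow_neg (a := -(7 / 20)) (by norm_num)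
  exact h.eventually_le_const (by norm_num)

/-- real form of `tv_asym_reg` -/
theorem tv_asym_reg_real : ∀ᶠ n : ℕ in atTop,
    2 * (n : ℝ) * Real.exp (-((n : ℝ) * tvY n ^ 2 / 8)) ≤ Real.exp (-npow n (1 / 5)) / 2 := by
  have hu := (tendsto_npow_pos (a := 1 / 10) (by norm_num)).eventually_ge_atTop 20
  filter_upwards [hu, eventually_gt_atTop 0] with n hu hn
  set u := npow n (1 / 10) with hudef
  have e1 : (n : ℝ) = u ^ 10 := by
    rw [hudef, npow_pow_nat]
    norm_num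
    exact (npow_one n).symm
  have e2 : npow n (3 / 10) = u ^ 3 := by
    rw [hudef, npow_pow_nat]; norm_num
  have e3 : npow n (1 / 5) = u ^ 2 := by
    rw [hudef, npow_pow_nat]; norm_num
  rw [tvY_n hn, e2, e3, e1]
  have h1 : u ≤ Real.exp u := by linarith [Real.add_one_le_exp u]
  have h2 : u ^ 10 ≤ Real.exp (10 * u) := by
    have := pow_le_pow_left₀ (by linarith : (0 : ℝ) ≤ u) h1 10
    rw [← Real.exp_nat_mul] at this
    simpa using this
  have h3 : (4 : ℝ) ≤ Real.exp 2 := by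
    have := Real.add_one_le_exp (1 : ℝ)
    have h4 : Real.exp 2 = Real.exp 1 * Real.exp 1 := by rw [← Real.exp_add]; norm_num
    rw [h4]; nlinarith
  have h5 : 2 + 10 * u + u ^ 2 ≤ u ^ 3 / 8 := by nlinarith [sq_nonneg u]
  have h6 : 4 * u ^ 10 ≤ Real.exp (u ^ 3 / 8 - u ^ 2) := by
    calc 4 * u ^ 10 ≤ Real.exp 2 * Real.exp (10 * u) :=
          mul_le_mul h3 h2 (by positivity) (Real.exp_pos _).le
      _ = Real.exp (2 + 10 * u) := (Real.exp_add _ _).symm
      _ ≤ _ := Real.exp_le_exp.mpr (by linarith)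
  have h7 : Real.exp (u ^ 3 / 8 - u ^ 2) * Real.exp (-(u ^ 3 / 8)) = Real.exp (-u ^ 2) := by
    rw [← Real.exp_add]; congr 1; ring
  have h8 := mul_le_mul_of_nonneg_right h6 (Real.exp_pos (-(u ^ 3 / 8))).le
  rw [h7] at h8
  linarith

/-- the regularity term is negligible, even against `exp(-n^{1/5})`:
`log(4n) + n^{1/5} ≤ n^{3/10}/8` for large `n`. -/
theorem tv_asym_reg : ∀ᶠ n : ℕ in atTop,
    2 * (n : ℝ≥0∞) * eexp (-((n : ℝ) * tvY n ^ 2 / 8)) ≤ eexp (-npow n (1 / 5)) / 2 := by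
  filter_upwards [tv_asym_reg_real] with n hn
  unfold eexp
  have e1 : 2 * (n : ℝ≥0∞) * ENNReal.ofReal (Real.exp (-((n : ℝ) * tvY n ^ 2 / 8)))
      = ENNReal.ofReal (2 * (n : ℝ) * Real.exp (-((n : ℝ) * tvY n ^ 2 / 8))) := by
    rw [ENNReal.ofReal_mul (by positivity), ENNReal.ofReal_mul (by norm_num),
      ENNReal.ofReal_natCast]
    norm_num
  have e2 : ENNReal.ofReal (Real.exp (-npow n (1 / 5))) / 2
      = ENNReal.ofReal (Real.exp (-npow n (1 / 5)) / 2) := by
    rw [ENNReal.ofReal_div_of_pos (by norm_num)]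
    norm_num
  rw [e1, e2]
  exact ENNReal.ofReal_le_ofReal hn

theorem tv_asym_reg' (η : ℝ) (hη : 0 < η) : ∀ᶠ n : ℕ in atTop,
    2 * (n : ℝ≥0∞) * eexp (-((n : ℝ) * tvY n ^ 2 / 8)) ≤ ENNReal.ofReal η := by
  have h1 : Tendsto (fun n : ℕ => Real.exp (-npow n (1 / 5))) atTop (nhds 0) :=
    Real.tendsto_exp_neg_atTop_nhds_zero.comp (tendsto_npow_pos (a := 1 / 5) (by norm_num))
  filter_upwards [tv_asym_reg, h1.eventually_le_const hη] with n hn h2
  refine hn.trans ?_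
  unfold eexp
  calc ENNReal.ofReal (Real.exp (-npow n (1 / 5))) / 2
      ≤ ENNReal.ofReal (Real.exp (-npow n (1 / 5))) := ENNReal.half_le_self
    _ ≤ ENNReal.ofReal η := ENNReal.ofReal_le_ofReal h2

/-! ### (formerly `TVAsymB.lean`)
Row 133 / S0266, section 6, asymptotics B: numerical conditions for (R6).
-/

/-- numerical conditions for (R6): `3R²/8 ≥ (3/32) n^{-0.52}` dominates
`n^{-0.6} + 12 n^{-0.74} + 3 n^{-0.7}`. -/
theorem tv_asym_R6a : ∀ᶠ n : ℕ in atTop, ∀ R : ℝ, npow n (-(13 / 50)) / 2 ≤ R → R ≤ 1 →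
    4 ≤ (n : ℝ) * R ∧
      2 + npow n (-(3 / 5)) ≤ 2 + 3 * R ^ 2 / 8 - 6 / ((n : ℝ) * R) - 3 * tvY n ^ 2 := by
  have h1 := (tendsto_npow_pos (a := 37 / 50) (by norm_num)).eventually_ge_atTop 8
  have h2 := (tendsto_npow_neg (a := -(2 / 25)) (by norm_num)).eventually_le_const
    (show (0 : ℝ) < 1 / 100 by norm_num)
  have h3 := (tendsto_npow_neg (a := -(11 / 50)) (by norm_num)).eventually_le_const
    (show (0 : ℝ) < 1 / 1000 by norm_num)
  have h4 := (tendsto_npow_neg (a := -(9 / 50)) (by norm_num)).eventually_le_const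
    (show (0 : ℝ) < 1 / 100 by norm_num)
  filter_upwards [h1, h2, h3, h4, eventually_gt_atTop 0] with n h1 h2 h3 h4 hn R hR _
  set w := npow n (-(13 / 25)) with hw
  have hw0 : 0 < w := npow_pos hn _
  have hr0 : 0 < npow n (-(13 / 50)) := npow_pos hn _
  have hR0 : 0 < R := by linarith
  have hn0 : (0 : ℝ) < n := by exact_mod_cast hn
  -- `n R ≥ n^{37/50}/2`
  have e1 : (n : ℝ) * npow n (-(13 / 50)) = npow n (37 / 50) := by
    nth_rewrite 1 [← npow_one n]
    rw [← npow_add hn]; norm_num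
  have hnR : npow n (37 / 50) / 2 ≤ (n : ℝ) * R := by
    have := mul_le_mul_of_nonneg_left hR hn0.le
    rw [← e1]; linarith
  have hnR4 : 4 ≤ (n : ℝ) * R := by linarith
  refine ⟨hnR4, ?_⟩
  -- `R² ≥ w/4`
  have e2 : npow n (-(13 / 50)) ^ 2 = w := by
    rw [npow_pow_nat, hw]; norm_num
  have hR2 : w / 4 ≤ R ^ 2 := by
    have := pow_le_pow_left₀ (by positivity : (0 : ℝ) ≤ npow n (-(13 / 50)) / 2) hR 2
    rw [div_pow, e2] at this
    linarith
  -- `6/(nR) ≤ 12 n^{-37/50}`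
  have e3 : npow n (37 / 50) * npow n (-(37 / 50)) = 1 := by
    rw [← npow_add hn]; norm_num [npow]
  have h37 : 0 < npow n (37 / 50) := npow_pos hn _
  have h6 : 6 / ((n : ℝ) * R) ≤ 12 * npow n (-(37 / 50)) := by
    rw [div_le_iff₀ (by positivity)]
    have h7 : 0 < npow n (-(37 / 50)) := npow_pos hn _
    have := mul_le_mul_of_nonneg_left hnR h7.le
    nlinarith
  have f1 : npow n (-(3 / 5)) = w * npow n (-(2 / 25)) := by
    rw [hw, ← npow_add hn]; norm_num
  have f2 : npow n (-(37 / 50)) = w * npow n (-(11 / 50)) := by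
    rw [hw, ← npow_add hn]; norm_num
  have f3 : tvY n ^ 2 = w * npow n (-(9 / 50)) := by
    rw [tvY_sq hn, hw, ← npow_add hn]; norm_num
  rw [f3, f1]
  rw [f2] at h6
  have g1 := mul_le_mul_of_nonneg_left h2 hw0.le
  have g2 := mul_le_mul_of_nonneg_left h3 hw0.le
  have g3 := mul_le_mul_of_nonneg_left h4 hw0.le
  nlinarith

/-- `exp(-a) ≤ exp(-b)/2` as soon as `b + 1 ≤ a`. -/
theorem eexp_neg_le_half {a b : ℝ} (h : b + 1 ≤ a) : eexp (-a) ≤ eexp (-b) / 2 := by
  unfold eexp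
  have e2 : ENNReal.ofReal (Real.exp (-b)) / 2 = ENNReal.ofReal (Real.exp (-b) / 2) := by
    rw [ENNReal.ofReal_div_of_pos (by norm_num)]
    norm_num
  rw [e2]
  apply ENNReal.ofReal_le_ofReal
  have h1 : Real.exp (-a) ≤ Real.exp (-b + -1) := Real.exp_le_exp.mpr (by linarith)
  rw [Real.exp_add] at h1
  have h2 : Real.exp (-1) ≤ 1 / 2 := by
    rw [Real.exp_neg, inv_le_comm₀ (Real.exp_pos 1) (by norm_num)]
    have := Real.add_one_le_exp (1 : ℝ)
    norm_num at this ⊢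
    linarith
  have h3 := mul_le_mul_of_nonneg_left h2 (Real.exp_pos (-b)).le
  linarith

/-- `n R³/3072 ≥ n^{0.22}/24576 ≥ n^{0.2} + log 2`. -/
theorem tv_asym_R6b : ∀ᶠ n : ℕ in atTop, ∀ R : ℝ, npow n (-(13 / 50)) / 2 ≤ R →
    eexp (-((n : ℝ) * R ^ 3 / 3072)) ≤ eexp (-npow n (1 / 5)) / 2 := by
  have h1 := (tendsto_npow_pos (a := 1 / 50) (by norm_num)).eventually_ge_atTop 49152
  have h2 := (tendsto_npow_pos (a := 1 / 5) (by norm_num)).eventually_ge_atTop 1
  filter_upwards [h1, h2, eventually_gt_atTop 0] with n h1 h2 hn R hR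
  apply eexp_neg_le_half
  have hn0 : (0 : ℝ) < n := by exact_mod_cast hn
  have hr0 : 0 < npow n (-(13 / 50)) := npow_pos hn _
  have hR3 : (npow n (-(13 / 50)) / 2) ^ 3 ≤ R ^ 3 := pow_le_pow_left₀ (by positivity) hR 3
  have e1 : (n : ℝ) * (npow n (-(13 / 50)) / 2) ^ 3 = npow n (1 / 5) * npow n (1 / 50) / 8 := by
    rw [div_pow, npow_pow_nat, ← npow_add hn]
    nth_rewrite 1 [← npow_one n]
    rw [mul_div_assoc', ← npow_add hn]
    norm_num
  have h3 := mul_le_mul_of_nonneg_left hR3 hn0.le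
  rw [e1] at h3
  have h4 : npow n (1 / 5) * 49152 ≤ npow n (1 / 5) * npow n (1 / 50) :=
    mul_le_mul_of_nonneg_left h1 (by linarith)
  linarith

/-! ### (formerly `TVAsymC.lean`)
Row 133 / S0266, section 6, asymptotics C: numerical conditions for (R4) and (G2).
-/

/-- numerical conditions for (R4), `R = C n^{-1/3}`. -/
theorem tv_asym_R4 (K C : ℝ) (hK : 0 < K) (hC : 4 ≤ C) (hCK : K + 5 ≤ 3 * C ^ 2 / 8) :
    ∀ᶠ n : ℕ in atTop,
      C * npow n (-(1 / 3)) ≤ 1 ∧ 4 ≤ (n : ℝ) * (C * npow n (-(1 / 3))) ∧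
      gam K n ≤ 2 + 3 * (C * npow n (-(1 / 3))) ^ 2 / 8 - 6 / ((n : ℝ) * (C * npow n (-(1 / 3))))
        - 3 * tvY n ^ 2 ∧
      (n : ℝ) * (C * npow n (-(1 / 3))) ^ 3 = C ^ 3 := by
  have h1 := (tendsto_npow_neg (a := -(1 / 3)) (by norm_num)).eventually_le_const
    (show (0 : ℝ) < 1 / C by positivity)
  have h2 := (tendsto_npow_pos (a := 2 / 3) (by norm_num)).eventually_ge_atTop 1
  filter_upwards [h1, h2, eventually_gt_atTop 0] with n h1 h2 hn
  have hC0 : 0 < C := by linarith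
  set w := npow n (-(2 / 3)) with hw
  have hw0 : 0 < w := npow_pos hn _
  have hn0 : (0 : ℝ) < n := by exact_mod_cast hn
  have e1 : (n : ℝ) * npow n (-(1 / 3)) = npow n (2 / 3) := by
    nth_rewrite 1 [← npow_one n]
    rw [← npow_add hn]; norm_num
  have e2 : npow n (-(1 / 3)) ^ 2 = w := by
    rw [npow_pow_nat, hw]; norm_num
  have e3 : npow n (2 / 3) * w = 1 := by
    rw [hw, ← npow_add hn]; norm_num [npow]
  have e4 : (n : ℝ) * npow n (-(1 / 3)) ^ 3 = 1 := by
    rw [npow_pow_nat]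
    nth_rewrite 1 [← npow_one n]
    rw [← npow_add hn]; norm_num [npow]
  have enR : (n : ℝ) * (C * npow n (-(1 / 3))) = C * npow n (2 / 3) := by
    rw [← e1]; ring
  have h23 : 0 < npow n (2 / 3) := npow_pos hn _
  refine ⟨?_, ?_, ?_, ?_⟩
  · have := mul_le_mul_of_nonneg_left h1 hC0.le
    rwa [mul_one_div_cancel hC0.ne'] at this
  · rw [enR]; nlinarith
  · rw [enR, mul_pow, e2]
    have h6 : 6 / (C * npow n (2 / 3)) ≤ 3 / 2 * w := by
      rw [div_le_iff₀ (by positivity)]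
      have : 3 / 2 * w * (C * npow n (2 / 3)) = 3 / 2 * C * (npow n (2 / 3) * w) := by ring
      rw [this, e3]; linarith
    have h7 : tvY n ^ 2 ≤ w := by
      rw [tvY_sq hn, hw]
      exact npow_le_npow hn (by norm_num)
    unfold gam
    rw [← hw]
    have := mul_le_mul_of_nonneg_right hCK hw0.le
    nlinarith
  · rw [mul_pow]
    have : (n : ℝ) * (C ^ 3 * npow n (-(1 / 3)) ^ 3) = C ^ 3 * ((n : ℝ) * npow n (-(1 / 3)) ^ 3) := by
      ring
    rw [this, e4, mul_one]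

/-- choice of the constant: `exp(-x) ≤ 1/x`. -/
theorem tv_choose_C (η K : ℝ) (hη : 0 < η) (hK : 0 < K) : ∃ C : ℝ, 4 ≤ C ∧
    K + 5 ≤ 3 * C ^ 2 / 8 ∧ Real.exp (-(C ^ 3 / 3072)) ≤ η / 2 := by
  refine ⟨4 + K + 6144 / η, ?_, ?_, ?_⟩
  · have : 0 < 6144 / η := by positivity
    linarith
  · have h : 0 < 6144 / η := by positivity
    nlinarith
  · have h : 0 < 6144 / η := by positivity
    set C := 4 + K + 6144 / η with hC
    have hC1 : 1 ≤ C := by linarith
    have hC3 : C ≤ C ^ 3 := by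
      have : 1 ≤ C ^ 2 := one_le_pow₀ hC1
      nlinarith
    have hx : 2 / η ≤ C ^ 3 / 3072 := by
      have : 6144 / η ≤ C ^ 3 := by linarith
      have e : 2 / η = 6144 / η / 3072 := by field_simp; norm_num
      rw [e]
      exact div_le_div_of_nonneg_right this (by norm_num)
    have hx0 : 0 < 2 / η := by positivity
    have h1 : C ^ 3 / 3072 + 1 ≤ Real.exp (C ^ 3 / 3072) := Real.add_one_le_exp _
    rw [Real.exp_neg]
    have h2 : 2 / η ≤ Real.exp (C ^ 3 / 3072) := by linarith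
    have h3 := inv_anti₀ hx0 h2
    have e : (2 / η)⁻¹ = η / 2 := by rw [inv_div]
    rwa [e] at h3

/-- half-width of the tents -/
def tvL (n : ℕ) : ℕ := ⌈npow n (1 / 3)⌉₊

/-- numerical conditions for (G2), `L = ⌈n^{1/3}⌉`, `τ = t n^{-2/3}`, `K = 36 + t`:
`8/L² ≤ 8 n^{-2/3}`, `12 L/n ≤ 24 n^{-2/3}`, `3y² ≤ 3 n^{-2/3}`. -/
theorem tv_asym_G2 (t : ℝ) (ht : 0 < t) : ∀ᶠ n : ℕ in atTop,
    1 ≤ tvL n ∧ 12 * tvL n ≤ n ∧ t * npow n (-(2 / 3)) ≤ 1 ∧
      gam (-(36 + t)) n < 2 - 8 / (tvL n : ℝ) ^ 2 - 12 * (tvL n : ℝ) / n - 3 * tvY n ^ 2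
        - t * npow n (-(2 / 3)) ∧
      t ^ 2 / 48 ≤ (n : ℝ) * (t * npow n (-(2 / 3))) ^ 2 * (tvL n : ℝ) / 48 := by
  have h1 := (tendsto_npow_pos (a := 1 / 3) (by norm_num)).eventually_ge_atTop 1
  have h2 := (tendsto_npow_pos (a := 2 / 3) (by norm_num)).eventually_ge_atTop (24 + t)
  filter_upwards [h1, h2, eventually_gt_atTop 0] with n h1 h2 hn
  set w := npow n (-(2 / 3)) with hw
  set r := npow n (1 / 3) with hr
  have hw0 : 0 < w := npow_pos hn _
  have hr0 : 0 < r := npow_pos hn _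
  have hn0 : (0 : ℝ) < n := by exact_mod_cast hn
  have h23 : 0 < npow n (2 / 3) := npow_pos hn _
  have hL1 : r ≤ (tvL n : ℝ) := Nat.le_ceil _
  have hL2 : (tvL n : ℝ) ≤ 2 * r := by
    have := (Nat.ceil_lt_add_one hr0.le).le
    unfold tvL
    linarith
  have hL0 : (0 : ℝ) < tvL n := by linarith
  have e1 : r * npow n (2 / 3) = n := by
    rw [hr, ← npow_add hn]; norm_num [npow_one]
  have e2 : r ^ 2 = npow n (2 / 3) := by
    rw [hr, npow_pow_nat]; norm_num
  have e3 : npow n (2 / 3) * w = 1 := by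
    rw [hw, ← npow_add hn]; norm_num [npow]
  have e4 : (n : ℝ) * w = r := by
    rw [← e1, mul_assoc, e3, mul_one]
  refine ⟨?_, ?_, ?_, ?_, ?_⟩
  · have : (1 : ℝ) ≤ (tvL n : ℝ) := by linarith
    exact_mod_cast this
  · have : (12 : ℝ) * (tvL n : ℝ) ≤ n := by
      rw [← e1]; nlinarith
    exact_mod_cast this
  · have : t * w ≤ npow n (2 / 3) * w := mul_le_mul_of_nonneg_right (by linarith) hw0.le
    rwa [e3] at this
  · have g1 : 8 / (tvL n : ℝ) ^ 2 ≤ 8 * w := by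
      rw [div_le_iff₀ (by positivity)]
      have : r ^ 2 ≤ (tvL n : ℝ) ^ 2 := pow_le_pow_left₀ hr0.le hL1 2
      rw [e2] at this
      have := mul_le_mul_of_nonneg_left this hw0.le
      nlinarith
    have g2 : 12 * (tvL n : ℝ) / n ≤ 24 * w := by
      rw [div_le_iff₀ hn0]
      have : 24 * w * (n : ℝ) = 24 * ((n : ℝ) * w) := by ring
      rw [this, e4]; linarith
    have g3 : tvY n ^ 2 ≤ w := by
      rw [tvY_sq hn, hw]
      exact npow_le_npow hn (by norm_num)
    unfold gam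
    rw [← hw]
    nlinarith
  · have : (n : ℝ) * (t * w) ^ 2 * (tvL n : ℝ) = t ^ 2 * (((n : ℝ) * w) * w * (tvL n : ℝ)) := by
      ring
    rw [this, e4]
    have h5 : 1 ≤ r * w * (tvL n : ℝ) := by
      have : r * w * r ≤ r * w * (tvL n : ℝ) := mul_le_mul_of_nonneg_left hL1 (by positivity)
      have e5 : r * w * r = 1 := by
        have : r * w * r = r ^ 2 * w := by ring
        rw [this, e2, e3]
      linarith
    have := mul_le_mul_of_nonneg_left h5 (sq_nonneg t)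
    apply div_le_div_of_nonneg_right _ (by norm_num)
    linarith

theorem tv_choose_t (η : ℝ) (hη : 0 < η) : ∃ t : ℝ, 0 < t ∧
    3 * Real.exp (-(t ^ 2 / 48)) ≤ η / 2 := by
  refine ⟨1 + 288 / η, by positivity, ?_⟩
  have h : 0 < 288 / η := by positivity
  set t := 1 + 288 / η with ht
  have ht1 : 1 ≤ t := by linarith
  have ht2 : t ≤ t ^ 2 := by nlinarith
  have hx : 6 / η ≤ t ^ 2 / 48 := by
    have : 288 / η ≤ t ^ 2 := by linarith
    have e : 6 / η = 288 / η / 48 := by field_simp; norm_num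
    rw [e]
    exact div_le_div_of_nonneg_right this (by norm_num)
  have hx0 : 0 < 6 / η := by positivity
  have h1 : t ^ 2 / 48 + 1 ≤ Real.exp (t ^ 2 / 48) := Real.add_one_le_exp _
  rw [Real.exp_neg]
  have h2 : 6 / η ≤ Real.exp (t ^ 2 / 48) := by linarith
  have h3 := inv_anti₀ hx0 h2
  have e : (6 / η)⁻¹ = η / 6 := by rw [inv_div]
  rw [e] at h3
  linarith

/-! ### (formerly `TVAsym.lean`)
Row 133 / S0266, section 6: the three exports (R6), (R4), (G2) for the Jacobi model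
`jacLaw (n⁻¹) n`, from `tv_spike`, `tv_tents` and elementary asymptotics.
Everywhere `y = n^{-7/20}` (so `y² = n^{-0.7} ≪ n^{-2/3}` and `n y² = n^{0.3} ≫ n^{0.2}`).
-/

/-- (R6) for the Jacobi model -/
theorem tv_R6 : ∀ᶠ n : ℕ in atTop, ∀ R : ℝ, npow n (-(13 / 50)) / 2 ≤ R → R ≤ 1 →
    jacLaw (n : ℝ≥0)⁻¹ n {q | Below (jacMat q + spike (1 + R) (e0 n)) (2 + npow n (-(3 / 5)))}
      ≤ eexp (-npow n (1 / 5)) := by
  filter_upwards [tv_asym_R6a, tv_asym_R6b, tv_asym_reg, tvY_le_half, eventually_ge_atTop 4]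
    with n ha hb hreg hy hn R hR hR1
  have hn0 : 0 < n := by omega
  have hR0 : 0 < R := lt_of_lt_of_le (by have := npow_pos hn0 (-(13 / 50)); linarith) hR
  obtain ⟨h4, hz⟩ := ha R hR hR1
  have h := tv_spike n hn R (tvY n) _ hR0 hR1 (tvY_nonneg n) hy h4 hz
  refine le_trans h (le_trans (add_le_add (hb R hR) hreg) ?_)
  rw [ENNReal.add_halves]

/-- (R4) for the Jacobi model -/
theorem tv_R4 (η K : ℝ) (hη : 0 < η) (hK : 0 < K) : ∃ C : ℝ, 0 < C ∧ ∀ᶠ n : ℕ in atTop,
    jacLaw (n : ℝ≥0)⁻¹ n {q | Below (jacMat q + spike (1 + C * npow n (-(1 / 3))) (e0 n)) (gam K n)}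
      ≤ ENNReal.ofReal η := by
  obtain ⟨C, hC4, hCK, hCη⟩ := tv_choose_C η K hη hK
  refine ⟨C, by linarith, ?_⟩
  filter_upwards [tv_asym_R4 K C hK hC4 hCK, tv_asym_reg' (η / 2) (by linarith), tvY_le_half,
    eventually_ge_atTop 4] with n ha hreg hy hn
  have hn0 : 0 < n := by omega
  obtain ⟨hR1, h4, hz, h3⟩ := ha
  have hR0 : 0 < C * npow n (-(1 / 3)) := mul_pos (by linarith) (npow_pos hn0 _)
  have h := tv_spike n hn (C * npow n (-(1 / 3))) (tvY n) _ hR0 hR1 (tvY_nonneg n) hy h4 hz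
  refine le_trans h ?_
  rw [h3]
  have h5 : eexp (-(C ^ 3 / 3072)) ≤ ENNReal.ofReal (η / 2) := ENNReal.ofReal_le_ofReal hCη
  refine le_trans (add_le_add h5 hreg) ?_
  rw [← ENNReal.ofReal_add (by linarith) (by linarith)]
  exact ENNReal.ofReal_le_ofReal (by linarith)

/-- (G2) for the Jacobi model -/
theorem tv_G2 (η : ℝ) (hη : 0 < η) : ∃ K : ℝ, 0 < K ∧ ∀ᶠ n : ℕ in atTop,
    jacLaw (n : ℝ≥0)⁻¹ n {q | ¬ ThreeTop (jacMat q) (gam (-K) n)} ≤ ENNReal.ofReal η := by
  obtain ⟨t, ht, htη⟩ := tv_choose_t η hη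
  refine ⟨36 + t, by linarith, ?_⟩
  filter_upwards [tv_asym_G2 t ht, tv_asym_reg' (η / 2) (by linarith), tvY_le_half,
    eventually_gt_atTop 0] with n ha hreg hy hn0
  obtain ⟨hL, h12, hτ1, hc, hexp⟩ := ha
  have hτ0 : 0 ≤ t * npow n (-(2 / 3)) := (mul_pos ht (npow_pos hn0 _)).le
  have h := tv_tents n (tvL n) hL h12 (tvY n) (t * npow n (-(2 / 3))) _ (tvY_nonneg n) hy hτ0 hτ1 hc
  refine le_trans h ?_
  have h5 : 3 * eexp (-((n : ℝ) * (t * npow n (-(2 / 3))) ^ 2 * (tvL n : ℝ) / 48))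
      ≤ ENNReal.ofReal (η / 2) := by
    have h6 : eexp (-((n : ℝ) * (t * npow n (-(2 / 3))) ^ 2 * (tvL n : ℝ) / 48))
        ≤ eexp (-(t ^ 2 / 48)) := by
      rw [eexp_le_eexp]; linarith
    refine le_trans (mul_le_mul_right h6 3) ?_
    unfold eexp
    rw [show (3 : ℝ≥0∞) = ENNReal.ofReal 3 by simp, ← ENNReal.ofReal_mul (by norm_num)]
    exact ENNReal.ofReal_le_ofReal htη
  refine le_trans (add_le_add h5 hreg) ?_
  rw [← ENNReal.ofReal_add (by linarith) (by linarith)]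
  exact ENNReal.ofReal_le_ofReal (by linarith)

end

end Claimed.Agent.R133
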