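/-
Row 133 / S0266, section 4.  (TRI): weak tridiagonalisation of the GOE.
Every measurable functional of a matrix which is invariant under conjugation by the orthogonal
matrices fixing `e0` has the same integral under the GOE and under the Jacobi model.
-/
import Claimed.Agent.R133.JacDef
import Claimed.Agent.R133.GoeBorder
import Claimed.Agent.R133.BelowL

set_option autoImplicit false

namespace Claimed.Agent.R133

open MeasureTheory ProbabilityTheory
open scoped BigOperators NNReal ENNReal Matrix

noncomputable section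

namespace Tri

theorem border_zz {m : ℕ} (d : ℝ) (w : Vec m) (M : Mat m) : border d w M 0 0 = d := rfl

theorem border_zs {m : ℕ} (d : ℝ) (w : Vec m) (M : Mat m) (j : Fin m) :
    border d w M 0 j.succ = w j := rfl

theorem border_sz {m : ℕ} (d : ℝ) (w : Vec m) (M : Mat m) (i : Fin m) :
    border d w M i.succ 0 = w i := rfl

theorem border_ss {m : ℕ} (d : ℝ) (w : Vec m) (M : Mat m) (i j : Fin m) :
    border d w M i.succ j.succ = M i j := rfl

theorem border_one (m : ℕ) : border 1 0 (1 : Mat m) = 1 := by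
  ext i j
  refine Fin.cases ?_ (fun i => ?_) i <;> refine Fin.cases ?_ (fun j => ?_) j
  · simp [border_zz]
  · simp [border_zs, Fin.ext_iff]
  · simp [border_sz, Fin.ext_iff]
  · simp [border_ss, Matrix.one_apply, Fin.ext_iff]

theorem e0_zero (m : ℕ) : e0 (m + 1) 0 = 1 := by simp [e0]

theorem e0_succ (m : ℕ) (i : Fin m) : e0 (m + 1) i.succ = 0 := by simp [e0]

theorem measurable_cons {m : ℕ} :
    Measurable (fun x : (ℝ × ℝ) × JPar m => (Fin.cons x.1 x.2 : JPar (m + 1))) := by
  refine measurable_pi_iff.2 (fun i => ?_)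
  refine Fin.cases ?_ (fun i => ?_) i
  · simpa using measurable_fst
  · simp only [Fin.cons_succ]
    exact (measurable_pi_apply i).comp measurable_snd

theorem nrm2_eq {m : ℕ} (w : Vec m) : nrm2 w = ∑ i, w i ^ 2 := by
  simp [nrm2, dotProduct, sq]

theorem nrm2_smul_e0 (m : ℕ) (w : Vec m) :
    nrm2 w = nrm2 (Real.sqrt (nrm2 w) • e0 m) := by
  rcases Nat.eq_zero_or_pos m with rfl | hm
  · simp [nrm2]
  · have h1 : nrm2 (Real.sqrt (nrm2 w) • e0 m) = Real.sqrt (nrm2 w) ^ 2 * nrm2 (e0 m) := by
      simp [nrm2, dotProduct_smul, smul_dotProduct, sq, mul_assoc]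
    rw [h1, nrm2_e0 m hm, Real.sq_sqrt (nrm2_nonneg w), mul_one]

end Tri

open Tri in
theorem cj_border {m : ℕ} (H : Mat m) (d : ℝ) (w : Vec m) (M : Mat m) :
    cj (border 1 0 H) (border d w M) = border d (H *ᵥ w) (cj H M) := by
  ext i j
  refine Fin.cases ?_ (fun i => ?_) i <;> refine Fin.cases ?_ (fun j => ?_) j
  · simp [cj, Matrix.mul_apply, Fin.sum_univ_succ, border_zz, border_zs]
  · simp [cj, Matrix.mul_apply, Fin.sum_univ_succ, border_zz, border_zs, border_sz, border_ss,
      Matrix.mulVec, dotProduct, mul_comm]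
  · simp [cj, Matrix.mul_apply, Fin.sum_univ_succ, border_zz, border_zs, border_sz, border_ss,
      Matrix.mulVec, dotProduct]
  · simp [cj, Matrix.mul_apply, Fin.sum_univ_succ, border_sz, border_ss]

open Tri in
/-- block diagonal orthogonal matrix `diag(1, H)` -/
theorem isOrth_border {m : ℕ} {H : Mat m} (hH : IsOrth H) : IsOrth (border 1 0 H) := by
  have h := cj_border H 1 0 1
  rw [border_one] at h
  unfold IsOrth
  have h2 : cj H 1 = 1 := by
    unfold IsOrth at hH
    simpa [cj] using hH
  rw [h2, Matrix.mulVec_zero, border_one] at h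
  simpa [cj] using h

open Tri in
theorem border_mulVec_e0 {m : ℕ} (H : Mat m) : border 1 0 H *ᵥ e0 (m + 1) = e0 (m + 1) := by
  ext i
  refine Fin.cases ?_ (fun i => ?_) i
  · simp [Matrix.mulVec, dotProduct, Fin.sum_univ_succ, border_zz, border_zs, e0_zero, e0_succ]
  · simp [Matrix.mulVec, dotProduct, Fin.sum_univ_succ, border_sz, border_ss, e0_zero, e0_succ]

open Tri in
/-- (TRI) -/
theorem tri_lintegral (v : ℝ≥0) (n : ℕ) (Φ : Mat n → ℝ≥0∞) (hΦ : Measurable Φ)
    (hinv : ∀ O : Mat n, IsOrth O → O *ᵥ e0 n = e0 n → ∀ M, Φ (cj O M) = Φ M) :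
    ∫⁻ M, Φ M ∂(goeV v n) = ∫⁻ q, Φ (jacMat q) ∂(jacLaw v n) := by
  induction n with
  | zero =>
    have h1 : ∀ M : Mat 0, Φ M = Φ 0 := fun M => by rw [Subsingleton.elim M 0]
    rw [lintegral_congr h1, lintegral_congr (fun q => h1 (jacMat q))]
    simp
  | succ m ih =>
    -- the key identity for fixed `d`, `w`
    have key : ∀ (d : ℝ) (w : Vec m),
        ∫⁻ M', Φ (border d w M') ∂(goeV v m)
          = ∫⁻ q', Φ (border d (Real.sqrt (∑ i, w i ^ 2) • e0 m) (jacMat q')) ∂(jacLaw v m) := by
      intro d w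
      rw [← nrm2_eq]
      set β := Real.sqrt (nrm2 w) with hβ
      obtain ⟨H, hH, hHw⟩ := exists_orth w (β • e0 m) (nrm2_smul_e0 m w)
      have hmeas : ∀ u : Vec m, Measurable (fun M' : Mat m => Φ (border d u M')) := fun u =>
        hΦ.comp (measurable_border.comp
          (measurable_const.prodMk (measurable_const.prodMk measurable_id)))
      have h1 : ∀ M' : Mat m, Φ (border d w M') = Φ (border d (β • e0 m) (cj H M')) := by
        intro M'
        rw [← hHw, ← cj_border, hinv _ (isOrth_border hH) (border_mulVec_e0 H)]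
      rw [lintegral_congr h1, lintegral_goeV_cj v m hH (fun M' => Φ (border d (β • e0 m) M'))
        (hmeas _)]
      refine ih (fun M' => Φ (border d (β • e0 m) M')) (hmeas _) ?_
      intro O hO hOe M
      have : border d (β • e0 m) (cj O M) = cj (border 1 0 O) (border d (β • e0 m) M) := by
        rw [cj_border, Matrix.mulVec_smul, hOe]
      rw [this, hinv _ (isOrth_border hO) (border_mulVec_e0 O)]
    -- joint measurability
    have hm1 : Measurable (fun x : ℝ × Vec m × Mat m => Φ (border x.1 x.2.1 x.2.2)) :=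
      hΦ.comp measurable_border
    have hm2 : Measurable (fun x : (ℝ × ℝ) × JPar m =>
        Φ (border x.1.1 (Real.sqrt x.1.2 • e0 m) (jacMat x.2))) := by
      have h0 : Measurable (fun x : (ℝ × ℝ) × JPar m =>
          ((x.1.1, (Real.sqrt x.1.2 • e0 m, jacMat x.2)) : ℝ × Vec m × Mat m)) := by
        refine (measurable_fst.comp measurable_fst).prodMk (Measurable.prodMk ?_
          (measurable_jacMat.comp measurable_snd))
        exact ((measurable_snd.comp measurable_fst).sqrt).smul_const _
      exact hΦ.comp (measurable_border.comp h0)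
    -- left side
    rw [← goeV_border, lintegral_map hΦ measurable_border, lintegral_prod _ hm1.aemeasurable]
    -- right side
    rw [jacLaw_succ, lintegral_map (f := fun q => Φ (jacMat q)) (hΦ.comp measurable_jacMat)
      measurable_cons]
    simp_rw [jacMat_cons]
    rw [lintegral_prod _ hm2.aemeasurable, lintegral_prod _ hm2.lintegral_prod_right'.aemeasurable]
    refine lintegral_congr (fun d => ?_)
    have hm3 : Measurable (fun y : Vec m × Mat m => Φ (border d y.1 y.2)) :=
      hm1.comp (measurable_const.prodMk measurable_id)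
    rw [lintegral_prod _ hm3.aemeasurable]
    have hm4 : Measurable (fun s : ℝ =>
        ∫⁻ q', Φ (border d (Real.sqrt s • e0 m) (jacMat q')) ∂(jacLaw v m)) := by
      have : Measurable (fun p : ℝ × JPar m =>
          Φ (border d (Real.sqrt p.1 • e0 m) (jacMat p.2))) :=
        hm2.comp ((measurable_const.prodMk measurable_fst).prodMk measurable_snd)
      exact this.lintegral_prod_right'
    unfold chisq
    rw [lintegral_map hm4 (by fun_prop)]
    exact lintegral_congr (fun w => key d w)

/-- (TRI) for events -/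
theorem tri_measure (v : ℝ≥0) (n : ℕ) (S : Set (Mat n)) (hS : MeasurableSet S)
    (hinv : ∀ O : Mat n, IsOrth O → O *ᵥ e0 n = e0 n → ∀ M, cj O M ∈ S ↔ M ∈ S) :
    goeV v n S = jacLaw v n {q | jacMat q ∈ S} := by
  classical
  have hm : Measurable (S.indicator (1 : Mat n → ℝ≥0∞)) := measurable_one.indicator hS
  have h := tri_lintegral v n (S.indicator 1) hm (fun O hO he M => by
    by_cases hM : M ∈ S
    · rw [Set.indicator_of_mem hM, Set.indicator_of_mem ((hinv O hO he M).2 hM)]
      rfl
    · rw [Set.indicator_of_notMem hM,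
        Set.indicator_of_notMem (fun hc => hM ((hinv O hO he M).1 hc))])
  rw [lintegral_indicator_one hS] at h
  rw [h]
  have e : (fun q => S.indicator (1 : Mat n → ℝ≥0∞) (jacMat q))
      = ({q | jacMat q ∈ S} : Set (JPar n)).indicator 1 := by
    funext q
    by_cases hq : jacMat q ∈ S
    · rw [Set.indicator_of_mem hq, Set.indicator_of_mem (show q ∈ {q | jacMat q ∈ S} from hq)]
      rfl
    · rw [Set.indicator_of_notMem hq,
        Set.indicator_of_notMem (show q ∉ {q | jacMat q ∈ S} from hq)]
  rw [e]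
  exact lintegral_indicator_one (measurable_jacMat hS)

theorem tri_cj_sub {n : ℕ} (O M N : Mat n) : cj O (M - N) = cj O M - cj O N := by
  unfold cj
  rw [Matrix.mul_sub, Matrix.sub_mul]

theorem below_spike_cj_iff {n : ℕ} (θ z : ℝ) (O : Mat n) (hO : IsOrth O)
    (he : O *ᵥ e0 n = e0 n) (M : Mat n) :
    Below (cj O M + spike θ (e0 n)) z ↔ Below (M + spike θ (e0 n)) z := by
  have e : cj O M + spike θ (e0 n) = cj O (M + spike θ (e0 n)) := by
    rw [cj_add, cj_spike, he]
  rw [e, below_cj hO]

/-- spiked edge events -/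
theorem tri_below (v : ℝ≥0) (n : ℕ) (θ z : ℝ) :
    goeV v n {J | Below (J + spike θ (e0 n)) z}
      = jacLaw v n {q | Below (jacMat q + spike θ (e0 n)) z} :=
  tri_measure v n {J | Below (J + spike θ (e0 n)) z} (measurableSet_below_spike_left θ z (e0 n))
    (fun O hO he M => below_spike_cj_iff θ z O hO he M)

theorem tri_not_below (v : ℝ≥0) (n : ℕ) (θ z : ℝ) :
    goeV v n {J | ¬ Below (J + spike θ (e0 n)) z}
      = jacLaw v n {q | ¬ Below (jacMat q + spike θ (e0 n)) z} :=
  tri_measure v n {J | ¬ Below (J + spike θ (e0 n)) z}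
    (measurableSet_below_spike_left θ z (e0 n)).compl
    (fun O hO he M => not_congr (below_spike_cj_iff θ z O hO he M))

theorem tri_not_threeTop (v : ℝ≥0) (n : ℕ) (c : ℝ) :
    goeV v n {J | ¬ ThreeTop J c} = jacLaw v n {q | ¬ ThreeTop (jacMat q) c} :=
  tri_measure v n {J | ¬ ThreeTop J c} (measurableSet_threeTop c).compl
    (fun O hO _ M => not_congr (threeTop_cj hO M c))

theorem tri_det (v : ℝ≥0) (n : ℕ) (z x : ℝ) :
    goeV v n {J | ¬ (z • (1 : Mat n) - J).det ≤ x}
      = jacLaw v n {q | ¬ (z • (1 : Mat n) - jacMat q).det ≤ x} := by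
  have hc : Continuous (fun J : Mat n => (z • (1 : Mat n) - J).det) :=
    (continuous_const.sub continuous_id).matrix_det
  have hS : MeasurableSet {J : Mat n | (z • (1 : Mat n) - J).det ≤ x} :=
    (isClosed_le hc continuous_const).measurableSet
  refine tri_measure v n {J | ¬ (z • (1 : Mat n) - J).det ≤ x} hS.compl (fun O hO _ M => ?_)
  have e : z • (1 : Mat n) - cj O M = cj O (z • (1 : Mat n) - M) := by
    rw [tri_cj_sub, cj_smul_one hO]
  show ¬ (z • (1 : Mat n) - cj O M).det ≤ x ↔ ¬ (z • (1 : Mat n) - M).det ≤ x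
  rw [e, det_cj hO]

end

end Claimed.Agent.R133
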