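/-
Row 133 / S0266, module R0: the five random matrix inputs, stated for the JACOBI MODEL
`jacLaw (n⁻¹) n` (see `JacDef.lean`).  `Rmt.lean` deduces the GOE versions by `Tri.lean`.
`jac_T1` = `T1A-E.lean`, `jac_R4, jac_R6, jac_G2` = `TV*.lean` (helper783), `jac_G4` = `LDetA-E.lean`.
-/
import Claimed.Agent.R133.Tri
import Claimed.Agent.R133.LDetE
import Claimed.Agent.R133.T1E
import Claimed.Agent.R133.TVAsym

set_option autoImplicit false

namespace Claimed.Agent.R133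

open MeasureTheory ProbabilityTheory Filter
open scoped BigOperators NNReal ENNReal Matrix

/-- the Jacobi model with the normalisation of `goe n` -/
noncomputable def jacN (n : ℕ) : Measure (JPar n) := jacLaw (n : ℝ≥0)⁻¹ n

/-- (T1) -/
theorem jac_T1 (η c : ℝ) (hη : 0 < η) (hc : 0 < c) : ∃ K : ℝ, 0 < K ∧ ∀ᶠ n : ℕ in atTop,
    jacN n {q | ¬ Below (jacMat q + spike (1 + c * npow n (-(1 / 3))) (e0 n)) (gam K n)}
      ≤ ENNReal.ofReal η :=
  jac_T1_main η c hη hc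

/-- (R4) -/
theorem jac_R4 (η K : ℝ) (hη : 0 < η) (hK : 0 < K) : ∃ C : ℝ, 0 < C ∧ ∀ᶠ n : ℕ in atTop,
    jacN n {q | Below (jacMat q + spike (1 + C * npow n (-(1 / 3))) (e0 n)) (gam K n)}
      ≤ ENNReal.ofReal η :=
  tv_R4 η K hη hK

/-- (R6) -/
theorem jac_R6 : ∀ᶠ n : ℕ in atTop, ∀ R : ℝ, npow n (-(13 / 50)) / 2 ≤ R → R ≤ 1 →
    jacN n {q | Below (jacMat q + spike (1 + R) (e0 n)) (2 + npow n (-(3 / 5)))}
      ≤ eexp (-npow n (1 / 5)) :=
  tv_R6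

/-- (G2) -/
theorem jac_G2 (η : ℝ) (hη : 0 < η) : ∃ K : ℝ, 0 < K ∧ ∀ᶠ n : ℕ in atTop,
    jacN n {q | ¬ ThreeTop (jacMat q) (gam (-K) n)} ≤ ENNReal.ofReal η :=
  tv_G2 η hη

/-- (G4) -/
theorem jac_G4 (η K : ℝ) (hη : 0 < η) (hK : 2 ≤ K) : ∀ᶠ n : ℕ in atTop,
    jacN n {q | Below (jacMat q) (gam K n) ∧
      Real.exp ((n : ℝ) / 2 + K * npow n (1 / 3) + npow n (1 / 10))
        < (gam K n • (1 : Mat n) - jacMat q).det}
      ≤ ENNReal.ofReal η :=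
  jac_G4_main η K hη hK

end Claimed.Agent.R133
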