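/-
Row 133 / S0266, module R: the five random matrix inputs, stated for the GOE.
They follow from the Jacobi-matrix versions (`FormBound, TestVec, LogDet`) by `tri_transfer`
and the orthogonal invariance (to move the spike from `e_0` to `e_i`).  Blueprint sections 4-7.
-/
import Claimed.Agent.R133.Goe
import Claimed.Agent.R133.RmtJac

set_option autoImplicit false

namespace Claimed.Agent.R133

open MeasureTheory ProbabilityTheory Filter
open scoped BigOperators NNReal ENNReal Matrix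

/-- `2 + n^{-3/5}` -/
noncomputable def zone (n : ℕ) : ℝ := 2 + npow n (-(3 / 5))

/-- `n^{-13/50}` -/
noncomputable def rn (n : ℕ) : ℝ := npow n (-(13 / 50))

/-- spiked edge event at `eb i`: GOE = Jacobi model -/
theorem rmt_below_eb (n : ℕ) (θ z : ℝ) (i : Fin n) :
    goe n {J | Below (J + spike θ (eb i)) z}
      = jacN n {q | Below (jacMat q + spike θ (e0 n)) z} := by
  unfold goe jacN
  rw [goeV_below_spike, nrm2_eb, mul_one, tri_below]

/-- complement of the spiked edge event at `eb i`: GOE = Jacobi model -/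
theorem rmt_not_below_eb (n : ℕ) (θ z : ℝ) (i : Fin n) :
    goe n {J | ¬ Below (J + spike θ (eb i)) z}
      = jacN n {q | ¬ Below (jacMat q + spike θ (e0 n)) z} := by
  have h1 : goe n {J | ¬ Below (J + spike θ (eb i)) z}
      = 1 - goe n {J | Below (J + spike θ (eb i)) z} :=
    prob_compl_eq_one_sub (measurableSet_below_spike_left θ z (eb i))
  have h2 : goe n {J | ¬ Below (J + spike θ (e0 n)) z}
      = 1 - goe n {J | Below (J + spike θ (e0 n)) z} :=
    prob_compl_eq_one_sub (measurableSet_below_spike_left θ z (e0 n))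
  have h3 : goe n {J | Below (J + spike θ (eb i)) z}
      = goe n {J | Below (J + spike θ (e0 n)) z} := by
    unfold goe
    rw [goeV_below_spike, nrm2_eb, mul_one]
  rw [h1, h3, ← h2]
  unfold goe jacN
  exact tri_not_below _ n θ z

/-- (T1) a critical spike `1 + c n^{-1/3}` keeps the top eigenvalue below `2 + K n^{-2/3}`. -/
theorem rmt_T1 (η c : ℝ) (hη : 0 < η) (hc : 0 < c) : ∃ K : ℝ, 0 < K ∧ ∀ᶠ n : ℕ in atTop,
    ∀ i : Fin n, goe n {J | ¬ Below (J + spike (1 + c * npow n (-(1 / 3))) (eb i)) (gam K n)}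
      ≤ ENNReal.ofReal η := by
  obtain ⟨K, hK, h⟩ := jac_T1 η c hη hc
  refine ⟨K, hK, h.mono fun n hn i => ?_⟩
  rw [rmt_not_below_eb]
  exact hn

/-- (R4) a spike `1 + C n^{-1/3}` with `C` large pushes the top eigenvalue above `2 + K n^{-2/3}`. -/
theorem rmt_R4 (η K : ℝ) (hη : 0 < η) (hK : 0 < K) : ∃ C : ℝ, 0 < C ∧ ∀ᶠ n : ℕ in atTop,
    ∀ i : Fin n, goe n {J | Below (J + spike (1 + C * npow n (-(1 / 3))) (eb i)) (gam K n)}
      ≤ ENNReal.ofReal η := by
  obtain ⟨C, hC, h⟩ := jac_R4 η K hη hK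
  refine ⟨C, hC, h.mono fun n hn i => ?_⟩
  rw [rmt_below_eb]
  exact hn

/-- (R6) large deviations: a spike `1 + R`, `R ≥ n^{-0.26}/2`. -/
theorem rmt_R6 : ∀ᶠ n : ℕ in atTop, ∀ R : ℝ, rn n / 2 ≤ R → R ≤ 1 →
    ∀ i : Fin n, goe n {J | Below (J + spike (1 + R) (eb i)) (zone n)} ≤ eexp (-npow n (1 / 5)) := by
  refine jac_R6.mono fun n hn R hR1 hR2 i => ?_
  rw [rmt_below_eb]
  exact hn R hR1 hR2

/-- (G2) three eigenvalues above `2 - K n^{-2/3}`. -/
theorem rmt_G2 (η : ℝ) (hη : 0 < η) : ∃ K : ℝ, 0 < K ∧ ∀ᶠ n : ℕ in atTop,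
    goe n {J | ¬ ThreeTop J (gam (-K) n)} ≤ ENNReal.ofReal η := by
  obtain ⟨K, hK, h⟩ := jac_G2 η hη
  refine ⟨K, hK, h.mono fun n hn => ?_⟩
  unfold goe
  rw [tri_not_threeTop]
  exact hn

/-- (TRI) for the event of (G4) -/
theorem rmt_below_det (v : ℝ≥0) (n : ℕ) (z x : ℝ) :
    goeV v n {J | Below J z ∧ x < (z • (1 : Mat n) - J).det}
      = jacLaw v n {q | Below (jacMat q) z ∧ x < (z • (1 : Mat n) - jacMat q).det} := by
  have hc : Continuous (fun J : Mat n => (z • (1 : Mat n) - J).det) :=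
    (continuous_const.sub continuous_id).matrix_det
  have hS : MeasurableSet {J : Mat n | x < (z • (1 : Mat n) - J).det} :=
    (isOpen_lt continuous_const hc).measurableSet
  refine tri_measure v n {J | Below J z ∧ x < (z • (1 : Mat n) - J).det}
    ((measurableSet_below z).inter hS) (fun O hO _ M => ?_)
  have e : z • (1 : Mat n) - cj O M = cj O (z • (1 : Mat n) - M) := by
    rw [tri_cj_sub, cj_smul_one hO]
  show (Below (cj O M) z ∧ x < (z • (1 : Mat n) - cj O M).det)
    ↔ (Below M z ∧ x < (z • (1 : Mat n) - M).det)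
  rw [e, det_cj hO, below_cj hO]

/-- (G4) upper bound for the determinant.  (`2 ≤ K`: makes the bound on the weights `g_k` in
`LDet*.lean` a one-line induction; `good_prob` takes `K` large anyway.) -/
theorem rmt_G4 (η K : ℝ) (hη : 0 < η) (hK : 2 ≤ K) : ∀ᶠ n : ℕ in atTop,
    goe n {J | Below J (gam K n) ∧
      Real.exp ((n : ℝ) / 2 + K * npow n (1 / 3) + npow n (1 / 10)) < (gam K n • (1 : Mat n) - J).det}
      ≤ ENNReal.ofReal η := by
  refine (jac_G4 η K hη hK).mono fun n hn => ?_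
  unfold goe
  rw [rmt_below_det]
  exact hn

end Claimed.Agent.R133
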