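/-
Row 133 / S0266, module L: the good event has probability close to one.  Blueprint sections 1, 4 (XI).
-/
import Claimed.Agent.R133.Rmt
import Claimed.Agent.R133.Inv

set_option autoImplicit false

namespace Claimed.Agent.R133

open MeasureTheory ProbabilityTheory Filter
open scoped BigOperators NNReal ENNReal Matrix

/-- (XI) for fixed `ξ` rotate `ξ` to `|ξ| e_i`. -/
theorem goe_below_spike_rot {n : ℕ} (i : Fin n) (θ z : ℝ) (ξ : Vec n) :
    goe n {J | Below (J + spike θ ξ) z} = goe n {J | Below (J + spike (θ * nrm2 ξ) (eb i)) z} := by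
  unfold goe
  rw [goeV_below_spike, goeV_below_spike _ _ (θ * nrm2 ξ) z (eb i), nrm2_eb, mul_one]

/-- the same for the complementary event -/
theorem h687_goe_not_below_spike_rot {n : ℕ} (i : Fin n) (θ z : ℝ) (ξ : Vec n) :
    goe n {J | ¬ Below (J + spike θ ξ) z}
      = goe n {J | ¬ Below (J + spike (θ * nrm2 ξ) (eb i)) z} := by
  have h1 := prob_compl_eq_one_sub (μ := goe n) (measurableSet_below_spike_left θ z ξ)
  have h2 := prob_compl_eq_one_sub (μ := goe n)
    (measurableSet_below_spike_left (θ * nrm2 ξ) z (eb i))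
  have e1 : {J : Mat n | ¬ Below (J + spike θ ξ) z} = {J | Below (J + spike θ ξ) z}ᶜ := rfl
  have e2 : {J : Mat n | ¬ Below (J + spike (θ * nrm2 ξ) (eb i)) z}
      = {J | Below (J + spike (θ * nrm2 ξ) (eb i)) z}ᶜ := rfl
  rw [e1, e2, h1, h2, goe_below_spike_rot i]

/-- elementary inequalities for the two spike strengths -/
theorem h687_spike_num (a b C s N : ℝ) (hN : 0 < N) (ha0 : 0 < a) (ha : a ≤ 1 / 3)
    (hC : 0 < C) (hCa : C * a ≤ 1 / 2) (hb1 : b ≤ a) (hb2 : b ≤ C / 2 * a)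
    (hs : |s - N| ≤ b * N) :
    1 / (1 - 1 * a) / N * s ≤ 1 + 3 * a ∧ 1 + C / 2 * a ≤ 1 / (1 - C * a) / N * s := by
  obtain ⟨hs1, hs2⟩ := abs_le.1 hs
  constructor
  · have h1 : 0 < 1 - 1 * a := by linarith
    rw [div_div, div_mul_eq_mul_div, one_mul, div_le_iff₀ (mul_pos h1 hN)]
    have h2 : s ≤ (1 + b) * N := by linarith
    refine h2.trans ?_
    have h3 : 1 + b ≤ (1 + 3 * a) * (1 - 1 * a) := by nlinarith
    calc (1 + b) * N ≤ ((1 + 3 * a) * (1 - 1 * a)) * N := mul_le_mul_of_nonneg_right h3 hN.le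
      _ = (1 + 3 * a) * ((1 - 1 * a) * N) := by ring
  · have h1 : 0 < 1 - C * a := by linarith
    have e : 1 / (1 - C * a) / N * s = s / ((1 - C * a) * N) := by
      rw [div_div, div_mul_eq_mul_div, one_mul]
    rw [e, le_div_iff₀ (mul_pos h1 hN)]
    have h2 : (1 - b) * N ≤ s := by linarith
    refine le_trans ?_ h2
    have h3 : (1 + C / 2 * a) * (1 - C * a) ≤ 1 - b := by nlinarith [mul_pos hC ha0]
    calc (1 + C / 2 * a) * ((1 - C * a) * N) = ((1 + C / 2 * a) * (1 - C * a)) * N := by ring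
      _ ≤ (1 - b) * N := mul_le_mul_of_nonneg_right h3 hN.le

/-- (G3) holds with high probability: Markov + Tonelli + (XI) + `gv_nrm2_cheb` + (T1) + (R4).
`K` must be such that (T1) holds at level `K/2` with `c = 3`; `C/2` such that (R4) holds at level `K`. -/
theorem good_g3_prob (η K C : ℝ) (hη : 0 < η) (hK : 0 < K) (hC : 0 < C)
    (hT1 : ∀ᶠ n : ℕ in atTop, ∀ i : Fin n,
      goe n {J | ¬ Below (J + spike (1 + 3 * npow n (-(1 / 3))) (eb i)) (gam (K / 2) n)}
        ≤ ENNReal.ofReal (η / 96))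
    (hR4 : ∀ᶠ n : ℕ in atTop, ∀ i : Fin n,
      goe n {J | Below (J + spike (1 + C / 2 * npow n (-(1 / 3))) (eb i)) (gam K n)}
        ≤ ENNReal.ofReal (η / 96)) :
    ∀ᶠ n : ℕ in atTop, goe n {J | gv n (G3set K C J) < ENNReal.ofReal (23 / 24)}
      ≤ ENNReal.ofReal η := by
  have ta : Tendsto (fun n : ℕ => npow n (-(1 / 3))) atTop (nhds 0) :=
    tendsto_npow_neg (by norm_num)
  have tc : Tendsto (fun n : ℕ => npow n (-(1 / 15))) atTop (nhds 0) :=
    tendsto_npow_neg (by norm_num)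
  have td : Tendsto (fun n : ℕ => npow n (-(1 / 5))) atTop (nhds 0) :=
    tendsto_npow_neg (by norm_num)
  have ea1 : ∀ᶠ n : ℕ in atTop, npow n (-(1 / 3)) < 1 / 3 :=
    ta.eventually_lt_const (by norm_num)
  have ea2 : ∀ᶠ n : ℕ in atTop, npow n (-(1 / 3)) < 1 / (2 * C) :=
    ta.eventually_lt_const (by positivity)
  have ec1 : ∀ᶠ n : ℕ in atTop, npow n (-(1 / 15)) < 1 :=
    tc.eventually_lt_const (by norm_num)
  have ec2 : ∀ᶠ n : ℕ in atTop, npow n (-(1 / 15)) < C / 2 :=
    tc.eventually_lt_const (by positivity)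
  have ed : ∀ᶠ n : ℕ in atTop, npow n (-(1 / 5)) < η / 96 :=
    td.eventually_lt_const (by positivity)
  filter_upwards [hT1, hR4, ea1, ea2, ec1, ec2, ed, eventually_gt_atTop 0]
    with n hT1 hR4 ea1 ea2 ec1 ec2 ed hn
  have hN : (0 : ℝ) < n := by exact_mod_cast hn
  set a : ℝ := npow n (-(1 / 3)) with ha
  set t : ℝ := npow n (3 / 5) with ht
  have ha0 : 0 < a := npow_pos hn _
  have ht0 : 0 < t := npow_pos hn _
  let i : Fin n := ⟨0, hn⟩
  -- the set in the product space
  set S : Set (Mat n × Vec n) := {p | p.2 ∈ G3set K C p.1} with hS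
  have hSm : MeasurableSet S := measurableSet_G3 K C
  have hsec : ∀ J : Mat n, MeasurableSet (G3set K C J) := fun J =>
    measurable_prodMk_left hSm
  -- step 1: complement
  have h1 : {J : Mat n | gv n (G3set K C J) < ENNReal.ofReal (23 / 24)}
      ⊆ {J | ENNReal.ofReal (1 / 24) ≤ gv n (Prod.mk J ⁻¹' Sᶜ)} := by
    intro J hJ
    have hJ : gv n (G3set K C J) < ENNReal.ofReal (23 / 24) := hJ
    show ENNReal.ofReal (1 / 24) ≤ gv n (Prod.mk J ⁻¹' Sᶜ)
    by_contra hcon
    push Not at hcon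
    have e : Prod.mk J ⁻¹' Sᶜ = (G3set K C J)ᶜ := rfl
    rw [e] at hcon
    have h2 := prob_add_prob_compl (μ := gv n) (hsec J)
    have h3 : gv n (G3set K C J) + gv n (G3set K C J)ᶜ
        < ENNReal.ofReal (23 / 24) + ENNReal.ofReal (1 / 24) := ENNReal.add_lt_add hJ hcon
    rw [h2, ← ENNReal.ofReal_add (by norm_num) (by norm_num)] at h3
    norm_num at h3
  -- step 2: Markov
  have hfm : Measurable fun J : Mat n => gv n (Prod.mk J ⁻¹' Sᶜ) :=
    measurable_measure_prodMk_left hSm.compl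
  have h2 : goe n {J | ENNReal.ofReal (1 / 24) ≤ gv n (Prod.mk J ⁻¹' Sᶜ)}
      ≤ (∫⁻ J, gv n (Prod.mk J ⁻¹' Sᶜ) ∂(goe n)) / ENNReal.ofReal (1 / 24) :=
    meas_ge_le_lintegral_div hfm.aemeasurable
      (ENNReal.ofReal_pos.2 (by norm_num)).ne' ENNReal.ofReal_ne_top
  -- step 3: Tonelli
  have h3 : ∫⁻ J, gv n (Prod.mk J ⁻¹' Sᶜ) ∂(goe n)
      = ∫⁻ ξ, goe n ((fun J => (J, ξ)) ⁻¹' Sᶜ) ∂(gv n) := by
    rw [← Measure.prod_apply hSm.compl, Measure.prod_apply_symm hSm.compl]
  -- step 4: pointwise bound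
  set B : Set (Vec n) := {ξ | t < |nrm2 ξ - n|} with hB
  have hBm : MeasurableSet B := by
    have hc : Continuous fun ξ : Vec n => |nrm2 ξ - n| :=
      (bl_continuous_nrm2.sub continuous_const).abs
    exact (isOpen_lt continuous_const hc).measurableSet
  have h4 : ∀ ξ : Vec n, goe n ((fun J => (J, ξ)) ⁻¹' Sᶜ)
      ≤ B.indicator (fun _ => (1 : ℝ≥0∞)) ξ + ENNReal.ofReal (η / 48) := by
    intro ξ
    by_cases hξ : ξ ∈ B
    · rw [Set.indicator_of_mem hξ]
      exact prob_le_one.trans le_self_add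
    · rw [Set.indicator_of_notMem hξ, zero_add]
      have hξ' : |nrm2 ξ - n| ≤ t := not_lt.1 hξ
      have hb : t = (a * npow n (-(1 / 15))) * n := by
        rw [ha, ht, ← npow_add hn]
        conv_rhs => rw [← npow_one n, ← npow_add hn]
        norm_num
      have hnum := h687_spike_num a (a * npow n (-(1 / 15))) C (nrm2 ξ) n hN ha0 ea1.le hC
        (by
          have := mul_lt_mul_of_pos_left ea2 hC
          have e : C * (1 / (2 * C)) = 1 / 2 := by field_simp
          rw [e] at this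
          exact this.le)
        (by nlinarith) (by nlinarith) (by rw [← hb]; exact hξ')
      obtain ⟨hn1, hn2⟩ := hnum
      have hsub : (fun J => (J, ξ)) ⁻¹' Sᶜ
          ⊆ {J : Mat n | ¬ Below (J + spike (th 1 n / n) ξ) (gam (K / 2) n)}
            ∪ {J | Below (J + spike (th C n / n) ξ) (gam K n)} := by
        intro J hJ
        have hJ : ¬ (Below (J + spike (th 1 n / n) ξ) (gam (K / 2) n) ∧
          ¬ Below (J + spike (th C n / n) ξ) (gam K n)) := hJ
        by_cases hb1 : Below (J + spike (th 1 n / n) ξ) (gam (K / 2) n)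
        · right
          by_contra hb2
          exact hJ ⟨hb1, hb2⟩
        · left
          exact hb1
      refine (measure_mono hsub).trans ((measure_union_le _ _).trans ?_)
      have e48 : ENNReal.ofReal (η / 48) = ENNReal.ofReal (η / 96) + ENNReal.ofReal (η / 96) := by
        rw [← ENNReal.ofReal_add (by positivity) (by positivity)]
        congr 1
        ring
      rw [e48]
      refine add_le_add ?_ ?_
      · rw [h687_goe_not_below_spike_rot i]
        refine (measure_mono ?_).trans (hT1 i)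
        intro J hJ hcon
        exact hJ (hcon.spike_mono hn1)
      · rw [goe_below_spike_rot i]
        refine (measure_mono ?_).trans (hR4 i)
        intro J hJ
        exact Below.spike_mono hJ hn2
  have h5 : ∫⁻ ξ, goe n ((fun J => (J, ξ)) ⁻¹' Sᶜ) ∂(gv n)
      ≤ ENNReal.ofReal (η / 48) + ENNReal.ofReal (η / 48) := by
    refine (lintegral_mono h4).trans ?_
    rw [lintegral_add_right _ measurable_const, lintegral_indicator_const hBm, one_mul, lintegral_const,
      measure_univ, mul_one]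
    refine add_le_add ?_ le_rfl
    refine (gv_nrm2_cheb n t ht0).trans (ENNReal.ofReal_le_ofReal ?_)
    have e : 2 * (n : ℝ) / t ^ 2 = 2 * npow n (-(1 / 5)) := by
      have e1 : t ^ 2 * npow n (-(1 / 5)) = n := by
        rw [ht, sq, ← npow_add hn, ← npow_add hn]
        conv_rhs => rw [← npow_one n]
        norm_num
      rw [div_eq_iff (by positivity)]
      linarith
    rw [e]
    linarith
  refine (measure_mono h1).trans (h2.trans ?_)
  rw [h3]
  refine (ENNReal.div_le_div_right h5 _).trans ?_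
  rw [← ENNReal.ofReal_add (by positivity) (by positivity),
    ← ENNReal.ofReal_div_of_pos (by norm_num)]
  refine ENNReal.ofReal_le_ofReal ?_
  have : (η / 48 + η / 48) / (1 / 24) = η := by ring
  rw [this]

/-- THE GOOD EVENT HAS PROBABILITY `≥ 1 - η`. -/
theorem good_prob (η : ℝ) (hη : 0 < η) : ∃ K C : ℝ, 0 < K ∧ 1 < C ∧ ∀ᶠ n : ℕ in atTop,
    goe n {J | ¬ Good n K C J} ≤ ENNReal.ofReal η := by
  have hη6 : 0 < η / 6 := by positivity
  have hη576 : 0 < η / 6 / 96 := by positivity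
  obtain ⟨K1, hK1, hT1⟩ := rmt_T1 (η / 6 / 96) 3 hη576 (by norm_num)
  obtain ⟨K2, hK2, hG2⟩ := rmt_G2 (η / 6) hη6
  set K : ℝ := max (max (2 * K1) K2) 2 with hKdef
  have hK_1 : K1 ≤ K / 2 := by
    have : 2 * K1 ≤ K := (le_max_left _ _).trans (le_max_left _ _)
    linarith
  have hK_2 : K2 ≤ K := (le_max_right _ _).trans (le_max_left _ _)
  have hK_3 : 2 ≤ K := le_max_right _ _
  have hK : 0 < K := by linarith
  obtain ⟨C0, hC0, hR4⟩ := rmt_R4 (η / 6 / 96) K hη576 hK
  set C : ℝ := max (2 * C0) 2 with hCdef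
  have hC_1 : C0 ≤ C / 2 := by
    have : 2 * C0 ≤ C := le_max_left _ _
    linarith
  have hC_2 : 2 ≤ C := le_max_right _ _
  have hC : 0 < C := by linarith
  have hgam : ∀ (n : ℕ) {x y : ℝ}, x ≤ y → gam x n ≤ gam y n := by
    intro n x y hxy
    unfold gam npow
    have : 0 ≤ (n : ℝ) ^ (-(2 / 3) : ℝ) := Real.rpow_nonneg (Nat.cast_nonneg n) _
    nlinarith
  have hnp : ∀ (n : ℕ) (x : ℝ), 0 ≤ npow n x := fun n x =>
    Real.rpow_nonneg (Nat.cast_nonneg n) _
  -- (T1) at level `K / 2`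
  have hT1' : ∀ᶠ n : ℕ in atTop, ∀ i : Fin n,
      goe n {J | ¬ Below (J + spike (1 + 3 * npow n (-(1 / 3))) (eb i)) (gam (K / 2) n)}
        ≤ ENNReal.ofReal (η / 6 / 96) := by
    filter_upwards [hT1] with n h i
    refine (measure_mono ?_).trans (h i)
    intro J hJ hcon
    exact hJ (hcon.mono (hgam n hK_1))
  -- (R4) with `C / 2`
  have hR4' : ∀ᶠ n : ℕ in atTop, ∀ i : Fin n,
      goe n {J | Below (J + spike (1 + C / 2 * npow n (-(1 / 3))) (eb i)) (gam K n)}
        ≤ ENNReal.ofReal (η / 6 / 96) := by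
    filter_upwards [hR4] with n h i
    refine (measure_mono ?_).trans (h i)
    intro J hJ
    refine Below.spike_mono hJ ?_
    have := mul_le_mul_of_nonneg_right hC_1 (hnp n (-(1 / 3)))
    linarith
  have hG3 := good_g3_prob (η / 6) K C hη6 hK hC hT1' hR4'
  have hG4 := rmt_G4 (η / 6) K hη6 hK_3
  have hfr : ∀ᶠ n : ℕ in atTop, ((n : ℝ) + 1) / (n : ℝ) ^ 2 < η / 6 := by
    have t1 : Tendsto (fun n : ℕ => ((n : ℝ))⁻¹) atTop (nhds 0) :=
      tendsto_inv_atTop_zero.comp tendsto_natCast_atTop_atTop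
    have t2 : Tendsto (fun n : ℕ => ((n : ℝ))⁻¹ + ((n : ℝ))⁻¹ * ((n : ℝ))⁻¹) atTop (nhds 0) := by
      simpa using t1.add (t1.mul t1)
    filter_upwards [t2.eventually_lt_const hη6, eventually_gt_atTop 0] with n h hn
    have hN : (0 : ℝ) < n := by exact_mod_cast hn
    have e : ((n : ℝ) + 1) / (n : ℝ) ^ 2 = ((n : ℝ))⁻¹ + ((n : ℝ))⁻¹ * ((n : ℝ))⁻¹ := by
      field_simp
    rw [e]
    exact h
  refine ⟨K, C, hK, by linarith, ?_⟩
  filter_upwards [hT1', hG2, hG3, hG4, hfr, eventually_gt_atTop 0] with n hT1 hG2 hG3 hG4 hfr hn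
  let i : Fin n := ⟨0, hn⟩
  have hsub : {J : Mat n | ¬ Good n K C J} ⊆
      {J | ¬ Jᵀ = J} ∪
      ({J | ¬ Below (J + spike (1 + 3 * npow n (-(1 / 3))) (eb i)) (gam (K / 2) n)} ∪
      ({J | (n : ℝ) ^ 2 < frob2 J} ∪
      ({J | ¬ ThreeTop J (gam (-K2) n)} ∪
      ({J | gv n (G3set K C J) < ENNReal.ofReal (23 / 24)} ∪
      {J | Below J (gam K n) ∧
        Real.exp ((n : ℝ) / 2 + K * npow n (1 / 3) + npow n (1 / 10))
          < (gam K n • (1 : Mat n) - J).det})))) := by
    intro J hJ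
    by_contra hcon
    simp only [Set.mem_union, Set.mem_ofPred_eq, not_or, not_not, not_lt, not_and] at hcon
    obtain ⟨c1, c2, c3, c4, c5, c6⟩ := hcon
    have hb : Below J (gam (K / 2) n) :=
      below_of_below_add_spike (eb i) (by have := hnp n (-(1 / 3)); linarith) c2
    exact hJ ⟨c1, hb, c3, threeTop_mono (hgam n (by linarith)) c4, c5,
      c6 (hb.mono (hgam n (by linarith)))⟩
  have h0 : goe n {J | ¬ Jᵀ = J} = 0 := goe_symm n
  refine (measure_mono hsub).trans ?_
  refine (measure_union_le _ _).trans ?_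
  rw [h0, zero_add]
  have hsum : ENNReal.ofReal η = ENNReal.ofReal (η / 6) + (ENNReal.ofReal (η / 6) +
      (ENNReal.ofReal (η / 6) + (ENNReal.ofReal (η / 6) + ENNReal.ofReal (η / 3)))) := by
    rw [← ENNReal.ofReal_add (by positivity) (by positivity),
      ← ENNReal.ofReal_add (by positivity) (by positivity),
      ← ENNReal.ofReal_add (by positivity) (by positivity),
      ← ENNReal.ofReal_add (by positivity) (by positivity)]
    congr 1
    ring
  rw [hsum]
  refine (measure_union_le _ _).trans (add_le_add ?_ ?_)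
  · exact (hT1 i).trans (ENNReal.ofReal_le_ofReal (by linarith))
  refine (measure_union_le _ _).trans (add_le_add ?_ ?_)
  · exact (goe_frob hn).trans (ENNReal.ofReal_le_ofReal hfr.le)
  refine (measure_union_le _ _).trans (add_le_add hG2 ?_)
  refine (measure_union_le _ _).trans (add_le_add hG3 ?_)
  exact hG4.trans (ENNReal.ofReal_le_ofReal (by linarith))

end Claimed.Agent.R133
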