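/-
Row 133 / S0266, module D1: the standard Gaussian vector `gv n`: rotation invariance, resampling.
-/
import Claimed.Agent.R133.Meas
import Claimed.Agent.R133.GoeDef

set_option autoImplicit false

namespace Claimed.Agent.R133

open MeasureTheory ProbabilityTheory
open scoped BigOperators NNReal ENNReal Matrix

/-- `gv n` as a centred Gaussian measure. -/
theorem gvA_cgauss (n : ℕ) :
    CGauss (gv n) (fun L : StrongDual ℝ (Vec n) => ∑ i, (L (Pi.single i 1)) ^ 2) := by
  have h := CGauss.pi (ι := Fin n) (E := fun _ => ℝ) (μ := fun _ => gaussianReal 0 1)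
    (fun _ => cgauss_real 1)
  refine ⟨h.1, fun L => ?_⟩
  have h2 := h.2 L
  unfold gv
  rw [h2]
  congr 3
  norm_cast
  refine Finset.sum_congr rfl fun i _ => ?_
  simp

/-- the sum of squares of the coordinates of a functional is invariant under `O`. -/
theorem gvA_sum_sq {n : ℕ} (O : Mat n) (hO : IsOrth O) (L : Vec n →ₗ[ℝ] ℝ) :
    ∑ i, (L (O *ᵥ Pi.single i 1)) ^ 2 = ∑ i, (L (Pi.single i 1)) ^ 2 := by
  set ℓ : Vec n := fun j => L (Pi.single j 1) with hℓ
  have h1 : ∀ i, L (O *ᵥ Pi.single i 1) = (Oᵀ *ᵥ ℓ) i := by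
    intro i
    have e : O *ᵥ Pi.single i 1 = ∑ j, O j i • (Pi.single j 1 : Vec n) := by
      funext a
      simp [Matrix.mulVec_single, Finset.sum_apply, Pi.single_apply]
    rw [e, map_sum]
    simp only [map_smul, smul_eq_mul, Matrix.mulVec, dotProduct, Matrix.transpose_apply, hℓ]
  simp only [h1]
  have h2 : ∑ i, ((Oᵀ *ᵥ ℓ) i) ^ 2 = (Oᵀ *ᵥ ℓ) ⬝ᵥ (Oᵀ *ᵥ ℓ) := by
    simp [dotProduct, sq]
  have h3 : ∑ i, (ℓ i) ^ 2 = ℓ ⬝ᵥ ℓ := by
    simp [dotProduct, sq]
  rw [h2, h3, Matrix.dotProduct_mulVec, Matrix.vecMul_mulVec, Matrix.transpose_transpose]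
  have hO' : O * Oᵀ = 1 := hO
  rw [hO', Matrix.vecMul_one]

/-- rotation invariance (`map_pi_eq_stdGaussian`, `stdGaussian_map`) -/
theorem gv_map_orth {n : ℕ} (O : Mat n) (hO : IsOrth O) :
    (gv n).map (fun v => O *ᵥ v) = gv n := by
  have h1 := (gvA_cgauss n).map (LinearMap.toContinuousLinearMap (Matrix.mulVecLin O))
  have h2 : (gv n).map (LinearMap.toContinuousLinearMap (Matrix.mulVecLin O)) = gv n := by
    refine CGauss.ext h1 (gvA_cgauss n) fun L => ?_
    exact gvA_sum_sq O hO L.toLinearMap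
  exact h2

theorem lintegral_gv_orth {n : ℕ} (O : Mat n) (hO : IsOrth O) (F : Vec n → ℝ≥0∞)
    (hF : Measurable F) : ∫⁻ ξ, F (O *ᵥ ξ) ∂(gv n) = ∫⁻ ξ, F ξ ∂(gv n) := by
  have hm : Measurable (fun v : Vec n => O *ᵥ v) :=
    (LinearMap.toContinuousLinearMap (Matrix.mulVecLin O)).continuous.measurable
  conv_rhs => rw [← gv_map_orth O hO]
  rw [lintegral_map hF hm]

theorem gv_ae_ne_zero {n : ℕ} (hn : 0 < n) : ∀ᵐ ξ ∂(gv n), ξ ≠ 0 := by
  have hmp : MeasurePreserving (Function.eval (⟨0, hn⟩ : Fin n)) (gv n) (gaussianReal 0 1) :=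
    measurePreserving_eval (fun _ : Fin n => gaussianReal 0 1) ⟨0, hn⟩
  have := nullSingletonClass_gaussianReal (μ := 0) (v := 1) one_ne_zero
  have h0 : gv n (Function.eval (⟨0, hn⟩ : Fin n) ⁻¹' {0}) = 0 := by
    rw [hmp.measure_preimage (measurableSet_singleton 0).nullMeasurableSet]
    exact measure_singleton 0
  rw [ae_iff]
  refine measure_mono_null (fun ξ hξ => ?_) h0
  simp only [ne_eq, not_not, Set.mem_ofPred_eq] at hξ
  simp [hξ]

theorem gvA_measurable_resample {n : ℕ} (k : Fin n) (F : Vec n → ℝ≥0∞) (hF : Measurable F) :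
    Measurable fun x : Vec n => ∫⁻ t, F (Function.update x k t) ∂(gaussianReal 0 1) :=
  Measurable.lintegral_prod_right' (f := fun p : Vec n × ℝ => F (Function.update p.1 k p.2))
    (hF.comp measurable_update')

/-- resampling one coordinate does not change the law -/
theorem gv_resample {n : ℕ} (k : Fin n) (F : Vec n → ℝ≥0∞) (hF : Measurable F) :
    ∫⁻ x, ∫⁻ t, F (Function.update x k t) ∂(gaussianReal 0 1) ∂(gv n) = ∫⁻ x, F x ∂(gv n) := by
  unfold gv
  refine lintegral_eq_of_lmarginal_eq {k} (gvA_measurable_resample k F hF) hF ?_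
  rw [lmarginal_singleton, lmarginal_singleton]
  funext x
  simp only [Function.update_idem, lintegral_const, measure_univ, mul_one]

/-- resampling two coordinates -/
theorem gv_resample₂ {n : ℕ} (k l : Fin n) (hkl : k ≠ l) (F : Vec n → ℝ≥0∞) (hF : Measurable F) :
    ∫⁻ x, ∫⁻ p, F (Function.update (Function.update x k p.1) l p.2)
      ∂((gaussianReal 0 1).prod (gaussianReal 0 1)) ∂(gv n) = ∫⁻ x, F x ∂(gv n) := by
  have h1 : ∀ x : Vec n, ∫⁻ p, F (Function.update (Function.update x k p.1) l p.2)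
      ∂((gaussianReal 0 1).prod (gaussianReal 0 1))
      = ∫⁻ s, (fun y : Vec n => ∫⁻ t, F (Function.update y l t) ∂(gaussianReal 0 1))
          (Function.update x k s) ∂(gaussianReal 0 1) := by
    intro x
    refine lintegral_prod _ (Measurable.aemeasurable ?_)
    refine hF.comp ?_
    have e1 : Measurable fun p : ℝ × ℝ => Function.update x k p.1 :=
      (measurable_update x).comp measurable_fst
    exact measurable_update'.comp (e1.prodMk measurable_snd)
  simp only [h1]
  rw [gv_resample k _ (gvA_measurable_resample l F hF), gv_resample l F hF]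

/-- integral of a product function -/
theorem lintegral_gv_prod {n : ℕ} (f : Fin n → ℝ → ℝ≥0∞) (hf : ∀ k, Measurable (f k)) :
    ∫⁻ x, ∏ k, f k (x k) ∂(gv n) = ∏ k, ∫⁻ t, f k t ∂(gaussianReal 0 1) := by
  have hind : iIndepFun (fun (k : Fin n) (x : Vec n) => f k (x k)) (gv n) :=
    iIndepFun_pi (μ := fun _ : Fin n => gaussianReal 0 1) (X := f)
      (fun k => (hf k).aemeasurable)
  rw [lintegral_prod_eq_prod_lintegral_of_indepFun Finset.univ _ hind
    (fun k => (hf k).comp (measurable_pi_apply k))]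
  refine Finset.prod_congr rfl fun k _ => ?_
  have hmp : MeasurePreserving (Function.eval k) (gv n) (gaussianReal 0 1) :=
    measurePreserving_eval (fun _ : Fin n => gaussianReal 0 1) k
  exact hmp.lintegral_comp (hf k)

end Claimed.Agent.R133
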