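/-
Row 133 / S0266, module D3: change of variance for the Gaussian vector.  Blueprint section 3 (S0).
-/
import Claimed.Agent.R133.GvA
import Claimed.Agent.R133.Gauss1
import Claimed.Agent.R133.GaussKit

set_option autoImplicit false

namespace Claimed.Agent.R133

open MeasureTheory ProbabilityTheory
open scoped BigOperators NNReal ENNReal Matrix

/-- partial integration of a product function -/
theorem gvB_lmarginal_prod {ι : Type*} [Fintype ι] [DecidableEq ι] (μ : ι → Measure ℝ)
    [∀ i, SigmaFinite (μ i)] (g : ι → ℝ → ℝ≥0∞) (hg : ∀ i, Measurable (g i)) (s : Finset ι)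
    (x : ι → ℝ) :
    (∫⋯∫⁻_s, (fun x => ∏ i, g i (x i)) ∂μ) x
      = (∏ i ∈ s, ∫⁻ t, g i t ∂μ i) * ∏ i ∈ sᶜ, g i (x i) := by
  have hm : Measurable (fun x : ι → ℝ => ∏ i, g i (x i)) :=
    Finset.measurable_prod _ fun k _ => (hg k).comp (measurable_pi_apply k)
  induction s using Finset.induction_on generalizing x with
  | empty => simp
  | insert i s hi ih =>
    rw [lmarginal_insert _ hm hi]
    simp_rw [ih]
    have hc : sᶜ = insert i (insert i s)ᶜ := by
      ext j
      simp only [Finset.mem_compl, Finset.mem_insert, not_or]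
      by_cases hj : j = i
      · subst hj; simp [hi]
      · simp [hj]
    have hi' : i ∉ (insert i s)ᶜ := by simp
    have h1 : ∀ t : ℝ, ∏ j ∈ sᶜ, g j (Function.update x i t j)
        = g i t * ∏ j ∈ (insert i s)ᶜ, g j (x j) := by
      intro t
      rw [hc, Finset.prod_insert hi', Function.update_self]
      congr 1
      refine Finset.prod_congr rfl fun j hj => ?_
      have hji : j ≠ i := by
        rintro rfl; exact hi' hj
      rw [Function.update_of_ne hji]
    simp_rw [h1]
    have hgi : Measurable fun t : ℝ => g i t * ∏ j ∈ (insert i s)ᶜ, g j (x j) :=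
      (hg i).mul_const _
    rw [lintegral_const_mul _ hgi, lintegral_mul_const _ (hg i), Finset.prod_insert hi]
    ring

/-- integral of a product function against a product of sigma-finite measures -/
theorem gvB_lintegral_prod {ι : Type*} [Fintype ι] (μ : ι → Measure ℝ)
    [∀ i, SigmaFinite (μ i)] (g : ι → ℝ → ℝ≥0∞) (hg : ∀ i, Measurable (g i)) :
    ∫⁻ x, ∏ i, g i (x i) ∂(Measure.pi μ) = ∏ i, ∫⁻ t, g i t ∂μ i := by
  classical
  rw [lintegral_eq_lmarginal_univ (fun _ => 0), gvB_lmarginal_prod μ g hg]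
  simp

/-- product of measures with densities -/
theorem pi_withDensity' {ι : Type*} [Fintype ι] (μ : ι → Measure ℝ) [∀ i, SigmaFinite (μ i)]
    (f : ι → ℝ → ℝ≥0∞) (hf : ∀ i, Measurable (f i)) [∀ i, SigmaFinite ((μ i).withDensity (f i))] :
    Measure.pi (fun i => (μ i).withDensity (f i)) =
      (Measure.pi μ).withDensity (fun x => ∏ i, f i (x i)) := by
  refine Measure.pi_eq fun s hs => ?_
  rw [withDensity_apply _ (MeasurableSet.univ_pi hs), ← lintegral_indicator (MeasurableSet.univ_pi hs)]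
  have h1 : ∀ x : ι → ℝ, (Set.pi Set.univ s).indicator (fun x => ∏ i, f i (x i)) x
      = ∏ i, (s i).indicator (f i) (x i) := by
    intro x
    by_cases hx : x ∈ Set.pi Set.univ s
    · rw [Set.indicator_of_mem hx]
      refine Finset.prod_congr rfl fun i _ => ?_
      rw [Set.indicator_of_mem (hx i (Set.mem_univ i))]
    · rw [Set.indicator_of_notMem hx]
      simp only [Set.mem_pi, Set.mem_univ, true_implies, not_forall] at hx
      obtain ⟨i, hi⟩ := hx
      rw [Finset.prod_eq_zero (Finset.mem_univ i) (Set.indicator_of_notMem hi _)]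
  simp only [h1]
  have hm : ∀ i, Measurable ((s i).indicator (f i)) := fun i => (hf i).indicator (hs i)
  rw [gvB_lintegral_prod μ _ hm]
  refine Finset.prod_congr rfl fun i _ => ?_
  rw [withDensity_apply _ (hs i), lintegral_indicator (hs i)]

/-- CHANGE OF VARIANCE (S0):
`E[H(g) exp(∑ s_k g_k²/2)] = ∏ (1-s_k)^{-1/2} E[H(g_k/√(1-s_k))]`. -/
theorem gv_change_var {n : ℕ} (s : Vec n) (hs : ∀ k, s k < 1) (H : Vec n → ℝ≥0∞)
    (hH : Measurable H) :
    ∫⁻ g, H g * eexp (∑ k, s k * g k ^ 2 / 2) ∂(gv n) =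
      ENNReal.ofReal (∏ k, (1 / Real.sqrt (1 - s k))) *
        ∫⁻ g, H (fun k => g k / Real.sqrt (1 - s k)) ∂(gv n) := by
  have hpos : ∀ k, 0 < Real.sqrt (1 - s k) := fun k => Real.sqrt_pos.2 (by linarith [hs k])
  have hc : ∀ k, 0 < 1 / Real.sqrt (1 - s k) := fun k => by have := hpos k; positivity
  have key := lintegral_gstd_scale (ι := Fin n) hc hH
  have e1 : ∫⁻ g, H (fun k => g k / Real.sqrt (1 - s k)) ∂(gv n)
      = ∫⁻ x, H (fun k => 1 / Real.sqrt (1 - s k) * x k) ∂(gstd (Fin n)) := by
    refine lintegral_congr fun g => ?_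
    congr 1
    funext k
    ring
  rw [e1, key]
  have e2 : ∀ x : Fin n → ℝ, ∏ k, gdens (1 / Real.sqrt (1 - s k)) (x k)
      = ENNReal.ofReal (∏ k, Real.sqrt (1 - s k)) * eexp (∑ k, s k * x k ^ 2 / 2) := by
    intro x
    unfold gdens eexp
    rw [← ENNReal.ofReal_prod_of_nonneg (fun k _ => by have := hpos k; positivity),
      Finset.prod_mul_distrib, ← Real.exp_sum,
      ENNReal.ofReal_mul (Finset.prod_nonneg fun k _ => by have := hpos k; positivity)]
    congr 2
    · refine Finset.prod_congr rfl fun k _ => ?_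
      simp
    · congr 1
      refine Finset.sum_congr rfl fun k _ => ?_
      have h2 : Real.sqrt (1 - s k) ^ 2 = 1 - s k := Real.sq_sqrt (by linarith [hs k])
      have : 1 / (1 / Real.sqrt (1 - s k)) ^ 2 = 1 - s k := by
        rw [one_div_pow, one_div_one_div, h2]
      rw [this]; ring
  simp_rw [e2]
  have e3 : ∀ x : Fin n → ℝ,
      ENNReal.ofReal (∏ k, Real.sqrt (1 - s k)) * eexp (∑ k, s k * x k ^ 2 / 2) * H x
      = ENNReal.ofReal (∏ k, Real.sqrt (1 - s k)) * (H x * eexp (∑ k, s k * x k ^ 2 / 2)) := by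
    intro x; ring
  simp_rw [e3]
  have hmeas : Measurable fun x : Fin n → ℝ => H x * eexp (∑ k, s k * x k ^ 2 / 2) := by
    refine hH.mul (measurable_eexp.comp ?_)
    fun_prop
  rw [lintegral_const_mul _ hmeas, ← mul_assoc, ← ENNReal.ofReal_mul
    (Finset.prod_nonneg fun k _ => (hc k).le), ← Finset.prod_mul_distrib]
  have : ∏ k, (1 / Real.sqrt (1 - s k) * Real.sqrt (1 - s k)) = 1 := by
    refine Finset.prod_eq_one fun k _ => ?_
    have := (hpos k).ne'
    field_simp
  rw [this, ENNReal.ofReal_one, one_mul]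
  rfl

end Claimed.Agent.R133
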