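/-
Row 133 / S0266, module D4: the direction and the norm of a Gaussian vector are independent.
Blueprint section 3 (S1).
-/
import Claimed.Agent.R133.GvB
import Claimed.Agent.R133.GaussKit

set_option autoImplicit false

namespace Claimed.Agent.R133

open MeasureTheory ProbabilityTheory
open scoped BigOperators NNReal ENNReal Matrix

theorem nrm2_eq_qsq {n : ℕ} (g : Vec n) : nrm2 g = qsq g := by
  rw [nrm2_eq_sum]; rfl

theorem measurableSet_nrm2_mem {n : ℕ} {A : Set ℝ} (hA : MeasurableSet A) :
    MeasurableSet {g : Vec n | nrm2 g ∈ A} := by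
  have : {g : Vec n | nrm2 g ∈ A} = (qsq : (Fin n → ℝ) → ℝ) ⁻¹' A := by
    ext g; simp only [Set.mem_setOf_eq, Set.mem_preimage, nrm2_eq_qsq]
  rw [this]
  exact measurable_qsq hA

/-- (S1).  Route 1: polar coordinates `Measure.measurePreserving_homeomorphUnitSphereProd` on
`EuclideanSpace ℝ (Fin n)`; the Gaussian density is radial.
Route 2: by `gv_change_var` with constant `s` and homogeneity,
`E[H e^{s|g|²/2}] = (1-s)^{-n/2} E[H]`, then uniqueness of the mgf (`Measure.ext_of_complexMGF_eq`). -/
theorem gv_indep_hom {n : ℕ} (H : Vec n → ℝ≥0∞) (hH : Measurable H)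
    (hhom : ∀ (c : ℝ), 0 < c → ∀ x, H (c • x) = H x) (A : Set ℝ) (hA : MeasurableSet A) :
    ∫⁻ g in {g | nrm2 g ∈ A}, H g ∂(gv n) = (∫⁻ g, H g ∂(gv n)) * gv n {g | nrm2 g ∈ A} := by
  have hS : MeasurableSet {g : Vec n | nrm2 g ∈ A} := measurableSet_nrm2_mem hA
  rcases Nat.eq_zero_or_pos n with rfl | hn
  · -- `Vec 0` is a subsingleton
    haveI : IsProbabilityMeasure (gv 0) := by unfold gv; infer_instance
    by_cases h0 : nrm2 (0 : Vec 0) ∈ A
    · have : {g : Vec 0 | nrm2 g ∈ A} = Set.univ := by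
        ext g; simp only [Set.mem_setOf_eq, Set.mem_univ, iff_true]
        rwa [Subsingleton.elim g 0]
      rw [this, Measure.restrict_univ, measure_univ, mul_one]
    · have : {g : Vec 0 | nrm2 g ∈ A} = ∅ := by
        ext g; simp only [Set.mem_setOf_eq, Set.mem_empty_iff_false, iff_false]
        rwa [Subsingleton.elim g 0]
      rw [this, Measure.restrict_empty, lintegral_zero_measure, measure_empty, mul_zero]
  · haveI : Nonempty (Fin n) := ⟨⟨0, hn⟩⟩
    have key := gstd_polar_indep (ι := Fin n) (Φ := H) hH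
      (fun c hc x => hhom c hc x) (χ := A.indicator 1) (measurable_one.indicator hA)
    have e1 : ∫⁻ g in {g | nrm2 g ∈ A}, H g ∂(gv n)
        = ∫⁻ x, H x * (A.indicator 1 (qsq x) : ℝ≥0∞) ∂(gstd (Fin n)) := by
      rw [← lintegral_indicator hS]
      refine lintegral_congr fun g => ?_
      by_cases hg : nrm2 g ∈ A
      · have hg' : qsq g ∈ A := by rwa [← nrm2_eq_qsq]
        rw [Set.indicator_of_mem (show g ∈ {g : Vec n | nrm2 g ∈ A} from hg),
          Set.indicator_of_mem hg', Pi.one_apply, mul_one]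
      · have hg' : qsq g ∉ A := by rwa [← nrm2_eq_qsq]
        rw [Set.indicator_of_notMem (show g ∉ {g : Vec n | nrm2 g ∈ A} from hg),
          Set.indicator_of_notMem hg', mul_zero]
    have e2 : gv n {g | nrm2 g ∈ A}
        = ∫⁻ x, (A.indicator 1 (qsq x) : ℝ≥0∞) ∂(gstd (Fin n)) := by
      rw [← lintegral_indicator_one hS]
      refine lintegral_congr fun g => ?_
      by_cases hg : nrm2 g ∈ A
      · have hg' : qsq g ∈ A := by rwa [← nrm2_eq_qsq]
        rw [Set.indicator_of_mem (show g ∈ {g : Vec n | nrm2 g ∈ A} from hg),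
          Set.indicator_of_mem hg']
        rfl
      · have hg' : qsq g ∉ A := by rwa [← nrm2_eq_qsq]
        rw [Set.indicator_of_notMem (show g ∉ {g : Vec n | nrm2 g ∈ A} from hg),
          Set.indicator_of_notMem hg']
    rw [e1, e2]
    exact key

end Claimed.Agent.R133
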