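/-
Row 133 / S0266, module D5: chi-square type estimates for the Gaussian vector.
-/
import Claimed.Agent.R133.GvB

set_option autoImplicit false

namespace Claimed.Agent.R133

open MeasureTheory ProbabilityTheory
open scoped BigOperators NNReal ENNReal Matrix

theorem gvD_memLp_sq : MemLp (fun t : ℝ => t ^ 2) 2 (gaussianReal 0 1) := by
  have h := (memLp_id_gaussianReal (μ := 0) (v := 1) 4)
  have h2 := h.norm_rpow_div (2 : ℝ≥0∞)
  have e : ((4 : ℝ≥0) : ℝ≥0∞) / 2 = 2 := by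
    rw [show ((4 : ℝ≥0) : ℝ≥0∞) = 2 * 2 by norm_num]
    exact ENNReal.mul_div_cancel_right (by norm_num) (by norm_num)
  rw [e] at h2
  refine h2.congr_norm (by fun_prop) (Filter.Eventually.of_forall fun t => ?_)
  simp

theorem gvD_integral_sq : ∫ t : ℝ, t ^ 2 ∂(gaussianReal 0 1) = 1 := by
  rw [integral_eq_lintegral_of_nonneg_ae (Filter.Eventually.of_forall fun t => by positivity)
    (by fun_prop), gauss_second_moment]
  simp

theorem gvD_integral_four : ∫ t : ℝ, t ^ 4 ∂(gaussianReal 0 1) = 3 := by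
  rw [integral_eq_lintegral_of_nonneg_ae (Filter.Eventually.of_forall fun t => by positivity)
    (by fun_prop), gauss_fourth_moment]
  simp

theorem gvD_var_sq : Var[fun t : ℝ => t ^ 2; gaussianReal 0 1] = 2 := by
  rw [variance_eq_sub gvD_memLp_sq, gvD_integral_sq]
  have : ∫ t : ℝ, ((fun t : ℝ => t ^ 2) ^ 2) t ∂(gaussianReal 0 1) = 3 := by
    rw [← gvD_integral_four]
    congr 1
    ext t
    simp only [Pi.pow_apply]
    ring
  rw [this]; norm_num

/-- the quadratic form `∑ m_k g_k²` -/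
theorem gvD_memLp {n : ℕ} (m : Vec n) :
    MemLp (fun g : Vec n => ∑ k, m k * g k ^ 2) 2 (gv n) := by
  refine memLp_finsetSum _ fun k _ => ?_
  exact ((gvD_memLp_sq.const_mul (m k)).comp_measurePreserving
    (measurePreserving_eval (fun _ : Fin n => gaussianReal 0 1) k))

theorem gvD_mean {n : ℕ} (m : Vec n) :
    ∫ g : Vec n, ∑ k, m k * g k ^ 2 ∂(gv n) = ∑ k, m k := by
  rw [integral_finsetSum]
  · refine Finset.sum_congr rfl fun k _ => ?_
    unfold gv
    rw [integral_comp_eval (μ := fun _ : Fin n => gaussianReal 0 1) (i := k)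
      (f := fun t : ℝ => m k * t ^ 2) (by fun_prop), integral_const_mul, gvD_integral_sq, mul_one]
  · intro k _
    exact (((gvD_memLp_sq.const_mul (m k)).comp_measurePreserving
      (measurePreserving_eval (fun _ : Fin n => gaussianReal 0 1) k))).integrable (by norm_num)

theorem gvD_var {n : ℕ} (m : Vec n) :
    Var[fun g : Vec n => ∑ k, m k * g k ^ 2; gv n] = 2 * ∑ k, m k ^ 2 := by
  have h := variance_sum_pi (μ := fun _ : Fin n => gaussianReal 0 1)
    (X := fun k (t : ℝ) => m k * t ^ 2) (fun k => gvD_memLp_sq.const_mul (m k))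
  have e : (∑ i, fun ω : Fin n → ℝ => m i * ω i ^ 2) = fun g : Vec n => ∑ k, m k * g k ^ 2 := by
    ext g; simp
  rw [e] at h
  unfold gv
  rw [h, Finset.mul_sum]
  refine Finset.sum_congr rfl fun k _ => ?_
  rw [variance_const_mul, gvD_var_sq]; ring

/-- Chebyshev: `Var |ξ|² = 2n` -/
theorem gv_nrm2_cheb (n : ℕ) (t : ℝ) (ht : 0 < t) :
    gv n {ξ | t < |nrm2 ξ - n|} ≤ ENNReal.ofReal (2 * n / t ^ 2) := by
  have h := meas_ge_le_variance_div_sq (gvD_memLp (fun _ : Fin n => (1 : ℝ))) ht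
  rw [gvD_mean, gvD_var] at h
  simp only [one_mul, Finset.sum_const, Finset.card_univ, Fintype.card_fin, nsmul_eq_mul, mul_one,
    one_pow] at h
  refine (measure_mono fun ξ hξ => ?_).trans h
  simp only [Set.mem_ofPred_eq] at hξ ⊢
  rw [nrm2_eq_sum] at hξ
  exact hξ.le

/-- Chernoff: `P(|ξ|² ≥ n γ) ≤ exp(-(n/2)(γ - 1 - log γ))`, `γ ≥ 1` -/
theorem gv_nrm2_chernoff (n : ℕ) (γ : ℝ) (hγ : 1 ≤ γ) :
    gv n {ξ | n * γ ≤ nrm2 ξ} ≤ eexp (-((n : ℝ) / 2 * (γ - 1 - Real.log γ))) := by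
  have hγ0 : 0 < γ := by linarith
  set s : ℝ := 1 - 1 / γ with hs
  have hs1 : s < 1 := by
    have : 0 < 1 / γ := by positivity
    rw [hs]; linarith
  have hs0 : 0 ≤ s := by
    have : 1 / γ ≤ 1 := by rw [div_le_one hγ0]; exact hγ
    rw [hs]; linarith
  have h1 := gv_change_var (fun _ : Fin n => s) (fun _ => hs1) (fun _ => 1) measurable_const
  simp only [one_mul, lintegral_const, measure_univ, mul_one] at h1
  have hmeas : Measurable (fun g : Vec n => eexp (∑ k, s * g k ^ 2 / 2)) :=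
    measurable_eexp.comp (by fun_prop)
  have h2 : eexp (s * (n * γ) / 2) * gv n {ξ | n * γ ≤ nrm2 ξ} ≤
      ∫⁻ g, eexp (∑ k, s * g k ^ 2 / 2) ∂(gv n) := by
    refine le_trans ?_ (mul_meas_ge_le_lintegral hmeas (eexp (s * (n * γ) / 2)))
    refine mul_le_mul_right (measure_mono fun ξ hξ => ?_) _
    simp only [Set.mem_ofPred_eq] at hξ ⊢
    rw [eexp_le_eexp]
    rw [nrm2_eq_sum] at hξ
    have e : ∑ k, s * ξ k ^ 2 / 2 = s * (∑ k, ξ k ^ 2) / 2 := by
      rw [Finset.mul_sum, Finset.sum_div]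
    rw [e]
    gcongr
  rw [h1] at h2
  have h3 : ENNReal.ofReal (∏ _k : Fin n, (1 / Real.sqrt (1 - s))) =
      eexp ((n : ℝ) / 2 * Real.log γ) := by
    unfold eexp
    congr 1
    have e1 : 1 / Real.sqrt (1 - s) = Real.exp (Real.log γ / 2) := by
      have : 1 - s = γ⁻¹ := by rw [hs]; ring
      rw [this, Real.sqrt_inv, one_div, inv_inv, Real.sqrt_eq_rpow, Real.rpow_def_of_pos hγ0]
      congr 1; ring
    rw [Finset.prod_const, Finset.card_univ, Fintype.card_fin, e1, ← Real.exp_nat_mul]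
    congr 1; ring
  rw [h3, ENNReal.mul_le_iff_le_inv (eexp_ne_zero _) (eexp_ne_top _), eexp_inv, ← eexp_add] at h2
  refine h2.trans (le_of_eq ?_)
  congr 1
  rw [hs]
  field_simp
  ring

/-- Paley–Zygmund for `X = ∑ m_k g_k²` (`E X² ≤ 3 (E X)²`): `P(X ≥ E X / 2) ≥ 1/12`. -/
theorem gv_quad_lower {n : ℕ} (m : Vec n) (hm : ∀ k, 0 ≤ m k) :
    ENNReal.ofReal (1 / 12) ≤ gv n {g | (∑ k, m k) / 2 ≤ ∑ k, m k * g k ^ 2} := by
  set M := ∑ k, m k with hM
  have hM0 : 0 ≤ M := Finset.sum_nonneg fun k _ => hm k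
  rcases hM0.eq_or_lt with h0 | hpos
  · have hu : {g : Vec n | M / 2 ≤ ∑ k, m k * g k ^ 2} = Set.univ := by
      ext g
      simp only [Set.mem_ofPred_eq, Set.mem_univ, iff_true, ← h0, zero_div]
      exact Finset.sum_nonneg fun k _ => mul_nonneg (hm k) (by positivity)
    rw [hu, measure_univ]
    rw [ENNReal.ofReal_le_one]; norm_num
  set X : Vec n → ℝ := fun g => ∑ k, m k * g k ^ 2 with hX
  set S : Set (Vec n) := {g | M / 2 ≤ X g} with hSdef
  have hS : MeasurableSet S := measurableSet_le measurable_const (by fun_prop)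
  have hL : MemLp X 2 (gv n) := gvD_memLp m
  have hX1 : Integrable X (gv n) := hL.integrable one_le_two
  have hX2 : Integrable (fun g => X g ^ 2) (gv n) := hL.integrable_sq
  have hEX : ∫ g, X g ∂(gv n) = M := gvD_mean m
  have hEX2 : ∫ g, X g ^ 2 ∂(gv n) ≤ 3 * M ^ 2 := by
    have h1 := variance_eq_sub hL
    rw [gvD_var, hEX] at h1
    have h2 : ∑ k, m k ^ 2 ≤ M ^ 2 := Finset.sum_sq_le_sq_sum_of_nonneg fun k _ => hm k
    have h3 : ∫ g, (X ^ 2) g ∂(gv n) = ∫ g, X g ^ 2 ∂(gv n) := rfl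
    rw [h3] at h1
    linarith
  have hpt : ∀ g, X g ≤ M / 2 + X g ^ 2 / (12 * M) + 3 * M * S.indicator (fun _ => (1 : ℝ)) g := by
    intro g
    have hq : 0 ≤ X g ^ 2 / (12 * M) := by positivity
    by_cases hg : g ∈ S
    · rw [Set.indicator_of_mem hg]
      have e : X g ^ 2 / (12 * M) + 3 * M - X g = (X g - 6 * M) ^ 2 / (12 * M) := by
        field_simp; ring
      have : 0 ≤ (X g - 6 * M) ^ 2 / (12 * M) := by positivity
      linarith
    · rw [Set.indicator_of_notMem hg]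
      have : X g < M / 2 := not_le.1 hg
      linarith
  have hi1 : Integrable (fun g => X g ^ 2 / (12 * M)) (gv n) := hX2.div_const _
  have hi2 : Integrable (fun g => 3 * M * S.indicator (fun _ => (1 : ℝ)) g) (gv n) :=
    ((integrable_const (1 : ℝ)).indicator hS).const_mul _
  have hi0 : Integrable (fun _ : Vec n => M / 2) (gv n) := integrable_const _
  have hi01 : Integrable (fun g => M / 2 + X g ^ 2 / (12 * M)) (gv n) := hi0.add hi1
  have hi : Integrable (fun g => M / 2 + X g ^ 2 / (12 * M) +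
      3 * M * S.indicator (fun _ => (1 : ℝ)) g) (gv n) := hi01.add hi2
  have h3 := integral_mono hX1 hi hpt
  have h4 : ∫ g, (M / 2 + X g ^ 2 / (12 * M) +
      3 * M * S.indicator (fun _ => (1 : ℝ)) g) ∂(gv n) =
      M / 2 + (∫ g, X g ^ 2 ∂(gv n)) / (12 * M) + 3 * M * (gv n).real S := by
    rw [integral_add hi01 hi2, integral_add hi0 hi1, integral_const_mul,
      integral_indicator_const _ hS]
    have e : ∫ g, X g ^ 2 / (12 * M) ∂(gv n) = (∫ g, X g ^ 2 ∂(gv n)) / (12 * M) :=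
      integral_div _ _
    rw [e]
    simp
  have h5 : M ≤ M / 2 + (∫ g, X g ^ 2 ∂(gv n)) / (12 * M) + 3 * M * (gv n).real S := by
    rw [← h4]; rw [hEX] at h3; exact h3
  have h6 : (∫ g, X g ^ 2 ∂(gv n)) / (12 * M) ≤ M / 4 := by
    rw [div_le_iff₀ (by positivity)]
    nlinarith
  have h7 : 1 / 12 ≤ (gv n).real S := by
    have : M * (1 / 4) ≤ M * (3 * (gv n).real S) := by nlinarith
    have := le_of_mul_le_mul_left this hpos
    linarith
  exact (ENNReal.ofReal_le_iff_le_toReal (measure_ne_top _ _)).2 h7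

end Claimed.Agent.R133
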