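/-
Row 133 / S0266, module L0 (eexp, npow, nrm2, qf, ray: elementary algebra).
-/
import Claimed.Agent.R133.BelowL

set_option autoImplicit false

namespace Claimed.Agent.R133

open scoped BigOperators NNReal ENNReal Matrix

/-! ### eexp -/

theorem eexp_add (x y : ℝ) : eexp (x + y) = eexp x * eexp y := by
  unfold eexp
  rw [Real.exp_add, ENNReal.ofReal_mul (Real.exp_pos x).le]

theorem eexp_zero : eexp 0 = 1 := by
  simp [eexp]

theorem eexp_ne_zero (x : ℝ) : eexp x ≠ 0 := by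
  unfold eexp
  exact (ENNReal.ofReal_pos.2 (Real.exp_pos x)).ne'

theorem eexp_ne_top (x : ℝ) : eexp x ≠ ∞ := ENNReal.ofReal_ne_top

theorem eexp_le_eexp {x y : ℝ} : eexp x ≤ eexp y ↔ x ≤ y := by
  unfold eexp
  rw [ENNReal.ofReal_le_ofReal_iff (Real.exp_pos y).le, Real.exp_le_exp]

theorem eexp_sum {ι : Type*} (s : Finset ι) (f : ι → ℝ) :
    eexp (∑ i ∈ s, f i) = ∏ i ∈ s, eexp (f i) := by
  unfold eexp
  rw [Real.exp_sum, ENNReal.ofReal_prod_of_nonneg fun i _ => (Real.exp_pos _).le]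

theorem eexp_inv (x : ℝ) : (eexp x)⁻¹ = eexp (-x) := by
  unfold eexp
  rw [Real.exp_neg, ENNReal.ofReal_inv_of_pos (Real.exp_pos x)]

theorem eexp_pow (x : ℝ) (k : ℕ) : eexp x ^ k = eexp (k * x) := by
  unfold eexp
  rw [← ENNReal.ofReal_pow (Real.exp_pos x).le, ← Real.exp_nat_mul]

theorem measurable_eexp : Measurable eexp := by
  unfold eexp
  exact Real.measurable_exp.ennreal_ofReal

/-! ### npow -/

theorem npow_pos {n : ℕ} (hn : 0 < n) (a : ℝ) : 0 < npow n a :=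
  Real.rpow_pos_of_pos (by exact_mod_cast hn) a

theorem npow_add {n : ℕ} (hn : 0 < n) (a b : ℝ) : npow n (a + b) = npow n a * npow n b :=
  Real.rpow_add (by exact_mod_cast hn) a b

theorem npow_one (n : ℕ) : npow n 1 = n := Real.rpow_one _

theorem npow_le_npow {n : ℕ} (hn : 0 < n) {a b : ℝ} (h : a ≤ b) : npow n a ≤ npow n b :=
  Real.rpow_le_rpow_of_exponent_le (by exact_mod_cast hn) h

theorem tendsto_npow_neg {a : ℝ} (ha : a < 0) :
    Filter.Tendsto (fun n : ℕ => npow n a) Filter.atTop (nhds 0) := by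
  have h := (tendsto_rpow_neg_atTop (y := -a) (by linarith)).comp tendsto_natCast_atTop_atTop
  simpa [npow, Function.comp_def] using h

theorem tendsto_npow_pos {a : ℝ} (ha : 0 < a) :
    Filter.Tendsto (fun n : ℕ => npow n a) Filter.atTop Filter.atTop :=
  (tendsto_rpow_atTop ha).comp tendsto_natCast_atTop_atTop

/-! ### vectors and quadratic forms -/

variable {n : ℕ}

theorem nrm2_eq_zero {v : Vec n} : nrm2 v = 0 ↔ v = 0 := dotProduct_self_eq_zero

theorem nrm2_eq_sum (v : Vec n) : nrm2 v = ∑ i, v i ^ 2 := by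
  unfold nrm2 dotProduct
  exact Finset.sum_congr rfl fun i _ => (sq (v i)).symm

theorem nrm2_smul (c : ℝ) (v : Vec n) : nrm2 (c • v) = c ^ 2 * nrm2 v := by
  unfold nrm2
  rw [smul_dotProduct, dotProduct_smul, smul_eq_mul, smul_eq_mul]
  ring

theorem nrm2_eb (i : Fin n) : nrm2 (eb i) = 1 := by
  unfold nrm2 eb
  simp

theorem nrm2_sv (x : Claims.C0228.CriticalSK.Spin n) : nrm2 (sv x) = n := by
  rw [nrm2_eq_sum]
  have : ∀ i, sv x i ^ 2 = 1 := by
    intro i
    unfold sv Claims.C0228.CriticalSK.spinValue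
    split_ifs <;> norm_num
  simp [this]

theorem dot_sq_le (u v : Vec n) : (u ⬝ᵥ v) ^ 2 ≤ nrm2 u * nrm2 v := by
  rw [nrm2_eq_sum, nrm2_eq_sum]
  exact Finset.sum_mul_sq_le_sq_mul_sq _ _ _

theorem qf_smul_vec (M : Mat n) (c : ℝ) (v : Vec n) : qf M (c • v) = c ^ 2 * qf M v := by
  unfold qf
  rw [Matrix.mulVec_smul, smul_dotProduct, dotProduct_smul, smul_eq_mul, smul_eq_mul]
  ring

theorem qf_sub (M N : Mat n) (v : Vec n) : qf (M - N) v = qf M v - qf N v := by
  simp only [qf, Matrix.sub_mulVec, dotProduct_sub]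

theorem qf_smul (c : ℝ) (M : Mat n) (v : Vec n) : qf (c • M) v = c * qf M v := by
  simp only [qf, Matrix.smul_mulVec, dotProduct_smul, smul_eq_mul]

theorem qf_one (v : Vec n) : qf (1 : Mat n) v = nrm2 v := by
  simp only [qf, Matrix.one_mulVec, nrm2]

theorem qf_eq_sum (M : Mat n) (v : Vec n) : qf M v = ∑ i, ∑ j, v i * M i j * v j := by
  unfold qf dotProduct Matrix.mulVec dotProduct
  refine Finset.sum_congr rfl fun i _ => ?_
  rw [Finset.mul_sum]
  exact Finset.sum_congr rfl fun j _ => by ring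

theorem qf_diagonal (l v : Vec n) : qf (Matrix.diagonal l) v = ∑ i, l i * v i ^ 2 := by
  unfold qf dotProduct
  refine Finset.sum_congr rfl fun i _ => ?_
  rw [Matrix.mulVec_diagonal]
  ring

theorem qf_eb (M : Mat n) (i : Fin n) : qf M (eb i) = M i i := by
  unfold qf eb
  simp

theorem spike_eb_apply (θ : ℝ) (i a b : Fin n) :
    spike θ (eb i) a b = if a = i ∧ b = i then θ else 0 := by
  unfold spike eb
  simp only [Matrix.smul_apply, Matrix.vecMulVec_apply, smul_eq_mul, Pi.single_apply]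
  by_cases ha : a = i <;> by_cases hb : b = i <;> simp [ha, hb]

theorem ray_smul (M : Mat n) {c : ℝ} (hc : c ≠ 0) (v : Vec n) : ray M (c • v) = ray M v := by
  unfold ray
  rw [qf_smul_vec, nrm2_smul]
  exact mul_div_mul_left _ _ (pow_ne_zero 2 hc)

theorem nrm2_mulVec_le (M : Mat n) (v : Vec n) : nrm2 (M *ᵥ v) ≤ frob2 M * nrm2 v := by
  rw [nrm2_eq_sum]
  unfold frob2
  rw [Finset.sum_mul]
  refine Finset.sum_le_sum fun i _ => ?_
  have := dot_sq_le (M i) v
  rw [nrm2_eq_sum (M i)] at this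
  exact this

theorem frob2_nonneg (M : Mat n) : 0 ≤ frob2 M :=
  Finset.sum_nonneg fun _ _ => Finset.sum_nonneg fun _ _ => sq_nonneg _

/-- `|vᵀ M v| ≤ |M|_F |v|²` -/
theorem abs_qf_le (M : Mat n) (v : Vec n) : |qf M v| ≤ Real.sqrt (frob2 M) * nrm2 v := by
  have h0 : 0 ≤ Real.sqrt (frob2 M) * nrm2 v := mul_nonneg (Real.sqrt_nonneg _) (nrm2_nonneg v)
  apply abs_le_of_sq_le_sq _ h0
  have h1 : (qf M v) ^ 2 ≤ nrm2 v * nrm2 (M *ᵥ v) := dot_sq_le v (M *ᵥ v)
  have h2 := nrm2_mulVec_le M v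
  rw [mul_pow, Real.sq_sqrt (frob2_nonneg M)]
  calc (qf M v) ^ 2 ≤ nrm2 v * nrm2 (M *ᵥ v) := h1
    _ ≤ nrm2 v * (frob2 M * nrm2 v) := mul_le_mul_of_nonneg_left h2 (nrm2_nonneg v)
    _ = frob2 M * nrm2 v ^ 2 := by ring

theorem abs_ray_le (M : Mat n) (v : Vec n) : |ray M v| ≤ Real.sqrt (frob2 M) := by
  unfold ray
  by_cases hv : v = 0
  · subst hv
    simp [nrm2]
  · have hp := nrm2_pos hv
    rw [abs_div, abs_of_pos hp, div_le_iff₀ hp]
    exact abs_qf_le M v

/-- parallelogram identity for two unit vectors, blueprint (M2):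
`uᵀJu + vᵀJv = ((u+v)ᵀJ(u+v) + (u-v)ᵀJ(u-v)) / 2`. -/
theorem qf_parallelogram (M : Mat n) (u v : Vec n) :
    qf M u + qf M v = (qf M (u + v) + qf M (u - v)) / 2 := by
  unfold qf
  simp only [Matrix.mulVec_add, Matrix.mulVec_sub, add_dotProduct, sub_dotProduct,
    dotProduct_add, dotProduct_sub]
  ring

end Claimed.Agent.R133
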