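/-
Row 133 / S0266, module L0 (orthogonal conjugation, Below, ThreeTop, Rs, Ev).
-/
import Claimed.Agent.R133.LinA
import Claimed.Agent.R133.GoeInv

set_option autoImplicit false

namespace Claimed.Agent.R133

open scoped BigOperators NNReal ENNReal Matrix

variable {n : ℕ}

/-! ### orthogonal matrices -/

theorem IsOrth.mul {O P : Mat n} (h : IsOrth O) (h' : IsOrth P) : IsOrth (O * P) := by
  unfold IsOrth at *
  rw [Matrix.transpose_mul, Matrix.mul_assoc, ← Matrix.mul_assoc P, h', Matrix.one_mul, h]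

theorem isOrth_one : IsOrth (1 : Mat n) := by
  unfold IsOrth
  rw [Matrix.transpose_one, Matrix.mul_one]

theorem nrm2_mulVec_orth {O : Mat n} (h : IsOrth O) (v : Vec n) : nrm2 (O *ᵥ v) = nrm2 v :=
  nrm2_mulVec h v

theorem mulVec_ne_zero_orth {O : Mat n} (h : IsOrth O) {v : Vec n} (hv : v ≠ 0) : O *ᵥ v ≠ 0 := by
  intro h0
  have h1 := nrm2_mulVec h v
  rw [h0] at h1
  have h2 : nrm2 v = 0 := by rw [← h1]; simp [nrm2]
  exact (nrm2_pos hv).ne' h2

theorem transpose_mulVec_mulVec_orth {O : Mat n} (h : IsOrth O) (v : Vec n) :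
    Oᵀ *ᵥ (O *ᵥ v) = v := by
  rw [Matrix.mulVec_mulVec, h.transpose_mul, Matrix.one_mulVec]

theorem mulVec_transpose_mulVec_orth {O : Mat n} (h : IsOrth O) (v : Vec n) :
    O *ᵥ (Oᵀ *ᵥ v) = v := by
  rw [Matrix.mulVec_mulVec, h, Matrix.one_mulVec]

theorem ray_cj {O : Mat n} (h : IsOrth O) (J : Mat n) (v : Vec n) :
    ray (cj O J) (O *ᵥ v) = ray J v := by
  unfold ray
  rw [qf_cj h, nrm2_mulVec h]

theorem cj_sub (O J J' : Mat n) : cj O (J - J') = cj O J - cj O J' := by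
  simp only [cj, Matrix.mul_sub, Matrix.sub_mul]

theorem cj_smul (O : Mat n) (c : ℝ) (J : Mat n) : cj O (c • J) = c • cj O J := by
  unfold cj
  rw [Matrix.mul_smul, Matrix.smul_mul]

theorem cj_one {O : Mat n} (h : IsOrth O) : cj O 1 = 1 := by
  unfold cj
  rw [Matrix.mul_one, h]

theorem cj_cj (O P J : Mat n) : cj O (cj P J) = cj (O * P) J := by
  unfold cj
  rw [Matrix.transpose_mul]
  simp only [Matrix.mul_assoc]

theorem cj_transpose_cj {O : Mat n} (h : IsOrth O) (J : Mat n) : cj Oᵀ (cj O J) = J :=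
  bl_cj_cj h J

theorem transpose_cj (O J : Mat n) : (cj O J)ᵀ = cj O Jᵀ := by
  unfold cj
  rw [Matrix.transpose_mul, Matrix.transpose_mul, Matrix.transpose_transpose, Matrix.mul_assoc]

theorem Rs_cj {O : Mat n} (h : IsOrth O) (z : ℝ) (J : Mat n) : Rs z (cj O J) = cj O (Rs z J) := by
  have h1 : O⁻¹ = Oᵀ := Matrix.inv_eq_right_inv h
  have h2 : (Oᵀ)⁻¹ = O := Matrix.inv_eq_right_inv h.transpose_mul
  have e : z • (1 : Mat n) - cj O J = cj O (z • (1 : Mat n) - J) := by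
    rw [cj_sub, cj_smul_one h]
  unfold Rs
  rw [e]
  unfold cj
  rw [Matrix.mul_inv_rev, Matrix.mul_inv_rev, h1, h2, Matrix.mul_assoc]

theorem cj_mulVec {O : Mat n} (h : IsOrth O) (J : Mat n) (v : Vec n) :
    cj O J *ᵥ (O *ᵥ v) = O *ᵥ (J *ᵥ v) := by
  unfold cj
  rw [Matrix.mulVec_mulVec, Matrix.mul_assoc, h.transpose_mul, Matrix.mul_one,
    ← Matrix.mulVec_mulVec]

theorem mem_Ev_cj {O : Mat n} (h : IsOrth O) (z ε : ℝ) (J : Mat n) (v : Vec n) :
    O *ᵥ v ∈ Ev z ε (cj O J) ↔ v ∈ Ev z ε J := by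
  unfold Ev
  simp only [Set.mem_ofPred_eq]
  rw [Rs_cj h, cj_mulVec h, nrm2_mulVec h, nrm2_mulVec h, frob2_cj h]

theorem mem_Ev_smul (z ε : ℝ) (J : Mat n) {c : ℝ} (hc : c ≠ 0) (v : Vec n) :
    c • v ∈ Ev z ε J ↔ v ∈ Ev z ε J := by
  unfold Ev
  simp only [Set.mem_ofPred_eq]
  rw [Matrix.mulVec_smul, bl_nrm2_smul, bl_nrm2_smul]
  have hc2 : 0 < c ^ 2 := by positivity
  rw [show ε * npow n (-(1 / 3)) * frob2 (Rs z J) * (c ^ 2 * nrm2 v)
    = c ^ 2 * (ε * npow n (-(1 / 3)) * frob2 (Rs z J) * nrm2 v) by ring]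
  exact mul_le_mul_iff_right₀ hc2

/-! ### Below, ThreeTop -/

theorem below_mono {M : Mat n} {z z' : ℝ} (h : z ≤ z') (hM : Below M z) : Below M z' :=
  hM.mono h

/-- removing (part of) a nonnegative spike keeps `Below` -/
theorem below_spike_mono {M : Mat n} {z θ θ' : ℝ} (ξ : Vec n) (h : θ' ≤ θ)
    (hM : Below (M + spike θ ξ) z) : Below (M + spike θ' ξ) z :=
  hM.spike_mono h

theorem below_of_below_add_spike {M : Mat n} {z θ : ℝ} (ξ : Vec n) (h : 0 ≤ θ)
    (hM : Below (M + spike θ ξ) z) : Below M z := by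
  have h1 := hM.spike_mono h
  have h2 : spike 0 ξ = (0 : Mat n) := by
    unfold spike
    rw [zero_smul]
  rwa [h2, add_zero] at h1

theorem threeTop_mono {M : Mat n} {c c' : ℝ} (h : c' ≤ c) (hM : ThreeTop M c) : ThreeTop M c' := by
  obtain ⟨V, hV, hα⟩ := hM
  refine ⟨V, hV, fun α h0 => lt_of_le_of_lt ?_ (hα α h0)⟩
  refine mul_le_mul_of_nonneg_right h ?_
  unfold dotProduct
  exact Finset.sum_nonneg fun i _ => mul_self_nonneg _

/-- `Below M z` makes `z - M` invertible -/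
theorem below_isUnit_det {M : Mat n} {z : ℝ} (hM : Below M z) :
    IsUnit (z • (1 : Mat n) - M).det := by
  rw [isUnit_iff_ne_zero]
  intro h0
  obtain ⟨v, hv, hv0⟩ := Matrix.exists_mulVec_eq_zero_iff.2 h0
  have h1 := hM v hv
  have h2 : v ⬝ᵥ ((z • (1 : Mat n) - M) *ᵥ v) = z * nrm2 v - qf M v := by
    rw [Matrix.sub_mulVec, Matrix.smul_mulVec, Matrix.one_mulVec, dotProduct_sub,
      dotProduct_smul, smul_eq_mul]
    rfl
  rw [hv0, dotProduct_zero] at h2
  linarith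

theorem frob2_Rs_pos (hn : 0 < n) {M : Mat n} {z : ℝ} (hM : Below M z) : 0 < frob2 (Rs z M) := by
  have hu := below_isUnit_det hM
  have h1 : Rs z M * (z • (1 : Mat n) - M) = 1 := Matrix.nonsing_inv_mul _ hu
  have hne : Rs z M ≠ 0 := by
    intro h0
    rw [h0, Matrix.zero_mul] at h1
    have h2 := congrFun (congrFun h1 ⟨0, hn⟩) ⟨0, hn⟩
    simp at h2
  have hnn : ∀ i j, 0 ≤ Rs z M i j ^ 2 := fun i j => sq_nonneg _
  obtain ⟨i, j, hij⟩ : ∃ i j, Rs z M i j ≠ 0 := by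
    by_contra hcon
    push Not at hcon
    exact hne (Matrix.ext hcon)
  unfold frob2
  refine lt_of_lt_of_le (by positivity : 0 < Rs z M i j ^ 2) ?_
  refine le_trans ?_ (Finset.single_le_sum (f := fun i => ∑ j, Rs z M i j ^ 2)
    (fun i _ => Finset.sum_nonneg fun j _ => hnn i j) (Finset.mem_univ i))
  exact Finset.single_le_sum (f := fun j => Rs z M i j ^ 2) (fun j _ => hnn i j)
    (Finset.mem_univ j)

end Claimed.Agent.R133
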