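/-
Row 133 / S0266, module L0 (existence of orthogonal matrices: Householder reflections, spectral theorem).
-/
import Claimed.Agent.R133.LinB
import Claimed.Agent.R133.GoeOrth

set_option autoImplicit false

namespace Claimed.Agent.R133

open scoped BigOperators NNReal ENNReal Matrix

variable {n : ℕ}

/-! ### existence of orthogonal matrices (`exists_orth`, `exists_orth_pair` are in `GoeOrth.lean`) -/

/-- a unit vector orthogonal to a given one, `n ≥ 2` -/
theorem exists_unit_orthogonal (i j : Fin n) (hij : i ≠ j) (a : Vec n) :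
    ∃ b : Vec n, nrm2 b = 1 ∧ a ⬝ᵥ b = 0 := by
  by_cases hs : a i ^ 2 + a j ^ 2 = 0
  · have hi : a i = 0 := by nlinarith [sq_nonneg (a i), sq_nonneg (a j)]
    refine ⟨Pi.single i 1, ?_, ?_⟩
    · simp [nrm2]
    · simp [hi]
  · have hpos : 0 < a i ^ 2 + a j ^ 2 :=
      lt_of_le_of_ne (by positivity) (Ne.symm hs)
    obtain ⟨r, hr0, hr⟩ : ∃ r : ℝ, r ≠ 0 ∧ r ^ 2 = a i ^ 2 + a j ^ 2 :=
      ⟨Real.sqrt (a i ^ 2 + a j ^ 2), (Real.sqrt_pos.2 hpos).ne', Real.sq_sqrt hpos.le⟩
    have hji : j ≠ i := hij.symm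
    refine ⟨(a j / r) • Pi.single i 1 - (a i / r) • Pi.single j 1, ?_, ?_⟩
    · simp only [nrm2, dotProduct_sub, sub_dotProduct, dotProduct_smul,
        smul_dotProduct, single_dotProduct, Pi.single_eq_same,
        Pi.single_eq_of_ne hij, Pi.single_eq_of_ne hji, smul_eq_mul]
      field_simp
      rw [hr]
      ring
    · simp only [dotProduct_sub, dotProduct_smul, dotProduct_single,
        smul_eq_mul]
      field_simp
      ring

/-- spectral theorem in the form we use -/
theorem exists_orth_diagonal (J : Mat n) (hJ : Jᵀ = J) :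
    ∃ (O : Mat n) (l : Vec n), IsOrth O ∧ cj O J = Matrix.diagonal l := by
  have hH : J.IsHermitian := by
    rw [Matrix.IsHermitian, Matrix.conjTranspose_eq_transpose_of_trivial, hJ]
  set U : Mat n := (hH.eigenvectorUnitary : Matrix (Fin n) (Fin n) ℝ) with hU
  have h1 : Uᵀ * U = 1 := by
    have := Unitary.coe_star_mul_self hH.eigenvectorUnitary
    rwa [Matrix.star_eq_conjTranspose, Matrix.conjTranspose_eq_transpose_of_trivial] at this
  have hS : J = U * Matrix.diagonal hH.eigenvalues * Uᵀ := by
    have := hH.spectral_theorem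
    rw [Unitary.conjStarAlgAut_apply, Matrix.star_eq_conjTranspose,
      Matrix.conjTranspose_eq_transpose_of_trivial] at this
    exact this
  refine ⟨Uᵀ, hH.eigenvalues, ?_, ?_⟩
  · rw [IsOrth, Matrix.transpose_transpose]
    exact h1
  · rw [cj, Matrix.transpose_transpose]
    conv_lhs => rw [hS]
    calc Uᵀ * (U * Matrix.diagonal hH.eigenvalues * Uᵀ) * U
        = (Uᵀ * U) * Matrix.diagonal hH.eigenvalues * (Uᵀ * U) := by
          simp only [Matrix.mul_assoc]
      _ = Matrix.diagonal hH.eigenvalues := by rw [h1]; simp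

end Claimed.Agent.R133
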