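/-
Row 133 / S0266, module F: comparison of the two priors on the overlap, in mgf form.
Blueprint section 2 (M4'), version of 2026-10-09 12h.
   cosh(s/n)^n ≤ exp(s²/2n) ≤ (1+δ) E exp(s ξ_i/|ξ|)      for |s| ≤ n^{0.74}.
-/
import Claimed.Agent.R133.Avg

set_option autoImplicit false

namespace Claimed.Agent.R133

open MeasureTheory ProbabilityTheory Filter
open scoped BigOperators NNReal ENNReal Matrix

/-! ### (a) pointwise facts -/

/-- squared norm of a vector with one coordinate replaced -/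
theorem prior_nrm2_update {n : ℕ} (x : Vec n) (i : Fin n) (t : ℝ) :
    nrm2 (Function.update x i t) = t ^ 2 + (nrm2 x - x i ^ 2) := by
  rw [nrm2_eq_sum, nrm2_eq_sum, ← Finset.add_sum_erase _ _ (Finset.mem_univ i),
    ← Finset.add_sum_erase Finset.univ (fun k => x k ^ 2) (Finset.mem_univ i)]
  have h : ∑ k ∈ Finset.univ.erase i, Function.update x i t k ^ 2
      = ∑ k ∈ Finset.univ.erase i, x k ^ 2 := by
    refine Finset.sum_congr rfl fun k hk => ?_
    rw [Function.update_of_ne (Finset.ne_of_mem_erase hk)]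
  rw [h, Function.update_self]
  ring

theorem prior_sq_le_nrm2 {n : ℕ} (x : Vec n) (i : Fin n) : x i ^ 2 ≤ nrm2 x := by
  rw [nrm2_eq_sum]
  exact Finset.single_le_sum (f := fun k => x k ^ 2) (fun k _ => sq_nonneg _) (Finset.mem_univ i)

/-- `|b t| ≤ |s t/√(t²+R)|` when `t² + R ≤ N`, `b = s/√N`. -/
theorem prior_abs_le (s R A N t : ℝ) (hR : 0 ≤ R) (hN : 0 < N) (hRN : A ^ 2 + R ≤ N)
    (ht : |t| ≤ A) :
    |s / Real.sqrt N * t| ≤ |s * (t / Real.sqrt (t ^ 2 + R))| := by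
  rcases eq_or_ne t 0 with rfl | ht0
  · simp
  have hpos : 0 < t ^ 2 + R := by positivity
  have ht2 : t ^ 2 ≤ A ^ 2 := by
    rw [← sq_abs t]; exact pow_le_pow_left₀ (abs_nonneg t) ht 2
  have h1 : Real.sqrt (t ^ 2 + R) ≤ Real.sqrt N := Real.sqrt_le_sqrt (by linarith)
  have h2 : 0 < Real.sqrt (t ^ 2 + R) := Real.sqrt_pos.2 hpos
  rw [abs_mul, abs_div, abs_mul, abs_div, abs_of_pos h2, abs_of_pos (Real.sqrt_pos.2 hN),
    div_mul_eq_mul_div, ← mul_div_assoc]
  exact div_le_div_of_nonneg_left (by positivity) h2 h1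

theorem prior_eexp_add_neg (x : ℝ) : eexp x + eexp (-x) = ENNReal.ofReal (2 * Real.cosh x) := by
  unfold eexp
  rw [← ENNReal.ofReal_add (Real.exp_pos _).le (Real.exp_pos _).le, Real.cosh_eq]
  congr 1; ring

/-! ### (b) one-dimensional computation -/

theorem prior_measurableSet_abs_le (A : ℝ) : MeasurableSet {t : ℝ | |t| ≤ A} :=
  measurableSet_le measurable_id.abs measurable_const

/-- `E[e^{b g}; |g| ≤ A] ≥ e^{b²/2} (1 - 2 e^{-(A-|b|)²/2})` -/
theorem prior_tilt_lower (b A : ℝ) (hbA : |b| ≤ A) :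
    eexp (b ^ 2 / 2) * (1 - 2 * eexp (-((A - |b|) ^ 2 / 2))) ≤
      ∫⁻ t in {t : ℝ | |t| ≤ A}, eexp (b * t) ∂(gaussianReal 0 1) := by
  have hS := prior_measurableSet_abs_le A
  have hT : MeasurableSet {t : ℝ | A - |b| < |t|} :=
    measurableSet_lt measurable_const measurable_id.abs
  have h2 : (1 : ℝ≥0∞) - 2 * eexp (-((A - |b|) ^ 2 / 2))
      ≤ gaussianReal 0 1 {t : ℝ | |t + b| ≤ A} := by
    calc (1 : ℝ≥0∞) - 2 * eexp (-((A - |b|) ^ 2 / 2))
        ≤ 1 - gaussianReal 0 1 {t : ℝ | A - |b| < |t|} :=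
          tsub_le_tsub_left (gauss_tail _ (sub_nonneg.2 hbA)) _
      _ = gaussianReal 0 1 {t : ℝ | A - |b| < |t|}ᶜ := (prob_compl_eq_one_sub hT).symm
      _ ≤ gaussianReal 0 1 {t : ℝ | |t + b| ≤ A} := by
          refine measure_mono fun t ht => ?_
          simp only [Set.mem_compl_iff, Set.mem_ofPred_eq, not_lt] at ht ⊢
          calc |t + b| ≤ |t| + |b| := abs_add_le _ _
            _ ≤ A := by linarith
  have h1 : ∀ t, ({t : ℝ | |t| ≤ A}).indicator (fun t => eexp (b * t)) t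
      = ({t : ℝ | |t| ≤ A}).indicator (fun _ => (1 : ℝ≥0∞)) t * eexp (b * t) := by
    intro t
    by_cases ht : t ∈ {t : ℝ | |t| ≤ A}
    · rw [Set.indicator_of_mem ht, Set.indicator_of_mem ht, one_mul]
    · rw [Set.indicator_of_notMem ht, Set.indicator_of_notMem ht, zero_mul]
  rw [← lintegral_indicator hS]
  simp only [h1]
  rw [gauss_tilt 1 b _ (measurable_const.indicator hS)]
  simp only [NNReal.coe_one, one_mul]
  refine mul_le_mul_right h2 _ |>.trans (le_of_eq ?_)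
  congr 1
  have hS' : MeasurableSet {t : ℝ | |t + b| ≤ A} :=
    measurableSet_le (measurable_id.add_const b).abs measurable_const
  rw [← lintegral_indicator_one hS']
  rfl

/-- the inner integral: `E exp(s g/√(g²+R)) ≥ e^{b²/2}(1 - 2e^{-(A-|b|)²/2})`, `b = s/√N`,
`A² + R ≤ N`. -/
theorem prior_inner (s R A N : ℝ) (hR : 0 ≤ R) (hN : 0 < N) (hRN : A ^ 2 + R ≤ N)
    (hbA : |s / Real.sqrt N| ≤ A) :
    eexp ((s / Real.sqrt N) ^ 2 / 2) * (1 - 2 * eexp (-((A - |s / Real.sqrt N|) ^ 2 / 2))) ≤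
      ∫⁻ t, eexp (s * (t / Real.sqrt (t ^ 2 + R))) ∂(gaussianReal 0 1) := by
  obtain ⟨b, hb⟩ : ∃ b : ℝ, b = s / Real.sqrt N := ⟨_, rfl⟩
  rw [← hb] at hbA ⊢
  obtain ⟨K, hK⟩ : ∃ K : ℝ≥0∞, K = eexp (b ^ 2 / 2) * (1 - 2 * eexp (-((A - |b|) ^ 2 / 2))) :=
    ⟨_, rfl⟩
  rw [← hK]
  have hf : Measurable (fun t : ℝ => eexp (s * (t / Real.sqrt (t ^ 2 + R)))) :=
    measurable_eexp.comp (by fun_prop)
  have hS := prior_measurableSet_abs_le A
  have hsymm : ∫⁻ t, eexp (-(s * (t / Real.sqrt (t ^ 2 + R)))) ∂(gaussianReal 0 1)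
      = ∫⁻ t, eexp (s * (t / Real.sqrt (t ^ 2 + R))) ∂(gaussianReal 0 1) := by
    have h := lintegral_map (μ := gaussianReal 0 1) hf (measurable_neg (G := ℝ))
    rw [gaussianReal_map_neg, neg_zero] at h
    rw [h]
    refine lintegral_congr fun t => ?_
    congr 1
    rw [neg_sq, neg_div, mul_neg]
  have hK1 : K ≤ ∫⁻ t in {t : ℝ | |t| ≤ A}, eexp (b * t) ∂(gaussianReal 0 1) := by
    rw [hK]; exact prior_tilt_lower b A hbA
  have hK2 : K ≤ ∫⁻ t in {t : ℝ | |t| ≤ A}, eexp (-(b * t)) ∂(gaussianReal 0 1) := by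
    have := prior_tilt_lower (-b) A (by rwa [abs_neg])
    rw [neg_sq, abs_neg, ← hK] at this
    simpa only [neg_mul] using this
  have hmain : 2 * K ≤ 2 * ∫⁻ t, eexp (s * (t / Real.sqrt (t ^ 2 + R))) ∂(gaussianReal 0 1) := by
    calc 2 * K = K + K := two_mul K
      _ ≤ (∫⁻ t in {t : ℝ | |t| ≤ A}, eexp (b * t) ∂(gaussianReal 0 1))
          + ∫⁻ t in {t : ℝ | |t| ≤ A}, eexp (-(b * t)) ∂(gaussianReal 0 1) := add_le_add hK1 hK2
      _ = ∫⁻ t in {t : ℝ | |t| ≤ A}, (eexp (b * t) + eexp (-(b * t))) ∂(gaussianReal 0 1) :=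
          (lintegral_add_left (measurable_eexp.comp (by fun_prop)) _).symm
      _ ≤ ∫⁻ t in {t : ℝ | |t| ≤ A}, (eexp (s * (t / Real.sqrt (t ^ 2 + R)))
            + eexp (-(s * (t / Real.sqrt (t ^ 2 + R))))) ∂(gaussianReal 0 1) := by
          refine setLIntegral_mono' hS fun t ht => ?_
          rw [prior_eexp_add_neg, prior_eexp_add_neg]
          refine ENNReal.ofReal_le_ofReal (mul_le_mul_of_nonneg_left ?_ zero_le_two)
          rw [Real.cosh_le_cosh, hb]
          exact prior_abs_le s R A N t hR hN hRN ht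
      _ ≤ ∫⁻ t, (eexp (s * (t / Real.sqrt (t ^ 2 + R)))
            + eexp (-(s * (t / Real.sqrt (t ^ 2 + R))))) ∂(gaussianReal 0 1) :=
          setLIntegral_le_lintegral _ _
      _ = 2 * ∫⁻ t, eexp (s * (t / Real.sqrt (t ^ 2 + R))) ∂(gaussianReal 0 1) := by
          rw [lintegral_add_left hf, hsymm, two_mul]
  exact (ENNReal.mul_le_mul_iff_right two_ne_zero ENNReal.ofNat_ne_top).1 hmain

/-! ### the non-asymptotic lower bound -/

theorem prior_Mn_ge {n : ℕ} (i : Fin n) (s A B N : ℝ) (hN : 0 < N) (hABN : A ^ 2 + B ≤ N)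
    (hbA : |s / Real.sqrt N| ≤ A) :
    gv n {x | nrm2 x ≤ B} * (eexp ((s / Real.sqrt N) ^ 2 / 2)
        * (1 - 2 * eexp (-((A - |s / Real.sqrt N|) ^ 2 / 2)))) ≤ Mn i s := by
  have hG : Measurable (fun ξ : Vec n => eexp (s * (ξ i / Real.sqrt (nrm2 ξ)))) := by
    refine measurable_eexp.comp (((measurable_pi_apply i).div ?_).const_mul _)
    exact (continuous_nrm2.measurable).sqrt
  have hB : MeasurableSet {x : Vec n | nrm2 x ≤ B} :=
    measurableSet_le continuous_nrm2.measurable measurable_const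
  unfold Mn
  rw [← gv_resample i _ hG, mul_comm, ← setLIntegral_const]
  refine (setLIntegral_mono' hB fun x hx => ?_).trans (setLIntegral_le_lintegral _ _)
  simp only [Function.update_self, prior_nrm2_update]
  have h1 := prior_sq_le_nrm2 x i
  have hx' : nrm2 x ≤ B := hx
  exact prior_inner s _ A N (sub_nonneg.2 h1) hN (by nlinarith [sq_nonneg (x i)]) hbA

/-- Chebyshev, one-sided -/
theorem prior_cheb (n : ℕ) (m : ℝ) (hm : 0 < m) :
    1 - ENNReal.ofReal (2 * n / m ^ 2) ≤ gv n {x | nrm2 x ≤ n + m} := by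
  have hB : MeasurableSet {x : Vec n | nrm2 x ≤ n + m} :=
    measurableSet_le continuous_nrm2.measurable measurable_const
  have h1 : gv n {x : Vec n | nrm2 x ≤ n + m}ᶜ ≤ ENNReal.ofReal (2 * n / m ^ 2) := by
    refine (measure_mono fun x hx => ?_).trans (gv_nrm2_cheb n m hm)
    simp only [Set.mem_compl_iff, Set.mem_ofPred_eq, not_le] at hx ⊢
    exact lt_of_lt_of_le (by linarith) (le_abs_self _)
  rw [prob_compl_eq_one_sub hB] at h1
  exact tsub_le_iff_tsub_le.1 h1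

/-! ### (c) asymptotics of the constants -/

theorem prior_asymp (δ : ℝ) (hδ : 0 < δ) : ∀ᶠ n : ℕ in atTop,
    Real.exp (5 / 2 * npow n (-(1 / 100))) ≤
        (1 + δ) * ((1 - 2 * npow n (-(1 / 50))) * (1 - 2 * Real.exp (-(npow n (12 / 25) / 2)))) ∧
      0 ≤ 1 - 2 * npow n (-(1 / 50)) ∧ 0 ≤ 1 - 2 * Real.exp (-(npow n (12 / 25) / 2)) := by
  have h1 : Tendsto (fun n : ℕ => Real.exp (5 / 2 * npow n (-(1 / 100)))) atTop (nhds 1) := by
    have h0 := (tendsto_npow_neg (a := -(1 / 100)) (by norm_num)).const_mul (5 / 2 : ℝ)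
    rw [mul_zero] at h0
    have h := (Real.continuous_exp.tendsto 0).comp h0
    rwa [Real.exp_zero] at h
  have h2 : Tendsto (fun n : ℕ => 1 - 2 * npow n (-(1 / 50))) atTop (nhds 1) := by
    have h0 := ((tendsto_npow_neg (a := -(1 / 50)) (by norm_num)).const_mul (2 : ℝ)).const_sub 1
    rwa [mul_zero, sub_zero] at h0
  have h3 : Tendsto (fun n : ℕ => 1 - 2 * Real.exp (-(npow n (12 / 25) / 2))) atTop (nhds 1) := by
    have h := Real.tendsto_exp_atBot.comp (tendsto_neg_atTop_atBot.comp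
      ((tendsto_npow_pos (a := 12 / 25) (by norm_num)).atTop_div_const (by norm_num : (0 : ℝ) < 2)))
    have h0 := (h.const_mul (2 : ℝ)).const_sub 1
    rwa [mul_zero, sub_zero] at h0
  have h4 := (h2.mul h3).const_mul (1 + δ)
  rw [mul_one, mul_one] at h4
  filter_upwards [h1.eventually_lt h4 (by linarith), h2.eventually_const_lt zero_lt_one,
    h3.eventually_const_lt zero_lt_one] with n a b c
  exact ⟨a.le, b.le, c.le⟩

/-- the elementary inequalities between powers of `n` -/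
theorem prior_num {n : ℕ} (hn : 0 < n) (s : ℝ) (hs : |s| ≤ npow n (37 / 50)) (N : ℝ)
    (hNdef : N = (2 * npow n (6 / 25)) ^ 2 + (n + npow n (51 / 100))) :
    0 < N ∧ |s / Real.sqrt N| ≤ npow n (6 / 25) ∧
      s ^ 2 / (2 * n) ≤ (s / Real.sqrt N) ^ 2 / 2 + 5 / 2 * npow n (-(1 / 100)) := by
  have hn' : (0 : ℝ) < n := by exact_mod_cast hn
  have ha := npow_pos hn (6 / 25)
  have hm := npow_pos hn (51 / 100)
  have hu := npow_pos hn (-(1 / 100))
  have hNn : (n : ℝ) ≤ N := by rw [hNdef]; nlinarith [sq_nonneg (2 * npow n (6 / 25))]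
  have hN : 0 < N := lt_of_lt_of_le hn' hNn
  have hsN : 0 < Real.sqrt N := Real.sqrt_pos.2 hN
  have h12 : npow n (1 / 2) = Real.sqrt n := by unfold npow; rw [Real.sqrt_eq_rpow]
  have hsplit : npow n (37 / 50) = npow n (6 / 25) * npow n (1 / 2) := by
    rw [← npow_add hn]; norm_num
  refine ⟨hN, ?_, ?_⟩
  · rw [abs_div, abs_of_pos hsN, div_le_iff₀ hsN]
    calc |s| ≤ npow n (6 / 25) * Real.sqrt n := by rw [← h12, ← hsplit]; exact hs
      _ ≤ npow n (6 / 25) * Real.sqrt N :=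
        mul_le_mul_of_nonneg_left (Real.sqrt_le_sqrt hNn) ha.le
  · have hs2 : s ^ 2 ≤ npow n (37 / 25) := by
      have h1 : s ^ 2 ≤ npow n (37 / 50) ^ 2 := by
        rw [← sq_abs s]; exact pow_le_pow_left₀ (abs_nonneg s) hs 2
      have h2 : npow n (37 / 50) ^ 2 = npow n (37 / 25) := by
        rw [sq, ← npow_add hn]; norm_num
      rwa [h2] at h1
    have ha2 : npow n (6 / 25) ^ 2 ≤ npow n (51 / 100) := by
      rw [sq, ← npow_add hn]; exact npow_le_npow hn (by norm_num)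
    have hNn5 : N - n ≤ 5 * npow n (51 / 100) := by rw [hNdef]; nlinarith
    have hprod : npow n (37 / 25) * npow n (51 / 100) = npow n (-(1 / 100)) * (n * n) := by
      have : npow n (-(1 / 100)) * ((n : ℝ) * n) = npow n (-(1 / 100) + 1 + 1) := by
        rw [npow_add hn, npow_add hn, npow_one]; ring
      rw [this, ← npow_add hn]; norm_num
    have hkey : s ^ 2 * (N - n) ≤ 5 * npow n (-(1 / 100)) * (n * N) := by
      calc s ^ 2 * (N - n) ≤ npow n (37 / 25) * (5 * npow n (51 / 100)) :=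
            mul_le_mul hs2 hNn5 (sub_nonneg.2 hNn) (npow_pos hn _).le
        _ = 5 * npow n (-(1 / 100)) * (n * n) := by
            rw [mul_left_comm, hprod]; ring
        _ ≤ 5 * npow n (-(1 / 100)) * (n * N) := by
            refine mul_le_mul_of_nonneg_left ?_ (by positivity)
            exact mul_le_mul_of_nonneg_left hNn hn'.le
    rw [div_pow, Real.sq_sqrt hN.le]
    have hid : s ^ 2 / (2 * n) - s ^ 2 / N / 2 = s ^ 2 * (N - n) / (2 * (n * N)) := by
      field_simp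
    have hle : s ^ 2 * (N - n) / (2 * (n * N)) ≤ 5 / 2 * npow n (-(1 / 100)) := by
      rw [div_le_iff₀ (by positivity)]
      linarith
    linarith

/-- Lower bound for the mgf of `ξ_i/|ξ|`.
Proof.  By the symmetry `ξ_i → -ξ_i`, `Mn i s = E cosh(s ξ_i/|ξ|)`; `cosh` is even and increasing on `[0,∞)`.
On the event `{|ξ|² ≤ n + n^{0.51}}` (before resampling `ξ_i`) and `{ξ_i² ≤ 4 n^{0.48}}` we have
`|ξ|² ≤ N₊ := n + n^{0.51} + 4 n^{0.48}`, so
`Mn i s ≥ P(|ξ|² ≤ n + n^{0.51}) · E[cosh(b g); |g| ≤ 2 n^{0.24}]`, `b = s/√N₊` (`gv_resample`),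
`E[e^{± b g}; |g| ≤ A] = e^{b²/2} P(|g ± b| ≤ A)` (`gauss_tilt`), `|b| ≤ n^{0.24}`,
and `b²/2 = s²/(2 N₊) ≥ s²/(2n) - (5/2) n^{-0.01}`. -/
theorem Mn_lower (δ : ℝ) (hδ : 0 < δ) : ∀ᶠ n : ℕ in atTop, ∀ i : Fin n, ∀ s : ℝ,
    |s| ≤ npow n (37 / 50) → eexp (s ^ 2 / (2 * n)) ≤ ENNReal.ofReal (1 + δ) * Mn i s := by
  filter_upwards [prior_asymp δ hδ, eventually_gt_atTop 0] with n hasy hn i s hs
  obtain ⟨h1, hp, hq⟩ := hasy
  obtain ⟨N, hNdef⟩ : ∃ N : ℝ, N = (2 * npow n (6 / 25)) ^ 2 + (n + npow n (51 / 100)) := ⟨_, rfl⟩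
  obtain ⟨hN, hb, hexp⟩ := prior_num hn s hs N hNdef
  have hn' : (0 : ℝ) < n := by exact_mod_cast hn
  have ha := npow_pos hn (6 / 25)
  have hm := npow_pos hn (51 / 100)
  have hge := prior_Mn_ge i s (2 * npow n (6 / 25)) (n + npow n (51 / 100)) N hN hNdef.ge
    (hb.trans (by linarith))
  have hP : ENNReal.ofReal (1 - 2 * npow n (-(1 / 50)))
      ≤ gv n {x | nrm2 x ≤ n + npow n (51 / 100)} := by
    refine le_trans (le_of_eq ?_) (prior_cheb n _ hm)
    rw [ENNReal.ofReal_sub _ (mul_nonneg zero_le_two (npow_pos hn _).le), ENNReal.ofReal_one]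
    congr 2
    have h2 : npow n (-(1 / 50)) * npow n (51 / 100) ^ 2 = n := by
      rw [sq, ← npow_add hn, ← npow_add hn]
      norm_num [npow_one]
    rw [eq_div_iff (by positivity), mul_assoc, h2]
  have hQ : ENNReal.ofReal (1 - 2 * Real.exp (-(npow n (12 / 25) / 2)))
      ≤ 1 - 2 * eexp (-((2 * npow n (6 / 25) - |s / Real.sqrt N|) ^ 2 / 2)) := by
    rw [ENNReal.ofReal_sub _ (by positivity), ENNReal.ofReal_one, ENNReal.ofReal_mul zero_le_two,
      ENNReal.ofReal_ofNat]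
    refine tsub_le_tsub_left (mul_le_mul_right ?_ _) _
    refine eexp_le_eexp.2 ?_
    have h2 : npow n (12 / 25) = npow n (6 / 25) ^ 2 := by
      rw [sq, ← npow_add hn]; norm_num
    have h3 : npow n (6 / 25) ^ 2 ≤ (2 * npow n (6 / 25) - |s / Real.sqrt N|) ^ 2 :=
      pow_le_pow_left₀ ha.le (by linarith) 2
    rw [h2]
    linarith
  calc eexp (s ^ 2 / (2 * n))
      ≤ ENNReal.ofReal ((1 + δ) * ((1 - 2 * npow n (-(1 / 50)))
          * (Real.exp ((s / Real.sqrt N) ^ 2 / 2)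
            * (1 - 2 * Real.exp (-(npow n (12 / 25) / 2)))))) := by
        unfold eexp
        refine ENNReal.ofReal_le_ofReal ?_
        calc Real.exp (s ^ 2 / (2 * n))
            ≤ Real.exp ((s / Real.sqrt N) ^ 2 / 2 + 5 / 2 * npow n (-(1 / 100))) :=
              Real.exp_le_exp.2 hexp
          _ = Real.exp ((s / Real.sqrt N) ^ 2 / 2) * Real.exp (5 / 2 * npow n (-(1 / 100))) :=
              Real.exp_add _ _
          _ ≤ Real.exp ((s / Real.sqrt N) ^ 2 / 2) * ((1 + δ) * ((1 - 2 * npow n (-(1 / 50)))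
                * (1 - 2 * Real.exp (-(npow n (12 / 25) / 2))))) :=
              mul_le_mul_of_nonneg_left h1 (Real.exp_pos _).le
          _ = _ := by ring
    _ = ENNReal.ofReal (1 + δ) * (ENNReal.ofReal (1 - 2 * npow n (-(1 / 50)))
          * (eexp ((s / Real.sqrt N) ^ 2 / 2)
            * ENNReal.ofReal (1 - 2 * Real.exp (-(npow n (12 / 25) / 2))))) := by
        rw [ENNReal.ofReal_mul (by linarith), ENNReal.ofReal_mul hp,
          ENNReal.ofReal_mul (Real.exp_pos _).le]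
        rfl
    _ ≤ ENNReal.ofReal (1 + δ) * Mn i s := by
        refine mul_le_mul_right (le_trans ?_ hge) _
        exact mul_le_mul' hP (mul_le_mul_right hQ _)

/-- `Real.cosh_le_exp_half_sq` -/
theorem cosh_pow_le (n : ℕ) (hn : 0 < n) (s : ℝ) :
    ENNReal.ofReal (Real.cosh (s / n) ^ n) ≤ eexp (s ^ 2 / (2 * n)) := by
  have hn' : (0 : ℝ) < n := by exact_mod_cast hn
  unfold eexp
  refine ENNReal.ofReal_le_ofReal ?_
  calc Real.cosh (s / n) ^ n ≤ Real.exp ((s / n) ^ 2 / 2) ^ n :=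
        pow_le_pow_left₀ (Real.cosh_pos _).le (Real.cosh_le_exp_half_sq _) n
    _ = Real.exp (s ^ 2 / (2 * n)) := by
        rw [← Real.exp_nat_mul]
        congr 1
        field_simp

theorem prior_main (δ : ℝ) (hδ : 0 < δ) : ∀ᶠ n : ℕ in atTop, ∀ i : Fin n, ∀ s : ℝ,
    |s| ≤ npow n (37 / 50) →
      ENNReal.ofReal (Real.cosh (s / n) ^ n) ≤ ENNReal.ofReal (1 + δ) * Mn i s := by
  filter_upwards [Mn_lower δ hδ, eventually_gt_atTop 0] with n h hn i s hs
  exact (cosh_pow_le n hn s).trans (h i s hs)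

end Claimed.Agent.R133
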