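/-
Row 133 / S0266, module E3 (definitions, first moment).
Blueprint section 2, version of 2026-10-09 12h (mgf form).
Notation: `S = (J_ii + J_jj)/2`, `D = (J_ii - J_jj)/2`, `w = 1_G / I²`.
-/
import Claimed.Agent.R133.Avg
import Claimed.Agent.R133.Cube

set_option autoImplicit false

namespace Claimed.Agent.R133

open Claims.C0228.CriticalSK MeasureTheory ProbabilityTheory Filter
open scoped BigOperators NNReal ENNReal Matrix

/-- the good event as a set -/
def GoodSet (n : ℕ) (K C : ℝ) : Set (Mat n) := {J | Good n K C J}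

/-- `w = 1_G / I²` -/
noncomputable def wG {n : ℕ} (K C : ℝ) (J : Mat n) : ℝ≥0∞ :=
  (GoodSet n K C).indicator (fun J => ((IE J)⁻¹) ^ 2) J

/-- the ratio `Z / Zbar`, `Zbar = 2^n I` -/
noncomputable def ratio {n : ℕ} (J : Mat n) : ℝ≥0∞ := ZE J / (2 ^ n * IE J)

theorem measurableSet_goodSet {n : ℕ} (K C : ℝ) : MeasurableSet (GoodSet n K C) :=
  measurableSet_good K C

theorem measurable_wG {n : ℕ} (K C : ℝ) : Measurable (wG K C : Mat n → ℝ≥0∞) :=
  (measurable_IE.inv.pow_const 2).indicator (measurableSet_goodSet K C)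

theorem mem_goodSet_cj {n : ℕ} (K C : ℝ) {O : Mat n} (hO : IsOrth O) (J : Mat n) :
    cj O J ∈ GoodSet n K C ↔ J ∈ GoodSet n K C := good_cj hO K C J

theorem wG_cj {n : ℕ} (K C : ℝ) {O : Mat n} (hO : IsOrth O) (J : Mat n) :
    wG K C (cj O J) = wG K C J := by
  unfold wG
  by_cases hJ : J ∈ GoodSet n K C
  · rw [Set.indicator_of_mem hJ, Set.indicator_of_mem ((mem_goodSet_cj K C hO J).2 hJ), IE_cj hO]
  · rw [Set.indicator_of_notMem hJ,
      Set.indicator_of_notMem (fun h => hJ ((mem_goodSet_cj K C hO J).1 h))]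

/-- `xᵀ J x / 2 = (n/2) ray J x` on the cube -/
theorem secA_qf_sv {n : ℕ} (hn : 0 < n) (J : Mat n) (x : Spin n) :
    qf J (sv x) / 2 = (n : ℝ) / 2 * ray J (sv x) := by
  have hn' : (n : ℝ) ≠ 0 := by exact_mod_cast hn.ne'
  unfold ray
  rw [nrm2_sv]
  field_simp

theorem secA_ZE_eq {n : ℕ} (hn : 0 < n) (J : Mat n) :
    ZE J = ∑ x : Spin n, eexp ((n : ℝ) / 2 * ray J (sv x)) := by
  unfold ZE
  exact Finset.sum_congr rfl fun x _ => by rw [secA_qf_sv hn]

theorem secA_measurable_eexp_ray {n : ℕ} (c : ℝ) :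
    Measurable (fun p : Mat n × Vec n => eexp (c * ray p.1 p.2)) :=
  measurable_eexp.comp (measurable_ray.const_mul c)

theorem secA_measurable_eexp_ray_right {n : ℕ} (c : ℝ) (J : Mat n) :
    Measurable (fun ξ : Vec n => eexp (c * ray J ξ)) := by
  have h : Measurable (fun ξ : Vec n => ((J, ξ) : Mat n × Vec n)) :=
    measurable_const.prodMk measurable_id
  have h2 := (secA_measurable_eexp_ray (n := n) c).comp h
  exact h2

theorem secA_measurable_eexp_ray_left {n : ℕ} (c : ℝ) (v : Vec n) :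
    Measurable (fun J : Mat n => eexp (c * ray J v)) := by
  have h : Measurable (fun J : Mat n => ((J, v) : Mat n × Vec n)) :=
    measurable_id.prodMk measurable_const
  have h2 := (secA_measurable_eexp_ray (n := n) c).comp h
  exact h2

theorem secA_card_spin (n : ℕ) : (Fintype.card (Spin n) : ℝ≥0∞) = 2 ^ n := by
  rw [Fintype.card_fun, Fintype.card_bool, Fintype.card_fin]
  push_cast
  rfl

theorem secA_two_pow_ne_zero (n : ℕ) : (2 : ℝ≥0∞) ^ n ≠ 0 := by positivity

theorem secA_two_pow_ne_top (n : ℕ) : (2 : ℝ≥0∞) ^ n ≠ ∞ := by finiteness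

theorem secA_ratio_eq {n : ℕ} (J : Mat n) : ratio J = (2 ^ n)⁻¹ * ((IE J)⁻¹ * ZE J) := by
  unfold ratio
  rw [div_eq_mul_inv, ENNReal.mul_inv (Or.inl (secA_two_pow_ne_zero n))
    (Or.inl (secA_two_pow_ne_top n)), mul_comm, mul_assoc]

/-- `E[Z/Zbar ; G] = P(G)`  (`goe_vec_avg`) -/
theorem first_moment {n : ℕ} (hn : 0 < n) (K C : ℝ) :
    ∫⁻ J in GoodSet n K C, ratio J ∂(goe n) = goe n (GoodSet n K C) := by
  have hG : MeasurableSet (GoodSet n K C) := measurableSet_goodSet K C
  obtain ⟨F, hFdef⟩ : ∃ F : Mat n → Vec n → ℝ≥0∞, F = fun J v =>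
      (GoodSet n K C).indicator (fun J => (IE J)⁻¹) J * eexp ((n : ℝ) / 2 * ray J v) := ⟨_, rfl⟩
  have hind : Measurable ((GoodSet n K C).indicator (fun J : Mat n => (IE J)⁻¹)) :=
    measurable_IE.inv.indicator hG
  have hFm : Measurable (Function.uncurry F) := by
    rw [hFdef]
    exact (hind.comp measurable_fst).mul (secA_measurable_eexp_ray _)
  have hinv : ∀ O : Mat n, IsOrth O → ∀ J v, F (cj O J) (O *ᵥ v) = F J v := by
    intro O hO J v
    rw [hFdef]
    simp only
    rw [ray_cj hO]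
    congr 1
    by_cases hJ : J ∈ GoodSet n K C
    · rw [Set.indicator_of_mem hJ, Set.indicator_of_mem ((mem_goodSet_cj K C hO J).2 hJ), IE_cj hO]
    · rw [Set.indicator_of_notMem hJ,
        Set.indicator_of_notMem (fun h => hJ ((mem_goodSet_cj K C hO J).1 h))]
  have hhom : ∀ c : ℝ, 0 < c → ∀ J v, F J (c • v) = F J v := by
    intro c hc J v
    rw [hFdef]
    simp only
    rw [ray_smul J hc.ne']
  have h0 : ∀ J, ∫⁻ ξ, F J ξ ∂(gv n) = (GoodSet n K C).indicator 1 J := by
    intro J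
    rw [hFdef]
    simp only
    rw [lintegral_const_mul _ (secA_measurable_eexp_ray_right _ J)]
    by_cases hJ : J ∈ GoodSet n K C
    · rw [Set.indicator_of_mem hJ, Set.indicator_of_mem hJ]
      exact ENNReal.inv_mul_cancel (IE_ne_zero J) (IE_ne_top J)
    · rw [Set.indicator_of_notMem hJ, Set.indicator_of_notMem hJ, zero_mul]
  have h1 : ∀ x : Spin n, ∫⁻ J, F J (sv x) ∂(goe n) = goe n (GoodSet n K C) := by
    intro x
    rw [goe_vec_avg F hFm hinv hhom (sv x) (sv_ne_zero hn x)]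
    simp only [h0]
    exact lintegral_indicator_one hG
  have h2 : ∀ J, (GoodSet n K C).indicator ratio J = (2 ^ n)⁻¹ * ∑ x : Spin n, F J (sv x) := by
    intro J
    rw [hFdef]
    simp only
    rw [← Finset.mul_sum, ← secA_ZE_eq hn]
    by_cases hJ : J ∈ GoodSet n K C
    · rw [Set.indicator_of_mem hJ, Set.indicator_of_mem hJ, secA_ratio_eq]
    · rw [Set.indicator_of_notMem hJ, Set.indicator_of_notMem hJ, zero_mul, mul_zero]
  have hFx : ∀ x : Spin n, Measurable (fun J => F J (sv x)) := fun x =>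
    hFm.comp (measurable_id.prodMk measurable_const)
  rw [← lintegral_indicator hG]
  simp only [h2]
  rw [lintegral_const_mul _ (Finset.measurable_sum _ fun x _ => hFx x),
    lintegral_finsetSum _ fun x _ => hFx x]
  simp only [h1]
  rw [Finset.sum_const, Finset.card_univ, nsmul_eq_mul, secA_card_spin, ← mul_assoc,
    ENNReal.inv_mul_cancel (secA_two_pow_ne_zero n) (secA_two_pow_ne_top n), one_mul]

end Claimed.Agent.R133
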