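/-
Row 133 / S0266, module E3 (second moment identity (E2)).
Blueprint section 2, version of 2026-10-09 12h (mgf form).
Notation: `S = (J_ii + J_jj)/2`, `D = (J_ii - J_jj)/2`, `w = 1_G / I²`.
-/
import Claimed.Agent.R133.SecondA

set_option autoImplicit false

namespace Claimed.Agent.R133

open Claims.C0228.CriticalSK MeasureTheory ProbabilityTheory Filter
open scoped BigOperators NNReal ENNReal Matrix

/-- `1_G (Z/Zbar)² = 4^{-n} w Z²` -/
theorem secB_ratio_sq {n : ℕ} (K C : ℝ) (J : Mat n) :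
    (GoodSet n K C).indicator (fun J => ratio J ^ 2) J
      = ((2 ^ n)⁻¹) ^ 2 * (wG K C J * ZE J ^ 2) := by
  unfold wG
  by_cases hJ : J ∈ GoodSet n K C
  · rw [Set.indicator_of_mem hJ, Set.indicator_of_mem hJ, secA_ratio_eq, mul_pow, mul_pow]
  · rw [Set.indicator_of_notMem hJ, Set.indicator_of_notMem hJ, zero_mul, mul_zero]

/-- `Z² = ∑_{x,y} exp((n/2)(ray J x + ray J y))` -/
theorem secB_ZE_sq {n : ℕ} (hn : 0 < n) (J : Mat n) :
    ZE J ^ 2 = ∑ x : Spin n, ∑ y : Spin n,
      eexp ((n : ℝ) / 2 * (ray J (sv x) + ray J (sv y))) := by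
  rw [sq, secA_ZE_eq hn, Finset.sum_mul_sum]
  refine Finset.sum_congr rfl fun x _ => Finset.sum_congr rfl fun y _ => ?_
  rw [mul_add, eexp_add]

/-- the sum over the pairs of the cube after the rotation -/
theorem secB_sum_pairs {n : ℕ} (hn : 0 < n) (a b : ℝ) :
    ∑ x : Spin n, ∑ y : Spin n,
      eexp ((n : ℝ) / 2 * ((1 + ovl (sv x) (sv y)) * a + (1 - ovl (sv x) (sv y)) * b))
      = (2 ^ n) ^ 2 * (eexp ((n : ℝ) / 2 * (a + b)) * ENNReal.ofReal (Real.cosh ((a - b) / 2) ^ n)) := by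
  have hn' : (n : ℝ) ≠ 0 := by exact_mod_cast hn.ne'
  have h1 : ∀ x y : Spin n,
      eexp ((n : ℝ) / 2 * ((1 + ovl (sv x) (sv y)) * a + (1 - ovl (sv x) (sv y)) * b))
        = eexp ((n : ℝ) / 2 * (a + b))
          * ENNReal.ofReal (Real.exp ((a - b) / 2 * (sv x ⬝ᵥ sv y))) := by
    intro x y
    rw [ovl_sv hn]
    have : (n : ℝ) / 2 * ((1 + (sv x ⬝ᵥ sv y) / n) * a + (1 - (sv x ⬝ᵥ sv y) / n) * b)
        = (n : ℝ) / 2 * (a + b) + (a - b) / 2 * (sv x ⬝ᵥ sv y) := by
      field_simp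
      ring
    rw [this, eexp_add]
    rfl
  have h2 : ∀ x : Spin n, ∑ y : Spin n, ENNReal.ofReal (Real.exp ((a - b) / 2 * (sv x ⬝ᵥ sv y)))
      = 2 ^ n * ENNReal.ofReal (Real.cosh ((a - b) / 2) ^ n) := by
    intro x
    rw [← ENNReal.ofReal_sum_of_nonneg fun y _ => (Real.exp_pos _).le, sum_exp_dot, mul_pow,
      ENNReal.ofReal_mul (by positivity), ENNReal.ofReal_pow (by norm_num), ENNReal.ofReal_ofNat]
  simp only [h1]
  simp only [← Finset.mul_sum, h2]
  rw [Finset.sum_const, Finset.card_univ, nsmul_eq_mul, secA_card_spin, sq]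
  ring

/-- (E2)  `E[(Z/Zbar)² ; G] = E[w e^{nS} cosh(D)^n]`  (`goe_pair`, `sum_exp_dot`) -/
theorem second_eq {n : ℕ} (K C : ℝ) (i j : Fin n) (hij : i ≠ j) :
    ∫⁻ J in GoodSet n K C, ratio J ^ 2 ∂(goe n) =
      ∫⁻ J, wG K C J * eexp ((n : ℝ) / 2 * (J i i + J j j)) *
        ENNReal.ofReal (Real.cosh ((J i i - J j j) / 2) ^ n) ∂(goe n) := by
  have hn : 0 < n := Fin.pos i
  have hG : MeasurableSet (GoodSet n K C) := measurableSet_goodSet K C
  have hw : Measurable (wG K C : Mat n → ℝ≥0∞) := measurable_wG K C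
  have hm1 : ∀ x y : Spin n, Measurable (fun J : Mat n =>
      wG K C J * eexp ((n : ℝ) / 2 * (ray J (sv x) + ray J (sv y)))) := by
    intro x y
    have e : (fun J : Mat n => wG K C J * eexp ((n : ℝ) / 2 * (ray J (sv x) + ray J (sv y))))
        = fun J => wG K C J * (eexp ((n : ℝ) / 2 * ray J (sv x)) * eexp ((n : ℝ) / 2 * ray J (sv y))) := by
      funext J
      rw [mul_add, eexp_add]
    rw [e]
    exact hw.mul ((secA_measurable_eexp_ray_left _ _).mul (secA_measurable_eexp_ray_left _ _))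
  have hm2 : ∀ x y : Spin n, Measurable (fun J : Mat n => wG K C J * eexp ((n : ℝ) / 2 *
      ((1 + ovl (sv x) (sv y)) * J i i + (1 - ovl (sv x) (sv y)) * J j j))) := by
    intro x y
    refine hw.mul (measurable_eexp.comp ?_)
    exact (((measurable_entry i i).const_mul _).add ((measurable_entry j j).const_mul _)).const_mul _
  have h3 : ∫⁻ J, wG K C J * ZE J ^ 2 ∂(goe n)
      = ∫⁻ J, (2 ^ n) ^ 2 * (wG K C J * eexp ((n : ℝ) / 2 * (J i i + J j j)) *
        ENNReal.ofReal (Real.cosh ((J i i - J j j) / 2) ^ n)) ∂(goe n) := by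
    simp only [secB_ZE_sq hn, Finset.mul_sum]
    rw [lintegral_finsetSum _ fun x _ => Finset.measurable_sum _ fun y _ => hm1 x y]
    have h4 : ∀ x : Spin n, ∫⁻ J, ∑ y : Spin n,
        wG K C J * eexp ((n : ℝ) / 2 * (ray J (sv x) + ray J (sv y))) ∂(goe n)
        = ∫⁻ J, ∑ y : Spin n, wG K C J * eexp ((n : ℝ) / 2 *
          ((1 + ovl (sv x) (sv y)) * J i i + (1 - ovl (sv x) (sv y)) * J j j)) ∂(goe n) := by
      intro x
      rw [lintegral_finsetSum _ fun y _ => hm1 x y, lintegral_finsetSum _ fun y _ => hm2 x y]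
      refine Finset.sum_congr rfl fun y _ => ?_
      exact goe_pair _ hw (fun O hO J => wG_cj K C hO J) i j hij _ _ (sv_ne_zero hn x)
        (sv_ne_zero hn y)
    simp only [h4]
    rw [← lintegral_finsetSum _ fun x _ => Finset.measurable_sum _ fun y _ => hm2 x y]
    refine lintegral_congr fun J => ?_
    simp only [← Finset.mul_sum]
    rw [secB_sum_pairs hn]
    ring
  have hm3 : Measurable (fun J : Mat n => wG K C J * eexp ((n : ℝ) / 2 * (J i i + J j j)) *
      ENNReal.ofReal (Real.cosh ((J i i - J j j) / 2) ^ n)) := by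
    refine (hw.mul (measurable_eexp.comp ?_)).mul ?_
    · exact ((measurable_entry i i).add (measurable_entry j j)).const_mul _
    · refine ENNReal.measurable_ofReal.comp (Measurable.pow_const ?_ n)
      exact Real.measurable_cosh.comp (((measurable_entry i i).sub (measurable_entry j j)).div_const 2)
  have hm4 : Measurable (fun J : Mat n => wG K C J * ZE J ^ 2) :=
    hw.mul (measurable_ZE.pow_const 2)
  rw [← lintegral_indicator hG]
  simp only [secB_ratio_sq]
  rw [lintegral_const_mul _ hm4, h3, lintegral_const_mul _ hm3,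
    ← mul_assoc, ← mul_pow, ENNReal.inv_mul_cancel (secA_two_pow_ne_zero n) (secA_two_pow_ne_top n),
    one_pow, one_mul]

end Claimed.Agent.R133
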