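/-
Row 133 / S0266, module E3 (identity (E3) for P(G)).
Blueprint section 2, version of 2026-10-09 12h (mgf form).
Notation: `S = (J_ii + J_jj)/2`, `D = (J_ii - J_jj)/2`, `w = 1_G / I²`.
-/
import Claimed.Agent.R133.SecondA

set_option autoImplicit false

namespace Claimed.Agent.R133

open Claims.C0228.CriticalSK MeasureTheory ProbabilityTheory Filter
open scoped BigOperators NNReal ENNReal Matrix

theorem secC_measurable_ovl {n : ℕ} : Measurable (fun p : Vec n × Vec n => ovl p.1 p.2) := by
  unfold ovl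
  refine Measurable.div ?_ ?_
  · have h : Continuous (fun p : Vec n × Vec n => p.1 ⬝ᵥ p.2) := by
      unfold dotProduct
      fun_prop
    exact h.measurable
  · exact (((continuous_nrm2.comp continuous_fst).mul
      (continuous_nrm2.comp continuous_snd)).measurable).sqrt

theorem secC_w_mul_sq {n : ℕ} (K C : ℝ) (J : Mat n) :
    wG K C J * IE J ^ 2 = (GoodSet n K C).indicator 1 J := by
  unfold wG
  by_cases hJ : J ∈ GoodSet n K C
  · rw [Set.indicator_of_mem hJ, Set.indicator_of_mem hJ, ← mul_pow,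
      ENNReal.inv_mul_cancel (IE_ne_zero J) (IE_ne_top J), one_pow, Pi.one_apply]
  · rw [Set.indicator_of_notMem hJ, Set.indicator_of_notMem hJ, zero_mul]

theorem secC_measurable_ray_fst {n : ℕ} :
    Measurable (fun q : Mat n × (Vec n × Vec n) => ray q.1 q.2.1) :=
  measurable_ray.comp (measurable_fst.prodMk (measurable_fst.comp measurable_snd))

theorem secC_measurable_ray_snd {n : ℕ} :
    Measurable (fun q : Mat n × (Vec n × Vec n) => ray q.1 q.2.2) :=
  measurable_ray.comp (measurable_fst.prodMk (measurable_snd.comp measurable_snd))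

theorem secC_IE_sq {n : ℕ} (J : Mat n) :
    IE J ^ 2 = ∫⁻ p : Vec n × Vec n, eexp ((n : ℝ) / 2 * (ray J p.1 + ray J p.2))
      ∂((gv n).prod (gv n)) := by
  have hm : Measurable (fun ξ : Vec n => eexp ((n : ℝ) / 2 * ray J ξ)) :=
    measurable_eexp.comp ((measurable_ray.comp (measurable_const.prodMk measurable_id)).const_mul _)
  have h := lintegral_prod_mul (μ := gv n) (ν := gv n) hm.aemeasurable hm.aemeasurable
  rw [sq]
  unfold IE
  rw [← h]
  refine lintegral_congr fun p => ?_
  rw [mul_add, eexp_add]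

theorem secC_ae_ne {n : ℕ} (hn : 0 < n) :
    ∀ᵐ p : Vec n × Vec n ∂((gv n).prod (gv n)), p.1 ≠ 0 ∧ p.2 ≠ 0 := by
  have h1 : ∀ᵐ p : Vec n × Vec n ∂((gv n).prod (gv n)), p.1 ≠ 0 :=
    (Measure.quasiMeasurePreserving_fst (μ := gv n) (ν := gv n)).ae (gv_ae_ne_zero hn)
  have h2 : ∀ᵐ p : Vec n × Vec n ∂((gv n).prod (gv n)), p.2 ≠ 0 :=
    (Measure.quasiMeasurePreserving_snd (μ := gv n) (ν := gv n)).ae (gv_ae_ne_zero hn)
  filter_upwards [h1, h2] with p a b using ⟨a, b⟩

theorem secC_Mn {n : ℕ} (hn : 0 < n) (i : Fin n) (s : ℝ) :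
    ∫⁻ p : Vec n × Vec n, eexp (s * ovl p.1 p.2) ∂((gv n).prod (gv n)) = Mn i s := by
  have hm : Measurable (fun p : Vec n × Vec n => eexp (s * ovl p.1 p.2)) :=
    measurable_eexp.comp (secC_measurable_ovl.const_mul _)
  rw [lintegral_prod_symm _ hm.aemeasurable]
  have h : ∀ᵐ v ∂(gv n), ∫⁻ ξ, eexp (s * ovl (ξ, v).1 (ξ, v).2) ∂(gv n) = Mn i s :=
    (gv_ae_ne_zero hn).mono fun v hv => lintegral_ovl i s v hv
  rw [lintegral_congr_ae h, lintegral_const, measure_univ, mul_one]

/-- (E3)  `P(G) = E[w I²] = E[w e^{nS} M_n(nD)]`  (`goe_pair`, `lintegral_ovl`, Tonelli) -/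
theorem good_eq {n : ℕ} (K C : ℝ) (i j : Fin n) (hij : i ≠ j) :
    goe n (GoodSet n K C) =
      ∫⁻ J, wG K C J * eexp ((n : ℝ) / 2 * (J i i + J j j)) *
        Mn i ((n : ℝ) / 2 * (J i i - J j j)) ∂(goe n) := by
  have hn : 0 < n := Fin.pos i
  have hGm : MeasurableSet (GoodSet n K C) := measurableSet_good K C
  have hw : Measurable (wG K C : Mat n → ℝ≥0∞) := measurable_wG K C
  -- the two integrands on `Mat n × (Vec n × Vec n)`
  have hF1 : Measurable (fun q : Mat n × (Vec n × Vec n) =>
      wG K C q.1 * eexp ((n : ℝ) / 2 * (ray q.1 q.2.1 + ray q.1 q.2.2))) :=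
    (hw.comp measurable_fst).mul (measurable_eexp.comp
      ((secC_measurable_ray_fst.add secC_measurable_ray_snd).const_mul _))
  have hii : Measurable (fun q : Mat n × (Vec n × Vec n) => q.1 i i) :=
    (measurable_entry i i).comp measurable_fst
  have hjj : Measurable (fun q : Mat n × (Vec n × Vec n) => q.1 j j) :=
    (measurable_entry j j).comp measurable_fst
  have hov : Measurable (fun q : Mat n × (Vec n × Vec n) => ovl q.2.1 q.2.2) :=
    secC_measurable_ovl.comp measurable_snd
  have hF2 : Measurable (fun q : Mat n × (Vec n × Vec n) =>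
      wG K C q.1 * eexp ((n : ℝ) / 2 *
        ((1 + ovl q.2.1 q.2.2) * q.1 i i + (1 - ovl q.2.1 q.2.2) * q.1 j j))) :=
    (hw.comp measurable_fst).mul (measurable_eexp.comp
      ((((hov.const_add 1).mul hii).add ((hov.const_sub 1).mul hjj)).const_mul _))
  calc goe n (GoodSet n K C)
      = ∫⁻ J, wG K C J * IE J ^ 2 ∂(goe n) := by
        rw [← lintegral_indicator_one hGm]
        exact lintegral_congr fun J => (secC_w_mul_sq K C J).symm
    _ = ∫⁻ J, ∫⁻ p : Vec n × Vec n,
          wG K C J * eexp ((n : ℝ) / 2 * (ray J p.1 + ray J p.2))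
            ∂((gv n).prod (gv n)) ∂(goe n) := by
        refine lintegral_congr fun J => ?_
        rw [secC_IE_sq, lintegral_const_mul]
        exact measurable_eexp.comp
          (((secC_measurable_ray_fst.add secC_measurable_ray_snd).comp
            (measurable_const.prodMk measurable_id) : Measurable
              (fun p : Vec n × Vec n => ray J p.1 + ray J p.2)).const_mul _)
    _ = ∫⁻ p : Vec n × Vec n, ∫⁻ J,
          wG K C J * eexp ((n : ℝ) / 2 * (ray J p.1 + ray J p.2))
            ∂(goe n) ∂((gv n).prod (gv n)) :=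
        lintegral_lintegral_swap (f := fun J (p : Vec n × Vec n) =>
          wG K C J * eexp ((n : ℝ) / 2 * (ray J p.1 + ray J p.2))) hF1.aemeasurable
    _ = ∫⁻ p : Vec n × Vec n, ∫⁻ J,
          wG K C J * eexp ((n : ℝ) / 2 *
            ((1 + ovl p.1 p.2) * J i i + (1 - ovl p.1 p.2) * J j j))
            ∂(goe n) ∂((gv n).prod (gv n)) := by
        refine lintegral_congr_ae ((secC_ae_ne hn).mono fun p hp => ?_)
        exact goe_pair (wG K C) hw (fun O hO J => wG_cj K C hO J) i j hij p.1 p.2 hp.1 hp.2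
    _ = ∫⁻ J, ∫⁻ p : Vec n × Vec n,
          wG K C J * eexp ((n : ℝ) / 2 *
            ((1 + ovl p.1 p.2) * J i i + (1 - ovl p.1 p.2) * J j j))
            ∂((gv n).prod (gv n)) ∂(goe n) :=
        (lintegral_lintegral_swap (f := fun J (p : Vec n × Vec n) =>
          wG K C J * eexp ((n : ℝ) / 2 *
            ((1 + ovl p.1 p.2) * J i i + (1 - ovl p.1 p.2) * J j j))) hF2.aemeasurable).symm
    _ = ∫⁻ J, wG K C J * eexp ((n : ℝ) / 2 * (J i i + J j j)) *
          Mn i ((n : ℝ) / 2 * (J i i - J j j)) ∂(goe n) := by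
        refine lintegral_congr fun J => ?_
        rw [← secC_Mn hn i, ← lintegral_const_mul]
        · refine lintegral_congr fun p => ?_
          rw [mul_assoc, ← eexp_add]
          congr 2
          ring
        · exact measurable_eexp.comp (secC_measurable_ovl.const_mul _)

end Claimed.Agent.R133
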