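/-
Row 133 / S0266, section 3 (spherical model), part 0: reduction of the good event to a diagonal matrix.
-/
import Claimed.Agent.R133.Inv

set_option autoImplicit false

namespace Claimed.Agent.R133

open MeasureTheory ProbabilityTheory Filter
open scoped BigOperators NNReal ENNReal Matrix

/-- `Abar(z) = ∑_k g_k² / (n (z - l_k))` -/
noncomputable def Abar {n : ℕ} (l : Vec n) (z : ℝ) (g : Vec n) : ℝ :=
  ∑ k, g k ^ 2 / ((n : ℝ) * (z - l k))

/-- `c_k = 1 / (n (γ - l_k))` -/
noncomputable def cc {n : ℕ} (l : Vec n) (γ : ℝ) : Vec n := fun k => 1 / ((n : ℝ) * (γ - l k))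

/-- `y_k = √c_k g_k` -/
noncomputable def yy {n : ℕ} (l : Vec n) (γ : ℝ) (g : Vec n) : Vec n :=
  fun k => Real.sqrt (cc l γ k) * g k

/-- the good event in eigen-coordinates -/
structure GoodDiag (n : ℕ) (K C : ℝ) (l : Vec n) : Prop where
  below : ∀ k, l k < gam (K / 2) n
  bdd : ∀ k, |l k| ≤ n
  three : ∃ k₁ k₂ k₃ : Fin n, k₁ ≠ k₂ ∧ k₁ ≠ k₃ ∧ k₂ ≠ k₃ ∧
    gam (-K) n < l k₁ ∧ gam (-K) n < l k₂ ∧ gam (-K) n < l k₃
  g3 : ENNReal.ofReal (23 / 24) ≤ gv n {g | Abar l (gam (K / 2) n) g < 1 - npow n (-(1 / 3)) ∧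
    1 - C * npow n (-(1 / 3)) ≤ Abar l (gam K n) g}
  det : ∏ k, (gam K n - l k) ≤ Real.exp ((n : ℝ) / 2 + K * npow n (1 / 3) + npow n (1 / 10))

variable {n : ℕ}

theorem Abar_eq_sum_cc (l : Vec n) (z : ℝ) (g : Vec n) : Abar l z g = ∑ k, cc l z k * g k ^ 2 := by
  unfold Abar cc
  refine Finset.sum_congr rfl fun k _ => ?_
  ring

theorem nrm2_yy (l : Vec n) (γ : ℝ) (hl : ∀ k, l k < γ) (g : Vec n) :
    nrm2 (yy l γ g) = Abar l γ g := by
  rw [Abar_eq_sum_cc, nrm2_eq_sum]
  refine Finset.sum_congr rfl fun k _ => ?_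
  have h0 : 0 ≤ cc l γ k := by
    unfold cc
    have := sub_pos.2 (hl k)
    positivity
  unfold yy
  rw [mul_pow, Real.sq_sqrt h0]

theorem below_diagonal_iff (l : Vec n) (z : ℝ) : Below (Matrix.diagonal l) z ↔ ∀ k, l k < z := by
  constructor
  · intro h k
    have hne : eb k ≠ (0 : Vec n) := by
      intro h0
      have := nrm2_eb k
      rw [h0] at this
      simp [nrm2] at this
    have := h (eb k) hne
    rwa [qf_eb, nrm2_eb, mul_one, Matrix.diagonal_apply_eq] at this
  · intro h v hv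
    rw [qf_diagonal, nrm2_eq_sum, Finset.mul_sum]
    obtain ⟨k, hk⟩ : ∃ k, v k ≠ 0 := by
      by_contra hcon
      push Not at hcon
      exact hv (funext hcon)
    refine Finset.sum_lt_sum (fun i _ => ?_) ⟨k, Finset.mem_univ k, ?_⟩
    · exact mul_le_mul_of_nonneg_right (h i).le (sq_nonneg _)
    · exact mul_lt_mul_of_pos_right (h k) (by positivity)

/-- rank one perturbation: `PD(z - Λ - (θ/n) ξ ξᵀ) ↔ θ Abar(z) < 1`.
(⇐) Cauchy–Schwarz `(ξ·v)² ≤ (∑ ξ_k²/(z-l_k)) (∑ (z-l_k) v_k²)`; (⇒) test vector `v_k = ξ_k/(z-l_k)`. -/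
theorem below_diag_spike_iff (hn : 0 < n) (l ξ : Vec n) (z θ : ℝ) (hz : ∀ k, l k < z) (hθ : 0 < θ) :
    Below (Matrix.diagonal l + spike (θ / n) ξ) z ↔ θ * Abar l z ξ < 1 := by
  have hn' : (0 : ℝ) < n := by exact_mod_cast hn
  have hd : ∀ k, 0 < z - l k := fun k => sub_pos.2 (hz k)
  -- `A = ∑ ξ_k² / (z - l_k)`
  obtain ⟨A, hA⟩ : ∃ A : ℝ, A = ∑ k, ξ k ^ 2 / (z - l k) := ⟨_, rfl⟩
  have hAbar : Abar l z ξ = A / n := by
    unfold Abar
    rw [hA, Finset.sum_div]
    refine Finset.sum_congr rfl fun k _ => ?_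
    rw [div_div, mul_comm]
  have hA0 : 0 ≤ A := by
    rw [hA]
    exact Finset.sum_nonneg fun k _ => div_nonneg (sq_nonneg _) (hd k).le
  have hqf : ∀ v : Vec n, qf (Matrix.diagonal l + spike (θ / n) ξ) v < z * nrm2 v ↔
      θ / n * (ξ ⬝ᵥ v) ^ 2 < ∑ k, (z - l k) * v k ^ 2 := by
    intro v
    rw [qf_add, qf_diagonal, qf_spike, nrm2_eq_sum, Finset.mul_sum]
    have : ∑ k, (z - l k) * v k ^ 2 = ∑ k, z * v k ^ 2 - ∑ k, l k * v k ^ 2 := by
      rw [← Finset.sum_sub_distrib]
      exact Finset.sum_congr rfl fun k _ => by ring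
    rw [this]
    constructor <;> intro h <;> linarith
  rw [hAbar]
  constructor
  · intro h
    by_cases hξ : ξ = 0
    · have : A = 0 := by rw [hA, hξ]; simp
      rw [this]; simp
    · obtain ⟨k, hk⟩ : ∃ k, ξ k ≠ 0 := by
        by_contra hcon
        push Not at hcon
        exact hξ (funext hcon)
      have hv : (fun k => ξ k / (z - l k)) ≠ (0 : Vec n) := by
        intro h0
        have := congrFun h0 k
        simp only [Pi.zero_apply, div_eq_zero_iff] at this
        rcases this with h1 | h1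
        · exact hk h1
        · exact (hd k).ne' h1
      have h1 := (hqf _).1 (h _ hv)
      have e1 : ξ ⬝ᵥ (fun k => ξ k / (z - l k)) = A := by
        rw [hA, dotProduct]
        exact Finset.sum_congr rfl fun k _ => by ring
      have e2 : ∑ k, (z - l k) * (ξ k / (z - l k)) ^ 2 = A := by
        rw [hA]
        refine Finset.sum_congr rfl fun k _ => ?_
        have := (hd k).ne'
        field_simp
      rw [e1, e2] at h1
      have hApos : 0 < A := by
        rw [hA]
        refine Finset.sum_pos' (fun k _ => div_nonneg (sq_nonneg _) (hd k).le)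
          ⟨k, Finset.mem_univ k, div_pos (by positivity) (hd k)⟩
      have h2 : θ / n * A * A < 1 * A := by
        calc θ / n * A * A = θ / n * A ^ 2 := by ring
          _ < A := h1
          _ = 1 * A := (one_mul A).symm
      have h3 := lt_of_mul_lt_mul_right h2 hA0
      calc θ * (A / n) = θ / n * A := by ring
        _ < 1 := h3
  · intro h v hv
    rw [hqf]
    obtain ⟨k, hk⟩ : ∃ k, v k ≠ 0 := by
      by_contra hcon
      push Not at hcon
      exact hv (funext hcon)
    have hB : 0 < ∑ k, (z - l k) * v k ^ 2 :=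
      Finset.sum_pos' (fun k _ => mul_nonneg (hd k).le (sq_nonneg _))
        ⟨k, Finset.mem_univ k, mul_pos (hd k) (by positivity)⟩
    have hCS : (ξ ⬝ᵥ v) ^ 2 ≤ A * ∑ k, (z - l k) * v k ^ 2 := by
      rw [hA, dotProduct]
      refine Finset.sum_sq_le_sum_mul_sum_of_sq_le_mul _
        (fun k _ => div_nonneg (sq_nonneg _) (hd k).le)
        (fun k _ => mul_nonneg (hd k).le (sq_nonneg _)) (fun k _ => le_of_eq ?_)
      have := (hd k).ne'
      field_simp
    have hθn : 0 ≤ θ / n := by positivity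
    calc θ / n * (ξ ⬝ᵥ v) ^ 2 ≤ θ / n * (A * ∑ k, (z - l k) * v k ^ 2) :=
          mul_le_mul_of_nonneg_left hCS hθn
      _ = θ * (A / n) * ∑ k, (z - l k) * v k ^ 2 := by ring
      _ < 1 * ∑ k, (z - l k) * v k ^ 2 := mul_lt_mul_of_pos_right h hB
      _ = ∑ k, (z - l k) * v k ^ 2 := one_mul _

/-- dimension count: a 3-dimensional space meets `span {e_k : l_k ≤ c}` if fewer than 3 of the `l_k`
exceed `c` -/
theorem threeTop_diagonal (l : Vec n) (c : ℝ) (h : ThreeTop (Matrix.diagonal l) c) :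
    ∃ k₁ k₂ k₃ : Fin n, k₁ ≠ k₂ ∧ k₁ ≠ k₃ ∧ k₂ ≠ k₃ ∧ c < l k₁ ∧ c < l k₂ ∧ c < l k₃ := by
  classical
  obtain ⟨V, hV, hα⟩ := h
  obtain ⟨S, hS⟩ : ∃ S : Finset (Fin n), S = Finset.univ.filter (fun k => c < l k) := ⟨_, rfl⟩
  have hmem : ∀ k, k ∈ S ↔ c < l k := by intro k; rw [hS]; simp
  by_cases hcard : 2 < S.card
  · obtain ⟨a, ha, b, hb, d, hd, hab, had, hbd⟩ := Finset.two_lt_card.1 hcard
    exact ⟨a, b, d, hab, had, hbd, (hmem a).1 ha, (hmem b).1 hb, (hmem d).1 hd⟩
  · exfalso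
    -- the linear map `α ↦ ((∑ α_a V a) k)_{k ∈ S}`
    let T : (Fin 3 → ℝ) →ₗ[ℝ] (S → ℝ) :=
      { toFun := fun α k => (∑ a, α a • V a) k.1
        map_add' := by
          intro x y
          funext k
          simp [add_mul, Finset.sum_add_distrib]
        map_smul' := by
          intro r x
          funext k
          simp [Finset.mul_sum, mul_assoc] }
    have hker : LinearMap.ker T ≠ ⊥ := by
      apply LinearMap.ker_ne_bot_of_finrank_lt
      rw [Module.finrank_fintype_fun_eq_card, Module.finrank_fintype_fun_eq_card]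
      simp only [Fintype.card_coe, Fintype.card_fin]
      omega
    obtain ⟨α, hαker, hα0⟩ := (Submodule.ne_bot_iff _).1 hker
    have hzero : ∀ k ∈ S, (∑ a, α a • V a) k = 0 := by
      intro k hk
      have := congrFun (LinearMap.mem_ker.1 hαker) ⟨k, hk⟩
      exact this
    have hnorm : nrm2 (∑ a, α a • V a) = α ⬝ᵥ α := by
      rw [← qf_one, bl_qf_sum, dotProduct]
      refine Finset.sum_congr rfl fun a _ => ?_
      simp only [Matrix.one_mulVec, hV, mul_ite, mul_one, mul_zero, Finset.sum_ite_eq,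
        Finset.mem_univ, if_true]
    have h1 := hα α hα0
    rw [qf_diagonal, ← hnorm, nrm2_eq_sum, Finset.mul_sum] at h1
    refine absurd h1 (not_lt.2 (Finset.sum_le_sum fun k _ => ?_))
    by_cases hk : k ∈ S
    · rw [hzero k hk]; simp
    · have : l k ≤ c := not_lt.1 (fun h => hk ((hmem k).2 h))
      exact mul_le_mul_of_nonneg_right this (sq_nonneg _)

theorem Rs_diagonal (l : Vec n) (z : ℝ) (hz : ∀ k, l k < z) :
    Rs z (Matrix.diagonal l) = Matrix.diagonal (fun k => 1 / (z - l k)) := by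
  unfold Rs
  rw [Matrix.smul_one_eq_diagonal, Matrix.diagonal_sub]
  apply Matrix.inv_eq_right_inv
  rw [Matrix.diagonal_mul_diagonal, ← Matrix.diagonal_one]
  congr 1
  funext k
  have := (sub_pos.2 (hz k)).ne'
  field_simp

theorem frob2_diagonal (l : Vec n) : frob2 (Matrix.diagonal l) = ∑ k, l k ^ 2 := by
  unfold frob2
  refine Finset.sum_congr rfl fun i _ => ?_
  rw [Finset.sum_eq_single i]
  · rw [Matrix.diagonal_apply_eq]
  · intro j _ hj
    rw [Matrix.diagonal_apply_ne _ hj.symm]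
    simp
  · intro h
    exact absurd (Finset.mem_univ i) h

theorem det_sub_diagonal (l : Vec n) (z : ℝ) :
    (z • (1 : Mat n) - Matrix.diagonal l).det = ∏ k, (z - l k) := by
  rw [Matrix.smul_one_eq_diagonal, Matrix.diagonal_sub, Matrix.det_diagonal]

theorem ray_diagonal (l g : Vec n) : ray (Matrix.diagonal l) g = (∑ k, l k * g k ^ 2) / nrm2 g := by
  unfold ray
  rw [qf_diagonal]

theorem abs_ray_diagonal_le (hn : 0 < n) (l g : Vec n) (Λ : ℝ) (hΛ : ∀ k, |l k| ≤ Λ) :
    |ray (Matrix.diagonal l) g| ≤ Λ := by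
  have hΛ0 : 0 ≤ Λ := (abs_nonneg _).trans (hΛ ⟨0, hn⟩)
  rw [ray_diagonal]
  by_cases hg : g = 0
  · rw [hg]
    simpa [nrm2] using hΛ0
  · have hpos := nrm2_pos hg
    rw [abs_div, abs_of_pos hpos, div_le_iff₀ hpos, nrm2_eq_sum, Finset.mul_sum]
    refine (Finset.abs_sum_le_sum_abs _ _).trans (Finset.sum_le_sum fun k _ => ?_)
    rw [abs_mul, abs_of_nonneg (sq_nonneg (g k))]
    exact mul_le_mul_of_nonneg_right (hΛ k) (sq_nonneg _)

/-- `n` large is only needed for `0 < th 1 n`, `0 < th C n`. -/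
theorem goodDiag_of_good (K C : ℝ) (hK : 0 < K) (hC : 1 < C) : ∀ᶠ n : ℕ in atTop, ∀ l : Vec n,
    Good n K C (Matrix.diagonal l) → GoodDiag n K C l := by
  have ht : Tendsto (fun n : ℕ => C * npow n (-(1 / 3))) atTop (nhds (C * 0)) :=
    (tendsto_npow_neg (by norm_num : (-(1 / 3) : ℝ) < 0)).const_mul C
  rw [mul_zero] at ht
  filter_upwards [ht.eventually (gt_mem_nhds (zero_lt_one' ℝ)), eventually_gt_atTop 0]
    with n hCn hn l hG
  have hp : 0 < npow n (-(1 / 3)) := npow_pos hn _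
  have hp2 : 0 < npow n (-(2 / 3)) := npow_pos hn _
  have h1n : 0 < 1 - 1 * npow n (-(1 / 3)) := by nlinarith
  have hCn' : 0 < 1 - C * npow n (-(1 / 3)) := by linarith
  have hbelow : ∀ k, l k < gam (K / 2) n := (below_diagonal_iff l _).1 hG.below
  have hgam : gam (K / 2) n ≤ gam K n := by
    unfold gam
    nlinarith
  have hbelow' : ∀ k, l k < gam K n := fun k => (hbelow k).trans_le hgam
  refine ⟨hbelow, ?_, threeTop_diagonal l _ hG.three, ?_, ?_⟩
  · intro k
    have h1 := hG.frob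
    rw [frob2_diagonal] at h1
    have h2 : l k ^ 2 ≤ ∑ k, l k ^ 2 :=
      Finset.single_le_sum (f := fun k => l k ^ 2) (fun i _ => sq_nonneg _) (Finset.mem_univ k)
    exact abs_le_of_sq_le_sq (h2.trans h1) (Nat.cast_nonneg n)
  · refine hG.g3.trans (measure_mono ?_)
    intro ξ hξ
    obtain ⟨ha, hb⟩ := hξ
    rw [below_diag_spike_iff hn l ξ _ _ hbelow (by unfold th; positivity)] at ha
    rw [below_diag_spike_iff hn l ξ _ _ hbelow' (by unfold th; positivity), not_lt] at hb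
    unfold th at ha hb
    constructor
    · rw [one_div, inv_mul_lt_iff₀ h1n, mul_one, one_mul] at ha
      exact ha
    · rw [one_div, le_inv_mul_iff₀ hCn', mul_one] at hb
      exact hb
  · have := hG.det
    rwa [det_sub_diagonal] at this

/-- size of the three top coefficients: `n^{-1/3}/(2K) < c_k < 2 n^{-1/3}/K` -/
theorem cc_top_bounds (hn : 0 < n) (K : ℝ) (hK : 0 < K) (l : Vec n) (k : Fin n)
    (h1 : l k < gam (K / 2) n) (h2 : gam (-K) n < l k) :
    npow n (-(1 / 3)) / (2 * K) < cc l (gam K n) k ∧ cc l (gam K n) k < 2 * npow n (-(1 / 3)) / K := by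
  have hn' : (0 : ℝ) < n := by exact_mod_cast hn
  obtain ⟨p, hp⟩ : ∃ p : ℝ, p = npow n (-(1 / 3)) := ⟨_, rfl⟩
  have hp0 : 0 < p := by rw [hp]; exact npow_pos hn _
  have hp2 : npow n (-(2 / 3)) = p * p := by
    rw [hp, ← npow_add hn]; norm_num
  have hp3 : (n : ℝ) * (p * p * p) = 1 := by
    have e : npow n (1 + (-(1 / 3) + -(1 / 3) + -(1 / 3))) = 1 := by
      have : (1 + (-(1 / 3) + -(1 / 3) + -(1 / 3)) : ℝ) = 0 := by norm_num
      rw [this]
      exact Real.rpow_zero _
    rw [npow_add hn, npow_add hn, npow_add hn, npow_one, ← hp] at e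
    exact e
  unfold gam at h1 h2
  rw [hp2] at h1 h2
  obtain ⟨x, hx⟩ : ∃ x : ℝ, x = gam K n - l k := ⟨_, rfl⟩
  have hx1 : K / 2 * (p * p) < x := by
    rw [hx]; unfold gam; rw [hp2]; linarith
  have hx2 : x < 2 * K * (p * p) := by
    rw [hx]; unfold gam; rw [hp2]; linarith
  have hx0 : 0 < x := lt_trans (by positivity) hx1
  unfold cc
  rw [← hp, ← hx]
  have hnp : 0 < (n : ℝ) * p := by positivity
  constructor
  · rw [div_lt_div_iff₀ (by positivity) (by positivity), one_mul]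
    calc p * (n * x) = (n * p) * x := by ring
      _ < (n * p) * (2 * K * (p * p)) := mul_lt_mul_of_pos_left hx2 hnp
      _ = 2 * K * (n * (p * p * p)) := by ring
      _ = 2 * K := by rw [hp3, mul_one]
  · rw [div_lt_div_iff₀ (by positivity) hK, one_mul]
    calc K = 2 * (K / 2) * (n * (p * p * p)) := by rw [hp3]; ring
      _ = 2 * ((n * p) * (K / 2 * (p * p))) := by ring
      _ < 2 * ((n * p) * x) := by
          have := mul_lt_mul_of_pos_left hx1 hnp
          linarith
      _ = 2 * p * (n * x) := by ring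

theorem cc_pos (hn : 0 < n) (l : Vec n) (γ : ℝ) (hl : ∀ k, l k < γ) (k : Fin n) : 0 < cc l γ k := by
  have hn' : (0 : ℝ) < n := by exact_mod_cast hn
  have := sub_pos.2 (hl k)
  unfold cc
  positivity

end Claimed.Agent.R133
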