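/-
Row 133 / S0266, section 3 (S0)+(S1)+(S2): the THIN SHELL identity.
-/
import Claimed.Agent.R133.ShellDef

set_option autoImplicit false

namespace Claimed.Agent.R133

open MeasureTheory ProbabilityTheory Filter
open scoped BigOperators NNReal ENNReal Matrix

/-- `g_k / √(1 - l_k/γ) = √(nγ) y_k` -/
theorem shell_rescale {n : ℕ} (hn : 0 < n) (l : Vec n) (γ : ℝ) (hγ : 0 < γ) (hl : ∀ k, l k < γ)
    (g : Vec n) :
    (fun k => g k / Real.sqrt (1 - l k / γ)) = Real.sqrt ((n : ℝ) * γ) • yy l γ g := by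
  have hnR : (0 : ℝ) < n := by exact_mod_cast hn
  funext k
  have ha : 0 < γ - l k := by linarith [hl k]
  simp only [yy, cc, Pi.smul_apply, smul_eq_mul]
  rw [← mul_assoc, ← Real.sqrt_mul (by positivity)]
  have e : (n : ℝ) * γ * (1 / ((n : ℝ) * (γ - l k))) = (1 - l k / γ)⁻¹ := by
    field_simp
  rw [e, Real.sqrt_inv, div_eq_inv_mul]

/-- on the shell the exponent is close to `(n/2) ray g` -/
theorem shell_exponent {n : ℕ} (hn : 0 < n) (l : Vec n) (γ h Λ : ℝ) (hγ : 0 < γ)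
    (hΛ : ∀ k, |l k| ≤ Λ) (g : Vec n) (h1 : (n : ℝ) * γ ≤ nrm2 g)
    (h2 : nrm2 g ≤ n * γ * (1 + h)) :
    |∑ k, l k / γ * g k ^ 2 / 2 - (n : ℝ) / 2 * ray (Matrix.diagonal l) g| ≤ n * h * Λ / 2 := by
  have hnR : (0 : ℝ) < n := by exact_mod_cast hn
  have hN : 0 < nrm2 g := lt_of_lt_of_le (by positivity) h1
  have hR := abs_ray_diagonal_le hn l g Λ hΛ
  have e1 : ∑ k, l k * g k ^ 2 = ray (Matrix.diagonal l) g * nrm2 g := by
    rw [ray_diagonal, div_mul_cancel₀ _ hN.ne']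
  have e2 : ∑ k, l k / γ * g k ^ 2 / 2 = ray (Matrix.diagonal l) g * nrm2 g / (2 * γ) := by
    rw [← e1, Finset.sum_div]
    refine Finset.sum_congr rfl fun k _ => ?_
    field_simp
  have e3 : ray (Matrix.diagonal l) g * nrm2 g / (2 * γ) - (n : ℝ) / 2 * ray (Matrix.diagonal l) g
      = ray (Matrix.diagonal l) g * ((nrm2 g - n * γ) / (2 * γ)) := by
    field_simp
  rw [e2, e3, abs_mul]
  have h3 : 0 ≤ (nrm2 g - n * γ) / (2 * γ) := div_nonneg (by linarith) (by positivity)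
  have h4 : (nrm2 g - n * γ) / (2 * γ) ≤ n * h / 2 := by
    rw [div_le_iff₀ (by positivity)]
    nlinarith
  rw [abs_of_nonneg h3]
  calc |ray (Matrix.diagonal l) g| * ((nrm2 g - n * γ) / (2 * γ))
      ≤ Λ * (n * h / 2) := mul_le_mul hR h4 h3 ((abs_nonneg _).trans hR)
    _ = n * h * Λ / 2 := by ring

/-- THIN SHELL.  `y_k = √c_k g_k`, `|y|² = Abar l γ g`.  For a measurable cone `E`:
`P(y ∈ E, |y|² ∈ [1,1+h]) = κ · N_E · e^{± n h Λ / 2}`, where
`N_E = E[1_E(ξ) exp((n/2) ray ξ)]`, `κ = ∏ √((γ-l_k)/γ) · P(|g|² ∈ nγ[1,1+h])`.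
Proof.  `gv_change_var` with `s_k = l_k/γ`, `H(g) = 1_E(g) 1{|g|² ∈ nγ[1,1+h]}`:
`g_k/√(1-s_k) = √(nγ) y_k`, so `H(g/√(1-s)) = 1_E(y) 1{|y|² ∈ [1,1+h]}` (cone).  On the shell
`∑ s_k g_k²/2 = (|g|²/(2γ)) ray g` differs from `(n/2) ray g` by at most `n h Λ/2`.
Then `gv_indep_hom` for the 0-homogeneous `1_E(g) exp((n/2) ray g)`. -/
theorem shell_two_sided {n : ℕ} (hn : 0 < n) (l : Vec n) (γ h Λ : ℝ) (hγ : 0 < γ)
    (hl : ∀ k, l k < γ) (hΛ : ∀ k, |l k| ≤ Λ) (hh : 0 ≤ h) (E : Set (Vec n)) (hE : MeasurableSet E)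
    (hcone : ∀ c : ℝ, 0 < c → ∀ x, c • x ∈ E ↔ x ∈ E) :
    ENNReal.ofReal (∏ k, Real.sqrt ((γ - l k) / γ)) *
        gv n {g | (n : ℝ) * γ ≤ nrm2 g ∧ nrm2 g ≤ n * γ * (1 + h)} *
        (∫⁻ ξ in E, eexp ((n : ℝ) / 2 * ray (Matrix.diagonal l) ξ) ∂(gv n)) *
        eexp (-((n : ℝ) * h * Λ / 2))
      ≤ gv n {g | yy l γ g ∈ E ∧ 1 ≤ Abar l γ g ∧ Abar l γ g ≤ 1 + h} ∧
    gv n {g | yy l γ g ∈ E ∧ 1 ≤ Abar l γ g ∧ Abar l γ g ≤ 1 + h} ≤
      ENNReal.ofReal (∏ k, Real.sqrt ((γ - l k) / γ)) *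
        gv n {g | (n : ℝ) * γ ≤ nrm2 g ∧ nrm2 g ≤ n * γ * (1 + h)} *
        (∫⁻ ξ in E, eexp ((n : ℝ) / 2 * ray (Matrix.diagonal l) ξ) ∂(gv n)) *
        eexp ((n : ℝ) * h * Λ / 2) := by
  have hnR : (0 : ℝ) < n := by exact_mod_cast hn
  have hnγ : 0 < (n : ℝ) * γ := by positivity
  have hs1 : ∀ k, 1 - l k / γ = (γ - l k) / γ := by intro k; field_simp
  have hs : ∀ k, l k / γ < 1 := by intro k; rw [div_lt_one hγ]; exact hl k
  have hpos : ∀ k, 0 < (γ - l k) / γ := fun k => div_pos (by linarith [hl k]) hγ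
  set S' : Set (Vec n) := {g | (n : ℝ) * γ ≤ nrm2 g ∧ nrm2 g ≤ n * γ * (1 + h)} with hS'
  have hS'm : MeasurableSet S' :=
    measurableSet_nrm2_mem (n := n) (A := Set.Icc ((n : ℝ) * γ) (n * γ * (1 + h))) measurableSet_Icc
  set F : Vec n → ℝ≥0∞ := fun ξ => eexp ((n : ℝ) / 2 * ray (Matrix.diagonal l) ξ) with hF_def
  have hF : Measurable F := measurable_IE_integrand _
  set H : Vec n → ℝ≥0∞ := (E ∩ S').indicator 1 with hH_def
  have hH : Measurable H := measurable_one.indicator (hE.inter hS'm)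
  set φ : Vec n → Vec n := fun g k => g k / Real.sqrt (1 - l k / γ) with hφ_def
  have hφ : Measurable φ := measurable_pi_iff.2 fun k => (measurable_pi_apply k).div_const _
  -- the event
  have hset : {g | yy l γ g ∈ E ∧ 1 ≤ Abar l γ g ∧ Abar l γ g ≤ 1 + h} = φ ⁻¹' (E ∩ S') := by
    ext g
    have e : φ g = Real.sqrt ((n : ℝ) * γ) • yy l γ g := shell_rescale hn l γ hγ hl g
    simp only [Set.mem_preimage, Set.mem_inter_iff, hS', Set.mem_ofPred_eq, e]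
    rw [hcone _ (Real.sqrt_pos.2 hnγ), nrm2_smul, Real.sq_sqrt hnγ.le, nrm2_yy l γ hl,
      le_mul_iff_one_le_right hnγ, mul_le_mul_iff_right₀ hnγ]
  have hP : ∫⁻ g, H (φ g) ∂(gv n)
      = gv n {g | yy l γ g ∈ E ∧ 1 ≤ Abar l γ g ∧ Abar l γ g ≤ 1 + h} := by
    rw [hset, ← lintegral_indicator_one (hφ (hE.inter hS'm))]
    rfl
  -- change of variance
  have hcv := gv_change_var (fun k => l k / γ) hs H hH
  have hc : ENNReal.ofReal (∏ k, Real.sqrt ((γ - l k) / γ)) *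
      ENNReal.ofReal (∏ k, (1 / Real.sqrt (1 - l k / γ))) = 1 := by
    rw [← ENNReal.ofReal_mul (Finset.prod_nonneg fun k _ => Real.sqrt_nonneg _),
      ← Finset.prod_mul_distrib]
    have : ∀ k ∈ (Finset.univ : Finset (Fin n)),
        Real.sqrt ((γ - l k) / γ) * (1 / Real.sqrt (1 - l k / γ)) = 1 := by
      intro k _
      rw [hs1 k]
      exact mul_one_div_cancel (Real.sqrt_pos.2 (hpos k)).ne'
    rw [Finset.prod_eq_one this, ENNReal.ofReal_one]
  have hPI : gv n {g | yy l γ g ∈ E ∧ 1 ≤ Abar l γ g ∧ Abar l γ g ≤ 1 + h} =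
      ENNReal.ofReal (∏ k, Real.sqrt ((γ - l k) / γ)) *
        ∫⁻ g, H g * eexp (∑ k, l k / γ * g k ^ 2 / 2) ∂(gv n) := by
    rw [hcv, ← mul_assoc, hc, one_mul]
    exact hP.symm
  -- independence
  have hhom : ∀ c : ℝ, 0 < c → ∀ x, E.indicator F (c • x) = E.indicator F x := by
    intro c hc x
    by_cases hx : x ∈ E
    · rw [Set.indicator_of_mem hx, Set.indicator_of_mem ((hcone c hc x).2 hx)]
      simp only [hF_def]
      rw [ray_smul _ hc.ne']
    · rw [Set.indicator_of_notMem hx, Set.indicator_of_notMem (fun h' => hx ((hcone c hc x).1 h'))]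
  have hind := gv_indep_hom (E.indicator F) (hF.indicator hE) hhom
    (Set.Icc ((n : ℝ) * γ) (n * γ * (1 + h))) measurableSet_Icc
  have hHF : ∫⁻ g, H g * F g ∂(gv n) = (∫⁻ ξ in E, F ξ ∂(gv n)) * gv n S' := by
    rw [← lintegral_indicator hE]
    refine Eq.trans ?_ hind
    change _ = ∫⁻ g in S', E.indicator F g ∂(gv n)
    rw [← lintegral_indicator hS'm]
    refine lintegral_congr fun g => ?_
    by_cases hgS : g ∈ S'
    · by_cases hgE : g ∈ E
      · rw [hH_def, Set.indicator_of_mem (Set.mem_inter hgE hgS), Set.indicator_of_mem hgS,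
          Set.indicator_of_mem hgE, Pi.one_apply, one_mul]
      · rw [hH_def, Set.indicator_of_notMem (fun h' => hgE h'.1), Set.indicator_of_mem hgS,
          Set.indicator_of_notMem hgE, zero_mul]
    · rw [hH_def, Set.indicator_of_notMem (fun h' => hgS h'.2), Set.indicator_of_notMem hgS,
        zero_mul]
  -- comparison of the exponents
  have hHFm : Measurable (fun g => H g * F g) := hH.mul hF
  have hup : ∫⁻ g, H g * eexp (∑ k, l k / γ * g k ^ 2 / 2) ∂(gv n) ≤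
      (∫⁻ g, H g * F g ∂(gv n)) * eexp ((n : ℝ) * h * Λ / 2) := by
    rw [← lintegral_mul_const _ hHFm]
    refine lintegral_mono fun g => ?_
    by_cases hg : g ∈ E ∩ S'
    · have h1 := abs_le.1 (shell_exponent hn l γ h Λ hγ hΛ g hg.2.1 hg.2.2)
      rw [mul_assoc]
      refine mul_le_mul_right ?_ _
      simp only [hF_def]
      rw [← eexp_add, eexp_le_eexp]
      linarith [h1.2]
    · rw [hH_def, Set.indicator_of_notMem hg]; simp
  have hlo : (∫⁻ g, H g * F g ∂(gv n)) * eexp (-((n : ℝ) * h * Λ / 2)) ≤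
      ∫⁻ g, H g * eexp (∑ k, l k / γ * g k ^ 2 / 2) ∂(gv n) := by
    rw [← lintegral_mul_const _ hHFm]
    refine lintegral_mono fun g => ?_
    by_cases hg : g ∈ E ∩ S'
    · have h1 := abs_le.1 (shell_exponent hn l γ h Λ hγ hΛ g hg.2.1 hg.2.2)
      rw [mul_assoc]
      refine mul_le_mul_right ?_ _
      simp only [hF_def]
      rw [← eexp_add, eexp_le_eexp]
      linarith [h1.1]
    · rw [hH_def, Set.indicator_of_notMem hg]; simp
  rw [hHF] at hup hlo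
  rw [hPI]
  constructor
  · calc ENNReal.ofReal (∏ k, Real.sqrt ((γ - l k) / γ)) * gv n S' * (∫⁻ ξ in E, F ξ ∂(gv n)) *
          eexp (-((n : ℝ) * h * Λ / 2))
        = ENNReal.ofReal (∏ k, Real.sqrt ((γ - l k) / γ)) *
          ((∫⁻ ξ in E, F ξ ∂(gv n)) * gv n S' * eexp (-((n : ℝ) * h * Λ / 2))) := by ring
      _ ≤ _ := mul_le_mul_right hlo _
  · calc ENNReal.ofReal (∏ k, Real.sqrt ((γ - l k) / γ)) *
          ∫⁻ g, H g * eexp (∑ k, l k / γ * g k ^ 2 / 2) ∂(gv n)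
        ≤ ENNReal.ofReal (∏ k, Real.sqrt ((γ - l k) / γ)) *
          ((∫⁻ ξ in E, F ξ ∂(gv n)) * gv n S' * eexp ((n : ℝ) * h * Λ / 2)) :=
          mul_le_mul_right hup _
      _ = _ := by ring

end Claimed.Agent.R133
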