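/-
Row 133 / S0266, section 3 (3b), lower bound for the probability of the shell.
-/
import Claimed.Agent.R133.ShellDef

set_option autoImplicit false

namespace Claimed.Agent.R133

open MeasureTheory ProbabilityTheory Filter
open scoped BigOperators NNReal ENNReal Matrix

/-- `1 - ∑_{k ≠ k₁} c_k g_k²` -/
noncomputable def gapT {n : ℕ} (c : Vec n) (k₁ : Fin n) (g : Vec n) : ℝ :=
  1 - ∑ k, if k = k₁ then 0 else c k * g k ^ 2

/-- the quadratic form after resampling the coordinate `k₁` -/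
theorem sum_update_eq_gapT {n : ℕ} (c x : Vec n) (k₁ : Fin n) (t : ℝ) :
    ∑ k, c k * (Function.update x k₁ t k) ^ 2 = (1 - gapT c k₁ x) + c k₁ * t ^ 2 := by
  have h1 : ∀ k, c k * (Function.update x k₁ t k) ^ 2 =
      (if k = k₁ then 0 else c k * x k ^ 2) + (if k = k₁ then c k₁ * t ^ 2 else 0) := by
    intro k
    by_cases hk : k = k₁
    · subst hk; simp
    · simp [hk]
  simp_rw [h1]
  rw [Finset.sum_add_distrib]
  unfold gapT
  simp

theorem sum_eq_gapT {n : ℕ} (c x : Vec n) (k₁ : Fin n) :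
    ∑ k, c k * x k ^ 2 = (1 - gapT c k₁ x) + c k₁ * x k₁ ^ 2 := by
  have := sum_update_eq_gapT c x k₁ (x k₁)
  rwa [Function.update_eq_self] at this

theorem measurable_gapT {n : ℕ} (c : Vec n) (k₁ : Fin n) : Measurable (gapT c k₁) := by
  unfold gapT
  refine measurable_const.sub (Finset.measurable_sum _ fun k _ => ?_)
  by_cases hk : k = k₁
  · simp [hk]
  · simp only [hk, if_false]
    exact ((measurable_pi_apply k).pow_const 2).const_mul _

theorem measurable_sum_mul_sq {n : ℕ} (c : Vec n) :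
    Measurable (fun g : Vec n => ∑ k, c k * g k ^ 2) :=
  Finset.measurable_sum _ fun k _ => ((measurable_pi_apply k).pow_const 2).const_mul _

/-- `x ↦ e^{-x/2}/√(2πx)` is decreasing on `(0,∞)` -/
theorem exp_div_sqrt_anti {x y : ℝ} (hx : 0 < x) (hxy : x ≤ y) :
    Real.exp (-y / 2) / Real.sqrt (2 * Real.pi * y) ≤
      Real.exp (-x / 2) / Real.sqrt (2 * Real.pi * x) := by
  have hpi := Real.pi_pos
  have h1 : Real.exp (-y / 2) ≤ Real.exp (-x / 2) := Real.exp_le_exp.mpr (by linarith)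
  have h2 : Real.sqrt (2 * Real.pi * x) ≤ Real.sqrt (2 * Real.pi * y) :=
    Real.sqrt_le_sqrt (by nlinarith)
  have h3 : 0 < Real.sqrt (2 * Real.pi * x) := Real.sqrt_pos.mpr (by positivity)
  exact div_le_div₀ (Real.exp_pos _).le h1 h3 h2

/-- Resample the coordinate `k₁` (`gv_resample`): the shell is `{T ≤ t² ≤ T + h/c₁}`, `T = gapT/c₁`;
for `0 ≤ T ≤ b`, `h ≤ c₁`: `gauss_sq_interval_lower` and monotonicity of `x ↦ e^{-x/2}/√x`. -/
theorem shell_lower {n : ℕ} (c : Vec n) (hc : ∀ k, 0 < c k) (k₁ : Fin n) (b h p : ℝ) (hb : 0 ≤ b)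
    (hh : 0 < h) (hh1 : h ≤ c k₁) (hp0 : 0 ≤ p)
    (hp : ENNReal.ofReal p ≤ gv n {g | 0 ≤ gapT c k₁ g ∧ gapT c k₁ g ≤ b * c k₁}) :
    ENNReal.ofReal (p * (h / c k₁) * (Real.exp (-(b + 1) / 2) / Real.sqrt (2 * Real.pi * (b + 1)))) ≤
      gv n {g | 1 ≤ ∑ k, c k * g k ^ 2 ∧ ∑ k, c k * g k ^ 2 ≤ 1 + h} := by
  have hc1 := hc k₁
  set A : Set (Vec n) := {g | 0 ≤ gapT c k₁ g ∧ gapT c k₁ g ≤ b * c k₁} with hA
  set Sh : Set (Vec n) := {g | 1 ≤ ∑ k, c k * g k ^ 2 ∧ ∑ k, c k * g k ^ 2 ≤ 1 + h} with hSh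
  set q : ℝ := (h / c k₁) * (Real.exp (-(b + 1) / 2) / Real.sqrt (2 * Real.pi * (b + 1))) with hq
  have hq0 : 0 ≤ q := by positivity
  have hAm : MeasurableSet A :=
    (measurableSet_le measurable_const (measurable_gapT c k₁)).inter
      (measurableSet_le (measurable_gapT c k₁) measurable_const)
  have hShm : MeasurableSet Sh :=
    (measurableSet_le measurable_const (measurable_sum_mul_sq c)).inter
      (measurableSet_le (measurable_sum_mul_sq c) measurable_const)
  have hF : Measurable (Sh.indicator (fun _ => (1 : ℝ≥0∞))) := measurable_const.indicator hShm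
  have hres := gv_resample k₁ _ hF
  rw [lintegral_indicator_const hShm, one_mul] at hres
  rw [← hres]
  -- the inner integral
  have hinner : ∀ x ∈ A, ENNReal.ofReal q ≤
      ∫⁻ t, Sh.indicator (fun _ => (1 : ℝ≥0∞)) (Function.update x k₁ t) ∂(gaussianReal 0 1) := by
    intro x hx
    obtain ⟨hx0, hxb⟩ := hx
    set T : ℝ := gapT c k₁ x / c k₁ with hT
    set δ : ℝ := h / c k₁ with hδ
    have hT0 : 0 ≤ T := div_nonneg hx0 hc1.le
    have hTb : T ≤ b := by rw [hT, div_le_iff₀ hc1]; exact hxb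
    have hδ0 : 0 < δ := div_pos hh hc1
    have hδ1 : δ ≤ 1 := by rw [hδ, div_le_one hc1]; exact hh1
    have hset : ∀ t : ℝ, Sh.indicator (fun _ => (1 : ℝ≥0∞)) (Function.update x k₁ t) =
        {t : ℝ | T ≤ t ^ 2 ∧ t ^ 2 ≤ T + δ}.indicator (fun _ => (1 : ℝ≥0∞)) t := by
      intro t
      have hiff : Function.update x k₁ t ∈ Sh ↔ t ∈ {t : ℝ | T ≤ t ^ 2 ∧ t ^ 2 ≤ T + δ} := by
        simp only [hSh, Set.mem_ofPred_eq, sum_update_eq_gapT]
        have e1 : T + δ = (gapT c k₁ x + h) / c k₁ := by rw [hT, hδ]; ring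
        rw [e1, hT, div_le_iff₀ hc1, le_div_iff₀ hc1]
        constructor
        · rintro ⟨h1, h2⟩; constructor <;> linarith
        · rintro ⟨h1, h2⟩; constructor <;> linarith
      by_cases ht : Function.update x k₁ t ∈ Sh
      · rw [Set.indicator_of_mem ht, Set.indicator_of_mem (hiff.mp ht)]
      · rw [Set.indicator_of_notMem ht, Set.indicator_of_notMem (fun h' => ht (hiff.mpr h'))]
    simp_rw [hset]
    have hm : MeasurableSet {t : ℝ | T ≤ t ^ 2 ∧ t ^ 2 ≤ T + δ} :=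
      (measurableSet_le measurable_const (measurable_id.pow_const 2)).inter
        (measurableSet_le (measurable_id.pow_const 2) measurable_const)
    rw [lintegral_indicator_const hm, one_mul]
    refine le_trans (ENNReal.ofReal_le_ofReal ?_) (gauss_sq_interval_lower T δ hT0 hδ0)
    have hmono := exp_div_sqrt_anti (x := T + δ) (y := b + 1) (by linarith) (by linarith)
    rw [hq, mul_div_assoc]
    exact mul_le_mul_of_nonneg_left hmono hδ0.le
  calc ENNReal.ofReal (p * (h / c k₁) *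
        (Real.exp (-(b + 1) / 2) / Real.sqrt (2 * Real.pi * (b + 1))))
      = ENNReal.ofReal q * ENNReal.ofReal p := by
        rw [← ENNReal.ofReal_mul hq0, hq]; congr 1; ring
    _ ≤ ENNReal.ofReal q * gv n A := by gcongr
    _ = ∫⁻ x, A.indicator (fun _ => ENNReal.ofReal q) x ∂(gv n) := by
        rw [lintegral_indicator_const hAm]
    _ ≤ ∫⁻ x, ∫⁻ t, Sh.indicator (fun _ => (1 : ℝ≥0∞)) (Function.update x k₁ t)
          ∂(gaussianReal 0 1) ∂(gv n) := by
        refine lintegral_mono fun x => ?_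
        by_cases hx : x ∈ A
        · rw [Set.indicator_of_mem hx]; exact hinner x hx
        · rw [Set.indicator_of_notMem hx]; exact bot_le

/-- Markov: `P(g_k² > 9) ≤ 1/9` -/
theorem gv_coord_sq_gt_nine {n : ℕ} (k : Fin n) :
    gv n {g | 9 < g k ^ 2} ≤ ENNReal.ofReal (1 / 9) := by
  have hmp : MeasurePreserving (Function.eval k) (gv n) (gaussianReal 0 1) :=
    measurePreserving_eval (fun _ : Fin n => gaussianReal 0 1) k
  have hms : MeasurableSet {t : ℝ | 9 < t ^ 2} :=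
    measurableSet_lt measurable_const (measurable_id.pow_const 2)
  have h1 : gv n {g | 9 < g k ^ 2} = gaussianReal 0 1 {t : ℝ | 9 < t ^ 2} := by
    rw [← hmp.measure_preimage hms.nullMeasurableSet]
    rfl
  rw [h1]
  have hm : Measurable (fun t : ℝ => ENNReal.ofReal (t ^ 2)) :=
    ENNReal.measurable_ofReal.comp (measurable_id.pow_const 2)
  have hsub : {t : ℝ | 9 < t ^ 2} ⊆ {t : ℝ | ENNReal.ofReal 9 ≤ ENNReal.ofReal (t ^ 2)} :=
    fun t ht => ENNReal.ofReal_le_ofReal (le_of_lt ht)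
  calc gaussianReal 0 1 {t : ℝ | 9 < t ^ 2}
      ≤ gaussianReal 0 1 {t : ℝ | ENNReal.ofReal 9 ≤ ENNReal.ofReal (t ^ 2)} := measure_mono hsub
    _ ≤ (∫⁻ t, ENNReal.ofReal (t ^ 2) ∂(gaussianReal 0 1)) / ENNReal.ofReal 9 :=
        meas_ge_le_lintegral_div hm.aemeasurable
          (ENNReal.ofReal_pos.mpr (by norm_num)).ne' ENNReal.ofReal_ne_top
    _ = ENNReal.ofReal (1 / 9) := by
        rw [gauss_second_moment, ENNReal.ofReal_div_of_pos (by norm_num), ENNReal.ofReal_one]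

/-- On the event of (G3) intersected with `{g_{k₁}² ≤ 9}` (probability `≥ 23/24 - 1/9 ≥ 5/6`):
`S = Abar(γ) ∈ [1 - C n^{-1/3}, 1 - n^{-1/3})` (`Abar(γ) ≤ Abar(γh)`), `gapT = 1 - S + c₁ g₁²`, and
`n^{-1/3} < 2 K c₁`. -/
theorem gapT_window {n : ℕ} (hn : 0 < n) (K C : ℝ) (hK : 0 < K) (hC : 1 < C) (l : Vec n)
    (h : GoodDiag n K C l) (k₁ : Fin n) (hk : gam (-K) n < l k₁) :
    ENNReal.ofReal (5 / 6) ≤ gv n {g | 0 ≤ gapT (cc l (gam K n)) k₁ g ∧
      gapT (cc l (gam K n)) k₁ g ≤ (2 * K * C + 9) * cc l (gam K n) k₁} := by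
  set c : Vec n := cc l (gam K n) with hc
  set E3 : Set (Vec n) := {g | Abar l (gam (K / 2) n) g < 1 - npow n (-(1 / 3)) ∧
    1 - C * npow n (-(1 / 3)) ≤ Abar l (gam K n) g} with hE3
  set W : Set (Vec n) := {g | 0 ≤ gapT c k₁ g ∧ gapT c k₁ g ≤ (2 * K * C + 9) * c k₁} with hW
  have hnR : (0 : ℝ) < n := by exact_mod_cast hn
  have hnp : 0 < npow n (-(1 / 3)) := npow_pos hn _
  have hnp2 : 0 < npow n (-(2 / 3)) := npow_pos hn _
  have hgam : gam (K / 2) n ≤ gam K n := by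
    unfold gam
    nlinarith
  have hbel : ∀ k, l k < gam K n := fun k => (h.below k).trans_le hgam
  have hcpos : ∀ k, 0 < c k := fun k => cc_pos hn l _ hbel k
  have htop := cc_top_bounds hn K hK l k₁ (h.below k₁) hk
  have hsub : E3 ⊆ W ∪ {g | 9 < g k₁ ^ 2} := by
    intro g hg
    by_cases h9 : 9 < g k₁ ^ 2
    · exact Or.inr h9
    · left
      obtain ⟨hg1, hg2⟩ := hg
      have hmono : Abar l (gam K n) g ≤ Abar l (gam (K / 2) n) g := by
        unfold Abar
        refine Finset.sum_le_sum fun k _ => ?_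
        have hb := h.below k
        have h1 : 0 < (n : ℝ) * (gam (K / 2) n - l k) := mul_pos hnR (by linarith)
        have h2 : (n : ℝ) * (gam (K / 2) n - l k) ≤ (n : ℝ) * (gam K n - l k) :=
          mul_le_mul_of_nonneg_left (by linarith) hnR.le
        exact div_le_div_of_nonneg_left (sq_nonneg _) h1 h2
      have hS : Abar l (gam K n) g = (1 - gapT c k₁ g) + c k₁ * g k₁ ^ 2 := by
        rw [Abar_eq_sum_cc]
        exact sum_eq_gapT c g k₁
      have hc1 := hcpos k₁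
      have h9' : g k₁ ^ 2 ≤ 9 := not_lt.mp h9
      have hsq : 0 ≤ g k₁ ^ 2 := sq_nonneg _
      have ht1 : npow n (-(1 / 3)) < 2 * K * c k₁ := by
        have := htop.1
        rw [div_lt_iff₀ (by positivity)] at this
        linarith
      constructor
      · nlinarith
      · have e1 : c k₁ * g k₁ ^ 2 ≤ c k₁ * 9 := mul_le_mul_of_nonneg_left h9' hc1.le
        have e2 : C * npow n (-(1 / 3)) ≤ C * (2 * K * c k₁) :=
          mul_le_mul_of_nonneg_left ht1.le (by linarith)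
        nlinarith
  have h1 : ENNReal.ofReal (23 / 24) ≤ gv n W + ENNReal.ofReal (1 / 9) :=
    calc ENNReal.ofReal (23 / 24) ≤ gv n E3 := h.g3
      _ ≤ gv n (W ∪ {g | 9 < g k₁ ^ 2}) := measure_mono hsub
      _ ≤ gv n W + gv n {g | 9 < g k₁ ^ 2} := measure_union_le _ _
      _ ≤ gv n W + ENNReal.ofReal (1 / 9) := by gcongr; exact gv_coord_sq_gt_nine k₁
  have h2 : ENNReal.ofReal (5 / 6) + ENNReal.ofReal (1 / 9) ≤ ENNReal.ofReal (23 / 24) := by
    rw [← ENNReal.ofReal_add (by norm_num) (by norm_num)]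
    exact ENNReal.ofReal_le_ofReal (by norm_num)
  exact (ENNReal.add_le_add_iff_right ENNReal.ofReal_ne_top).mp (h2.trans h1)

end Claimed.Agent.R133
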