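/-
Row 133 / S0266, section 3 (3a): trace bound and inclusion of the cone `Ev`.
-/
import Claimed.Agent.R133.ShellDef

set_option autoImplicit false

namespace Claimed.Agent.R133

open MeasureTheory ProbabilityTheory Filter
open scoped BigOperators NNReal ENNReal Matrix

/-- `γ - γh = (K/2) n^{-2/3}` -/
theorem gam_sub_gam_half (K : ℝ) (n : ℕ) :
    gam K n - gam (K / 2) n = K / 2 * npow n (-(2 / 3)) := by
  unfold gam; ring

/-- pointwise comparison used in the trace bound -/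
theorem Abar_diff_lower {n : ℕ} (hn : 0 < n) (l : Vec n) (z w : ℝ) (hzw : z ≤ w)
    (hl : ∀ k, l k < z) (g : Vec n) :
    (w - z) * ∑ k, (1 / (w - l k)) ^ 2 / (n : ℝ) * g k ^ 2 ≤ Abar l z g - Abar l w g := by
  unfold Abar
  rw [Finset.mul_sum, ← Finset.sum_sub_distrib]
  refine Finset.sum_le_sum fun k _ => ?_
  have hn' : (0 : ℝ) < n := by exact_mod_cast hn
  have h1 : 0 < z - l k := sub_pos.2 (hl k)
  have h2 : 0 < w - l k := by linarith
  have e : g k ^ 2 / ((n : ℝ) * (z - l k)) - g k ^ 2 / ((n : ℝ) * (w - l k))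
      = (w - z) * (g k ^ 2 / (n : ℝ)) * (1 / ((z - l k) * (w - l k))) := by
    field_simp
    ring
  have e2 : (w - z) * ((1 / (w - l k)) ^ 2 / (n : ℝ) * g k ^ 2)
      = (w - z) * (g k ^ 2 / (n : ℝ)) * (1 / ((w - l k) * (w - l k))) := by
    field_simp
  rw [e, e2]
  have h3 : 1 / ((w - l k) * (w - l k)) ≤ 1 / ((z - l k) * (w - l k)) := by
    apply one_div_le_one_div_of_le (by positivity)
    apply mul_le_mul_of_nonneg_right _ h2.le
    linarith
  apply mul_le_mul_of_nonneg_left h3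
  have : 0 ≤ w - z := by linarith
  positivity

/-- (3a)  On the event of (G3): `∑ g_k² a_k²/n ≤ (Abar(γh) - Abar(γ))/(γ - γh) ≤ (2C/K) n^{1/3}`,
`a_k = 1/(γ - l_k)`.  `gv_quad_lower` with `m_k = a_k²/n`: since `23/24 + 1/12 > 1` the two events meet,
hence `∑ a_k² ≤ (4C/K) n^{4/3}`. -/
theorem trace_bound {n : ℕ} (hn : 0 < n) (K C : ℝ) (hK : 0 < K) (hC : 1 < C) (l : Vec n)
    (h : GoodDiag n K C l) :
    ∑ k, (1 / (gam K n - l k)) ^ 2 ≤ 4 * C / K * npow n (4 / 3) := by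
  have hn' : (0 : ℝ) < n := by exact_mod_cast hn
  have := isProbabilityMeasure_gv n
  set m : Vec n := fun k => (1 / (gam K n - l k)) ^ 2 / (n : ℝ) with hm
  have hm0 : ∀ k, 0 ≤ m k := fun k => by rw [hm]; positivity
  have hB := gv_quad_lower m hm0
  have hBm : MeasurableSet {g : Vec n | (∑ k, m k) / 2 ≤ ∑ k, m k * g k ^ 2} :=
    measurableSet_le measurable_const (by fun_prop)
  have hne := nonempty_inter_of_measure_lt_add (gv n) hBm (Set.subset_univ _) (Set.subset_univ _)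
    (s := {g | Abar l (gam (K / 2) n) g < 1 - npow n (-(1 / 3)) ∧
      1 - C * npow n (-(1 / 3)) ≤ Abar l (gam K n) g}) (by
      rw [measure_univ]
      refine lt_of_lt_of_le ?_ (add_le_add h.g3 hB)
      rw [← ENNReal.ofReal_add (by norm_num) (by norm_num), ← ENNReal.ofReal_one]
      exact (ENNReal.ofReal_lt_ofReal_iff (by norm_num)).2 (by norm_num))
  obtain ⟨g, ⟨hg1, hg2⟩, hg3⟩ := hne
  have hg3' : (∑ k, m k) / 2 ≤ ∑ k, m k * g k ^ 2 := hg3
  have hp23 := npow_pos hn (-(2 / 3))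
  have hp13 := npow_pos hn (-(1 / 3))
  have hle : gam (K / 2) n ≤ gam K n := by
    have := gam_sub_gam_half K n
    have h0 : 0 ≤ K / 2 * npow n (-(2 / 3)) := by positivity
    linarith
  have hd := Abar_diff_lower hn l (gam (K / 2) n) (gam K n) hle h.below g
  rw [gam_sub_gam_half] at hd
  -- `(K/2) n^{-2/3} X ≤ C n^{-1/3}`
  have h1 : K / 2 * npow n (-(2 / 3)) * ∑ k, m k * g k ^ 2 ≤ C * npow n (-(1 / 3)) := by
    have : K / 2 * npow n (-(2 / 3)) * ∑ k, m k * g k ^ 2 ≤ (C - 1) * npow n (-(1 / 3)) := by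
      refine hd.trans ?_
      linarith
    nlinarith
  have h2 : K / 2 * npow n (-(2 / 3)) * ((∑ k, m k) / 2) ≤ C * npow n (-(1 / 3)) :=
    (mul_le_mul_of_nonneg_left hg3' (by positivity)).trans h1
  have hsum : ∑ k, m k = (∑ k, (1 / (gam K n - l k)) ^ 2) / (n : ℝ) := by
    rw [hm, Finset.sum_div]
  rw [hsum] at h2
  set S := ∑ k, (1 / (gam K n - l k)) ^ 2 with hS
  have e43 : npow n (4 / 3) = npow n (-(1 / 3)) * npow n (2 / 3) * n := by
    rw [← npow_add hn, ← npow_one n, ← npow_add hn]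
    congr 1
    norm_num
  have e0 : npow n (-(2 / 3)) * npow n (2 / 3) = 1 := by
    rw [← npow_add hn]
    simp [npow]
  have hq := npow_pos hn (2 / 3)
  -- multiply `h2` by `4 n n^{2/3} / K`
  have h3 : S = (K / 2 * npow n (-(2 / 3)) * (S / (n : ℝ) / 2)) * (4 * n * npow n (2 / 3) / K) := by
    have : (K / 2 * npow n (-(2 / 3)) * (S / (n : ℝ) / 2)) * (4 * n * npow n (2 / 3) / K)
        = S * (npow n (-(2 / 3)) * npow n (2 / 3)) := by
      field_simp
      ring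
    rw [this, e0, mul_one]
  rw [h3, e43]
  calc (K / 2 * npow n (-(2 / 3)) * (S / (n : ℝ) / 2)) * (4 * n * npow n (2 / 3) / K)
      ≤ (C * npow n (-(1 / 3))) * (4 * n * npow n (2 / 3) / K) :=
        mul_le_mul_of_nonneg_right h2 (by positivity)
    _ = 4 * C / K * (npow n (-(1 / 3)) * npow n (2 / 3) * n) := by
        field_simp

/-- the cone `Ev` is contained in `{v : v_{k₁}² ≤ 16 K C ε n^{-1/3} |v|²}` -/
theorem Ev_subset {n : ℕ} (hn : 0 < n) (K C ε : ℝ) (hK : 0 < K) (hC : 1 < C) (hε : 0 < ε) (l : Vec n)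
    (h : GoodDiag n K C l) (k₁ : Fin n) (hk : gam (-K) n < l k₁) :
    Ev (gam K n) ε (Matrix.diagonal l) ⊆
      {v | v k₁ ^ 2 ≤ 16 * K * C * ε * npow n (-(1 / 3)) * nrm2 v} := by
  intro v hv
  have hn' : (0 : ℝ) < n := by exact_mod_cast hn
  have hp23 := npow_pos hn (-(2 / 3))
  have hp13 := npow_pos hn (-(1 / 3))
  have hq := npow_pos hn (2 / 3)
  have hle : gam (K / 2) n ≤ gam K n := by
    have := gam_sub_gam_half K n
    have h0 : 0 ≤ K / 2 * npow n (-(2 / 3)) := by positivity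
    linarith
  have hz : ∀ k, l k < gam K n := fun k => (h.below k).trans_le hle
  have hv' : nrm2 (Rs (gam K n) (Matrix.diagonal l) *ᵥ v) ≤
      ε * npow n (-(1 / 3)) * frob2 (Rs (gam K n) (Matrix.diagonal l)) * nrm2 v := hv
  rw [Rs_diagonal l _ hz, frob2_diagonal] at hv'
  have htr := trace_bound hn K C hK hC l h
  have hnv : 0 ≤ nrm2 v := by
    unfold nrm2 dotProduct
    exact Finset.sum_nonneg fun i _ => mul_self_nonneg _
  have e1 : nrm2 (Matrix.diagonal (fun k => 1 / (gam K n - l k)) *ᵥ v)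
      = ∑ k, (1 / (gam K n - l k)) ^ 2 * v k ^ 2 := by
    unfold nrm2 dotProduct
    refine Finset.sum_congr rfl fun k _ => ?_
    rw [Matrix.mulVec_diagonal]
    ring
  rw [e1] at hv'
  have h1 : (1 / (gam K n - l k₁)) ^ 2 * v k₁ ^ 2 ≤ ∑ k, (1 / (gam K n - l k)) ^ 2 * v k ^ 2 :=
    Finset.single_le_sum (f := fun k => (1 / (gam K n - l k)) ^ 2 * v k ^ 2)
      (fun k _ => by positivity) (Finset.mem_univ k₁)
  have h2 : (1 / (gam K n - l k₁)) ^ 2 * v k₁ ^ 2 ≤
      ε * npow n (-(1 / 3)) * (4 * C / K * npow n (4 / 3)) * nrm2 v := by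
    refine h1.trans (hv'.trans ?_)
    apply mul_le_mul_of_nonneg_right _ hnv
    apply mul_le_mul_of_nonneg_left htr (by positivity)
  -- `0 < γ - l_{k₁} < 2 K n^{-2/3}`
  have hd0 : 0 < gam K n - l k₁ := sub_pos.2 (hz k₁)
  have hd1 : gam K n - l k₁ < 2 * K * npow n (-(2 / 3)) := by
    have : gam K n - gam (-K) n = 2 * K * npow n (-(2 / 3)) := by unfold gam; ring
    linarith
  have e43 : npow n (4 / 3) * (npow n (-(2 / 3))) ^ 2 = 1 := by
    rw [sq, ← npow_add hn, ← npow_add hn]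
    norm_num [npow]
  have h3 : v k₁ ^ 2 = (gam K n - l k₁) ^ 2 * ((1 / (gam K n - l k₁)) ^ 2 * v k₁ ^ 2) := by
    field_simp
  have h4 : (gam K n - l k₁) ^ 2 ≤ (2 * K * npow n (-(2 / 3))) ^ 2 :=
    pow_le_pow_left₀ hd0.le hd1.le 2
  show v k₁ ^ 2 ≤ 16 * K * C * ε * npow n (-(1 / 3)) * nrm2 v
  rw [h3]
  calc (gam K n - l k₁) ^ 2 * ((1 / (gam K n - l k₁)) ^ 2 * v k₁ ^ 2)
      ≤ (2 * K * npow n (-(2 / 3))) ^ 2 *
          (ε * npow n (-(1 / 3)) * (4 * C / K * npow n (4 / 3)) * nrm2 v) :=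
        mul_le_mul h4 h2 (by positivity) (by positivity)
    _ = 16 * K * C * ε * npow n (-(1 / 3)) * nrm2 v * (npow n (4 / 3) * (npow n (-(2 / 3))) ^ 2) := by
        field_simp
        ring
    _ = 16 * K * C * ε * npow n (-(1 / 3)) * nrm2 v := by rw [e43, mul_one]

end Claimed.Agent.R133
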