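/-
Row 133 / S0266, section 3 (3b), upper bound: anticoncentration on the shell.
-/
import Claimed.Agent.R133.Gv

set_option autoImplicit false

namespace Claimed.Agent.R133

open MeasureTheory ProbabilityTheory Filter
open scoped BigOperators NNReal ENNReal Matrix

/-- the weighted sum of squares after resampling two coordinates. -/
theorem shellUp_sum {n : ℕ} (c x : Vec n) (k₂ k₃ : Fin n) (h23 : k₂ ≠ k₃) (s t : ℝ) :
    ∑ k, c k * (Function.update (Function.update x k₂ s) k₃ t) k ^ 2 =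
      c k₂ * s ^ 2 + c k₃ * t ^ 2 + ∑ k ∈ (Finset.univ.erase k₃).erase k₂, c k * x k ^ 2 := by
  rw [← Finset.add_sum_erase Finset.univ _ (Finset.mem_univ k₃),
    ← Finset.add_sum_erase (Finset.univ.erase k₃) _
      (Finset.mem_erase.2 ⟨h23, Finset.mem_univ _⟩)]
  have h1 : ∑ k ∈ (Finset.univ.erase k₃).erase k₂,
      c k * (Function.update (Function.update x k₂ s) k₃ t) k ^ 2 =
      ∑ k ∈ (Finset.univ.erase k₃).erase k₂, c k * x k ^ 2 := by
    refine Finset.sum_congr rfl fun k hk => ?_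
    have hk2 : k ≠ k₂ := (Finset.mem_erase.1 hk).1
    have hk3 : k ≠ k₃ := (Finset.mem_erase.1 (Finset.mem_erase.1 hk).2).1
    rw [Function.update_of_ne hk3, Function.update_of_ne hk2]
  rw [h1, Function.update_self, Function.update_of_ne h23, Function.update_self]
  ring

/-- small ball estimate for one coordinate of `gv`. -/
theorem shellUp_coord {n : ℕ} (k₁ : Fin n) (c₁ a : ℝ) (hc : 0 < c₁) :
    gv n {g | c₁ * g k₁ ^ 2 ≤ a} ≤ ENNReal.ofReal (Real.sqrt (a / c₁)) := by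
  have hmp : MeasurePreserving (Function.eval k₁) (gv n) (gaussianReal 0 1) :=
    measurePreserving_eval (fun _ : Fin n => gaussianReal 0 1) k₁
  have hm : MeasurableSet {t : ℝ | c₁ * t ^ 2 ≤ a} :=
    measurableSet_le (by fun_prop) measurable_const
  have e : {g : Vec n | c₁ * g k₁ ^ 2 ≤ a} = Function.eval k₁ ⁻¹' {t : ℝ | c₁ * t ^ 2 ≤ a} := rfl
  rw [e, hmp.measure_preimage hm.nullMeasurableSet]
  refine (measure_mono ?_).trans (gauss_small_ball _ (Real.sqrt_nonneg _))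
  intro t ht
  have ht' : c₁ * t ^ 2 ≤ a := ht
  refine Real.abs_le_sqrt ?_
  rw [le_div_iff₀ hc]
  linarith

/-- `P(c₁ g₁² ≤ a, ∑ c_k g_k² ∈ [1,1+h]) ≤ √(a/c₁) · h/(2√(c₂c₃))`.
Resample the coordinates `k₂,k₃` (`gv_resample₂`): for fixed other coordinates the inner probability is
`P(α ≤ c₂ s² + c₃ t² ≤ α + h) ≤ h/(2√(c₂c₃))` (`gauss2_annulus`), the event `c₁ g₁² ≤ a` does not depend on
them; then `P(c₁ g₁² ≤ a) = P(|g| ≤ √(a/c₁)) ≤ √(a/c₁)` (`gauss_small_ball`, marginal of `gv`). -/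
theorem shell_upper {n : ℕ} (c : Vec n) (hc : ∀ k, 0 < c k) (k₁ k₂ k₃ : Fin n) (h12 : k₁ ≠ k₂)
    (h13 : k₁ ≠ k₃) (h23 : k₂ ≠ k₃) (a h : ℝ) (ha : 0 ≤ a) (hh : 0 ≤ h) :
    gv n {g | c k₁ * g k₁ ^ 2 ≤ a ∧ 1 ≤ ∑ k, c k * g k ^ 2 ∧ ∑ k, c k * g k ^ 2 ≤ 1 + h} ≤
      ENNReal.ofReal (Real.sqrt (a / c k₁)) * ENNReal.ofReal (h / (2 * Real.sqrt (c k₂ * c k₃))) := by
  classical
  have hAm : MeasurableSet {g : Vec n | c k₁ * g k₁ ^ 2 ≤ a} :=
    measurableSet_le (by fun_prop) measurable_const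
  have hSm : MeasurableSet {g : Vec n | c k₁ * g k₁ ^ 2 ≤ a ∧ 1 ≤ ∑ k, c k * g k ^ 2 ∧
      ∑ k, c k * g k ^ 2 ≤ 1 + h} := by
    have m2 : MeasurableSet {g : Vec n | 1 ≤ ∑ k, c k * g k ^ 2} :=
      measurableSet_le measurable_const (by fun_prop)
    have m3 : MeasurableSet {g : Vec n | ∑ k, c k * g k ^ 2 ≤ 1 + h} :=
      measurableSet_le (by fun_prop) measurable_const
    exact hAm.inter (m2.inter m3)
  obtain ⟨S, hS⟩ : ∃ S : Set (Vec n), S = {g : Vec n | c k₁ * g k₁ ^ 2 ≤ a ∧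
      1 ≤ ∑ k, c k * g k ^ 2 ∧ ∑ k, c k * g k ^ 2 ≤ 1 + h} := ⟨_, rfl⟩
  obtain ⟨A, hA⟩ : ∃ A : Set (Vec n), A = {g : Vec n | c k₁ * g k₁ ^ 2 ≤ a} := ⟨_, rfl⟩
  obtain ⟨κ, hκ⟩ : ∃ κ : ℝ≥0∞, κ = ENNReal.ofReal (h / (2 * Real.sqrt (c k₂ * c k₃))) := ⟨_, rfl⟩
  rw [← hS, ← hκ]
  rw [← hS] at hSm
  rw [← hA] at hAm
  have hF : Measurable (S.indicator (fun _ => (1 : ℝ≥0∞))) := measurable_const.indicator hSm
  have h1 : gv n S = ∫⁻ x, S.indicator (fun _ => (1 : ℝ≥0∞)) x ∂(gv n) := by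
    rw [lintegral_indicator_const hSm, one_mul]
  have h2 : ∀ x : Vec n, ∫⁻ p, S.indicator (fun _ => (1 : ℝ≥0∞))
      (Function.update (Function.update x k₂ p.1) k₃ p.2)
      ∂((gaussianReal 0 1).prod (gaussianReal 0 1)) ≤ A.indicator (fun _ => κ) x := by
    intro x
    have hk1 : ∀ p : ℝ × ℝ, (Function.update (Function.update x k₂ p.1) k₃ p.2) k₁ = x k₁ := by
      intro p
      rw [Function.update_of_ne h13, Function.update_of_ne h12]
    by_cases hx : x ∈ A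
    · rw [Set.indicator_of_mem hx]
      obtain ⟨R, hR⟩ : ∃ R : ℝ, R = ∑ k ∈ (Finset.univ.erase k₃).erase k₂, c k * x k ^ 2 :=
        ⟨_, rfl⟩
      have hTm : MeasurableSet {p : ℝ × ℝ | 1 - R ≤ c k₂ * p.1 ^ 2 + c k₃ * p.2 ^ 2 ∧
          c k₂ * p.1 ^ 2 + c k₃ * p.2 ^ 2 ≤ 1 - R + h} := by
        have m1 : MeasurableSet {p : ℝ × ℝ | 1 - R ≤ c k₂ * p.1 ^ 2 + c k₃ * p.2 ^ 2} :=
          measurableSet_le measurable_const (by fun_prop)
        have m2 : MeasurableSet {p : ℝ × ℝ | c k₂ * p.1 ^ 2 + c k₃ * p.2 ^ 2 ≤ 1 - R + h} :=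
          measurableSet_le (by fun_prop) measurable_const
        exact m1.inter m2
      have hle : ∀ p : ℝ × ℝ, S.indicator (fun _ => (1 : ℝ≥0∞))
          (Function.update (Function.update x k₂ p.1) k₃ p.2) ≤
          Set.indicator {p : ℝ × ℝ | 1 - R ≤ c k₂ * p.1 ^ 2 + c k₃ * p.2 ^ 2 ∧
            c k₂ * p.1 ^ 2 + c k₃ * p.2 ^ 2 ≤ 1 - R + h} (fun _ => (1 : ℝ≥0∞)) p := by
        intro p
        by_cases hp : Function.update (Function.update x k₂ p.1) k₃ p.2 ∈ S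
        · have hp' := hp
          rw [hS] at hp'
          obtain ⟨-, hp2, hp3⟩ := hp'
          rw [shellUp_sum c x k₂ k₃ h23, ← hR] at hp2 hp3
          have hmem : p ∈ {p : ℝ × ℝ | 1 - R ≤ c k₂ * p.1 ^ 2 + c k₃ * p.2 ^ 2 ∧
              c k₂ * p.1 ^ 2 + c k₃ * p.2 ^ 2 ≤ 1 - R + h} :=
            ⟨by linarith, by linarith⟩
          rw [Set.indicator_of_mem hp, Set.indicator_of_mem hmem]
        · rw [Set.indicator_of_notMem hp]
          exact zero_le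
      calc ∫⁻ p, S.indicator (fun _ => (1 : ℝ≥0∞))
            (Function.update (Function.update x k₂ p.1) k₃ p.2)
            ∂((gaussianReal 0 1).prod (gaussianReal 0 1))
          ≤ ∫⁻ p, Set.indicator {p : ℝ × ℝ | 1 - R ≤ c k₂ * p.1 ^ 2 + c k₃ * p.2 ^ 2 ∧
            c k₂ * p.1 ^ 2 + c k₃ * p.2 ^ 2 ≤ 1 - R + h} (fun _ => (1 : ℝ≥0∞)) p
            ∂((gaussianReal 0 1).prod (gaussianReal 0 1)) := lintegral_mono hle
        _ = ((gaussianReal 0 1).prod (gaussianReal 0 1))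
            {p : ℝ × ℝ | 1 - R ≤ c k₂ * p.1 ^ 2 + c k₃ * p.2 ^ 2 ∧
            c k₂ * p.1 ^ 2 + c k₃ * p.2 ^ 2 ≤ 1 - R + h} := by
            rw [lintegral_indicator_const hTm, one_mul]
        _ ≤ κ := by
            rw [hκ]
            exact gauss2_annulus (c k₂) (c k₃) (1 - R) h (hc k₂) (hc k₃) hh
    · rw [Set.indicator_of_notMem hx]
      have hz : ∀ p : ℝ × ℝ, S.indicator (fun _ => (1 : ℝ≥0∞))
          (Function.update (Function.update x k₂ p.1) k₃ p.2) = 0 := by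
        intro p
        refine Set.indicator_of_notMem ?_ _
        intro hp
        rw [hS] at hp
        have hp1 := hp.1
        rw [hk1 p] at hp1
        exact hx (by rw [hA]; exact hp1)
      simp only [hz, lintegral_zero, le_refl]
  rw [h1, ← gv_resample₂ k₂ k₃ h23 _ hF]
  calc ∫⁻ x, ∫⁻ p, S.indicator (fun _ => (1 : ℝ≥0∞))
        (Function.update (Function.update x k₂ p.1) k₃ p.2)
        ∂((gaussianReal 0 1).prod (gaussianReal 0 1)) ∂(gv n)
      ≤ ∫⁻ x, A.indicator (fun _ => κ) x ∂(gv n) := lintegral_mono h2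
    _ = κ * gv n A := lintegral_indicator_const hAm κ
    _ ≤ κ * ENNReal.ofReal (Real.sqrt (a / c k₁)) := by
        refine mul_le_mul_right ?_ _
        rw [hA]
        exact shellUp_coord k₁ (c k₁) a (hc k₁)
    _ = ENNReal.ofReal (Real.sqrt (a / c k₁)) * κ := mul_comm _ _

end Claimed.Agent.R133
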