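/-
Row 133 / S0266, section 3: the two statements for a DIAGONAL good matrix.
-/
import Claimed.Agent.R133.ShellId
import Claimed.Agent.R133.ShellTr
import Claimed.Agent.R133.ShellUp
import Claimed.Agent.R133.ShellLo

set_option autoImplicit false

namespace Claimed.Agent.R133

open MeasureTheory ProbabilityTheory Filter
open scoped BigOperators NNReal ENNReal Matrix

/-! ### elementary facts -/

theorem sphD_npow_neg_eventually_le (a δ : ℝ) (ha : 0 < a) (hδ : 0 < δ) :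
    ∀ᶠ n : ℕ in atTop, npow n (-a) ≤ δ := by
  have h : Tendsto (fun n : ℕ => ((n : ℝ)) ^ (-a)) atTop (nhds 0) :=
    (tendsto_rpow_neg_atTop ha).comp tendsto_natCast_atTop_atTop
  filter_upwards [h.eventually (gt_mem_nhds hδ)] with n hn
  exact hn.le

theorem sphD_gam_half_le (K : ℝ) (hK : 0 < K) {n : ℕ} (hn : 0 < n) : gam (K / 2) n ≤ gam K n := by
  unfold gam
  have := npow_pos hn (-(2 / 3))
  nlinarith

theorem sphD_below {n : ℕ} (hn : 0 < n) {K C : ℝ} (hK : 0 < K) {l : Vec n} (hl : GoodDiag n K C l)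
    (k : Fin n) : l k < gam K n :=
  (hl.below k).trans_le (sphD_gam_half_le K hK hn)

theorem sphD_one_le_gam (K : ℝ) (hK : 0 < K) {n : ℕ} (hn : 0 < n) : 1 ≤ gam K n := by
  unfold gam
  have := npow_pos hn (-(2 / 3))
  nlinarith

/-- `n h Λ = 1/n ≤ 1` for `h = n^{-3}`, `Λ = n` -/
theorem sphD_nhL {n : ℕ} (hn : 0 < n) : (n : ℝ) * npow n (-3) * n ≤ 1 := by
  have h1 : (n : ℝ) = npow n 1 := (npow_one n).symm
  have h2 : (n : ℝ) * npow n (-3) * n = npow n (-1) := by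
    conv_lhs => rw [h1]
    rw [← npow_add hn, ← npow_add hn]
    norm_num
  rw [h2]
  have h3 : npow n (-1) ≤ npow n 0 := npow_le_npow hn (by norm_num)
  simpa [npow] using h3

theorem sphD_nhL_nonneg {n : ℕ} (hn : 0 < n) : 0 ≤ (n : ℝ) * npow n (-3) * n := by
  have := npow_pos hn (-3)
  positivity

theorem sphD_h_le_one {n : ℕ} (hn : 0 < n) : npow n (-3) ≤ 1 := by
  have h3 : npow n (-3) ≤ npow n 0 := npow_le_npow hn (by norm_num)
  simpa [npow] using h3

/-- lower bound for the probability of the shell, `h = n^{-3}`: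
`P(1 ≤ Abar ≤ 1+h) ≥ c₀ n^{-8/3}`, `c₀ = (5/6)(K/2) e^{-(b+1)/2}/√(2π(b+1))`, `b = 2KC+9`. -/
theorem shell_prob_lower (K C : ℝ) (hK : 0 < K) (hC : 1 < C) : ∃ c₀ : ℝ, 0 < c₀ ∧
    ∀ᶠ n : ℕ in atTop, ∀ l : Vec n, GoodDiag n K C l →
      ENNReal.ofReal (c₀ * npow n (-(8 / 3))) ≤
        gv n {g | 1 ≤ Abar l (gam K n) g ∧ Abar l (gam K n) g ≤ 1 + npow n (-3)} := by
  have hC0 : 0 < C := by linarith
  set b : ℝ := 2 * K * C + 9 with hb
  have hb0 : 0 ≤ b := by positivity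
  set q : ℝ := Real.exp (-(b + 1) / 2) / Real.sqrt (2 * Real.pi * (b + 1)) with hq
  have hq0 : 0 < q := by positivity
  refine ⟨5 / 6 * (K / 2) * q, by positivity, ?_⟩
  filter_upwards [sphD_npow_neg_eventually_le (8 / 3) (1 / (2 * K)) (by norm_num) (by positivity),
    eventually_gt_atTop 0] with n hn1 hn l hl
  obtain ⟨k₁, k₂, k₃, -, -, -, h1, -, -⟩ := hl.three
  obtain ⟨hc1, hc2⟩ := cc_top_bounds hn K hK l k₁ (hl.below k₁) h1
  have hcpos : ∀ k, 0 < cc l (gam K n) k := cc_pos hn l _ (sphD_below hn hK hl)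
  have hh : 0 < npow n (-3) := npow_pos hn _
  have hp3 : 0 < npow n (-(1 / 3)) := npow_pos hn _
  have hp8 : 0 < npow n (-(8 / 3)) := npow_pos hn _
  have hsplit : npow n (-3) = npow n (-(8 / 3)) * npow n (-(1 / 3)) := by
    rw [← npow_add hn]; norm_num
  have hh1 : npow n (-3) ≤ cc l (gam K n) k₁ := by
    refine le_trans ?_ hc1.le
    rw [hsplit]
    calc npow n (-(8 / 3)) * npow n (-(1 / 3)) ≤ 1 / (2 * K) * npow n (-(1 / 3)) :=
          mul_le_mul_of_nonneg_right hn1 hp3.le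
      _ = npow n (-(1 / 3)) / (2 * K) := by ring
  have key := shell_lower (cc l (gam K n)) hcpos k₁ b (npow n (-3)) (5 / 6) hb0 hh hh1
    (by norm_num) (gapT_window hn K C hK hC l hl k₁ h1)
  simp only [Abar_eq_sum_cc]
  refine le_trans (ENNReal.ofReal_le_ofReal ?_) key
  have hratio : K / 2 * npow n (-(8 / 3)) ≤ npow n (-3) / cc l (gam K n) k₁ := by
    rw [le_div_iff₀ (hcpos k₁), hsplit]
    have : cc l (gam K n) k₁ ≤ 2 * npow n (-(1 / 3)) / K := hc2.le
    calc K / 2 * npow n (-(8 / 3)) * cc l (gam K n) k₁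
        ≤ K / 2 * npow n (-(8 / 3)) * (2 * npow n (-(1 / 3)) / K) := by gcongr
      _ = npow n (-(8 / 3)) * npow n (-(1 / 3)) := by field_simp
  calc 5 / 6 * (K / 2) * q * npow n (-(8 / 3))
      = 5 / 6 * (K / 2 * npow n (-(8 / 3))) * q := by ring
    _ ≤ 5 / 6 * (npow n (-3) / cc l (gam K n) k₁) * q := by gcongr

/-- `κ ≤ exp(-n/4 + n^{0.1}/2)` -/
theorem sphD_kappa_le {n : ℕ} (hn : 0 < n) (K C : ℝ) (hK : 0 < K) (l : Vec n)
    (hl : GoodDiag n K C l) (h : ℝ) :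
    ENNReal.ofReal (∏ k, Real.sqrt ((gam K n - l k) / gam K n)) *
        gv n {g | (n : ℝ) * gam K n ≤ nrm2 g ∧ nrm2 g ≤ n * gam K n * (1 + h)}
      ≤ eexp (-((n : ℝ) / 4) + npow n (1 / 10) / 2) := by
  set γ := gam K n with hγdef
  have hγ1 : 1 ≤ γ := sphD_one_le_gam K hK hn
  have hγ0 : 0 < γ := by linarith
  have hbel : ∀ k, l k < γ := sphD_below hn hK hl
  -- the product
  have hprod : ∏ k, Real.sqrt ((γ - l k) / γ) ≤
      Real.exp ((n : ℝ) / 4 + K / 2 * npow n (1 / 3) + npow n (1 / 10) / 2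
        - (n : ℝ) / 2 * Real.log γ) := by
    rw [← Real.sqrt_prod _ (fun k _ => div_nonneg (sub_nonneg.2 (hbel k).le) hγ0.le),
      Finset.prod_div_distrib, Finset.prod_const, Finset.card_univ, Fintype.card_fin]
    have e1 : γ ^ n = Real.exp ((n : ℝ) * Real.log γ) := by
      rw [mul_comm, Real.exp_mul, Real.exp_log hγ0, Real.rpow_natCast]
    have h1 : (∏ k, (γ - l k)) / γ ^ n ≤
        Real.exp ((n : ℝ) / 2 + K * npow n (1 / 3) + npow n (1 / 10) - (n : ℝ) * Real.log γ) := by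
      rw [Real.exp_sub, ← e1]
      exact div_le_div_of_nonneg_right hl.det (by positivity)
    refine (Real.sqrt_le_sqrt h1).trans (le_of_eq ?_)
    rw [Real.sqrt_eq_rpow, ← Real.exp_mul]
    congr 1
    ring
  have hche : gv n {g | (n : ℝ) * γ ≤ nrm2 g ∧ nrm2 g ≤ n * γ * (1 + h)} ≤
      eexp (-((n : ℝ) / 2 * (γ - 1 - Real.log γ))) :=
    (measure_mono fun g hg => hg.1).trans (gv_nrm2_chernoff n γ hγ1)
  refine (mul_le_mul' (ENNReal.ofReal_le_ofReal hprod) hche).trans (le_of_eq ?_)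
  show eexp _ * eexp _ = _
  rw [← eexp_add]
  congr 1
  have e2 : (n : ℝ) * npow n (-(2 / 3)) = npow n (1 / 3) := by
    conv_lhs => rw [← npow_one n]
    rw [← npow_add hn]; norm_num
  have e3 : (n : ℝ) / 2 * (γ - 1) = (n : ℝ) / 2 + K / 2 * npow n (1 / 3) := by
    rw [hγdef, ← e2]; unfold gam; ring
  linear_combination (-1 : ℝ) * e3

/-- the second half of `shell_two_sided` for `E = univ` -/
theorem sphD_shell_le {n : ℕ} (hn : 0 < n) (K C : ℝ) (hK : 0 < K) (l : Vec n)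
    (hl : GoodDiag n K C l) :
    gv n {g | 1 ≤ Abar l (gam K n) g ∧ Abar l (gam K n) g ≤ 1 + npow n (-3)} ≤
      ENNReal.ofReal (∏ k, Real.sqrt ((gam K n - l k) / gam K n)) *
        gv n {g | (n : ℝ) * gam K n ≤ nrm2 g ∧ nrm2 g ≤ n * gam K n * (1 + npow n (-3))} *
        IE (Matrix.diagonal l) * eexp ((n : ℝ) * npow n (-3) * n / 2) := by
  have hγ0 : 0 < gam K n := by linarith [sphD_one_le_gam K hK hn]
  have h := (shell_two_sided hn l (gam K n) (npow n (-3)) n hγ0 (sphD_below hn hK hl) hl.bdd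
    (npow_pos hn _).le Set.univ MeasurableSet.univ (fun _ _ _ => by simp)).2
  simpa [IE] using h

/-- upper bound for `P(y ∈ E, shell)`, `E = {v : v_{k₁}² ≤ e n^{-1/3} |v|²}` -/
theorem sphD_PE_le {n : ℕ} (hn : 0 < n) (K C e : ℝ) (hK : 0 < K) (he : 0 ≤ e) (l : Vec n)
    (hl : GoodDiag n K C l) (k₁ k₂ k₃ : Fin n) (h12 : k₁ ≠ k₂) (h13 : k₁ ≠ k₃) (h23 : k₂ ≠ k₃)
    (h1 : gam (-K) n < l k₁) (h2 : gam (-K) n < l k₂) (h3 : gam (-K) n < l k₃) :
    gv n {g | yy l (gam K n) g ∈ {v : Vec n | v k₁ ^ 2 ≤ e * npow n (-(1 / 3)) * nrm2 v} ∧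
        1 ≤ Abar l (gam K n) g ∧ Abar l (gam K n) g ≤ 1 + npow n (-3)} ≤
      ENNReal.ofReal (Real.sqrt (4 * K * e)) * ENNReal.ofReal (K * npow n (-(8 / 3))) := by
  set γ := gam K n with hγdef
  have hbel : ∀ k, l k < γ := sphD_below hn hK hl
  have hcpos : ∀ k, 0 < cc l γ k := cc_pos hn l _ hbel
  have hp3 : 0 < npow n (-(1 / 3)) := npow_pos hn _
  have hp8 : 0 < npow n (-(8 / 3)) := npow_pos hn _
  have hh0 : 0 < npow n (-3) := npow_pos hn _
  have hsplit : npow n (-3) = npow n (-(8 / 3)) * npow n (-(1 / 3)) := by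
    rw [← npow_add hn]; norm_num
  have hc1 := (cc_top_bounds hn K hK l k₁ (hl.below k₁) h1).1
  have hc2 := (cc_top_bounds hn K hK l k₂ (hl.below k₂) h2).1
  have hc3 := (cc_top_bounds hn K hK l k₃ (hl.below k₃) h3).1
  set a : ℝ := 2 * e * npow n (-(1 / 3)) with ha
  have ha0 : 0 ≤ a := by positivity
  have hsub : {g | yy l γ g ∈ {v : Vec n | v k₁ ^ 2 ≤ e * npow n (-(1 / 3)) * nrm2 v} ∧
        1 ≤ Abar l γ g ∧ Abar l γ g ≤ 1 + npow n (-3)} ⊆
      {g | cc l γ k₁ * g k₁ ^ 2 ≤ a ∧ 1 ≤ ∑ k, cc l γ k * g k ^ 2 ∧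
        ∑ k, cc l γ k * g k ^ 2 ≤ 1 + npow n (-3)} := by
    rintro g ⟨hg1, hg2, hg3⟩
    refine ⟨?_, by rwa [← Abar_eq_sum_cc], by rwa [← Abar_eq_sum_cc]⟩
    have hg1' : yy l γ g k₁ ^ 2 ≤ e * npow n (-(1 / 3)) * nrm2 (yy l γ g) := hg1
    rw [nrm2_yy l γ hbel] at hg1'
    have e1 : yy l γ g k₁ ^ 2 = cc l γ k₁ * g k₁ ^ 2 := by
      unfold yy
      rw [mul_pow, Real.sq_sqrt (hcpos k₁).le]
    rw [e1] at hg1'
    refine hg1'.trans ?_
    have h2' : Abar l γ g ≤ 2 := by linarith [sphD_h_le_one hn]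
    calc e * npow n (-(1 / 3)) * Abar l γ g ≤ e * npow n (-(1 / 3)) * 2 := by gcongr
      _ = a := by rw [ha]; ring
  refine (measure_mono hsub).trans ((shell_upper (cc l γ) hcpos k₁ k₂ k₃ h12 h13 h23 a
    (npow n (-3)) ha0 hh0.le).trans ?_)
  refine mul_le_mul' (ENNReal.ofReal_le_ofReal (Real.sqrt_le_sqrt ?_))
    (ENNReal.ofReal_le_ofReal ?_)
  · rw [div_le_iff₀ (hcpos k₁)]
    calc a = 4 * K * e * (npow n (-(1 / 3)) / (2 * K)) := by rw [ha]; field_simp; ring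
      _ ≤ 4 * K * e * cc l γ k₁ := by gcongr
  · have hm : 0 < npow n (-(1 / 3)) / (2 * K) := by positivity
    have hs : npow n (-(1 / 3)) / (2 * K) ≤ Real.sqrt (cc l γ k₂ * cc l γ k₃) := by
      apply Real.le_sqrt_of_sq_le
      rw [sq]
      exact mul_le_mul hc2.le hc3.le hm.le (hcpos k₂).le
    calc npow n (-3) / (2 * Real.sqrt (cc l γ k₂ * cc l γ k₃))
        ≤ npow n (-3) / (2 * (npow n (-(1 / 3)) / (2 * K))) := by gcongr
      _ = K * npow n (-(8 / 3)) := by rw [hsplit]; field_simp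

/-- (3b)  `σ(Ev) ≤ e^{n h Λ} P(E, shell)/P(shell) ≤ C(K,C) √ε`  with `h = n^{-3}`, `Λ = n`
(`shell_two_sided` for `E` = the cone of `Ev_subset` and for `E = univ`, `shell_upper`, `shell_lower`,
`gapT_window`, `cc_top_bounds`). -/
theorem sphD_main (K C η : ℝ) (hK : 0 < K) (hC : 1 < C) (hη : 0 < η) :
    ∃ ε : ℝ, 0 < ε ∧ ∀ᶠ n : ℕ in atTop, ∀ l : Vec n, GoodDiag n K C l →
      ∫⁻ ξ in Ev (gam K n) ε (Matrix.diagonal l),
        eexp ((n : ℝ) / 2 * ray (Matrix.diagonal l) ξ) ∂(gv n)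
        ≤ ENNReal.ofReal η * IE (Matrix.diagonal l) := by
  have hC0 : 0 < C := by linarith
  obtain ⟨c₀, hc₀, hev⟩ := shell_prob_lower K C hK hC
  set A : ℝ := K * Real.exp 1 / c₀ with hA
  have hA0 : 0 < A := by positivity
  set ε : ℝ := (η / A) ^ 2 / (64 * K ^ 2 * C) with hε
  have hε0 : 0 < ε := by positivity
  refine ⟨ε, hε0, ?_⟩
  filter_upwards [hev, eventually_gt_atTop 0] with n hn1 hn l hl
  obtain ⟨k₁, k₂, k₃, h12, h13, h23, h1, h2, h3⟩ := hl.three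
  set e : ℝ := 16 * K * C * ε with he
  have he0 : 0 ≤ e := by positivity
  have hγ0 : 0 < gam K n := by linarith [sphD_one_le_gam K hK hn]
  set E : Set (Vec n) := {v | v k₁ ^ 2 ≤ e * npow n (-(1 / 3)) * nrm2 v} with hE
  have hEmeas : MeasurableSet E :=
    measurableSet_le ((measurable_pi_apply k₁).pow_const 2)
      (measurable_const.mul continuous_nrm2.measurable)
  have hcone : ∀ c : ℝ, 0 < c → ∀ x, c • x ∈ E ↔ x ∈ E := by
    intro c hc x
    simp only [hE, Set.mem_ofPred_eq, Pi.smul_apply, smul_eq_mul, nrm2_smul, mul_pow]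
    have hc2 : 0 < c ^ 2 := by positivity
    constructor
    · intro h
      have : c ^ 2 * x k₁ ^ 2 ≤ c ^ 2 * (e * npow n (-(1 / 3)) * nrm2 x) := by
        calc c ^ 2 * x k₁ ^ 2 ≤ e * npow n (-(1 / 3)) * (c ^ 2 * nrm2 x) := h
          _ = c ^ 2 * (e * npow n (-(1 / 3)) * nrm2 x) := by ring
      exact le_of_mul_le_mul_left this hc2
    · intro h
      calc c ^ 2 * x k₁ ^ 2 ≤ c ^ 2 * (e * npow n (-(1 / 3)) * nrm2 x) := by gcongr
        _ = e * npow n (-(1 / 3)) * (c ^ 2 * nrm2 x) := by ring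
  have hsub : Ev (gam K n) ε (Matrix.diagonal l) ⊆ E := Ev_subset hn K C ε hK hC hε0 l hl k₁ h1
  refine (lintegral_mono_set hsub).trans ?_
  set NE : ℝ≥0∞ := ∫⁻ ξ in E, eexp ((n : ℝ) / 2 * ray (Matrix.diagonal l) ξ) ∂(gv n) with hNE
  set κ : ℝ≥0∞ := ENNReal.ofReal (∏ k, Real.sqrt ((gam K n - l k) / gam K n)) *
        gv n {g | (n : ℝ) * gam K n ≤ nrm2 g ∧ nrm2 g ≤ n * gam K n * (1 + npow n (-3))} with hκ
  set x : ℝ := (n : ℝ) * npow n (-3) * n / 2 with hx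
  have hfirst := (shell_two_sided hn l (gam K n) (npow n (-3)) n hγ0 (sphD_below hn hK hl) hl.bdd
    (npow_pos hn _).le E hEmeas hcone).1
  have hsecond := sphD_shell_le hn K C hK l hl
  have hPE := sphD_PE_le hn K C e hK he0 l hl k₁ k₂ k₃ h12 h13 h23 h1 h2 h3
  have hPu := hn1 l hl
  set t : ℝ := npow n (-(8 / 3)) with ht
  have ht0 : 0 < t := npow_pos hn _
  set a : ℝ≥0∞ := ENNReal.ofReal (c₀ * t) with ha
  have ha0 : a ≠ 0 := by
    rw [ha, Ne, ENNReal.ofReal_eq_zero, not_le]; positivity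
  have haT : a ≠ ∞ := ENNReal.ofReal_ne_top
  have hsq : Real.sqrt (4 * K * e) = η / A := by
    have : 4 * K * e = (η / A) ^ 2 := by
      rw [he, hε]; field_simp; ring
    rw [this, Real.sqrt_sq (by positivity)]
  have hmain : NE * a ≤ ENNReal.ofReal η * IE (Matrix.diagonal l) * a := by
    calc NE * a ≤ NE * (κ * IE (Matrix.diagonal l) * eexp x) :=
          mul_le_mul' le_rfl (hPu.trans hsecond)
      _ = (κ * NE * eexp (-x)) * IE (Matrix.diagonal l) * (eexp x * eexp x) := by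
          have : eexp (-x) * eexp x = 1 := by rw [← eexp_add, neg_add_cancel, eexp_zero]
          calc NE * (κ * IE (Matrix.diagonal l) * eexp x)
              = κ * NE * IE (Matrix.diagonal l) * eexp x * 1 := by ring
            _ = κ * NE * IE (Matrix.diagonal l) * eexp x * (eexp (-x) * eexp x) := by rw [this]
            _ = _ := by ring
      _ ≤ (ENNReal.ofReal (Real.sqrt (4 * K * e)) * ENNReal.ofReal (K * t)) *
            IE (Matrix.diagonal l) * eexp 1 := by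
          refine mul_le_mul' (mul_le_mul' (hfirst.trans hPE) le_rfl) ?_
          rw [← eexp_add, eexp_le_eexp, hx]
          linarith [sphD_nhL hn]
      _ = ENNReal.ofReal η * IE (Matrix.diagonal l) * a := by
          have e1 : ENNReal.ofReal (Real.sqrt (4 * K * e)) * ENNReal.ofReal (K * t) * eexp 1
              = ENNReal.ofReal η * a := by
            unfold eexp
            rw [ha, ← ENNReal.ofReal_mul (Real.sqrt_nonneg _), ← ENNReal.ofReal_mul (by positivity),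
              ← ENNReal.ofReal_mul hη.le, hsq]
            congr 1
            rw [hA]; field_simp
          calc ENNReal.ofReal (Real.sqrt (4 * K * e)) * ENNReal.ofReal (K * t) *
                IE (Matrix.diagonal l) * eexp 1
              = (ENNReal.ofReal (Real.sqrt (4 * K * e)) * ENNReal.ofReal (K * t) * eexp 1) *
                IE (Matrix.diagonal l) := by ring
            _ = _ := by rw [e1]; ring
  exact (ENNReal.mul_le_mul_iff_left ha0 haT).1 hmain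

/-- (3c)  `I ≥ e^{-nhΛ/2} P(shell)/κ`, `κ ≤ exp(-n/4 + n^{0.1}/2)` by `GoodDiag.det` and
`gv_nrm2_chernoff`:  `∏ √((γ-l_k)/γ) ≤ exp(n/4 + (K/2) n^{1/3} + n^{0.1}/2 - (n/2) log γ)`,
`P(|g|² ≥ nγ) ≤ exp(-(n/2)(γ - 1 - log γ))`, `(n/2)(γ-1) = n/2 + (K/2) n^{1/3}`. -/
theorem sphD_low (K C : ℝ) (hK : 0 < K) (hC : 1 < C) :
    ∃ c : ℝ, 0 < c ∧ ∀ᶠ n : ℕ in atTop, ∀ l : Vec n, GoodDiag n K C l →
      ENNReal.ofReal (c * npow n (-(8 / 3))) * eexp ((n : ℝ) / 4 - npow n (1 / 10) / 2)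
        ≤ IE (Matrix.diagonal l) := by
  obtain ⟨c₀, hc₀, hev⟩ := shell_prob_lower K C hK hC
  refine ⟨c₀ * Real.exp (-(1 / 2)), by positivity, ?_⟩
  filter_upwards [hev, eventually_gt_atTop 0] with n hn1 hn l hl
  have h1 := (hn1 l hl).trans (sphD_shell_le hn K C hK l hl)
  have h2 : ENNReal.ofReal (c₀ * npow n (-(8 / 3))) ≤
      eexp (-((n : ℝ) / 4) + npow n (1 / 10) / 2) * IE (Matrix.diagonal l) * eexp (1 / 2) := by
    refine h1.trans ?_
    refine mul_le_mul' (mul_le_mul' (sphD_kappa_le hn K C hK l hl _) le_rfl) ?_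
    rw [eexp_le_eexp]
    linarith [sphD_nhL hn]
  have e1 : ENNReal.ofReal (c₀ * Real.exp (-(1 / 2)) * npow n (-(8 / 3))) =
      ENNReal.ofReal (c₀ * npow n (-(8 / 3))) * eexp (-(1 / 2)) := by
    unfold eexp
    rw [← ENNReal.ofReal_mul (by have := npow_pos hn (-(8 / 3)); positivity)]
    congr 1; ring
  rw [e1]
  calc ENNReal.ofReal (c₀ * npow n (-(8 / 3))) * eexp (-(1 / 2)) *
        eexp ((n : ℝ) / 4 - npow n (1 / 10) / 2)
      ≤ eexp (-((n : ℝ) / 4) + npow n (1 / 10) / 2) * IE (Matrix.diagonal l) * eexp (1 / 2) *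
          eexp (-(1 / 2)) * eexp ((n : ℝ) / 4 - npow n (1 / 10) / 2) := by gcongr
    _ = IE (Matrix.diagonal l) * (eexp (-((n : ℝ) / 4) + npow n (1 / 10) / 2) * eexp (1 / 2) *
          eexp (-(1 / 2)) * eexp ((n : ℝ) / 4 - npow n (1 / 10) / 2)) := by ring
    _ = IE (Matrix.diagonal l) := by
        rw [← eexp_add, ← eexp_add, ← eexp_add]
        have : -((n : ℝ) / 4) + npow n (1 / 10) / 2 + 1 / 2 + -(1 / 2) +
            ((n : ℝ) / 4 - npow n (1 / 10) / 2) = 0 := by ring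
        rw [this, eexp_zero, mul_one]

end Claimed.Agent.R133
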