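/-
Row 133 / S0266, module G: the spherical model at criticality for a fixed good matrix.
Blueprint section 3.
-/
import Claimed.Agent.R133.SphD
import Claimed.Agent.R133.Inv

set_option autoImplicit false

namespace Claimed.Agent.R133

open MeasureTheory ProbabilityTheory Filter
open scoped BigOperators NNReal ENNReal Matrix

theorem sph_measurableSet_Ev {n : ℕ} (z ε : ℝ) (J : Mat n) : MeasurableSet (Ev z ε J) := by
  have hmeas : Measurable (fun ξ : Vec n => ((J, ξ) : Mat n × Vec n)) :=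
    measurable_const.prodMk measurable_id
  exact hmeas (measurableSet_Ev z ε)

/-- the integral over the cone `Ev` is invariant under orthogonal conjugation -/
theorem sph_setLIntegral_cj {n : ℕ} {O : Mat n} (hO : IsOrth O) (z ε : ℝ) (J : Mat n) :
    ∫⁻ ξ in Ev z ε (cj O J), eexp ((n : ℝ) / 2 * ray (cj O J) ξ) ∂(gv n) =
      ∫⁻ ξ in Ev z ε J, eexp ((n : ℝ) / 2 * ray J ξ) ∂(gv n) := by
  rw [← lintegral_indicator (sph_measurableSet_Ev z ε _),
    ← lintegral_indicator (sph_measurableSet_Ev z ε _),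
    ← lintegral_gv_orth O hO _
      ((measurable_IE_integrand (cj O J)).indicator (sph_measurableSet_Ev z ε _))]
  refine lintegral_congr fun ξ => ?_
  by_cases h : ξ ∈ Ev z ε J
  · rw [Set.indicator_of_mem ((mem_Ev_cj hO z ε J ξ).2 h), Set.indicator_of_mem h, ray_cj hO]
  · rw [Set.indicator_of_notMem (fun h' => h ((mem_Ev_cj hO z ε J ξ).1 h')),
      Set.indicator_of_notMem h]

/-- (3a)+(3b): under the spherical Gibbs measure of a good `J` the cone `Ev` has small mass. -/
theorem sph_main (K C η : ℝ) (hK : 0 < K) (hC : 1 < C) (hη : 0 < η) :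
    ∃ ε : ℝ, 0 < ε ∧ ∀ᶠ n : ℕ in atTop, ∀ J : Mat n, Good n K C J →
      ∫⁻ ξ in Ev (gam K n) ε J, eexp ((n : ℝ) / 2 * ray J ξ) ∂(gv n) ≤ ENNReal.ofReal η * IE J := by
  obtain ⟨ε, hε, hev⟩ := sphD_main K C η hK hC hη
  refine ⟨ε, hε, ?_⟩
  filter_upwards [hev, goodDiag_of_good K C hK hC] with n h1 h2 J hJ
  obtain ⟨O, l, hO, hl⟩ := exists_orth_diagonal J hJ.symm
  have hg : Good n K C (Matrix.diagonal l) := by
    rw [← hl]; exact (good_cj hO K C J).2 hJ
  have h3 := h1 l (h2 l hg)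
  rw [← hl, sph_setLIntegral_cj hO, IE_cj hO] at h3
  exact h3

/-- (3c): lower bound for the spherical integral of a good `J`. -/
theorem sph_low (K C : ℝ) (hK : 0 < K) (hC : 1 < C) :
    ∃ c : ℝ, 0 < c ∧ ∀ᶠ n : ℕ in atTop, ∀ J : Mat n, Good n K C J →
      ENNReal.ofReal (c * npow n (-(8 / 3))) * eexp ((n : ℝ) / 4 - npow n (1 / 10) / 2) ≤ IE J := by
  obtain ⟨c, hc, hev⟩ := sphD_low K C hK hC
  refine ⟨c, hc, ?_⟩
  filter_upwards [hev, goodDiag_of_good K C hK hC] with n h1 h2 J hJ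
  obtain ⟨O, l, hO, hl⟩ := exists_orth_diagonal J hJ.symm
  have hg : Good n K C (Matrix.diagonal l) := by
    rw [← hl]; exact (good_cj hO K C J).2 hJ
  have h3 := h1 l (h2 l hg)
  rw [← hl, IE_cj hO] at h3
  exact h3

end Claimed.Agent.R133
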