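/-
Row 133 / S0266, module E3 (the tail (M5)).
Blueprint section 2, version of 2026-10-09 12h (mgf form).
Notation: `S = (J_ii + J_jj)/2`, `D = (J_ii - J_jj)/2`, `w = 1_G / I²`.
-/
import Claimed.Agent.R133.SecondA
import Claimed.Agent.R133.Sph
import Claimed.Agent.R133.Rmt

set_option autoImplicit false

namespace Claimed.Agent.R133

open Claims.C0228.CriticalSK MeasureTheory ProbabilityTheory Filter
open scoped BigOperators NNReal ENNReal Matrix

/-- eventually `2 + (K/2) n^{-2/3} ≤ 2 + n^{-3/5}` -/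
theorem secD_tp_gam_le_zone (K : ℝ) : ∀ᶠ n : ℕ in atTop, gam (K / 2) n ≤ zone n := by
  have h1 : ∀ᶠ n : ℕ in atTop, K / 2 ≤ npow n (1 / 15) :=
    (tendsto_npow_pos (a := 1 / 15) (by norm_num)).eventually_ge_atTop (K / 2)
  filter_upwards [h1, eventually_gt_atTop 0] with n hn hn0
  unfold gam zone
  have h2 : npow n (-(3 / 5)) = npow n (1 / 15) * npow n (-(2 / 3)) := by
    rw [← npow_add hn0]; congr 1; norm_num
  rw [h2]
  have h3 := npow_pos hn0 (-(2 / 3))
  nlinarith [mul_le_mul_of_nonneg_right hn h3.le]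

/-- eventually `n^{1/5} ≤ n (r_n/2)²/4` -/
theorem secD_tp_exp_le : ∀ᶠ n : ℕ in atTop,
    npow n (1 / 5) ≤ (n : ℝ) * (rn n / 2) ^ 2 / 4 := by
  have h1 : ∀ᶠ n : ℕ in atTop, (16 : ℝ) ≤ npow n (7 / 25) :=
    (tendsto_npow_pos (a := 7 / 25) (by norm_num)).eventually_ge_atTop 16
  filter_upwards [h1, eventually_gt_atTop 0] with n hn hn0
  have h2 : (n : ℝ) * (rn n) ^ 2 = npow n (7 / 25) * npow n (1 / 5) := by
    unfold rn
    rw [← npow_add hn0, pow_two, ← npow_add hn0]
    conv_lhs => rw [← npow_one n]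
    rw [← npow_add hn0]; congr 1; norm_num
  have h3 := npow_pos hn0 (1 / 5)
  have h4 : (n : ℝ) * (rn n / 2) ^ 2 / 4 = ((n : ℝ) * (rn n) ^ 2) / 16 := by ring
  rw [h4, h2]
  nlinarith [mul_le_mul_of_nonneg_right hn h3.le]

/-- probability estimate for the tail: after the tilt by `m`, either the spike `1+|m|` is visible (R6)
or `|D| > r_n/2` (`goe_diag_tail`). -/
theorem tail_prob (K C : ℝ) (hK : 0 < K) : ∀ᶠ n : ℕ in atTop, ∀ i j : Fin n, i ≠ j →
    ∀ m : ℝ, |m| ≤ 1 →
      goe n {J | Good n K C (J + spike (1 + m) (eb i) + spike (1 - m) (eb j)) ∧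
        rn n < |(J i i - J j j) / 2 + m|} ≤ 5 * eexp (-npow n (1 / 5)) := by
  filter_upwards [rmt_R6, secD_tp_gam_le_zone K, secD_tp_exp_le, eventually_gt_atTop 0]
    with n hR6 hgz hexp hn0 i j _hij m hm
  have hm' := abs_le.1 hm
  have hrn : 0 < rn n := npow_pos hn0 _
  have h15 : eexp (-npow n (1 / 5)) ≤ 5 * eexp (-npow n (1 / 5)) := by
    conv_lhs => rw [← one_mul (eexp (-npow n (1 / 5)))]
    gcongr
    norm_num
  rcases le_or_gt (rn n / 2) m with h1 | h1
  · -- the spike at `i` is visible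
    refine le_trans (measure_mono ?_) (le_trans (hR6 m h1 hm'.2 i) h15)
    rintro J ⟨hG, -⟩
    exact below_of_below_add_spike (eb j) (by linarith [hm'.2]) (below_mono hgz hG.below)
  rcases le_or_gt m (-(rn n / 2)) with h2 | h2
  · -- the spike at `j` is visible
    refine le_trans (measure_mono ?_) (le_trans (hR6 (-m) (by linarith) (by linarith [hm'.1]) j) h15)
    rintro J ⟨hG, -⟩
    have h3 := below_mono hgz hG.below
    rw [add_right_comm] at h3
    have h4 := below_of_below_add_spike (eb i) (by linarith [hm'.1]) h3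
    show Below (J + spike (1 + -m) (eb j)) (zone n)
    rwa [← sub_eq_add_neg]
  · -- a large diagonal entry
    have h3 : {J : Mat n | Good n K C (J + spike (1 + m) (eb i) + spike (1 - m) (eb j)) ∧
        rn n < |(J i i - J j j) / 2 + m|} ⊆
        {J | rn n / 2 < |J i i|} ∪ {J | rn n / 2 < |J j j|} := by
      rintro J ⟨-, hJ⟩
      by_contra hcon
      simp only [Set.mem_union, Set.mem_setOf_eq, not_or, not_lt] at hcon
      obtain ⟨ha, hb⟩ := hcon
      have ha' := abs_le.1 ha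
      have hb' := abs_le.1 hb
      have : |(J i i - J j j) / 2 + m| ≤ rn n := by
        rw [abs_le]
        constructor <;> linarith [ha'.1, ha'.2, hb'.1, hb'.2]
      linarith
    have h4 : ∀ l : Fin n, goe n {J | rn n / 2 < |J l l|} ≤ 2 * eexp (-npow n (1 / 5)) := by
      intro l
      refine le_trans (goe_diag_tail l (rn n / 2) (by linarith)) ?_
      gcongr
      rw [eexp_le_eexp]
      linarith
    calc goe n _ ≤ goe n ({J | rn n / 2 < |J i i|} ∪ {J | rn n / 2 < |J j j|}) := measure_mono h3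
      _ ≤ goe n {J | rn n / 2 < |J i i|} + goe n {J | rn n / 2 < |J j j|} := measure_union_le _ _
      _ ≤ 2 * eexp (-npow n (1 / 5)) + 2 * eexp (-npow n (1 / 5)) := add_le_add (h4 i) (h4 j)
      _ = 4 * eexp (-npow n (1 / 5)) := by ring
      _ ≤ 5 * eexp (-npow n (1 / 5)) := by
        gcongr
        norm_num

/-- the final numerical estimate of the tail -/
theorem secD_asym (c δ : ℝ) (hc : 0 < c) (hδ : 0 < δ) : ∀ᶠ n : ℕ in atTop,
    Real.exp ((n : ℝ) / 2) * (2 * (n : ℝ) + 1) *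
      (((c * npow n (-(8 / 3))) * Real.exp ((n : ℝ) / 4 - npow n (1 / 10) / 2))⁻¹) ^ 2 *
      (5 * Real.exp (-npow n (1 / 5))) ≤ δ := by
  have h1 : Tendsto (fun y : ℝ => y ^ 70 * Real.exp (-y)) atTop (nhds 0) :=
    Real.tendsto_pow_mul_exp_neg_atTop_nhds_zero 70
  have h2 : Tendsto (fun n : ℕ => npow n (1 / 10)) atTop atTop := tendsto_npow_pos (by norm_num)
  have h3 : Tendsto (fun n : ℕ => 15 * (c⁻¹) ^ 2 *
      (npow n (1 / 10) ^ 70 * Real.exp (-npow n (1 / 10)))) atTop (nhds 0) := by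
    have := (h1.comp h2).const_mul (15 * (c⁻¹) ^ 2)
    rw [mul_zero] at this
    exact this
  filter_upwards [(tendsto_order.1 h3).2 δ hδ, h2.eventually_ge_atTop 2, eventually_ge_atTop 1]
    with n h4 h5 h6
  refine le_trans ?_ h4.le
  obtain ⟨y, hy⟩ : ∃ y : ℝ, y = npow n (1 / 10) := ⟨_, rfl⟩
  obtain ⟨N, hN⟩ : ∃ N : ℝ, N = (n : ℝ) := ⟨_, rfl⟩
  have hN1 : 1 ≤ N := by rw [hN]; exact_mod_cast h6
  have hN0 : 0 ≤ N := by linarith
  have hy10 : y ^ 10 = N := by
    rw [hy, hN]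
    unfold npow
    rw [← Real.rpow_natCast, ← Real.rpow_mul (by positivity)]
    norm_num
  have hy2 : npow n (1 / 5) = y ^ 2 := by
    rw [hy]
    unfold npow
    rw [← Real.rpow_natCast, ← Real.rpow_mul (by positivity)]
    norm_num
  obtain ⟨p, hp⟩ : ∃ p : ℝ, p = npow n (-(8 / 3)) := ⟨_, rfl⟩
  have hp0 : 0 < p := by rw [hp]; exact npow_pos (by omega) _
  have hpinv : p⁻¹ ≤ N ^ 3 := by
    rw [hp]
    unfold npow
    rw [Real.rpow_neg (by positivity), inv_inv, ← hN, ← Real.rpow_natCast]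
    exact Real.rpow_le_rpow_of_exponent_le hN1 (by norm_num)
  have h5' : 2 ≤ y := by rw [hy]; exact h5
  rw [hy2, ← hy, ← hp, ← hN]
  have hy0 : 0 ≤ y := by linarith
  have e1 : (((c * p) * Real.exp (N / 4 - y / 2))⁻¹) ^ 2
      = (c⁻¹) ^ 2 * (p⁻¹) ^ 2 * Real.exp (-(N / 2) + y) := by
    rw [mul_inv, mul_inv, mul_pow, mul_pow, ← Real.exp_neg, sq (Real.exp _), ← Real.exp_add]
    congr 2
    ring
  have e2 : Real.exp (N / 2) * (2 * N + 1) * ((c⁻¹) ^ 2 * (p⁻¹) ^ 2 * Real.exp (-(N / 2) + y)) *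
      (5 * Real.exp (-y ^ 2))
      = 5 * (c⁻¹) ^ 2 * ((2 * N + 1) * (p⁻¹) ^ 2) * Real.exp (y - y ^ 2) := by
    have : Real.exp (y - y ^ 2) = Real.exp (N / 2) * Real.exp (-(N / 2) + y) * Real.exp (-y ^ 2) := by
      rw [← Real.exp_add, ← Real.exp_add]
      congr 1
      ring
    rw [this]
    ring
  rw [e1, e2]
  have h7 : (2 * N + 1) * (p⁻¹) ^ 2 ≤ 3 * y ^ 70 := by
    have a1 : (p⁻¹) ^ 2 ≤ (N ^ 3) ^ 2 := by
      have : 0 ≤ p⁻¹ := (inv_pos.2 hp0).le
      gcongr
    have a2 : 2 * N + 1 ≤ 3 * N := by linarith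
    calc (2 * N + 1) * (p⁻¹) ^ 2 ≤ (3 * N) * (N ^ 3) ^ 2 := by gcongr
      _ = 3 * y ^ 70 := by rw [← hy10]; ring
  have h8 : Real.exp (y - y ^ 2) ≤ Real.exp (-y) := by
    apply Real.exp_le_exp.2
    nlinarith
  calc 5 * (c⁻¹) ^ 2 * ((2 * N + 1) * (p⁻¹) ^ 2) * Real.exp (y - y ^ 2)
      ≤ 5 * (c⁻¹) ^ 2 * (3 * y ^ 70) * Real.exp (-y) := by gcongr
    _ = 15 * (c⁻¹) ^ 2 * (y ^ 70 * Real.exp (-y)) := by ring

/-- entries of the doubly spiked matrix -/
theorem secD_spike_entries {n : ℕ} {i j : Fin n} (hij : i ≠ j) (a b : ℝ) (J : Mat n) :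
    (J + spike a (eb i) + spike b (eb j)) i i = J i i + a ∧
      (J + spike a (eb i) + spike b (eb j)) j j = J j j + b := by
  constructor
  · rw [Matrix.add_apply, Matrix.add_apply, spike_eb_apply, spike_eb_apply]
    simp [hij]
  · rw [Matrix.add_apply, Matrix.add_apply, spike_eb_apply, spike_eb_apply]
    simp [hij.symm]

/-- `cosh(D)^n` as an average over the cube -/
theorem secD_cosh_pow {n : ℕ} (D : ℝ) :
    ENNReal.ofReal (Real.cosh D ^ n)
      = (2 ^ n)⁻¹ * ∑ τ : Spin n, ENNReal.ofReal (Real.exp (D * msum τ)) := by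
  have h : ENNReal.ofReal ((2 * Real.cosh D) ^ n) = 2 ^ n * ENNReal.ofReal (Real.cosh D ^ n) := by
    rw [mul_pow, ENNReal.ofReal_mul (by positivity), ENNReal.ofReal_pow (by norm_num),
      ENNReal.ofReal_ofNat]
  rw [← ENNReal.ofReal_sum_of_nonneg fun τ _ => (Real.exp_pos _).le, sum_exp_msum, h,
    ← mul_assoc, ENNReal.inv_mul_cancel (secA_two_pow_ne_zero n) (secA_two_pow_ne_top n), one_mul]

/-- one term of the tail, for a fixed `τ`. -/
theorem secD_term {n : ℕ} (K C : ℝ) (L q : ℝ≥0∞) (hL : ∀ J : Mat n, Good n K C J → L ≤ IE J)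
    (i j : Fin n) (hij : i ≠ j) (m : ℝ)
    (hq : goe n {J | Good n K C (J + spike (1 + m) (eb i) + spike (1 - m) (eb j)) ∧
        rn n < |(J i i - J j j) / 2 + m|} ≤ q) :
    ∫⁻ J, ({J : Mat n | rn n < |(J i i - J j j) / 2|}.indicator (wG K C) J) *
        eexp ((n : ℝ) / 2 * ((1 + m) * J i i + (1 - m) * J j j)) ∂(goe n)
      ≤ eexp ((n : ℝ) / 2 + (n : ℝ) * m ^ 2 / 2) * ((L⁻¹) ^ 2 * q) := by
  have hB : MeasurableSet {J : Mat n | rn n < |(J i i - J j j) / 2|} := by
    apply measurableSet_lt measurable_const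
    have : Measurable (fun J : Mat n => (J i i - J j j) / 2) :=
      ((measurable_entry i i).sub (measurable_entry j j)).div_const 2
    exact this.abs
  have hF : Measurable ({J : Mat n | rn n < |(J i i - J j j) / 2|}.indicator (wG K C)) :=
    (measurable_wG K C).indicator hB
  rw [goe_tilt i j hij (1 + m) (1 - m) _ hF]
  have e1 : (n : ℝ) * ((1 + m) ^ 2 + (1 - m) ^ 2) / 4 = (n : ℝ) / 2 + (n : ℝ) * m ^ 2 / 2 := by ring
  rw [e1]
  refine mul_le_mul_right ?_ _
  calc ∫⁻ J, {J : Mat n | rn n < |(J i i - J j j) / 2|}.indicator (wG K C)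
        (J + spike (1 + m) (eb i) + spike (1 - m) (eb j)) ∂(goe n)
      ≤ ∫⁻ J, {J : Mat n | Good n K C (J + spike (1 + m) (eb i) + spike (1 - m) (eb j)) ∧
          rn n < |(J i i - J j j) / 2 + m|}.indicator (fun _ => (L⁻¹) ^ 2) J ∂(goe n) := by
        refine lintegral_mono fun J => ?_
        obtain ⟨J', hJ'⟩ : ∃ J' : Mat n, J' = J + spike (1 + m) (eb i) + spike (1 - m) (eb j) :=
          ⟨_, rfl⟩
        have hent := secD_spike_entries hij (1 + m) (1 - m) J
        rw [← hJ'] at hent ⊢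
        by_cases h1 : rn n < |(J' i i - J' j j) / 2|
        · by_cases h2 : Good n K C J'
          · have h3 : (J' i i - J' j j) / 2 = (J i i - J j j) / 2 + m := by
              rw [hent.1, hent.2]; ring
            have hmem : J ∈ {J : Mat n |
                Good n K C (J + spike (1 + m) (eb i) + spike (1 - m) (eb j)) ∧
                rn n < |(J i i - J j j) / 2 + m|} := by
              refine ⟨by rw [← hJ']; exact h2, ?_⟩
              rw [← h3]; exact h1
            rw [Set.indicator_of_mem hmem, Set.indicator_of_mem (show J' ∈ {J : Mat n |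
              rn n < |(J i i - J j j) / 2|} from h1)]
            unfold wG
            rw [Set.indicator_of_mem (show J' ∈ GoodSet n K C from h2)]
            exact pow_le_pow_left' (ENNReal.inv_le_inv.2 (hL J' h2)) 2
          · rw [Set.indicator_of_mem (show J' ∈ {J : Mat n |
              rn n < |(J i i - J j j) / 2|} from h1)]
            unfold wG
            rw [Set.indicator_of_notMem (show J' ∉ GoodSet n K C from h2)]
            exact bot_le
        · rw [Set.indicator_of_notMem (show J' ∉ {J : Mat n |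
            rn n < |(J i i - J j j) / 2|} from h1)]
          exact bot_le
    _ ≤ (L⁻¹) ^ 2 * goe n {J : Mat n |
          Good n K C (J + spike (1 + m) (eb i) + spike (1 - m) (eb j)) ∧
          rn n < |(J i i - J j j) / 2 + m|} := lintegral_indicator_const_le _ _
    _ ≤ (L⁻¹) ^ 2 * q := mul_le_mul_right hq _

/-- (M5) TAIL:  `E[w e^{nS} cosh(D)^n ; |D| > r_n] → 0`
(`sum_exp_msum`, `goe_tilt`, `sph_low`, `tail_prob`, `cube_exp_sq`). -/
theorem second_tail (K C δ : ℝ) (hK : 0 < K) (hC : 1 < C) (hδ : 0 < δ) :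
    ∀ᶠ n : ℕ in atTop, ∀ i j : Fin n, i ≠ j →
      ∫⁻ J in {J | rn n < |(J i i - J j j) / 2|},
        wG K C J * eexp ((n : ℝ) / 2 * (J i i + J j j)) *
          ENNReal.ofReal (Real.cosh ((J i i - J j j) / 2) ^ n) ∂(goe n) ≤ ENNReal.ofReal δ := by
  obtain ⟨c, hc, hlow⟩ := sph_low K C hK hC
  filter_upwards [hlow, tail_prob K C hK, secD_asym c δ hc hδ, eventually_gt_atTop 0]
    with n hL hq hasym hn i j hij
  have hn' : (n : ℝ) ≠ 0 := by exact_mod_cast hn.ne'
  have hB : MeasurableSet {J : Mat n | rn n < |(J i i - J j j) / 2|} := by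
    apply measurableSet_lt measurable_const
    have : Measurable (fun J : Mat n => (J i i - J j j) / 2) :=
      ((measurable_entry i i).sub (measurable_entry j j)).div_const 2
    exact this.abs
  obtain ⟨L, hLdef⟩ : ∃ L : ℝ≥0∞, L = ENNReal.ofReal (c * npow n (-(8 / 3))) *
      eexp ((n : ℝ) / 4 - npow n (1 / 10) / 2) := ⟨_, rfl⟩
  rw [← hLdef] at hL
  -- the integrand as a sum over the cube
  have h1 : ∀ J : Mat n, {J : Mat n | rn n < |(J i i - J j j) / 2|}.indicator (fun J =>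
      wG K C J * eexp ((n : ℝ) / 2 * (J i i + J j j)) *
          ENNReal.ofReal (Real.cosh ((J i i - J j j) / 2) ^ n)) J
      = (2 ^ n)⁻¹ * ∑ τ : Spin n,
        ({J : Mat n | rn n < |(J i i - J j j) / 2|}.indicator (wG K C) J) *
        eexp ((n : ℝ) / 2 * ((1 + msum τ / n) * J i i + (1 - msum τ / n) * J j j)) := by
    intro J
    have e : ∀ τ : Spin n,
        eexp ((n : ℝ) / 2 * ((1 + msum τ / n) * J i i + (1 - msum τ / n) * J j j))
        = eexp ((n : ℝ) / 2 * (J i i + J j j))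
          * ENNReal.ofReal (Real.exp ((J i i - J j j) / 2 * msum τ)) := by
      intro τ
      have : (n : ℝ) / 2 * ((1 + msum τ / n) * J i i + (1 - msum τ / n) * J j j)
          = (n : ℝ) / 2 * (J i i + J j j) + (J i i - J j j) / 2 * msum τ := by
        field_simp
        ring
      rw [this, eexp_add]
      rfl
    simp only [e]
    by_cases hJ : J ∈ {J : Mat n | rn n < |(J i i - J j j) / 2|}
    · rw [Set.indicator_of_mem hJ, Set.indicator_of_mem hJ, secD_cosh_pow, ← Finset.mul_sum,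
        ← Finset.mul_sum]
      ring
    · rw [Set.indicator_of_notMem hJ, Set.indicator_of_notMem hJ]
      simp
  have hm : ∀ τ : Spin n, Measurable (fun J : Mat n =>
      ({J : Mat n | rn n < |(J i i - J j j) / 2|}.indicator (wG K C) J) *
        eexp ((n : ℝ) / 2 * ((1 + msum τ / n) * J i i + (1 - msum τ / n) * J j j))) := by
    intro τ
    refine ((measurable_wG K C).indicator hB).mul (measurable_eexp.comp ?_)
    exact (((measurable_entry i i).const_mul _).add ((measurable_entry j j).const_mul _)).const_mul _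
  have hmabs : ∀ τ : Spin n, |msum τ / n| ≤ 1 := by
    intro τ
    rw [abs_div, Nat.abs_cast]
    exact div_le_one_of_le₀ (abs_msum_le τ) (by positivity)
  rw [← lintegral_indicator hB]
  simp only [h1]
  rw [lintegral_const_mul _ (Finset.measurable_sum _ fun τ _ => hm τ),
    lintegral_finsetSum _ fun τ _ => hm τ]
  have h2 : ∀ τ : Spin n, ∫⁻ J, ({J : Mat n | rn n < |(J i i - J j j) / 2|}.indicator (wG K C) J) *
        eexp ((n : ℝ) / 2 * ((1 + msum τ / n) * J i i + (1 - msum τ / n) * J j j)) ∂(goe n)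
      ≤ ENNReal.ofReal (Real.exp (msum τ ^ 2 / (2 * n))) *
        (eexp ((n : ℝ) / 2) * ((L⁻¹) ^ 2 * (5 * eexp (-npow n (1 / 5))))) := by
    intro τ
    refine (secD_term K C L _ hL i j hij (msum τ / n) (hq i j hij _ (hmabs τ))).trans (le_of_eq ?_)
    have : (n : ℝ) * (msum τ / n) ^ 2 / 2 = msum τ ^ 2 / (2 * n) := by
      field_simp
    rw [this, eexp_add, mul_comm (eexp ((n : ℝ) / 2)), mul_assoc]
    rfl
  refine (mul_le_mul_right (Finset.sum_le_sum fun τ _ => h2 τ) _).trans ?_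
  rw [← Finset.sum_mul, ← ENNReal.ofReal_sum_of_nonneg fun τ _ => (Real.exp_pos _).le]
  have h3 : ENNReal.ofReal (∑ τ : Spin n, Real.exp (msum τ ^ 2 / (2 * n)))
      ≤ ENNReal.ofReal (2 * (n : ℝ) + 1) * 2 ^ n := by
    refine (ENNReal.ofReal_le_ofReal (cube_exp_sq hn)).trans (le_of_eq ?_)
    rw [ENNReal.ofReal_mul (by positivity), ENNReal.ofReal_pow (by norm_num), ENNReal.ofReal_ofNat]
  refine (mul_le_mul_right (mul_le_mul_left h3 _) _).trans ?_
  have hl0 : 0 < (c * npow n (-(8 / 3))) * Real.exp ((n : ℝ) / 4 - npow n (1 / 10) / 2) :=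
    mul_pos (mul_pos hc (npow_pos hn _)) (Real.exp_pos _)
  have hLr : L = ENNReal.ofReal ((c * npow n (-(8 / 3))) *
      Real.exp ((n : ℝ) / 4 - npow n (1 / 10) / 2)) := by
    rw [hLdef, ENNReal.ofReal_mul (mul_pos hc (npow_pos hn _)).le]
    rfl
  have h4 : (2 ^ n)⁻¹ * (ENNReal.ofReal (2 * (n : ℝ) + 1) * 2 ^ n *
      (eexp ((n : ℝ) / 2) * ((L⁻¹) ^ 2 * (5 * eexp (-npow n (1 / 5))))))
      = ENNReal.ofReal (Real.exp ((n : ℝ) / 2) * (2 * (n : ℝ) + 1) *
      (((c * npow n (-(8 / 3))) * Real.exp ((n : ℝ) / 4 - npow n (1 / 10) / 2))⁻¹) ^ 2 *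
      (5 * Real.exp (-npow n (1 / 5)))) := by
    have e5 : (5 : ℝ≥0∞) = ENNReal.ofReal 5 := by rw [ENNReal.ofReal_ofNat]
    obtain ⟨X, hX⟩ : ∃ X : ℝ, X = Real.exp ((n : ℝ) / 2) *
        ((((c * npow n (-(8 / 3))) * Real.exp ((n : ℝ) / 4 - npow n (1 / 10) / 2))⁻¹) ^ 2 *
          (5 * Real.exp (-npow n (1 / 5)))) := ⟨_, rfl⟩
    have e6 : eexp ((n : ℝ) / 2) * ((L⁻¹) ^ 2 * (5 * eexp (-npow n (1 / 5))))
        = ENNReal.ofReal X := by
      rw [hX, hLr, ← ENNReal.ofReal_inv_of_pos hl0, ← ENNReal.ofReal_pow (inv_pos.2 hl0).le, e5]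
      unfold eexp
      rw [← ENNReal.ofReal_mul (by norm_num), ← ENNReal.ofReal_mul (by positivity),
        ← ENNReal.ofReal_mul (by positivity)]
    rw [e6]
    calc (2 ^ n)⁻¹ * (ENNReal.ofReal (2 * (n : ℝ) + 1) * 2 ^ n * ENNReal.ofReal X)
        = ((2 ^ n)⁻¹ * 2 ^ n) * (ENNReal.ofReal (2 * (n : ℝ) + 1) * ENNReal.ofReal X) := by ring
      _ = ENNReal.ofReal ((2 * (n : ℝ) + 1) * X) := by
        rw [ENNReal.inv_mul_cancel (secA_two_pow_ne_zero n) (secA_two_pow_ne_top n), one_mul,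
          ← ENNReal.ofReal_mul (by positivity)]
      _ = _ := by
        congr 1
        rw [hX]
        ring
  rw [h4]
  exact ENNReal.ofReal_le_ofReal hasym

end Claimed.Agent.R133
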