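/-
Row 133 / S0266, module E3 (conclusion).
Blueprint section 2, version of 2026-10-09 12h (mgf form).
Notation: `S = (J_ii + J_jj)/2`, `D = (J_ii - J_jj)/2`, `w = 1_G / I²`.
-/
import Claimed.Agent.R133.SecondB
import Claimed.Agent.R133.SecondC
import Claimed.Agent.R133.SecondD
import Claimed.Agent.R133.Prior

set_option autoImplicit false

namespace Claimed.Agent.R133

open Claims.C0228.CriticalSK MeasureTheory ProbabilityTheory Filter
open scoped BigOperators NNReal ENNReal Matrix

/-- `n · r_n = n^{37/50}` -/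
theorem second_moment_n_mul_rn {n : ℕ} (hn : 0 < n) : (n : ℝ) * rn n = npow n (37 / 50) := by
  have hn' : (0 : ℝ) < n := by exact_mod_cast hn
  unfold rn npow
  nth_rewrite 1 [← Real.rpow_one (n : ℝ)]
  rw [← Real.rpow_add hn']
  norm_num

theorem second_moment_measurableSet_tail {n : ℕ} (i j : Fin n) :
    MeasurableSet {J : Mat n | rn n < |(J i i - J j j) / 2|} := by
  refine measurableSet_lt measurable_const ?_
  have h : Measurable fun J : Mat n => (J i i - J j j) / 2 :=
    ((measurable_entry i i).sub (measurable_entry j j)).div_const 2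
  exact continuous_abs.measurable.comp h

/-- SECOND MOMENT:  `E[(Z/Zbar)² ; G] ≤ P(G) + δ`. -/
theorem second_moment (K C δ : ℝ) (hK : 0 < K) (hC : 1 < C) (hδ : 0 < δ) :
    ∀ᶠ n : ℕ in atTop,
      ∫⁻ J in GoodSet n K C, ratio J ^ 2 ∂(goe n) ≤ goe n (GoodSet n K C) + ENNReal.ofReal δ := by
  have hδ2 : 0 < δ / 2 := by positivity
  filter_upwards [prior_main (δ / 2) hδ2, second_tail K C (δ / 2) hK hC hδ2,
    eventually_ge_atTop 2] with n hprior htail hn
  have hn0 : 0 < n := by omega
  have hn' : (0 : ℝ) < n := by exact_mod_cast hn0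
  obtain ⟨i, j, hij⟩ : ∃ i j : Fin n, i ≠ j :=
    ⟨⟨0, by omega⟩, ⟨1, by omega⟩, by simp [Fin.ext_iff]⟩
  have hT := second_moment_measurableSet_tail (n := n) i j
  rw [second_eq K C i j hij, ← lintegral_add_compl _ hT]
  have h1 := htail i j hij
  have h2 : ∫⁻ J in {J : Mat n | rn n < |(J i i - J j j) / 2|}ᶜ,
      wG K C J * eexp ((n : ℝ) / 2 * (J i i + J j j)) *
        ENNReal.ofReal (Real.cosh ((J i i - J j j) / 2) ^ n) ∂(goe n)
      ≤ goe n (GoodSet n K C) + ENNReal.ofReal (δ / 2) := by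
    calc ∫⁻ J in {J : Mat n | rn n < |(J i i - J j j) / 2|}ᶜ,
          wG K C J * eexp ((n : ℝ) / 2 * (J i i + J j j)) *
            ENNReal.ofReal (Real.cosh ((J i i - J j j) / 2) ^ n) ∂(goe n)
        ≤ ∫⁻ J in {J : Mat n | rn n < |(J i i - J j j) / 2|}ᶜ,
          ENNReal.ofReal (1 + δ / 2) * (wG K C J * eexp ((n : ℝ) / 2 * (J i i + J j j)) *
            Mn i ((n : ℝ) / 2 * (J i i - J j j))) ∂(goe n) := by
          refine setLIntegral_mono' hT.compl fun J hJ => ?_
          have hJ' : |(J i i - J j j) / 2| ≤ rn n := not_lt.1 hJ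
          have hs : |(n : ℝ) / 2 * (J i i - J j j)| ≤ npow n (37 / 50) := by
            rw [← second_moment_n_mul_rn hn0]
            have : (n : ℝ) / 2 * (J i i - J j j) = n * ((J i i - J j j) / 2) := by ring
            rw [this, abs_mul, abs_of_pos hn']
            exact mul_le_mul_of_nonneg_left hJ' hn'.le
          have hp := hprior i _ hs
          have he : (n : ℝ) / 2 * (J i i - J j j) / n = (J i i - J j j) / 2 := by
            field_simp
          rw [he] at hp
          calc wG K C J * eexp ((n : ℝ) / 2 * (J i i + J j j)) *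
                ENNReal.ofReal (Real.cosh ((J i i - J j j) / 2) ^ n)
              ≤ wG K C J * eexp ((n : ℝ) / 2 * (J i i + J j j)) *
                (ENNReal.ofReal (1 + δ / 2) * Mn i ((n : ℝ) / 2 * (J i i - J j j))) := by
                gcongr
            _ = _ := by ring
      _ ≤ ∫⁻ J, ENNReal.ofReal (1 + δ / 2) * (wG K C J * eexp ((n : ℝ) / 2 * (J i i + J j j)) *
            Mn i ((n : ℝ) / 2 * (J i i - J j j))) ∂(goe n) :=
          setLIntegral_le_lintegral _ _
      _ = ENNReal.ofReal (1 + δ / 2) * goe n (GoodSet n K C) := by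
          rw [lintegral_const_mul' _ _ ENNReal.ofReal_ne_top, ← good_eq K C i j hij]
      _ ≤ goe n (GoodSet n K C) + ENNReal.ofReal (δ / 2) := by
          rw [ENNReal.ofReal_add zero_le_one hδ2.le, ENNReal.ofReal_one, add_mul, one_mul]
          gcongr
          calc ENNReal.ofReal (δ / 2) * goe n (GoodSet n K C) ≤ ENNReal.ofReal (δ / 2) * 1 := by
                gcongr; exact prob_le_one
            _ = _ := mul_one _
  calc _ ≤ ENNReal.ofReal (δ / 2) + (goe n (GoodSet n K C) + ENNReal.ofReal (δ / 2)) :=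
        add_le_add h1 h2
    _ = goe n (GoodSet n K C) + (ENNReal.ofReal (δ / 2) + ENNReal.ofReal (δ / 2)) := by ring
    _ = _ := by rw [← ENNReal.ofReal_add hδ2.le hδ2.le, add_halves]

theorem ratio_small_prob_measurable_ratio {n : ℕ} : Measurable (ratio : Mat n → ℝ≥0∞) :=
  measurable_ZE.div (measurable_const.mul measurable_IE)

/-- pointwise inequality `1/4 · 1_{r < 1/2} + 2 r ≤ r² + 1`. -/
theorem ratio_small_prob_pointwise (r : ℝ≥0∞) :
    (if r < 1 / 2 then (1 / 4 : ℝ≥0∞) else 0) + 2 * r ≤ r ^ 2 + 1 := by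
  induction r using ENNReal.recTopCoe with
  | top => simp
  | coe x =>
    have key : (if x < 1 / 2 then (1 / 4 : ℝ≥0) else 0) + 2 * x ≤ x ^ 2 + 1 := by
      split_ifs with h
      · rw [← NNReal.coe_le_coe]
        have h' : (x : ℝ) < 1 / 2 := by
          have := NNReal.coe_lt_coe.2 h
          simpa using this
        push_cast
        nlinarith [x.coe_nonneg]
      · rw [← NNReal.coe_le_coe]
        push_cast
        nlinarith [sq_nonneg ((x : ℝ) - 1)]
    have e1 : ((x : ℝ≥0∞) < 1 / 2) ↔ x < 1 / 2 := by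
      have : (1 / 2 : ℝ≥0∞) = ((1 / 2 : ℝ≥0) : ℝ≥0∞) := by
        rw [ENNReal.coe_div (by norm_num)]; simp
      rw [this, ENNReal.coe_lt_coe]
    have e2 : (1 / 4 : ℝ≥0∞) = ((1 / 4 : ℝ≥0) : ℝ≥0∞) := by
      rw [ENNReal.coe_div (by norm_num)]; simp
    have := ENNReal.coe_le_coe.2 key
    simp only [e1, e2]
    split_ifs at this ⊢ with h
    · push_cast at this ⊢
      simpa using this
    · push_cast at this ⊢
      simpa using this

/-- Chebyshev:  `P(G, Z < Zbar/2) ≤ 4 δ`. -/
theorem ratio_small_prob (K C δ : ℝ) (hK : 0 < K) (hC : 1 < C) (hδ : 0 < δ) :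
    ∀ᶠ n : ℕ in atTop,
      goe n (GoodSet n K C ∩ {J | ratio J < 1 / 2}) ≤ ENNReal.ofReal (4 * δ) := by
  filter_upwards [second_moment K C δ hK hC hδ, eventually_gt_atTop 0] with n h2 hn
  have hG : MeasurableSet (GoodSet n K C) := measurableSet_good K C
  have hr := ratio_small_prob_measurable_ratio (n := n)
  have hS : MeasurableSet {J : Mat n | ratio J < 1 / 2} := measurableSet_lt hr measurable_const
  have h1 := first_moment hn K C
  have hP : goe n (GoodSet n K C) ≠ ⊤ := measure_ne_top _ _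
  -- integrate the pointwise inequality over `G`
  have hint : ∫⁻ J in GoodSet n K C,
      ((if ratio J < 1 / 2 then (1 / 4 : ℝ≥0∞) else 0) + 2 * ratio J) ∂(goe n)
      ≤ ∫⁻ J in GoodSet n K C, (ratio J ^ 2 + 1) ∂(goe n) :=
    lintegral_mono fun J => ratio_small_prob_pointwise (ratio J)
  have hL : ∫⁻ J in GoodSet n K C,
      ((if ratio J < 1 / 2 then (1 / 4 : ℝ≥0∞) else 0) + 2 * ratio J) ∂(goe n)
      = 1 / 4 * goe n (GoodSet n K C ∩ {J | ratio J < 1 / 2}) + 2 * goe n (GoodSet n K C) := by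
    rw [lintegral_add_right _ (hr.const_mul 2), lintegral_const_mul _ hr, h1]
    congr 1
    have : (fun J : Mat n => if ratio J < 1 / 2 then (1 / 4 : ℝ≥0∞) else 0)
        = {J : Mat n | ratio J < 1 / 2}.indicator (fun _ => (1 / 4 : ℝ≥0∞)) := by
      ext J
      simp [Set.indicator_apply]
    rw [this, lintegral_indicator_const hS, Measure.restrict_apply hS, Set.inter_comm]
  have hR : ∫⁻ J in GoodSet n K C, (ratio J ^ 2 + 1) ∂(goe n)
      = ∫⁻ J in GoodSet n K C, ratio J ^ 2 ∂(goe n) + goe n (GoodSet n K C) := by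
    rw [lintegral_add_right _ measurable_const, lintegral_one, Measure.restrict_apply_univ]
  rw [hL, hR] at hint
  have h3 : 1 / 4 * goe n (GoodSet n K C ∩ {J | ratio J < 1 / 2}) + 2 * goe n (GoodSet n K C)
      ≤ ENNReal.ofReal δ + 2 * goe n (GoodSet n K C) := by
    calc _ ≤ ∫⁻ J in GoodSet n K C, ratio J ^ 2 ∂(goe n) + goe n (GoodSet n K C) := hint
      _ ≤ goe n (GoodSet n K C) + ENNReal.ofReal δ + goe n (GoodSet n K C) := by gcongr
      _ = _ := by ring
  have h4 : 1 / 4 * goe n (GoodSet n K C ∩ {J | ratio J < 1 / 2}) ≤ ENNReal.ofReal δ :=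
    (ENNReal.add_le_add_iff_right (ENNReal.mul_ne_top (by norm_num) hP)).1 h3
  calc goe n (GoodSet n K C ∩ {J | ratio J < 1 / 2})
      = 4 * (1 / 4 * goe n (GoodSet n K C ∩ {J | ratio J < 1 / 2})) := by
        have h44 : (4 : ℝ≥0∞) * (1 / 4) = 1 := by
          rw [one_div]; exact ENNReal.mul_inv_cancel (by norm_num) (by norm_num)
        rw [← mul_assoc, h44, one_mul]
    _ ≤ 4 * ENNReal.ofReal δ := by gcongr
    _ = ENNReal.ofReal (4 * δ) := by
        rw [ENNReal.ofReal_mul (by norm_num)]; norm_num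

end Claimed.Agent.R133
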