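/-
Row 133 / S0266, module B1 (first moment of the bad cone).  Blueprint section 0(B).
-/
import Claimed.Agent.R133.SecondA
import Claimed.Agent.R133.Sph

set_option autoImplicit false

namespace Claimed.Agent.R133

open Claims.C0228.CriticalSK MeasureTheory ProbabilityTheory Filter
open scoped BigOperators Topology NNReal ENNReal Matrix

/-- unnormalised Gibbs weight of `{x : sv x ∈ S}` -/
noncomputable def cubeMass {n : ℕ} (J : Mat n) (S : Set (Vec n)) : ℝ≥0∞ :=
  ∑ x : Spin n, S.indicator (fun v => eexp (qf J v / 2)) (sv x)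

namespace Static

/-- the region `{(J, v) : J good, v ∈ Ev J}` -/
def coneSet (n : ℕ) (K C z ε : ℝ) : Set (Mat n × Vec n) :=
  {p | p.1 ∈ GoodSet n K C} ∩ {p | p.2 ∈ Ev z ε p.1}

/-- `F J v = 1_G(J) 1_{Ev J}(v) e^{(n/2) ray J v} / I(J)` -/
noncomputable def coneF (n : ℕ) (K C z ε : ℝ) (J : Mat n) (v : Vec n) : ℝ≥0∞ :=
  (coneSet n K C z ε).indicator (fun p => eexp ((n : ℝ) / 2 * ray p.1 p.2) / IE p.1) (J, v)

theorem measurable_coneF (n : ℕ) (K C z ε : ℝ) :
    Measurable (Function.uncurry (coneF n K C z ε)) := by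
  have h1 : MeasurableSet (coneSet n K C z ε) :=
    (measurable_fst (measurableSet_good K C)).inter (measurableSet_Ev z ε)
  have h2 : Measurable (fun p : Mat n × Vec n => eexp ((n : ℝ) / 2 * ray p.1 p.2) / IE p.1) :=
    (measurable_eexp.comp (measurable_ray.const_mul _)).div (measurable_IE.comp measurable_fst)
  exact h2.indicator h1

theorem coneF_cj (n : ℕ) (K C z ε : ℝ) (O : Mat n) (hO : IsOrth O) (J : Mat n) (v : Vec n) :
    coneF n K C z ε (cj O J) (O *ᵥ v) = coneF n K C z ε J v := by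
  have hmem : (cj O J, O *ᵥ v) ∈ coneSet n K C z ε ↔ (J, v) ∈ coneSet n K C z ε :=
    and_congr (good_cj hO K C J) (mem_Ev_cj hO z ε J v)
  unfold coneF
  by_cases h : (J, v) ∈ coneSet n K C z ε
  · rw [Set.indicator_of_mem h, Set.indicator_of_mem (hmem.2 h)]
    simp only [ray_cj hO, IE_cj hO]
  · rw [Set.indicator_of_notMem h, Set.indicator_of_notMem (fun h' => h (hmem.1 h'))]

theorem coneF_smul (n : ℕ) (K C z ε : ℝ) (c : ℝ) (hc : 0 < c) (J : Mat n) (v : Vec n) :
    coneF n K C z ε J (c • v) = coneF n K C z ε J v := by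
  have hmem : (J, c • v) ∈ coneSet n K C z ε ↔ (J, v) ∈ coneSet n K C z ε :=
    and_congr Iff.rfl (mem_Ev_smul z ε J hc.ne' v)
  unfold coneF
  by_cases h : (J, v) ∈ coneSet n K C z ε
  · rw [Set.indicator_of_mem h, Set.indicator_of_mem (hmem.2 h)]
    simp only [ray_smul J hc.ne']
  · rw [Set.indicator_of_notMem h, Set.indicator_of_notMem (fun h' => h (hmem.1 h'))]

/-- pointwise identity on the good set -/
theorem cubeMass_div_eq {n : ℕ} (hn : 0 < n) (K C z ε : ℝ) (J : Mat n) :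
    (GoodSet n K C).indicator (fun J => cubeMass J (Ev z ε J) / (2 ^ n * IE J)) J
      = (2 ^ n : ℝ≥0∞)⁻¹ * ∑ x : Spin n, coneF n K C z ε J (sv x) := by
  by_cases hJ : J ∈ GoodSet n K C
  · rw [Set.indicator_of_mem hJ]
    have h1 : ∀ x : Spin n, coneF n K C z ε J (sv x)
        = (Ev z ε J).indicator (fun v => eexp (qf J v / 2)) (sv x) * (IE J)⁻¹ := by
      intro x
      unfold coneF
      have hray : (n : ℝ) / 2 * ray J (sv x) = qf J (sv x) / 2 := by
        have hn' : (n : ℝ) ≠ 0 := (Nat.cast_pos.2 hn).ne'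
        unfold ray
        rw [nrm2_sv]
        field_simp
      by_cases hx : sv x ∈ Ev z ε J
      · rw [Set.indicator_of_mem (show (J, sv x) ∈ coneSet n K C z ε from ⟨hJ, hx⟩),
          Set.indicator_of_mem hx]
        show eexp ((n : ℝ) / 2 * ray J (sv x)) / IE J = _
        rw [hray, div_eq_mul_inv]
      · rw [Set.indicator_of_notMem (fun h : (J, sv x) ∈ coneSet n K C z ε => hx h.2),
          Set.indicator_of_notMem hx, zero_mul]
    simp_rw [h1]
    rw [← Finset.sum_mul]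
    unfold cubeMass
    rw [div_eq_mul_inv, ENNReal.mul_inv (Or.inl (by positivity)) (Or.inl (by simp))]
    ring
  · rw [Set.indicator_of_notMem hJ]
    have h1 : ∀ x : Spin n, coneF n K C z ε J (sv x) = 0 := by
      intro x
      unfold coneF
      exact Set.indicator_of_notMem (fun h : (J, sv x) ∈ coneSet n K C z ε => hJ h.1) _
    simp [h1]

/-- the inner integral -/
theorem lintegral_coneF_le {n : ℕ} (K C z ε η : ℝ) (J : Mat n)
    (h : Good n K C J → ∫⁻ ξ in Ev z ε J, eexp ((n : ℝ) / 2 * ray J ξ) ∂(gv n)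
      ≤ ENNReal.ofReal η * IE J) :
    ∫⁻ ξ, coneF n K C z ε J ξ ∂(gv n) ≤ ENNReal.ofReal η := by
  by_cases hJ : J ∈ GoodSet n K C
  · have hS : MeasurableSet (Ev z ε J) := measurable_prodMk_left (measurableSet_Ev z ε)
    have h1 : ∀ ξ, coneF n K C z ε J ξ
        = (Ev z ε J).indicator (fun ξ => eexp ((n : ℝ) / 2 * ray J ξ)) ξ * (IE J)⁻¹ := by
      intro ξ
      unfold coneF
      by_cases hx : ξ ∈ Ev z ε J
      · rw [Set.indicator_of_mem (show (J, ξ) ∈ coneSet n K C z ε from ⟨hJ, hx⟩),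
          Set.indicator_of_mem hx, div_eq_mul_inv]
      · rw [Set.indicator_of_notMem (fun h : (J, ξ) ∈ coneSet n K C z ε => hx h.2),
          Set.indicator_of_notMem hx, zero_mul]
    simp_rw [h1]
    rw [lintegral_mul_const' _ _ (ENNReal.inv_ne_top.2 (IE_ne_zero J)), lintegral_indicator hS]
    calc (∫⁻ ξ in Ev z ε J, eexp ((n : ℝ) / 2 * ray J ξ) ∂(gv n)) * (IE J)⁻¹
        ≤ (ENNReal.ofReal η * IE J) * (IE J)⁻¹ := by gcongr; exact h hJ
      _ = ENNReal.ofReal η := by
          rw [mul_assoc, ENNReal.mul_inv_cancel (IE_ne_zero J) (IE_ne_top J), mul_one]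
  · have h1 : ∀ ξ, coneF n K C z ε J ξ = 0 := by
      intro ξ
      unfold coneF
      exact Set.indicator_of_notMem (fun h : (J, ξ) ∈ coneSet n K C z ε => hJ h.1) _
    simp [h1]

end Static

open Static in
/-- first moment of the bad cone: `E[cubeMass(Ev) / Zbar ; G] = E[σ_J(Ev) ; G] ≤ η`
(`goe_vec_avg` with `F J v = 1_G(J) 1_{Ev J}(v) e^{(n/2) ray J v} / I(J)`, then `sph_main`). -/
theorem cone_first_moment (K C η : ℝ) (hK : 0 < K) (hC : 1 < C) (hη : 0 < η) :
    ∃ ε : ℝ, 0 < ε ∧ ∀ᶠ n : ℕ in atTop,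
      ∫⁻ J in GoodSet n K C, cubeMass J (Ev (gam K n) ε J) / (2 ^ n * IE J) ∂(goe n)
        ≤ ENNReal.ofReal η := by
  obtain ⟨ε, hε, hev⟩ := sph_main K C η hK hC hη
  refine ⟨ε, hε, ?_⟩
  filter_upwards [hev, eventually_gt_atTop 0] with n hn hn0
  set z := gam K n with hz
  have hG : MeasurableSet (GoodSet n K C) := measurableSet_good K C
  have hF := measurable_coneF n K C z ε
  have hFx : ∀ x : Vec n, Measurable (fun J : Mat n => coneF n K C z ε J x) := fun x =>
    hF.comp (measurable_id.prodMk measurable_const)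
  rw [← lintegral_indicator hG, lintegral_congr (cubeMass_div_eq hn0 K C z ε),
    lintegral_const_mul _ (Finset.measurable_sum _ (fun x _ => hFx (sv x))),
    lintegral_finsetSum _ (fun x _ => hFx (sv x))]
  have h1 : ∀ x : Spin n, ∫⁻ J, coneF n K C z ε J (sv x) ∂(goe n)
      = ∫⁻ J, ∫⁻ ξ, coneF n K C z ε J ξ ∂(gv n) ∂(goe n) := fun x =>
    goe_vec_avg (coneF n K C z ε) hF (coneF_cj n K C z ε) (coneF_smul n K C z ε) (sv x)
      (sv_ne_zero hn0 x)
  simp_rw [h1]
  rw [Finset.sum_const, Finset.card_univ, nsmul_eq_mul, ← mul_assoc]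
  have hcard : ((Fintype.card (Spin n) : ℕ) : ℝ≥0∞) = 2 ^ n := by
    simp [Fintype.card_pi]
  rw [hcard, ENNReal.inv_mul_cancel (by positivity) (by simp), one_mul]
  calc ∫⁻ J, ∫⁻ ξ, coneF n K C z ε J ξ ∂(gv n) ∂(goe n)
      ≤ ∫⁻ _J, ENNReal.ofReal η ∂(goe n) :=
        lintegral_mono (fun J => lintegral_coneF_le K C z ε η J (hn J))
    _ = ENNReal.ofReal η := by simp

end Claimed.Agent.R133
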