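/-
Row 133 / S0266, module B2 (translation cubeMass -> gibbsMass).  Blueprint section 0(B).
-/
import Claimed.Agent.R133.StaticA

set_option autoImplicit false

namespace Claimed.Agent.R133

open Claims.C0228.CriticalSK MeasureTheory ProbabilityTheory Filter
open scoped BigOperators Topology NNReal ENNReal Matrix

/-- translation of `cubeMass` into `gibbsMass` -/
theorem gibbsMass_le_of_cubeMass {n : ℕ} (hn : 0 < n) (W : Disorder n) (d : Vec n) (z ε η : ℝ)
    (hη : 0 < η)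
    (h : cubeMass (toMat (W, d)) (Ev z ε (toMat (W, d))) ≤ ENNReal.ofReal η * ZE (toMat (W, d))) :
    gibbsMass W {x | nrm2 (Rs z (toMat (W, d)) *ᵥ sv x) ≤
      ε * npow n (2 / 3) * frob2 (Rs z (toMat (W, d)))} ≤ η := by
  classical
  obtain ⟨J, hJ⟩ : ∃ J : Mat n, J = toMat (W, d) := ⟨_, rfl⟩
  rw [← hJ] at h ⊢
  obtain ⟨a, ha⟩ : ∃ a : Spin n → ℝ, a = fun x => Real.exp (qf J (sv x) / 2) := ⟨_, rfl⟩
  have hapos : ∀ x, 0 < a x := fun x => by rw [ha]; exact Real.exp_pos _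
  have hiff : ∀ x : Spin n, sv x ∈ Ev z ε J ↔
      nrm2 (Rs z J *ᵥ sv x) ≤ ε * npow n (2 / 3) * frob2 (Rs z J) := by
    intro x
    have e1 : npow n (2 / 3) = npow n (-(1 / 3)) * n := by
      rw [← npow_one n, ← npow_add hn]
      norm_num
    show nrm2 (Rs z J *ᵥ sv x) ≤ ε * npow n (-(1 / 3)) * frob2 (Rs z J) * nrm2 (sv x) ↔ _
    rw [nrm2_sv, e1]
    have e2 : ε * npow n (-(1 / 3)) * frob2 (Rs z J) * (n : ℝ)
        = ε * (npow n (-(1 / 3)) * n) * frob2 (Rs z J) := by ring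
    rw [e2]
  obtain ⟨S, hS⟩ : ∃ S : Set (Spin n),
      S = {x | nrm2 (Rs z J *ᵥ sv x) ≤ ε * npow n (2 / 3) * frob2 (Rs z J)} := ⟨_, rfl⟩
  rw [← hS]
  have hmem : ∀ x, x ∈ S ↔ sv x ∈ Ev z ε J := fun x => by rw [hS, hiff]; rfl
  have hZ : ZE J = ENNReal.ofReal (∑ x, a x) := by
    rw [ENNReal.ofReal_sum_of_nonneg fun x _ => (hapos x).le, ha]
    rfl
  have hc : cubeMass J (Ev z ε J) = ENNReal.ofReal (∑ x, if x ∈ S then a x else 0) := by
    rw [ENNReal.ofReal_sum_of_nonneg fun x _ => by split_ifs; exacts [(hapos x).le, le_rfl]]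
    unfold cubeMass
    refine Finset.sum_congr rfl fun x _ => ?_
    by_cases hx : x ∈ S
    · rw [if_pos hx, Set.indicator_of_mem ((hmem x).1 hx), ha]
      rfl
    · rw [if_neg hx, Set.indicator_of_notMem (fun h' => hx ((hmem x).2 h')), ENNReal.ofReal_zero]
  have hZpos : 0 < ∑ x, a x := Finset.sum_pos (fun x _ => hapos x) Finset.univ_nonempty
  rw [hZ, hc, ← ENNReal.ofReal_mul hη.le, ENNReal.ofReal_le_ofReal_iff (by positivity)] at h
  have hg : gibbsMass W S = (∑ x, if x ∈ S then a x else 0) / ∑ x, a x := by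
    unfold gibbsMass
    rw [Finset.sum_div]
    refine Finset.sum_congr rfl fun x _ => ?_
    by_cases hx : x ∈ S
    · rw [if_pos hx, if_pos hx, gibbs_eq_toMat W d x, ← hJ, ha]
    · rw [if_neg hx, if_neg hx, zero_div]
  rw [hg, div_le_iff₀ hZpos]
  exact h

end Claimed.Agent.R133
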