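/-
Row 133 / S0266, module B (static theorem).  Blueprint section 0(B).
-/
import Claimed.Agent.R133.Second
import Claimed.Agent.R133.StaticA
import Claimed.Agent.R133.StaticB
import Claimed.Agent.R133.GoodProb

set_option autoImplicit false

namespace Claimed.Agent.R133

open Claims.C0228.CriticalSK MeasureTheory ProbabilityTheory Filter
open scoped BigOperators Topology NNReal ENNReal Matrix

theorem measurable_cubeMass_Ev {n : ℕ} (z ε : ℝ) :
    Measurable (fun J : Mat n => cubeMass J (Ev z ε J)) := by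
  unfold cubeMass
  refine Finset.measurable_sum _ fun x _ => ?_
  have hS : MeasurableSet {J : Mat n | sv x ∈ Ev z ε J} := by
    have h1 : Measurable (fun J : Mat n => (J, sv x)) := measurable_id.prodMk measurable_const
    exact h1 (measurableSet_Ev z ε)
  have hf : Measurable (fun J : Mat n => eexp (qf J (sv x) / 2)) := by
    have h1 : Continuous (fun J : Mat n => qf J (sv x)) :=
      continuous_qf.comp (continuous_id.prodMk continuous_const)
    exact measurable_eexp.comp (h1.measurable.div_const 2)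
  have e : (fun J : Mat n => (Ev z ε J).indicator (fun v => eexp (qf J v / 2)) (sv x))
      = {J : Mat n | sv x ∈ Ev z ε J}.indicator (fun J => eexp (qf J (sv x) / 2)) := by
    funext J
    by_cases hx : sv x ∈ Ev z ε J
    · rw [Set.indicator_of_mem hx, Set.indicator_of_mem (show J ∈ {J | sv x ∈ Ev z ε J} from hx)]
    · rw [Set.indicator_of_notMem hx,
        Set.indicator_of_notMem (show J ∉ {J | sv x ∈ Ev z ε J} from hx)]
  rw [e]
  exact hf.indicator hS

theorem gam_mono {K K' : ℝ} (h : K ≤ K') {n : ℕ} (hn : 0 < n) : gam K n ≤ gam K' n := by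
  unfold gam
  have := npow_pos hn (-(2 / 3))
  nlinarith

/-- STATIC THEOREM for the GOE:
`P(h ≥ η) ≤ P(Gᶜ) + P(G, Z < Zbar/2) + (2/η) E[cubeMass/Zbar ; G]`. -/
theorem static_goe (η : ℝ) (hη : 0 < η) : ∃ K ε : ℝ, 0 < K ∧ 0 < ε ∧ ∀ᶠ n : ℕ in atTop,
    goe n {J | ¬ (0 < frob2 (Rs (gam K n) J) ∧
      cubeMass J (Ev (gam K n) ε J) ≤ ENNReal.ofReal η * ZE J)} ≤ ENNReal.ofReal η := by
  obtain ⟨K, C, hK, hC, hgood⟩ := good_prob (η / 3) (by positivity)
  obtain ⟨ε, hε, hcone⟩ := cone_first_moment K C (η ^ 2 / 6) hK hC (by positivity)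
  have hratio := ratio_small_prob K C (η / 12) hK hC (by positivity)
  refine ⟨K, ε, hK, hε, ?_⟩
  filter_upwards [hgood, hcone, hratio, eventually_gt_atTop 0] with n h1 h2 h3 hn
  obtain ⟨f, hf⟩ : ∃ f : Mat n → ℝ≥0∞,
      f = fun J => cubeMass J (Ev (gam K n) ε J) / (2 ^ n * IE J) := ⟨_, rfl⟩
  have hfm : Measurable f := by
    rw [hf]
    exact (measurable_cubeMass_Ev _ _).div (measurable_const.mul measurable_IE)
  have hGm : MeasurableSet (GoodSet n K C) := measurableSet_good K C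
  have hhalf : ENNReal.ofReal (η / 2) = ENNReal.ofReal η * (1 / 2) := by
    rw [ENNReal.ofReal_div_of_pos (by norm_num), ENNReal.ofReal_ofNat, div_eq_mul_inv, one_div]
  have hsub : {J : Mat n | ¬ (0 < frob2 (Rs (gam K n) J) ∧
      cubeMass J (Ev (gam K n) ε J) ≤ ENNReal.ofReal η * ZE J)} ⊆
      {J | ¬ Good n K C J} ∪ (GoodSet n K C ∩ {J | ratio J < 1 / 2}) ∪
        ({J | ENNReal.ofReal (η / 2) ≤ f J} ∩ GoodSet n K C) := by
    intro J hJ
    by_cases hG : Good n K C J
    · by_cases hr : ratio J < 1 / 2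
      · exact Or.inl (Or.inr ⟨hG, hr⟩)
      · refine Or.inr ⟨?_, hG⟩
        have hpos : 0 < frob2 (Rs (gam K n) J) :=
          frob2_Rs_pos hn (below_mono (gam_mono (by linarith) hn) hG.below)
        have hlt : ENNReal.ofReal η * ZE J < cubeMass J (Ev (gam K n) ε J) := by
          by_contra hcon
          exact hJ ⟨hpos, not_lt.1 hcon⟩
        have hr' : (1 / 2 : ℝ≥0∞) ≤ ZE J / (2 ^ n * IE J) := not_lt.1 hr
        show ENNReal.ofReal (η / 2) ≤ f J
        rw [hf, hhalf]
        calc ENNReal.ofReal η * (1 / 2) ≤ ENNReal.ofReal η * (ZE J / (2 ^ n * IE J)) := by gcongr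
          _ = ENNReal.ofReal η * ZE J / (2 ^ n * IE J) := by rw [mul_div_assoc]
          _ ≤ cubeMass J (Ev (gam K n) ε J) / (2 ^ n * IE J) := ENNReal.div_le_div_right hlt.le _
    · exact Or.inl (Or.inl hG)
  have hmarkov : goe n ({J | ENNReal.ofReal (η / 2) ≤ f J} ∩ GoodSet n K C)
      ≤ ENNReal.ofReal (η / 3) := by
    rw [← Measure.restrict_apply' hGm]
    have h4 := mul_meas_ge_le_lintegral (μ := (goe n).restrict (GoodSet n K C)) hfm
      (ENNReal.ofReal (η / 2))
    have h5 : ∫⁻ J in GoodSet n K C, f J ∂(goe n) ≤ ENNReal.ofReal (η ^ 2 / 6) := by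
      rw [hf]; exact h2
    have h6 : ENNReal.ofReal (η ^ 2 / 6) = ENNReal.ofReal (η / 2) * ENNReal.ofReal (η / 3) := by
      rw [← ENNReal.ofReal_mul (by positivity)]
      congr 1
      ring
    rw [h6] at h5
    exact (ENNReal.mul_le_mul_iff_right (by simpa using hη) ENNReal.ofReal_ne_top).1 (h4.trans h5)
  have h3' : goe n (GoodSet n K C ∩ {J | ratio J < 1 / 2}) ≤ ENNReal.ofReal (η / 3) := by
    refine h3.trans (le_of_eq ?_)
    congr 1
    ring
  calc goe n _ ≤ goe n ({J | ¬ Good n K C J} ∪ (GoodSet n K C ∩ {J | ratio J < 1 / 2}) ∪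
        ({J | ENNReal.ofReal (η / 2) ≤ f J} ∩ GoodSet n K C)) := measure_mono hsub
    _ ≤ goe n {J | ¬ Good n K C J} + goe n (GoodSet n K C ∩ {J | ratio J < 1 / 2}) +
        goe n ({J | ENNReal.ofReal (η / 2) ≤ f J} ∩ GoodSet n K C) :=
      (measure_union_le _ _).trans (add_le_add_left (measure_union_le _ _) _)
    _ ≤ ENNReal.ofReal (η / 3) + ENNReal.ofReal (η / 3) + ENNReal.ofReal (η / 3) :=
      add_le_add (add_le_add h1 h3') hmarkov
    _ = ENNReal.ofReal η := by
      rw [← ENNReal.ofReal_add (by positivity) (by positivity),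
        ← ENNReal.ofReal_add (by positivity) (by positivity)]
      congr 1
      ring

/-- STATIC THEOREM, in terms of the disorder. -/
theorem static_main (η : ℝ) (hη : 0 < η) : ∃ ε : ℝ, 0 < ε ∧ ∀ᶠ n : ℕ in atTop,
    disorderLaw n {W | ¬ ∃ B : Mat n, 0 < frob2 B ∧
      gibbsMass W {x | nrm2 (B *ᵥ sv x) ≤ ε * npow n (2 / 3) * frob2 B} ≤ η}
      ≤ ENNReal.ofReal η := by
  obtain ⟨K, ε, _, hε, h⟩ := static_goe η hη
  refine ⟨ε, hε, ?_⟩
  filter_upwards [h, eventually_gt_atTop 0] with n hn hn0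
  refine (disorderLaw_le_goe _ _ ?_).trans hn
  intro W hW d hJ
  apply hW
  obtain ⟨h1, h2⟩ := hJ
  exact ⟨Rs (gam K n) (toMat (W, d)), h1, gibbsMass_le_of_cubeMass hn0 W d _ ε η hη h2⟩

end Claimed.Agent.R133
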