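import Claimed.Prelude.Def_0228
import Claimed.Agent.R133.Dyn
import Claimed.Agent.R133.Static

set_option autoImplicit false
open Claims Claims.C0228 Claims.C0228.CriticalSK
open scoped BigOperators Topology NNReal ENNReal
open MeasureTheory ProbabilityTheory Filter
open Claims Claims.C0228 Claims.C0228.CriticalSK

namespace Claimed.Agent.R133

/-- abstract final step: a quantity `g W ∈ (-∞,1]` with `1 - g W ≤ mass + 8 a_n |B|²/s`. -/
theorem final_step (g : (n : ℕ) → Disorder n → ℝ) (a : ℕ → ℝ) (_ha0 : ∀ n, 0 ≤ a n)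
    (ha : Tendsto (fun n => a n / (n : ℝ) ^ ((2 : ℝ) / 3)) atTop (𝓝 0))
    (hle : ∀ n W, g n W ≤ 1)
    (hdyn : ∀ n, 0 < n → ∀ (W : Disorder n) (B : Mat n) (s : ℝ), 0 < s →
      1 - g n W ≤ gibbsMass W {x | nrm2 (Matrix.mulVec B (sv x)) ≤ s} + 8 * a n * frob2 B / s)
    (δ : ℝ) (hδ : 0 < δ) :
    Tendsto (fun n => (disorderLaw n {W | δ ≤ |g n W - 1|}).toReal) atTop (𝓝 0) := by
  rw [Metric.tendsto_atTop]
  intro e he
  obtain ⟨ε, hε, hst⟩ := static_main (min (e / 2) (δ / 2)) (by positivity)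
  have h1 : ∀ᶠ n : ℕ in atTop, a n / (n : ℝ) ^ ((2 : ℝ) / 3) < ε * δ / 16 := by
    have := (tendsto_order.1 ha).2 (ε * δ / 16) (by positivity)
    exact this
  obtain ⟨N, hN⟩ := eventually_atTop.1 ((hst.and h1).and (eventually_gt_atTop 0))
  refine ⟨N, fun n hn => ?_⟩
  obtain ⟨⟨h2, h3⟩, hn0⟩ := hN n hn
  have hsub : {W : Disorder n | δ ≤ |g n W - 1|} ⊆ {W | ¬ ∃ B : Mat n, 0 < frob2 B ∧
      gibbsMass W {x | nrm2 (Matrix.mulVec B (sv x)) ≤ ε * npow n (2 / 3) * frob2 B}
        ≤ min (e / 2) (δ / 2)} := by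
    intro W hW
    simp only [Set.mem_ofPred_eq] at hW ⊢
    rintro ⟨B, hB, hm⟩
    have hnp : 0 < npow n (2 / 3) := by
      unfold npow; positivity
    have hs : 0 < ε * npow n (2 / 3) * frob2 B := by positivity
    have h4 := hdyn n hn0 W B _ hs
    have h5 : |g n W - 1| = 1 - g n W := by
      rw [abs_sub_comm, abs_of_nonneg (by linarith [hle n W])]
    have h6 : 8 * a n * frob2 B / (ε * npow n (2 / 3) * frob2 B)
        = 8 / ε * (a n / (n : ℝ) ^ ((2 : ℝ) / 3)) := by
      unfold npow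
      unfold npow at hnp
      field_simp
    have h7 : 8 / ε * (a n / (n : ℝ) ^ ((2 : ℝ) / 3)) < δ / 2 := by
      have : 8 / ε * (a n / (n : ℝ) ^ ((2 : ℝ) / 3)) < 8 / ε * (ε * δ / 16) := by
        apply mul_lt_mul_of_pos_left h3 (by positivity)
      calc _ < 8 / ε * (ε * δ / 16) := this
        _ = δ / 2 := by field_simp; ring
    have h8 : min (e / 2) (δ / 2) ≤ δ / 2 := min_le_right _ _
    rw [h5] at hW
    rw [h6] at h4
    linarith
  have h9 : disorderLaw n {W | δ ≤ |g n W - 1|} ≤ ENNReal.ofReal (min (e / 2) (δ / 2)) :=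
    (measure_mono hsub).trans h2
  have h10 : (disorderLaw n {W | δ ≤ |g n W - 1|}).toReal ≤ min (e / 2) (δ / 2) :=
    ENNReal.toReal_le_of_le_ofReal (by positivity) h9
  rw [Real.dist_eq, sub_zero, abs_of_nonneg ENNReal.toReal_nonneg]
  have : min (e / 2) (δ / 2) ≤ e / 2 := min_le_left _ _
  linarith

/-- the statement of S0266; `Claimed/Agent/S0266.lean` will be `exact top_result` once everything is sorry-free -/
theorem top_result :
    (∀ t : ℕ → ℝ, (∀ n, 0 ≤ t n) →
      Tendsto (fun n => t n / (n : ℝ) ^ ((2 : ℝ) / 3)) atTop (𝓝 0) →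
      ∀ δ : ℝ, 0 < δ →
        Tendsto (fun n => (disorderLaw n {W |
          δ ≤ |continuousGoodMass W (t n) - 1|}).toReal) atTop (𝓝 0)) ∧
    (∀ k : ℕ → ℕ,
      Tendsto (fun n => (k n : ℝ) / (n : ℝ) ^ ((5 : ℝ) / 3)) atTop (𝓝 0) →
      ∀ δ : ℝ, 0 < δ →
        Tendsto (fun n => (disorderLaw n {W |
          δ ≤ |discreteGoodMass W (k n) - 1|}).toReal) atTop (𝓝 0)) := by
  constructor
  · intro t ht0 ht δ hδ
    exact final_step (fun n W => continuousGoodMass W (t n)) t ht0 ht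
      (fun n W => contGoodMass_le_one W _)
      (fun n _ W B s hs => dyn_cont W B s (t n) hs (ht0 n)) δ hδ
  · intro k hk δ hδ
    refine final_step (fun n W => discreteGoodMass W (k n)) (fun n => (k n : ℝ) / n)
      (fun n => by positivity) ?_
      (fun n W => discGoodMass_le_one W _)
      (fun n hn W B s hs => dyn_disc hn W B s (k n) hs) δ hδ
    refine hk.congr' ?_
    filter_upwards [eventually_gt_atTop 0] with n hn
    have hn' : (0 : ℝ) < n := by exact_mod_cast hn
    rw [div_div]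
    congr 1
    rw [show ((5 : ℝ) / 3) = 1 + 2 / 3 by norm_num, Real.rpow_add hn', Real.rpow_one]

end Claimed.Agent.R133
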